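import Mathlib

/-!
# Row 170, module F (helper6): `ℝ≥0`-valued valuations on algebraic extensions of complete fields

* `Cpl v`       : sequential completeness;
* `exists_ext`  : a valuation of a complete field extends to every algebraic extension;
* `ext_unique`  : uniquely;
* `Cpl.finite`  : finite extensions are complete;
* `exists_val_eq` : the value group does not grow if it comes from an algebraically closed field.
-/

set_option autoImplicit false
set_option linter.style.haveILetI false

open scoped NNReal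

namespace Crest.Agent.T170.Gal

/-- sequential completeness -/
def Cpl {K : Type*} [Field K] (v : Valuation K ℝ≥0) : Prop :=
  ∀ u : ℕ → K, (∀ ε : ℝ≥0, 0 < ε → ∃ N, ∀ m ≥ N, ∀ n ≥ N, v (u m - u n) < ε) →
    ∃ l, ∀ ε : ℝ≥0, 0 < ε → ∃ N, ∀ n ≥ N, v (u n - l) < ε

/-- the absolute value of a valuation -/
noncomputable def av {K : Type*} [Field K] (v : Valuation K ℝ≥0) : AbsoluteValue K ℝ where
  toFun x := (v x : ℝ)
  map_mul' x y := by simp
  nonneg' x := (v x).2
  eq_zero' x := by simp
  add_le' x y := by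
    have h := v.map_add x y
    have h2 : max (v x) (v y) ≤ v x + v y := max_le (by simp) (by simp)
    exact_mod_cast h.trans h2

@[simp] lemma av_apply {K : Type*} [Field K] (v : Valuation K ℝ≥0) (x : K) :
    av v x = (v x : ℝ) := rfl

/-- the normed field of a nontrivial valuation -/
@[reducible] noncomputable def nnf {K : Type*} [Field K] (v : Valuation K ℝ≥0)
    (h : ∃ x : K, x ≠ 0 ∧ v x ≠ 1) : NontriviallyNormedField K :=
  @NontriviallyNormedField.ofNormNeOne K (av v).toNormedField (by
    obtain ⟨x, hx, h1⟩ := h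
    refine ⟨x, hx, ?_⟩
    change (v x : ℝ) ≠ 1
    exact_mod_cast h1)

lemma nnf_ultra {K : Type*} [Field K] (v : Valuation K ℝ≥0)
    (h : ∃ x : K, x ≠ 0 ∧ v x ≠ 1) :
    letI := nnf v h
    IsUltrametricDist K := by
  letI := nnf v h
  refine IsUltrametricDist.isUltrametricDist_of_isNonarchimedean_norm ?_
  intro x y
  change (v (x + y) : ℝ) ≤ max (v x : ℝ) (v y : ℝ)
  exact_mod_cast v.map_add x y

lemma cpl_iff_aux {K : Type*} [NormedField K] (v : Valuation K ℝ≥0)
    (hn : ∀ x, ‖x‖ = (v x : ℝ)) : Cpl v ↔ CompleteSpace K := by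
  constructor
  · intro hc
    refine Metric.complete_of_cauchySeq_tendsto fun u hu => ?_
    rw [Metric.cauchySeq_iff] at hu
    obtain ⟨l, hl⟩ := hc u (fun ε hε => by
      obtain ⟨N, hN⟩ := hu ε (by exact_mod_cast hε)
      refine ⟨N, fun m hm n hn' => ?_⟩
      have := hN m hm n hn'
      rw [dist_eq_norm, hn] at this
      exact_mod_cast this)
    refine ⟨l, Metric.tendsto_atTop.2 fun ε hε => ?_⟩
    obtain ⟨N, hN⟩ := hl ⟨ε, hε.le⟩ (by exact_mod_cast hε)
    refine ⟨N, fun n hn' => ?_⟩
    rw [dist_eq_norm, hn]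
    exact_mod_cast hN n hn'
  · intro hc u hu
    have h1 : CauchySeq u := by
      rw [Metric.cauchySeq_iff]
      intro ε hε
      obtain ⟨N, hN⟩ := hu ⟨ε, hε.le⟩ (by exact_mod_cast hε)
      refine ⟨N, fun m hm n hn' => ?_⟩
      rw [dist_eq_norm, hn]
      exact_mod_cast hN m hm n hn'
    obtain ⟨l, hl⟩ := cauchySeq_tendsto_of_complete h1
    refine ⟨l, fun ε hε => ?_⟩
    obtain ⟨N, hN⟩ := Metric.tendsto_atTop.1 hl ε (by exact_mod_cast hε)
    refine ⟨N, fun n hn' => ?_⟩
    have := hN n hn'
    rw [dist_eq_norm, hn] at this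
    exact_mod_cast this

section Ext

variable {F L : Type*} [Field F] [Field L] [Algebra F L] [Algebra.IsAlgebraic F L]

/-- **existence of the extension** -/
theorem exists_ext (v : Valuation F ℝ≥0) (h : ∃ x : F, x ≠ 0 ∧ v x ≠ 1) (hc : Cpl v) :
    ∃ w : Valuation L ℝ≥0, ∀ a : F, w (algebraMap F L a) = v a := by
  letI := nnf v h
  haveI := nnf_ultra v h
  haveI : CompleteSpace F := (cpl_iff_aux v (fun _ => rfl)).1 hc
  refine ⟨{ toFun := fun x => ⟨spectralNorm F L x, spectralNorm_nonneg x⟩
            map_zero' := NNReal.eq spectralNorm_zero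
            map_one' := NNReal.eq spectralNorm_one
            map_mul' := fun x y => NNReal.eq (spectralAlgNorm_mul x y)
            map_add_le_max' := fun x y => ?_ }, fun a => NNReal.eq ?_⟩
  · have := isNonarchimedean_spectralNorm (K := F) (L := L) x y
    exact_mod_cast this
  · exact spectralNorm_extends a

/-- **uniqueness of the extension** -/
theorem ext_unique (v : Valuation F ℝ≥0) (h : ∃ x : F, x ≠ 0 ∧ v x ≠ 1) (hc : Cpl v)
    (w w' : Valuation L ℝ≥0) (hw : ∀ a : F, w (algebraMap F L a) = v a)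
    (hw' : ∀ a : F, w' (algebraMap F L a) = v a) : w = w' := by
  letI := nnf v h
  haveI := nnf_ultra v h
  haveI : CompleteSpace F := (cpl_iff_aux v (fun _ => rfl)).1 hc
  ext x
  have h1 := spectralNorm_unique_field_norm_ext (K := F) (f := av w)
    (fun a => by rw [av_apply, hw]; rfl) x
  have h2 := spectralNorm_unique_field_norm_ext (K := F) (f := av w')
    (fun a => by rw [av_apply, hw']; rfl) x
  exact h1.trans h2.symm

/-- finite extensions of complete fields are complete -/
theorem Cpl.finite [FiniteDimensional F L] {v : Valuation F ℝ≥0} (hc : Cpl v)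
    (h : ∃ x : F, x ≠ 0 ∧ v x ≠ 1) (w : Valuation L ℝ≥0)
    (hw : ∀ a : F, w (algebraMap F L a) = v a) : Cpl w := by
  letI := nnf v h
  haveI := nnf_ultra v h
  haveI : CompleteSpace F := (cpl_iff_aux v (fun _ => rfl)).1 hc
  letI := spectralNorm.normedField F L
  have h3 : CompleteSpace L := spectralNorm.completeSpace F L
  refine (cpl_iff_aux w (fun x => ?_)).2 h3
  exact (spectralNorm_unique_field_norm_ext (K := F) (f := av w)
    (fun a => by rw [av_apply, hw]; rfl) x).symm

/-- automorphisms (semilinear over an isometry of the complete base) are isometries -/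
theorem val_equiv (v : Valuation F ℝ≥0) (h : ∃ x : F, x ≠ 0 ∧ v x ≠ 1) (hc : Cpl v)
    (w : Valuation L ℝ≥0) (hw : ∀ a : F, w (algebraMap F L a) = v a) (g : L →+* L)
    (hg : ∀ a : F, w (g (algebraMap F L a)) = v a) (z : L) : w (g z) = w z := by
  have := ext_unique v h hc (w.comap g) w hg hw
  exact congrArg (fun u : Valuation L ℝ≥0 => u z) this

end Ext

/-- a power of the value of an algebraic element is a value of the base -/
theorem exists_pow_val_eq {F L Γ : Type*} [Field F] [Field L] [Algebra F L]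
    [LinearOrderedCommGroupWithZero Γ] (w : Valuation L Γ) {z : L} (hz : IsAlgebraic F z) :
    ∃ k : ℕ, 0 < k ∧ ∃ a : F, w z ^ k = w (algebraMap F L a) := by
  classical
  by_cases h0 : z = 0
  · exact ⟨1, one_pos, 0, by simp [h0]⟩
  by_contra hcon
  push Not at hcon
  obtain ⟨f, hf, hfz⟩ := hz
  have hw0 : w z ≠ 0 := by simpa using h0
  -- the values of the nonzero terms are pairwise different
  have hne : ∀ i ∈ f.support, ∀ j ∈ f.support, i < j →
      w (algebraMap F L (f.coeff i) * z ^ i) ≠ w (algebraMap F L (f.coeff j) * z ^ j) := by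
    intro i _ j hj hij he
    have hj0 : f.coeff j ≠ 0 := Polynomial.mem_support_iff.1 hj
    refine hcon (j - i) (Nat.sub_pos_of_lt hij) (f.coeff i / f.coeff j) ?_
    have hwj : w (algebraMap F L (f.coeff j)) ≠ 0 := by simpa using hj0
    rw [map_div₀, map_div₀, eq_div_iff hwj]
    rw [map_mul, map_mul, map_pow, map_pow] at he
    have h2 : w z ^ j = w z ^ (j - i) * w z ^ i := by rw [← pow_add, Nat.sub_add_cancel hij.le]
    rw [h2, ← mul_assoc] at he
    rw [mul_right_cancel₀ (pow_ne_zero i hw0) he, mul_comm]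
  obtain ⟨i, hi, hmax⟩ := Finset.exists_max_image f.support
    (fun i => w (algebraMap F L (f.coeff i) * z ^ i)) (Polynomial.support_nonempty.2 hf)
  have hlt : ∀ j ∈ f.support.erase i,
      w (algebraMap F L (f.coeff j) * z ^ j) < w (algebraMap F L (f.coeff i) * z ^ i) := by
    intro j hj
    obtain ⟨hji, hj⟩ := Finset.mem_erase.1 hj
    refine lt_of_le_of_ne (hmax j hj) ?_
    rcases lt_or_gt_of_ne hji with h | h
    · exact hne j hj i hi h
    · exact (hne i hi j hj h).symm
  have hi0 : w (algebraMap F L (f.coeff i) * z ^ i) ≠ 0 := by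
    have : f.coeff i ≠ 0 := Polynomial.mem_support_iff.1 hi
    simp [this, h0]
  have hs := w.map_sum_lt hi0 hlt
  rw [Polynomial.aeval_def, Polynomial.eval₂_eq_sum, Polynomial.sum_def,
    ← Finset.add_sum_erase _ _ hi] at hfz
  have h3 := eq_neg_of_add_eq_zero_right hfz
  rw [h3, Valuation.map_neg] at hs
  exact lt_irrefl _ hs

/-- the value group of an algebraic extension is that of the algebraically closed constants -/
theorem exists_val_eq {C F L Γ : Type*} [Field C] [IsAlgClosed C] [Field F] [Field L]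
    [Algebra F L] [LinearOrderedCommGroupWithZero Γ] (ι : C →+* F) (w : Valuation L Γ)
    (hF : ∀ a : F, ∃ c : C, w (algebraMap F L a) = w (algebraMap F L (ι c)))
    {z : L} (hz : IsAlgebraic F z) : ∃ c : C, w z = w (algebraMap F L (ι c)) := by
  obtain ⟨k, hk, a, ha⟩ := exists_pow_val_eq w hz
  obtain ⟨c, hc⟩ := hF a
  obtain ⟨d, hd⟩ := IsAlgClosed.exists_pow_nat_eq c hk
  refine ⟨d, ?_⟩
  rw [hc, ← hd, map_pow, map_pow, map_pow] at ha
  exact (pow_left_inj₀ zero_le zero_le hk.ne').1 ha

end Crest.Agent.T170.Gal
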