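import Crest.Agent.T170.Fr_20
import Crest.Agent.T170.GalVal_6
import Crest.Agent.T170.LogA_89

/-!
# Row 170, descent (helper74): a fine valuation ring stays fine in algebraic extensions

* `coeff_minpoly_lt` : over a complete field the lower coefficients of the minimal polynomial of a
  topologically nilpotent element are topologically nilpotent;
* `fine_ext` : an extension of a `Fine` valuation ring of a complete field is `Fine`.
-/

set_option autoImplicit false

namespace Crest.Agent.T170.Desc74

open scoped NNReal Polynomial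
open Polynomial Crest.Agent.T170.Fr

theorem coeff_prod_lt {L Γ : Type*} [Field L] [LinearOrderedCommGroupWithZero Γ]
    (w : Valuation L Γ) (s : Multiset L) (hs : ∀ r ∈ s, w r < 1) (i : ℕ) :
    w (((s.map fun a => X - C a).prod - X ^ Multiset.card s).coeff i) < 1 := by
  induction s using Multiset.induction_on generalizing i with
  | empty => simp
  | cons a s ih =>
    have ih' := ih fun r hr => hs r (Multiset.mem_cons_of_mem hr)
    have ha := hs a (Multiset.mem_cons_self a s)
    set P := (s.map fun a => X - C a).prod with hP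
    have h1 : ∀ i, w (P.coeff i) ≤ 1 := fun i => by
      have e : P.coeff i = (P - X ^ Multiset.card s).coeff i + (X ^ Multiset.card s : L[X]).coeff i := by
        simp
      rw [e]
      refine w.map_add_le (ih' i).le ?_
      rw [coeff_X_pow]
      split_ifs <;> simp
    have e : ((a ::ₘ s).map fun a => X - C a).prod - X ^ Multiset.card (a ::ₘ s) =
        X * (P - X ^ Multiset.card s) - C a * P := by
      rw [Multiset.map_cons, Multiset.prod_cons, Multiset.card_cons, ← hP]; ring
    rw [e, coeff_sub, coeff_C_mul]
    refine w.map_sub_lt ?_ ?_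
    · rcases i with _ | i
      · simp
      · rw [coeff_X_mul]; exact ih' i
    · rw [map_mul]
      exact lt_of_le_of_lt (mul_le_of_le_one_right' (h1 i)) ha

theorem coeff_minpoly_lt {F K : Type*} [Field F] [Field K] [Algebra F K] [Algebra.IsAlgebraic F K]
    (w : Valuation K ℝ≥0) (h : ∃ x : F, x ≠ 0 ∧ w (algebraMap F K x) ≠ 1)
    (hc : Gal.Cpl (w.comap (algebraMap F K))) {s : K} (hs : w s < 1) (i : ℕ) :
    w (algebraMap F K ((minpoly F s - X ^ (minpoly F s).natDegree).coeff i)) < 1 := by
  let Ω := AlgebraicClosure K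
  obtain ⟨w', hw'⟩ := Gal.exists_ext (L := Ω) (w.comap (algebraMap F K)) h hc
  have hint : IsIntegral F s := Algebra.IsIntegral.isIntegral s
  have hsp : ((minpoly F s).map (algebraMap F Ω)).Splits := IsAlgClosed.splits _
  have hm : ((minpoly F s).map (algebraMap F Ω)).Monic := (minpoly.monic hint).map _
  have hprod := hsp.eq_prod_roots_of_monic hm
  have hcard := hsp.natDegree_eq_card_roots
  have hroots : ∀ r ∈ ((minpoly F s).map (algebraMap F Ω)).roots, w' r < 1 := by
    intro r hr
    have hr' : r ∈ (minpoly F s).aroots Ω := hr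
    obtain ⟨τ, hτ⟩ := IntermediateField.exists_algHom_of_splits_of_aeval (F := F) (E := K) (K := Ω)
      (fun x => ⟨Algebra.IsIntegral.isIntegral x, IsAlgClosed.splits _⟩) (x := s) (y := r)
      (mem_aroots.1 hr').2
    have : w'.comap (τ : K →+* Ω) = w :=
      Gal.ext_unique (w.comap (algebraMap F K)) h hc _ _ (fun a => by
        simp only [Valuation.comap_apply, RingHom.coe_coe, AlgHom.commutes]
        exact hw' a) (fun a => rfl)
    rw [← hτ]
    rw [← this] at hs
    exact hs
  have key := coeff_prod_lt w' _ hroots i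
  rw [← hprod, ← hcard, natDegree_map] at key
  have e : ((minpoly F s).map (algebraMap F Ω) - X ^ (minpoly F s).natDegree).coeff i =
      algebraMap F Ω ((minpoly F s - X ^ (minpoly F s).natDegree).coeff i) := by
    rw [← coeff_map, Polynomial.map_sub, Polynomial.map_pow, map_X]
  rw [e, hw'] at key
  exact key

theorem val_aeval_lt {F K Γ : Type*} [Field F] [Field K] [Algebra F K]
    [LinearOrderedCommGroupWithZero Γ] (u : Valuation K Γ) (f : F[X])
    (hf : ∀ i, u (algebraMap F K (f.coeff i)) < 1) {z : K} (hz : u z ≤ 1) :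
    u (aeval z f) < 1 := by
  rw [aeval_eq_sum_range]
  refine u.map_sum_lt one_ne_zero fun i _ => ?_
  rw [Algebra.smul_def, map_mul, map_pow]
  exact lt_of_le_of_lt (mul_le_of_le_one_right' (pow_le_one' hz i)) (hf i)

/-- **extension of a fine valuation ring** -/
theorem fine_ext {C F K : Type*} [Field C] [IsAlgClosed C] [Field F] [Field K] [Algebra C K]
    [Algebra F K] [Algebra.IsAlgebraic F K] (ι : C →+* F)
    (hι : ∀ c, algebraMap F K (ι c) = algebraMap C K c)
    (w : Valuation K ℝ≥0) (h : ∃ x : F, x ≠ 0 ∧ w (algebraMap F K x) ≠ 1)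
    (hc : Gal.Cpl (w.comap (algebraMap F K))) (V : ValuationSubring F)
    (Vle : ∀ z ∈ V, w (algebraMap F K z) ≤ 1)
    (Vconst : ∀ c : C, w (algebraMap C K c) ≤ 1 → ι c ∈ V)
    (Vres : ∀ z ∈ V, ∃ c : C, w (algebraMap C K c) ≤ 1 ∧ V.valuation (z - ι c) < 1)
    (V' : ValuationSubring K) (hV' : ∀ z : F, algebraMap F K z ∈ V' ↔ z ∈ V) :
    Fine (C := C) w V' := by
  -- the maximal ideals correspond
  have hlt : ∀ z : F, V.valuation z < 1 → V'.valuation (algebraMap F K z) < 1 := by
    intro z hz
    rcases eq_or_ne z 0 with rfl | h0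
    · simp
    by_contra hn
    have h1 : V'.valuation (algebraMap F K z⁻¹) ≤ 1 := by
      rw [map_inv₀, map_inv₀]
      exact inv_le_one_of_one_le₀ (not_lt.1 hn)
    have h2 : z⁻¹ ∈ V := (hV' _).1 ((V'.valuation_le_one_iff _).1 h1)
    have h3 := (V.valuation_le_one_iff _).2 h2
    rw [map_inv₀, inv_le_one₀ (by simpa [pos_iff_ne_zero] using h0)] at h3
    exact absurd hz (not_lt.2 h3)
  have hlt' : ∀ z : F, w (algebraMap F K z) < 1 → V.valuation z < 1 := by
    intro z hz
    rcases eq_or_ne z 0 with rfl | h0
    · simp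
    by_contra hn
    have h1 : V.valuation z⁻¹ ≤ 1 := by
      rw [map_inv₀]
      exact inv_le_one_of_one_le₀ (not_lt.1 hn)
    have h3 := Vle _ ((V.valuation_le_one_iff _).1 h1)
    rw [map_inv₀, map_inv₀, inv_le_one₀ (by simpa [pos_iff_ne_zero] using h0)] at h3
    exact absurd hz (not_lt.2 h3)
  have hsm : ∀ s : K, w s < 1 → V'.valuation s < 1 := by
    intro s hs
    by_contra hn
    have hn := not_lt.1 hn
    have hs0 : s ≠ 0 := by rintro rfl; simp at hn
    have hint : IsIntegral F s := Algebra.IsIntegral.isIntegral s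
    set d := (minpoly F s).natDegree with hd
    set g := minpoly F s - X ^ d with hg
    have hgd : g.natDegree < d + 1 := by
      refine Nat.lt_succ_of_le ((natDegree_sub_le _ _).trans ?_)
      simp [hd]
    have e : s ^ d = -aeval s g := by simp [hg]
    have hv : V'.valuation (aeval s g) < V'.valuation s ^ d := by
      rw [aeval_eq_sum_range' hgd]
      have hp : V'.valuation s ^ d ≠ 0 := pow_ne_zero _ (by simpa using hs0)
      refine V'.valuation.map_sum_lt hp fun i hi => ?_
      rw [Algebra.smul_def, map_mul, map_pow]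
      have h1 := hlt _ (hlt' _ (coeff_minpoly_lt w h hc hs i))
      have h2 : V'.valuation s ^ i ≤ V'.valuation s ^ d :=
        pow_le_pow_right₀ hn (Nat.lt_succ_iff.1 (Finset.mem_range.1 hi))
      calc _ ≤ V'.valuation (algebraMap F K (g.coeff i)) * V'.valuation s ^ d :=
            mul_le_mul_right h2 _
        _ < 1 * V'.valuation s ^ d := mul_lt_mul_of_pos_right h1 (zero_lt_iff.2 hp)
        _ = _ := one_mul _
    rw [← map_pow, e, Valuation.map_neg] at hv
    exact lt_irrefl _ hv
  have hconst : ∀ c : C, w (algebraMap C K c) ≤ 1 → algebraMap C K c ∈ V' := fun c hc' => by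
    rw [← hι]; exact (hV' _).2 (Vconst c hc')
  refine ⟨fun z hz => ?_, hconst, fun z hz => ?_⟩
  · by_contra hn
    have hn := not_le.1 hn
    have h0 : z ≠ 0 := by rintro rfl; simp at hn
    have h1 : w z⁻¹ < 1 := by rw [map_inv₀]; exact inv_lt_one_of_one_lt₀ hn
    have h2 := hsm _ h1
    rw [map_inv₀, inv_lt_one₀ (by simpa [pos_iff_ne_zero] using h0)] at h2
    exact absurd ((V'.valuation_le_one_iff _).2 hz) (not_le.2 h2)
  · obtain ⟨f, hf0, hfz⟩ := Algebra.IsAlgebraic.isAlgebraic (R := F) z
    obtain ⟨c, j, hc0, hj, hle, hgt⟩ := Log.exists_normalised V.valuation f hf0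
    have hz1 : V'.valuation z ≤ 1 := (V'.valuation_le_one_iff _).2 hz
    choose q hq1 hq2 using fun i => Vres (c * f.coeff i) ((V.valuation_le_one_iff _).1 (hle i))
    let r : C[X] := ∑ i ∈ Finset.range j, monomial i (q i)
    have hr : ∀ i, r.coeff i = if i < j then q i else 0 := fun i => by
      simp [r, coeff_monomial]
    have hrd : r.degree < j := by
      rw [degree_lt_iff_coeff_zero]
      intro m hm
      rw [hr, if_neg (not_lt.2 hm)]
    let Q : C[X] := X ^ j + r
    have hQm : Q.Monic := monic_X_pow_add hrd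
    have hQc : ∀ i, Q.coeff i = if i < j then q i else if i = j then 1 else 0 := fun i => by
      simp only [Q, coeff_add, coeff_X_pow, hr]
      split_ifs with h1 h2 h2
      · omega
      · simp
      · simp
      · simp
    have hQ1 : ∀ i, w (algebraMap C K (Q.coeff i)) ≤ 1 := fun i => by
      rw [hQc]
      split_ifs
      · exact hq1 i
      · simp
      · simp
    have hQz : V'.valuation (aeval z Q) < 1 := by
      have e : aeval z Q = aeval z (Q.map ι - Polynomial.C c * f) := by
        rw [map_sub, map_mul, hfz, mul_zero, sub_zero, aeval_def, aeval_def, eval₂_map]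
        congr 1
        ext a
        exact (hι a).symm
      rw [e]
      refine val_aeval_lt _ _ (fun i => hlt _ ?_) hz1
      rw [coeff_sub, coeff_map, coeff_C_mul, hQc]
      split_ifs with h1 h2
      · rw [← Valuation.map_neg, neg_sub]; exact hq2 i
      · rw [h2, hj]; simp
      · rw [map_zero, zero_sub, Valuation.map_neg]; exact hgt i (by omega)
    have hsp : Q.Splits := IsAlgClosed.splits _
    rw [hsp.eq_prod_roots_of_monic hQm, map_multiset_prod, map_multiset_prod] at hQz
    by_contra hn
    push Not at hn
    refine absurd hQz (not_lt.2 ?_)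
    refine Multiset.one_le_prod_of_one_le fun t ht => ?_
    simp only [Multiset.map_map, Multiset.mem_map, Function.comp] at ht
    obtain ⟨a, ha, rfl⟩ := ht
    have ha1 : w (algebraMap C K a) ≤ 1 := by
      let A := (w.comap (algebraMap C K)).integer
      have hint : IsIntegral A a := by
        have hl : Q ∈ lifts (algebraMap A C) := by
          rw [lifts_iff_coeff_lifts]
          intro i
          exact ⟨⟨Q.coeff i, hQ1 i⟩, rfl⟩
        obtain ⟨Q', h1, -, h3⟩ := lifts_and_degree_eq_and_monic hl hQm
        refine ⟨Q', h3, ?_⟩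
        rw [eval₂_eq_eval_map, h1]
        exact (mem_roots hQm.ne_zero).1 ha
      exact Log.val_le_one_of_isIntegral (w.comap (algebraMap C K)) (fun a => a.2) hint
    simpa using hn a ha1

end Crest.Agent.T170.Desc74
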