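import Crest.Agent.T170.CntDef_9

/-!
# Row 170 (helper35): the group theory of the descent

* `cnt_of_grp` : Smith lemma + count of labelled homomorphisms + passage to `I / J`;
* `gal_dict`, `exists_Q`, `dvd_orderOf` : the Galois dictionary for `E = M^I ⊆ N = M^J`.
-/

set_option autoImplicit false

namespace Crest.Agent.T170.Desc35

open Crest.Agent.R170 Crest.Agent.T170.Smith13

/-- elements of `I ⊔ ⟨t⟩` have a `p`-power in `I` -/
theorem pow_mem_of_mem_sup {p : ℕ} {Γ : Type} [Group Γ] (I : Subgroup Γ) [I.Normal] (t : Γ)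
    (ht : ∃ k, t ^ p ^ k ∈ I) {g : Γ} (hg : g ∈ I ⊔ Subgroup.zpowers t) :
    ∃ k, g ^ p ^ k ∈ I := by
  obtain ⟨k, hk⟩ := ht
  refine ⟨k, ?_⟩
  have h1 : QuotientGroup.mk' I g ∈ (I ⊔ Subgroup.zpowers t).map (QuotientGroup.mk' I) :=
    Subgroup.mem_map_of_mem _ hg
  rw [Subgroup.map_sup, QuotientGroup.map_mk'_self, bot_sup_eq, MonoidHom.map_zpowers] at h1
  obtain ⟨m, hm⟩ := Subgroup.mem_zpowers_iff.1 h1
  have h2 : QuotientGroup.mk' I (t ^ p ^ k) = 1 := (QuotientGroup.eq_one_iff _).2 hk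
  have h3 : QuotientGroup.mk' I (g ^ p ^ k) = 1 := by
    rw [map_pow, ← hm, ← zpow_natCast, ← zpow_mul, mul_comm, zpow_mul, zpow_natCast, ← map_pow,
      h2, one_zpow]
  exact (QuotientGroup.eq_one_iff _).1 h3

/-- a section `Q / J` of `I` gives a normal `p`-subgroup of the image of `I` -/
theorem hasOp_range {p : ℕ} {Γ G : Type} [Group Γ] [Group G] (I : Subgroup Γ) (φ : I →* G)
    (Q : Subgroup Γ) (hQI : Q ≤ I) (hne : ¬ Q ≤ φ.ker.map I.subtype)
    (hn : ∀ g ∈ I, ∀ z ∈ Q, g * z * g⁻¹ ∈ Q)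
    (hp : ∀ z ∈ Q, ∃ k, z ^ p ^ k ∈ φ.ker.map I.subtype) : HasOp p φ.range := by
  have hJ : ∀ z : I, (z : Γ) ∈ φ.ker.map I.subtype ↔ φ z = 1 := by
    intro z
    constructor
    · rintro ⟨w, hw, e⟩
      have : w = z := Subtype.ext e
      rw [← this]; exact hw
    · intro h; exact ⟨z, h, rfl⟩
  refine ⟨(Q.subgroupOf I).map φ, ?_, ?_, Subgroup.map_le_range _ _, ?_⟩
  · intro h
    apply hne
    intro z hz
    have : φ ⟨z, hQI hz⟩ ∈ (Q.subgroupOf I).map φ := Subgroup.mem_map_of_mem _ hz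
    rw [h] at this
    exact (hJ ⟨z, hQI hz⟩).2 (Subgroup.mem_bot.1 this)
  · rintro ⟨_, z, hz, rfl⟩
    obtain ⟨k, hk⟩ := hp z hz
    refine ⟨k, Subtype.ext ?_⟩
    have := (hJ (z ^ p ^ k)).1 hk
    rw [map_pow] at this
    exact this
  · have hN : (Q.subgroupOf I).Normal := ⟨fun z hz g => hn g g.2 z hz⟩
    rintro _ ⟨g, rfl⟩
    rw [Subgroup.mem_normalizer_iff]
    intro u
    constructor
    · rintro ⟨z, hz, rfl⟩
      exact ⟨g * z * g⁻¹, hN.conj_mem _ hz _, by simp⟩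
    · rintro ⟨z, hz, e⟩
      refine ⟨g⁻¹ * z * g⁻¹⁻¹, hN.conj_mem _ hz _, ?_⟩
      simp only [map_mul, map_inv, e, inv_inv]
      group

/-- **the group theory of the descent** -/
theorem cnt_of_grp {p n : ℕ} [Fact p.Prime] {Γ P0 G : Type} [Group Γ] [Group P0] [Group G]
    [Finite Γ] [Finite G] (r : P0 →* Γ) (hr : Function.Injective r) (I : Subgroup Γ)
    (hN : r.range.Normal) (hI : I.Normal) (hle : r.range ≤ I)
    (hIp : ∀ g ∈ I, ∃ k, g ^ p ^ k ∈ r.range) (t : Γ) (ht : ∃ k, t ^ p ^ k ∈ I)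
    (γ : Fin n → P0) (c : G) (hc : p ∣ orderOf c)
    (hrot : ∀ g : Γ, ∀ i, ∃ j h, g * r (γ i) * g⁻¹ = r (h * γ j * h⁻¹))
    (hcount : ∀ A : Subgroup G,
      Nat.card {ρ : P0 →* G // (∀ i, IsConj (ρ (γ i)) c) ∧ ρ.range ≤ A} =
        Nat.card (Tup A fun (_ : Fin n) (h : A) => IsConj (h : G) c))
    (hgeo : ∀ J : Subgroup Γ, J ≤ I → (∀ g ∈ I, ∀ z ∈ J, g * z * g⁻¹ ∈ J) →
      (∀ z ∈ J, t * z * t⁻¹ ∈ J) → J.relIndex I ≤ Nat.card G →
      (∀ i m, r (γ i) ^ m ∈ J → p ∣ m) →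
      ∃ Q : Subgroup Γ, J ≤ Q ∧ Q ≤ I ∧ ¬ Q ≤ J ∧ (∀ g ∈ I, ∀ z ∈ Q, g * z * g⁻¹ ∈ Q) ∧
        ∀ z ∈ Q, ∃ k, z ^ p ^ k ∈ J) :
    ((p * pPart p (Nat.card G) : ℕ) : ℤ) ∣
      ∑ᶠ w : Tup G (fun (_ : Fin n) (g : G) => IsConj g c), sA p (tcl w.1) := by
  classical
  set Γ' : Subgroup Γ := I ⊔ Subgroup.zpowers t with hΓ'
  have hIΓ : I ≤ Γ' := le_sup_left
  have htΓ : t ∈ Γ' := (le_sup_right : Subgroup.zpowers t ≤ Γ') (Subgroup.mem_zpowers t)
  set N : Subgroup Γ' := r.range.subgroupOf Γ' with hNdef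
  have hNn : N.Normal := hN.subgroupOf Γ'
  let e0 : P0 →* N :=
    (r.codRestrict Γ' fun x => hIΓ (hle ⟨x, rfl⟩)).codRestrict N fun x => ⟨x, rfl⟩
  have he0 : ∀ x, ((e0 x : Γ') : Γ) = r x := fun _ => rfl
  have hbij : Function.Bijective e0 := by
    constructor
    · intro x y h
      apply hr
      rw [← he0, ← he0, h]
    · rintro ⟨⟨z, hz⟩, x, hx⟩
      exact ⟨x, Subtype.ext (Subtype.ext hx)⟩
  let e : P0 ≃* N := MulEquiv.ofBijective e0 hbij
  have he : ∀ x, ((e x : Γ') : Γ) = r x := fun _ => rfl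
  let T : Set (N →* G) := {ρ | ∀ i, IsConj (ρ (e (γ i))) c}
  have hq : IsPGroup p (Γ' ⧸ N) := by
    intro g
    obtain ⟨g, rfl⟩ := QuotientGroup.mk_surjective g
    obtain ⟨k, hk⟩ := pow_mem_of_mem_sup I t ht g.2
    obtain ⟨l, hl⟩ := hIp _ hk
    refine ⟨k + l, ?_⟩
    rw [← QuotientGroup.mk_pow, QuotientGroup.eq_one_iff, pow_add, pow_mul]
    exact hl
  have key := smith (p := p) N hq T ?_ ?_ ?_
  · -- the count
    have hfin : Finite (N →* G) := Finite.of_injective _ DFunLike.coe_injective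
    rw [← tuple_sum_eq p (fun (_ : Fin n) (g : G) => IsConj g c)]
    rw [← chain_sum_eq p (fun ρ : T => (ρ : N →* G).range)] at key
    convert key using 2
    funext σ
    rw [← hcount]
    congr 2
    refine Nat.card_congr ⟨fun ρ => ⟨⟨ρ.1.comp e.symm.toMonoidHom, fun i => ?_⟩, ?_⟩,
      fun ρ => ⟨ρ.1.1.comp e.toMonoidHom, ρ.1.2, ?_⟩, fun ρ => ?_, fun ρ => ?_⟩
    · simpa using ρ.2.1 i
    · rintro _ ⟨x, rfl⟩
      exact ρ.2.2 ⟨_, rfl⟩
    · rintro _ ⟨x, rfl⟩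
      exact ρ.2 ⟨_, rfl⟩
    · refine Subtype.ext (MonoidHom.ext fun x => ?_)
      simp
    · refine Subtype.ext (Subtype.ext (MonoidHom.ext fun x => ?_))
      simp
  · intro g ρ hρ i
    refine IsConj.trans (IsConj.symm ?_) (hρ i)
    exact isConj_iff.2 ⟨g, rfl⟩
  · intro g ρ hρ i
    obtain ⟨j, h, hj⟩ := hrot g i
    have h1 : (MulAut.conjNormal g : MulAut N) (e (γ i)) = e (h * γ j * h⁻¹) := by
      apply Subtype.ext
      apply Subtype.ext
      rw [he, ← hj, MulAut.conjNormal_apply]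
      rfl
    refine IsConj.trans (IsConj.symm ?_) (hρ j)
    refine isConj_iff.2 ⟨ρ (e h), ?_⟩
    change _ = ρ ((MulAut.conjNormal g : MulAut N) (e (γ i)))
    rw [h1]
    simp
  · intro ρ' hρ'
    let φ : I →* G := ρ'.comp (Subgroup.inclusion hIΓ)
    have hJ : ∀ z : I, (z : Γ) ∈ φ.ker.map I.subtype ↔ φ z = 1 := by
      intro z
      constructor
      · rintro ⟨w, hw, e⟩
        have : w = z := Subtype.ext e
        rw [← this]; exact hw
      · intro h; exact ⟨z, h, rfl⟩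
    have hconj : ∀ g : Γ', ∀ z : I,
        φ ⟨g * z * g⁻¹, hI.conj_mem _ z.2 _⟩ = ρ' g * φ z * (ρ' g)⁻¹ := by
      intro g z
      change ρ' (g * Subgroup.inclusion hIΓ z * g⁻¹) = _
      rw [map_mul, map_mul, map_inv]
      rfl
    have hJn : ∀ g : Γ', ∀ z ∈ φ.ker.map I.subtype,
        (g : Γ) * z * (g : Γ)⁻¹ ∈ φ.ker.map I.subtype := by
      rintro g _ ⟨z, hz, rfl⟩
      refine (hJ ⟨g * z * g⁻¹, hI.conj_mem _ z.2 _⟩).2 ?_
      rw [hconj, (MonoidHom.mem_ker).1 hz]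
      simp
    have hidx : (φ.ker.map I.subtype).relIndex I ≤ Nat.card G := by
      have : (φ.ker.map I.subtype).subgroupOf I = φ.ker := by
        ext z
        rw [Subgroup.mem_subgroupOf, hJ, MonoidHom.mem_ker]
      rw [Subgroup.relIndex, this, Subgroup.index_ker]
      exact Nat.card_le_card_of_injective _ (Subgroup.subtype_injective _)
    have hord : ∀ i m, r (γ i) ^ m ∈ φ.ker.map I.subtype → p ∣ m := by
      intro i m hm
      have h1 := (hJ (⟨r (γ i), hle ⟨_, rfl⟩⟩ ^ m)).1 hm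
      rw [map_pow] at h1
      have h2 : IsConj (φ ⟨r (γ i), hle ⟨_, rfl⟩⟩) c := hρ' i
      obtain ⟨u, hu⟩ := isConj_iff.1 h2
      have h3 : c ^ m = 1 := by
        rw [← hu, conj_pow, h1]
        simp
      exact hc.trans (orderOf_dvd_of_pow_eq_one h3)
    obtain ⟨Q, -, hQI, hne, hn, hp⟩ := hgeo (φ.ker.map I.subtype) (Subgroup.map_subtype_le _)
      (fun g hg => hJn ⟨g, hIΓ hg⟩) (hJn ⟨t, htΓ⟩) hidx hord
    refine HasOp.of_normal (A := φ.range) ?_ ?_ (hasOp_range I φ Q hQI hne hn hp)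
    · rintro _ ⟨z, rfl⟩
      exact ⟨_, rfl⟩
    · rintro _ ⟨g, rfl⟩
      rw [Subgroup.mem_normalizer_iff]
      intro u
      constructor
      · rintro ⟨z, rfl⟩
        exact ⟨_, hconj g z⟩
      · rintro ⟨z, e⟩
        refine ⟨_, (hconj g⁻¹ z).trans ?_⟩
        rw [e, map_inv]
        group

/-! ### the Galois dictionary -/

section Gal

variable {Γ M E N : Type} [Group Γ] [Field M] [MulSemiringAction Γ M] [Field E] [Field N]
  [Algebra E N]

/-- `N ≅ M^J`, `E ≅ M^I`, `J` normal in `I`: the action of `I` on `N` -/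
theorem exists_act (I J : Subgroup Γ) (hn : ∀ g ∈ I, ∀ z ∈ J, g * z * g⁻¹ ∈ J) (j : N →+* M)
    (hN : ∀ z : M, z ∈ j.range ↔ ∀ g ∈ J, g • z = z)
    (hE : ∀ g ∈ I, ∀ z : E, g • j (algebraMap E N z) = j (algebraMap E N z)) :
    ∃ ψ : I →* (N ≃ₐ[E] N), ∀ (g : I) z, j (ψ g z) = (g : Γ) • j z := by
  have hj := j.injective
  have hex : ∀ (g : I) (z : N), ∃ z' : N, j z' = (g : Γ) • j z := by
    intro g z
    refine (hN _).2 fun h hh => ?_
    have h1 := (hN (j z)).1 ⟨z, rfl⟩ _ (hn _ (I.inv_mem g.2) h hh)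
    rw [inv_inv, mul_smul, mul_smul, inv_smul_eq_iff] at h1
    exact h1
  choose f hf using hex
  have hmul : ∀ (g h : I) z, f (g * h) z = f g (f h z) := by
    intro g h z
    apply hj
    rw [hf, hf, hf, Subgroup.coe_mul, mul_smul]
  have hone : ∀ z, f 1 z = z := by
    intro z
    apply hj
    rw [hf, Subgroup.coe_one, one_smul]
  let F : I → (N ≃ₐ[E] N) := fun g =>
    { toFun := f g
      invFun := f g⁻¹
      left_inv := fun z => by rw [← hmul, inv_mul_cancel, hone]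
      right_inv := fun z => by rw [← hmul, mul_inv_cancel, hone]
      map_mul' := fun a b => hj (by rw [map_mul, hf, hf, hf, map_mul, smul_mul'])
      map_add' := fun a b => hj (by rw [map_add, hf, hf, hf, map_add, smul_add])
      commutes' := fun a => hj (by rw [hf, hE _ g.2]) }
  exact ⟨MonoidHom.mk' F fun g h => AlgEquiv.ext fun z => hmul g h z, fun g z => hf g z⟩

/-- an element of a finite group acting faithfully which fixes `M^J` lies in `J` -/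
theorem mem_of_fix [Finite Γ] [FaithfulSMul Γ M] (J : Subgroup Γ) {g : Γ}
    (hg : ∀ z : M, (∀ h ∈ J, h • z = z) → g • z = z) : g ∈ J := by
  let a : M ≃ₐ[FixedPoints.subfield J M] M :=
    { MulSemiringAction.toRingEquiv Γ M g with
      commutes' := fun z => hg _ fun h hh => z.2 ⟨h, hh⟩ }
  obtain ⟨h, hh⟩ := FixedPoints.toAlgAut_surjective J M a
  have : (h : Γ) = g := by
    refine FaithfulSMul.eq_of_smul_eq_smul (α := M) fun z => ?_
    exact DFunLike.congr_fun hh z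
  rw [← this]; exact h.2

/-- **the Galois dictionary**: `Γ` finite acting faithfully on `M`, `J` normal in `I`,
`N ≅ M^J`, `E ≅ M^I`. -/
theorem gal_dict [Finite Γ] [FaithfulSMul Γ M] (I J : Subgroup Γ)
    (hn : ∀ g ∈ I, ∀ z ∈ J, g * z * g⁻¹ ∈ J) (j : N →+* M)
    (hN : ∀ z : M, z ∈ j.range ↔ ∀ g ∈ J, g • z = z)
    (hE : ∀ z : N, z ∈ (algebraMap E N).range ↔ ∀ g ∈ I, g • j z = j z) :
    FiniteDimensional E N ∧ IsGalois E N ∧ Module.finrank E N = J.relIndex I ∧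
      ∃ ψ : I →* (N ≃ₐ[E] N), Function.Surjective ψ ∧ (∀ g : I, ψ g = 1 ↔ (g : Γ) ∈ J) ∧
        ∀ (g : I) z, j (ψ g z) = (g : Γ) • j z := by
  obtain ⟨ψ, hψ⟩ := exists_act I J hn j hN fun g hg z => (hE _).1 ⟨z, rfl⟩ g hg
  have hker : ∀ g : I, ψ g = 1 ↔ (g : Γ) ∈ J := by
    intro g
    constructor
    · intro h
      refine mem_of_fix (M := M) J fun z hz => ?_
      obtain ⟨w, rfl⟩ := (hN z).2 hz
      rw [← hψ, h]
      rfl
    · intro h
      refine AlgEquiv.ext fun z => j.injective ?_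
      rw [hψ]
      exact (hN _).1 ⟨z, rfl⟩ _ h
  have hfin : Finite ψ.range := Finite.of_surjective _ ψ.rangeRestrict_surjective
  have hG : IsGaloisGroup ψ.range E N :=
    { faithful := inferInstance
      commutes := inferInstance
      isInvariant := ⟨fun z hz => (hE z).2 fun g hg => by
        have := hz ⟨ψ ⟨g, hg⟩, ⟨_, rfl⟩⟩
        have h2 := hψ ⟨g, hg⟩ z
        rw [← show j (ψ ⟨g, hg⟩ z) = g • j z from h2]
        exact congrArg j this⟩ }
  have hfd : FiniteDimensional E N := IsGaloisGroup.finiteDimensional ψ.range E N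
  have hgal : IsGalois E N := IsGaloisGroup.isGalois ψ.range E N
  have hcard : Nat.card ψ.range = Module.finrank E N := IsGaloisGroup.card_eq_finrank ψ.range E N
  have htop : ψ.range = ⊤ := by
    apply Subgroup.eq_top_of_card_eq
    rw [hcard, IsGalois.card_aut_eq_finrank]
  refine ⟨hfd, hgal, ?_, ψ, MonoidHom.range_eq_top.1 htop, hker, hψ⟩
  have : J.subgroupOf I = ψ.ker := by
    ext g
    rw [Subgroup.mem_subgroupOf, MonoidHom.mem_ker, hker]
  rw [Subgroup.relIndex, this, Subgroup.index_ker, hcard]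

/-- a normal `p`-subgroup of a quotient `I / J` gives the subgroup `Q` of `cnt_of_grp` -/
theorem exists_Q {p : ℕ} {A : Type} [Group A] (I J : Subgroup Γ) (hJI : J ≤ I) (ψ : I →* A)
    (hs : Function.Surjective ψ) (hker : ∀ g : I, ψ g = 1 ↔ (g : Γ) ∈ J)
    (h : ∃ Q : Subgroup A, Q.Normal ∧ Q ≠ ⊥ ∧ IsPGroup p Q) :
    ∃ Q : Subgroup Γ, J ≤ Q ∧ Q ≤ I ∧ ¬ Q ≤ J ∧ (∀ g ∈ I, ∀ z ∈ Q, g * z * g⁻¹ ∈ Q) ∧
      ∀ z ∈ Q, ∃ k, z ^ p ^ k ∈ J := by
  obtain ⟨Q, hQn, hQ, hQp⟩ := h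
  refine ⟨(Q.comap ψ).map I.subtype, ?_, Subgroup.map_subtype_le _, ?_, ?_, ?_⟩
  · intro z hz
    refine ⟨⟨z, hJI hz⟩, ?_, rfl⟩
    change ψ _ ∈ Q
    rw [(hker ⟨z, hJI hz⟩).2 hz]
    exact Q.one_mem
  · intro hle
    apply hQ
    rw [eq_bot_iff]
    intro a ha
    obtain ⟨g, rfl⟩ := hs a
    exact Subgroup.mem_bot.2 ((hker g).2 (hle ⟨g, ha, rfl⟩))
  · rintro g hg _ ⟨z, hz, rfl⟩
    exact ⟨⟨g, hg⟩ * z * ⟨g, hg⟩⁻¹, (hQn.comap ψ).conj_mem _ hz _, rfl⟩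
  · rintro _ ⟨z, hz, rfl⟩
    obtain ⟨k, hk⟩ := hQp ⟨ψ z, hz⟩
    refine ⟨k, (hker (z ^ p ^ k)).1 ?_⟩
    rw [map_pow]
    exact congrArg Subtype.val hk

/-- the order of the image of an element in `I / J` -/
theorem dvd_orderOf {p : ℕ} {A : Type} [Group A] (I J : Subgroup Γ) (ψ : I →* A)
    (hker : ∀ g : I, ψ g = 1 ↔ (g : Γ) ∈ J) (g : I) (h : ∀ m, (g : Γ) ^ m ∈ J → p ∣ m) :
    p ∣ orderOf (ψ g) := by
  refine h _ ((hker (g ^ orderOf (ψ g))).1 ?_)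
  rw [map_pow, pow_orderOf_eq_one]

end Gal

/-- the choice of the exponent -/
theorem exists_exp {p : ℕ} (hp : p.Prime) (m : ℕ) :
    ∃ a : ℕ, 0 < a ∧ ∀ d ≤ m, d * (4 * d + 1) + 1 < p ^ a := by
  refine ⟨m * (4 * m + 1) + 1, Nat.succ_pos _, fun d hd => ?_⟩
  refine lt_of_le_of_lt ?_ (Nat.lt_pow_self hp.one_lt)
  gcongr

end Crest.Agent.T170.Desc35
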