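import Mathlib

/-!
# Row 170, module F (helper6): conjugacy of the extensions of a valuation ring

* `exists_denom` : an element of a valuation ring `V` of an algebraic extension `L/F` has a
  denominator which is a unit of `V` and is integral over `V ∩ F`;
* `exists_conj`  : valuation rings of a finite Galois extension `L/F` with the same trace on `F`
  are conjugate.
-/

set_option autoImplicit false

namespace Crest.Agent.T170.Gal

variable {F L : Type*} [Field F] [Field L] [Algebra F L]

/-- the elements contained in all valuation rings that contain `V ∩ F` -/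
def IC (F : Type*) [Field F] [Algebra F L] (V : ValuationSubring L) : Subring L where
  carrier := {z | ∀ W : ValuationSubring L,
    (∀ a : F, algebraMap F L a ∈ V → algebraMap F L a ∈ W) → z ∈ W}
  mul_mem' ha hb W hW := W.mul_mem _ _ (ha W hW) (hb W hW)
  one_mem' W _ := W.one_mem
  add_mem' ha hb W hW := W.add_mem _ _ (ha W hW) (hb W hW)
  zero_mem' W _ := W.zero_mem
  neg_mem' ha W hW := W.neg_mem _ (ha W hW)

lemma mem_IC {V : ValuationSubring L} {z : L} : z ∈ IC F V ↔ ∀ W : ValuationSubring L,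
    (∀ a : F, algebraMap F L a ∈ V → algebraMap F L a ∈ W) → z ∈ W := Iff.rfl

lemma IC_congr {V V' : ValuationSubring L}
    (h : ∀ a : F, algebraMap F L a ∈ V ↔ algebraMap F L a ∈ V') : IC F V = IC F V' := by
  ext z
  simp only [mem_IC, h]

theorem exists_denom (V : ValuationSubring L) {z : L} (hz : z ∈ V) (ha : IsAlgebraic F z) :
    ∃ b ∈ IC F V, b * z ∈ IC F V ∧ ∃ a : F, V.valuation (algebraMap F L a) = 1 ∧
      V.valuation (b - algebraMap F L a) < 1 := by
  classical
  by_cases h0 : z = 0
  · exact ⟨1, (IC F V).one_mem, by simp [h0, (IC F V).zero_mem], 1, by simp, by simp⟩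
  obtain ⟨f, hf, hfz⟩ := ha
  set n := f.natDegree + 1 with hn
  obtain ⟨i, hi, hmax⟩ := Finset.exists_max_image (Finset.range n)
    (fun i => V.valuation (algebraMap F L (f.coeff i))) ⟨0, by simp [hn]⟩
  have hi0 : f.coeff i ≠ 0 := by
    intro h
    have h1 := hmax f.natDegree (by simp [hn])
    rw [h, map_zero, map_zero, le_zero_iff] at h1
    simp only [map_eq_zero] at h1
    exact hf (Polynomial.leadingCoeff_eq_zero.1 h1)
  have hvi : V.valuation (algebraMap F L (f.coeff i)) ≠ 0 := by simpa using hi0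
  set c : ℕ → L := fun j => algebraMap F L (f.coeff j / f.coeff i) with hc
  have hc1 : ∀ j ∈ Finset.range n, V.valuation (c j) ≤ 1 := by
    intro j hj
    simp only [hc, map_div₀]
    exact div_le_one_of_le₀ (hmax j hj) zero_le
  have hci : V.valuation (c i) = 1 := by simp [hc, hi0]
  have hsum : ∑ j ∈ Finset.range n, c j * z ^ j = 0 := by
    rw [Polynomial.aeval_eq_sum_range] at hfz
    have : ∑ j ∈ Finset.range n, c j * z ^ j =
        (algebraMap F L (f.coeff i))⁻¹ * ∑ j ∈ Finset.range n, f.coeff j • z ^ j := by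
      rw [Finset.mul_sum]
      refine Finset.sum_congr rfl fun j _ => ?_
      simp only [hc, map_div₀, Algebra.smul_def]
      ring
    rw [this, hn, hfz, mul_zero]
  obtain ⟨s, hs, hsmax⟩ := Finset.exists_max_image
    ((Finset.range n).filter fun j => V.valuation (c j) = 1) id ⟨i, by simp [hci, hi]⟩
  obtain ⟨hsn, hs1⟩ := Finset.mem_filter.1 hs
  have hsn' : s < n := Finset.mem_range.1 hsn
  set b : L := ∑ j ∈ Finset.Ico s n, c j * z ^ (j - s) with hb
  have hbz : b * z ^ s = -∑ j ∈ Finset.range s, c j * z ^ j := by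
    rw [← Finset.sum_range_add_sum_Ico _ hsn'.le] at hsum
    rw [eq_neg_iff_add_eq_zero, add_comm, ← hsum, hb, Finset.sum_mul]
    congr 1
    refine Finset.sum_congr rfl fun j hj => ?_
    rw [mul_assoc, ← pow_add, Nat.sub_add_cancel (Finset.mem_Ico.1 hj).1]
  have hcW : ∀ W : ValuationSubring L,
      (∀ a : F, algebraMap F L a ∈ V → algebraMap F L a ∈ W) → ∀ j < n, c j ∈ W :=
    fun W hW j hj => hW _ ((V.valuation_le_one_iff _).1 (hc1 j (Finset.mem_range.2 hj)))
  have hbW : ∀ W : ValuationSubring L,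
      (∀ a : F, algebraMap F L a ∈ V → algebraMap F L a ∈ W) → b ∈ W ∧ b * z ∈ W := by
    intro W hW
    rcases W.mem_or_inv_mem z with hzW | hzW
    · have : b ∈ W := by
        refine W.toSubring.sum_mem fun j hj => ?_
        exact W.mul_mem _ _ (hcW W hW j (Finset.mem_Ico.1 hj).2) (W.toSubring.pow_mem hzW _)
      exact ⟨this, W.mul_mem _ _ this hzW⟩
    · have h2 : b * z = -∑ j ∈ Finset.range s, c j * z⁻¹ ^ (s - 1 - j) := by
        have h3 : b * z = b * z ^ s * (z * z⁻¹ ^ s) := by
          rw [inv_pow]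
          field_simp
        rw [h3, hbz, neg_mul, Finset.sum_mul]
        congr 1
        refine Finset.sum_congr rfl fun j hj => ?_
        have hj' := Finset.mem_range.1 hj
        have h4 : s = (s - 1 - j) + (j + 1) := by omega
        rw [mul_assoc]
        congr 1
        conv_lhs => rw [h4, pow_add]
        rw [inv_pow z (j + 1)]
        field_simp
        ring
      have h5 : b * z ∈ W := by
        rw [h2]
        refine W.neg_mem _ (W.toSubring.sum_mem fun j hj => ?_)
        exact W.mul_mem _ _ (hcW W hW j ((Finset.mem_range.1 hj).trans hsn'))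
          (W.toSubring.pow_mem hzW _)
      refine ⟨?_, h5⟩
      have h6 : b = b * z * z⁻¹ := by field_simp
      rw [h6]
      exact W.mul_mem _ _ h5 hzW
  refine ⟨b, fun W hW => (hbW W hW).1, fun W hW => (hbW W hW).2, f.coeff s / f.coeff i, hs1, ?_⟩
  change V.valuation (b - c s) < 1
  rw [hb, Finset.sum_eq_sum_Ico_succ_bot hsn', Nat.sub_self, pow_zero, mul_one,
    add_sub_cancel_left]
  refine V.valuation.map_sum_lt one_ne_zero fun j hj => ?_
  obtain ⟨hj1, hj2⟩ := Finset.mem_Ico.1 hj
  have h7 : V.valuation (c j) < 1 := by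
    refine lt_of_le_of_ne (hc1 j (Finset.mem_range.2 hj2)) fun h => ?_
    have := hsmax j (Finset.mem_filter.2 ⟨Finset.mem_range.2 hj2, h⟩)
    simp only [id] at this
    omega
  rw [map_mul, map_pow]
  exact mul_lt_one_of_nonneg_of_lt_one_left zero_le h7
    (pow_le_one₀ zero_le ((V.valuation_le_one_iff _).2 hz))

lemma unit_of_sub {V : ValuationSubring L} {a b : L} (ha : V.valuation a = 1)
    (h : V.valuation (b - a) < 1) : V.valuation b = 1 := by
  have : b = a + (b - a) := by ring
  rw [this, V.valuation.map_add_eq_of_lt_left (by rwa [ha]), ha]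

lemma mem_of_mul_mem {V : ValuationSubring L} {b z : L} (hb : V.valuation b = 1)
    (h : b * z ∈ V) : z ∈ V := by
  rw [← V.valuation_le_one_iff] at h ⊢
  rwa [map_mul, hb, one_mul] at h

lemma val_one_iff {V : ValuationSubring L} {z : L} :
    V.valuation z = 1 ↔ z ≠ 0 ∧ z ∈ V ∧ z⁻¹ ∈ V := by
  constructor
  · intro h
    have h0 : z ≠ 0 := by
      rintro rfl
      simp at h
    refine ⟨h0, (V.valuation_le_one_iff _).1 h.le, (V.valuation_le_one_iff _).1 ?_⟩
    rw [map_inv₀, h, inv_one]
  · rintro ⟨h0, h1, h2⟩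
    rw [← V.valuation_le_one_iff] at h1 h2
    refine le_antisymm h1 ?_
    rw [map_inv₀] at h2
    have hp : 0 < V.valuation z := zero_lt_iff.2 (by simpa using h0)
    exact (inv_le_one₀ hp).1 h2

/-- comparable extensions of the same valuation ring are equal -/
theorem eq_of_le_of_trace [Algebra.IsAlgebraic F L] {W V : ValuationSubring L} (hle : W ≤ V)
    (h : ∀ a : F, algebraMap F L a ∈ V → algebraMap F L a ∈ W) : W = V := by
  refine le_antisymm hle fun z hz => ?_
  obtain ⟨b, -, hbz, a, ha, hba⟩ := exists_denom (F := F) V hz (Algebra.IsAlgebraic.isAlgebraic z)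
  have h1 : W.valuation (algebraMap F L a) = 1 := by
    obtain ⟨h0, h1, h2⟩ := val_one_iff.1 ha
    refine val_one_iff.2 ⟨h0, h a h1, ?_⟩
    rw [← map_inv₀] at h2 ⊢
    exact h _ h2
  have h2 : W.valuation (b - algebraMap F L a) < 1 :=
    (W.mem_nonunits_iff).1 (ValuationSubring.nonunits_le_nonunits.2 hle ((V.mem_nonunits_iff).2 hba))
  exact mem_of_mul_mem (unit_of_sub h1 h2) (hbz W h)

/-- the centre of `W` on a subring -/
def ctr (B : Subring L) (W : ValuationSubring L) (h : ∀ z ∈ B, z ∈ W) : Ideal B :=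
  (IsLocalRing.maximalIdeal W).comap (B.subtype.codRestrict W.toSubring fun z => h z z.2)

lemma mem_ctr {B : Subring L} {W : ValuationSubring L} {h : ∀ z ∈ B, z ∈ W} {z : B} :
    z ∈ ctr B W h ↔ W.valuation (z : L) < 1 :=
  W.valuation_lt_one_iff ⟨z, h z z.2⟩

lemma ctr_prime (B : Subring L) (W : ValuationSubring L) (h : ∀ z ∈ B, z ∈ W) :
    (ctr B W h).IsPrime := Ideal.comap_isPrime _ _

lemma val_comap_lt_one {M : Type*} [Field M] (W : ValuationSubring L) (g : M →+* L) (z : M) :
    (W.comap g).valuation z < 1 ↔ W.valuation (g z) < 1 := by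
  rw [← ValuationSubring.mem_nonunits_iff, ← ValuationSubring.mem_nonunits_iff,
    ValuationSubring.mem_nonunits_iff_or, ValuationSubring.mem_nonunits_iff_or,
    ValuationSubring.mem_comap, map_inv₀, map_eq_zero]

/-- **conjugacy of the extensions of a valuation ring** -/
theorem exists_conj [FiniteDimensional F L] [IsGalois F L] (V V' : ValuationSubring L)
    (h : ∀ a : F, algebraMap F L a ∈ V ↔ algebraMap F L a ∈ V') :
    ∃ g : L ≃ₐ[F] L, ∀ z, z ∈ V' ↔ g z ∈ V := by
  classical
  let W : (L ≃ₐ[F] L) → ValuationSubring L := fun g => V.comap (g : L →+* L)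
  have hW : ∀ g (a : F), algebraMap F L a ∈ W g ↔ algebraMap F L a ∈ V := by
    intro g a
    simp [W, ValuationSubring.mem_comap]
  have hBW : ∀ g, ∀ z ∈ IC F V, z ∈ W g := fun g z hz => hz _ fun a ha => (hW g a).2 ha
  have hBV' : ∀ z ∈ IC F V, z ∈ V' := fun z hz => hz _ fun a ha => (h a).1 ha
  have hsub : (ctr (IC F V) V' hBV' : Set (IC F V)) ⊆
      ⋃ g ∈ ((Finset.univ : Finset (L ≃ₐ[F] L)) : Set (L ≃ₐ[F] L)),
        (ctr (IC F V) (W g) (hBW g) : Set (IC F V)) := by
    intro z hz
    have hz1 : V'.valuation (z : L) < 1 := mem_ctr.1 hz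
    have hN := Algebra.norm_eq_prod_automorphisms F (z : L)
    have h1 : V'.valuation (algebraMap F L (Algebra.norm F (z : L))) < 1 := by
      rw [hN, map_prod, ← Finset.mul_prod_erase _ _ (Finset.mem_univ (1 : L ≃ₐ[F] L))]
      refine mul_lt_one_of_nonneg_of_lt_one_left zero_le hz1 (Finset.prod_le_one' fun g _ => ?_)
      rw [V'.valuation_le_one_iff]
      refine z.2 (V'.comap (g : L →+* L)) fun a ha => ?_
      simpa [ValuationSubring.mem_comap] using (h a).1 ha
    have h2 : V.valuation (algebraMap F L (Algebra.norm F (z : L))) < 1 := by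
      rw [← ValuationSubring.mem_nonunits_iff, ValuationSubring.mem_nonunits_iff_or] at h1 ⊢
      rw [← map_inv₀] at h1 ⊢
      rwa [h]
    by_contra hcon
    simp only [Set.mem_iUnion, not_exists] at hcon
    rw [hN, map_prod] at h2
    refine absurd h2 (not_lt.2 (Finset.one_le_prod' fun g _ => ?_))
    by_contra h3
    refine hcon g (Finset.mem_coe.2 (Finset.mem_univ g)) (mem_ctr.2 ?_)
    exact (val_comap_lt_one V (g : L →+* L) z).2 (not_le.1 h3)
  obtain ⟨g, -, hg⟩ := (Ideal.subset_union_prime 1 1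
    (fun g _ _ _ => ctr_prime (IC F V) (W g) (hBW g))).1 hsub
  have hle : W g ≤ V' := by
    intro z hz
    obtain ⟨b, hb, hbz, a, ha, hba⟩ :=
      exists_denom (F := F) (W g) hz (Algebra.IsAlgebraic.isAlgebraic z)
    rw [IC_congr (hW g)] at hb hbz
    have h1 := unit_of_sub ha hba
    have h2 : V'.valuation b = 1 := by
      refine le_antisymm ((V'.valuation_le_one_iff _).2 (hBV' b hb)) (not_lt.1 fun h3 => ?_)
      have h4 : (⟨b, hb⟩ : IC F V) ∈ ctr (IC F V) (W g) (hBW g) := hg (mem_ctr.2 h3)
      exact absurd (mem_ctr.1 h4) (by rw [h1]; exact lt_irrefl _)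
    exact mem_of_mul_mem h2 (hBV' _ hbz)
  have he := eq_of_le_of_trace (F := F) hle fun a ha => (hW g a).2 ((h a).2 ha)
  refine ⟨g, fun z => ?_⟩
  rw [← he]
  rfl

end Crest.Agent.T170.Gal
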