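import Crest.Agent.T170.GalEt_6
import Crest.Agent.T170.GalConj_6
import Crest.Agent.T170.GalVal_6

/-!
# Row 170, descent (helper86): the inertia group, its fixed field, stabilised valuation rings

A group `Γ` acts on a field `M` (not necessarily faithfully, `Γ` not necessarily finite);
`L` is a subfield of `M` on which the subgroup `G` acts through a finite quotient.
-/

set_option autoImplicit false

open Polynomial

namespace Crest.Agent.T170.Desc86

open Crest.Agent.T170.Gal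

/-- infinitely many pairwise incongruent integral constants -/
theorem exists_seq {C Δ : Type*} [Field C] [IsAlgClosed C] [LinearOrderedCommGroupWithZero Δ]
    (w : Valuation C Δ) :
    ∃ c : ℕ → C, (∀ i, w (c i) ≤ 1) ∧ ∀ i j, i ≠ j → w (c i - c j) = 1 := by
  classical
  have key : ∀ s : Finset C, (∀ x ∈ s, w x ≤ 1) → ∃ y, w y ≤ 1 ∧ ∀ x ∈ s, w (x - y) = 1 := by
    intro s hs
    rcases s.eq_empty_or_nonempty with rfl | hne
    · exact ⟨0, by simp, by simp⟩
    have hdeg : (∏ x ∈ s, (X - Polynomial.C x) : C[X]).degree = s.card := by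
      rw [degree_prod]
      simp
    have hpos : (0 : WithBot ℕ) < (∏ x ∈ s, (X - Polynomial.C x) : C[X]).degree := by
      rw [hdeg]
      exact_mod_cast hne.card_pos
    obtain ⟨y, hy⟩ := IsAlgClosed.exists_root ((∏ x ∈ s, (X - Polynomial.C x) : C[X]) - Polynomial.C 1)
      (by rw [degree_sub_C hpos]; exact hpos.ne')
    have h1 : ∏ x ∈ s, w (y - x) = 1 := by
      rw [IsRoot.def, eval_sub, eval_C, eval_prod, sub_eq_zero] at hy
      simp only [eval_sub, eval_X, eval_C] at hy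
      rw [← map_prod, hy, map_one]
    have hy1 : w y ≤ 1 := by
      by_contra h
      push Not at h
      have h2 : ∀ x ∈ s, w (y - x) = w y := fun x hx =>
        w.map_sub_eq_of_lt_left ((hs x hx).trans_lt h)
      rw [Finset.prod_congr rfl h2, Finset.prod_const] at h1
      exact (one_lt_pow₀ h hne.card_pos.ne').ne' h1
    refine ⟨y, hy1, fun x hx => ?_⟩
    have hle : ∀ x ∈ s, w (y - x) ≤ 1 := fun x hx => w.map_sub_le hy1 (hs x hx)
    rw [Valuation.map_sub_swap]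
    refine le_antisymm (hle x hx) (not_lt.1 fun hlt => ?_)
    rw [← Finset.mul_prod_erase _ _ hx] at h1
    have h3 : ∏ x ∈ s.erase x, w (y - x) ≤ 1 :=
      Finset.prod_le_one' fun x hx => hle x (Finset.mem_of_mem_erase hx)
    exact (mul_lt_one_of_nonneg_of_lt_one_left zero_le hlt h3).ne h1
  obtain ⟨f, hf1, hf2⟩ := exists_seq_of_forall_finset_exists (fun x => w x ≤ 1)
    (fun x y => w (x - y) = 1) key
  refine ⟨f, hf1, fun i j hij => ?_⟩
  rcases lt_or_gt_of_ne hij with h | h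
  · exact hf2 i j h
  · rw [Valuation.map_sub_swap]
    exact hf2 j i h

variable {Γ M Δ : Type*} [Group Γ] [Field M] [MulSemiringAction Γ M]
  [LinearOrderedCommGroupWithZero Δ]

/-- restriction of the action to a stable subfield -/
def resAut (G : Subgroup Γ) (S : Subfield M) (h : ∀ g ∈ G, ∀ z ∈ S, g • z ∈ S) :
    G →* RingAut S where
  toFun g :=
    { toFun := fun z => ⟨g.1 • z.1, h _ g.2 _ z.2⟩
      invFun := fun z => ⟨g.1⁻¹ • z.1, h _ (G.inv_mem g.2) _ z.2⟩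
      left_inv := fun _ => Subtype.ext (inv_smul_smul _ _)
      right_inv := fun _ => Subtype.ext (smul_inv_smul _ _)
      map_mul' := fun _ _ => Subtype.ext (smul_mul' _ _ _)
      map_add' := fun _ _ => Subtype.ext (smul_add _ _ _) }
  map_one' := RingEquiv.ext fun _ => Subtype.ext (one_smul _ _)
  map_mul' _ _ := RingEquiv.ext fun _ => Subtype.ext (mul_smul _ _ _)

@[simp] lemma coe_resAut (G : Subgroup Γ) (S : Subfield M) (h : ∀ g ∈ G, ∀ z ∈ S, g • z ∈ S)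
    (g : G) (z : S) : ((resAut G S h g z : S) : M) = (g : Γ) • (z : M) := rfl

/-- `G` acts on `L` through a finite quotient -/
def FinOn (G : Subgroup Γ) (L : Subfield M) : Prop :=
  (Set.range fun g : G => fun z : L => (g : Γ) • (z : M)).Finite

lemma finOn_of_finite (G : Subgroup Γ) [Finite G] (L : Subfield M) : FinOn G L :=
  Set.finite_range _

/-- a finite stable set which detects the action on `L` -/
lemma finOn_of_set (G : Subgroup Γ) (L : Subfield M) (S : Set M) (hS : S.Finite)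
    (h1 : ∀ g ∈ G, ∀ z ∈ S, g • z ∈ S)
    (h2 : ∀ g ∈ G, (∀ z ∈ S, g • z = z) → ∀ z ∈ L, g • z = z) : FinOn G L := by
  classical
  have : Finite S := hS
  let a : G → (S → S) := fun g z => ⟨g.1 • z.1, h1 _ g.2 _ z.2⟩
  let b : G → (L → M) := fun g z => (g : Γ) • (z : M)
  have hab : ∀ g g', a g = a g' → b g = b g' := by
    intro g g' h
    funext z
    have h3 := h2 (g.1⁻¹ * g'.1) (G.mul_mem (G.inv_mem g.2) g'.2) (fun y hy => by
      have : g.1 • y = g'.1 • y := congrArg Subtype.val (congrFun h ⟨y, hy⟩)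
      rw [mul_smul, ← this, inv_smul_smul]) z z.2
    rw [mul_smul, inv_smul_eq_iff] at h3
    exact h3.symm
  refine ((Set.toFinite (Set.range a)).image
    (fun f => if h : ∃ g, a g = f then b h.choose else b 1)).subset ?_
  rintro _ ⟨g, rfl⟩
  have h : ∃ g', a g' = a g := ⟨g, rfl⟩
  exact ⟨a g, ⟨g, rfl⟩, by simp only [dif_pos h]; exact hab _ _ h.choose_spec⟩

lemma FinOn.mono {G : Subgroup Γ} {L : Subfield M} (h : FinOn G L) {K : Subfield M}
    (hK : K ≤ L) : FinOn G K := by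
  refine (h.image fun f (z : K) => f ⟨z.1, hK z.2⟩).subset ?_
  rintro _ ⟨g, rfl⟩
  exact ⟨_, ⟨g, rfl⟩, rfl⟩

lemma FinOn.finite_range {G : Subgroup Γ} {L : Subfield M} (h : FinOn G L)
    (hL : ∀ g ∈ G, ∀ z ∈ L, g • z ∈ L) : Finite (resAut G L hL).range := by
  have : Finite (Set.range fun g : G => fun z : L => (g : Γ) • (z : M)) := h
  refine Finite.of_injective (fun q : (resAut G L hL).range =>
    (⟨fun z : L => ((q.1 z : L) : M), by
      obtain ⟨g, hg⟩ := q.2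
      exact ⟨g, by rw [← hg]; rfl⟩⟩ :
      Set.range fun g : G => fun z : L => (g : Γ) • (z : M))) fun q q' hq => ?_
  exact Subtype.ext (RingEquiv.ext fun z => Subtype.ext (congrFun (congrArg Subtype.val hq) z))

/-- **the inertia group** of `w` on `L` inside `G` -/
def inert (w : Valuation M Δ) (G : Subgroup Γ) (L : Subfield M)
    (hL : ∀ g ∈ G, ∀ z ∈ L, g • z ∈ L) (hiso : ∀ g ∈ G, ∀ z ∈ L, w (g • z) = w z) :
    Subgroup Γ where
  carrier := {g | g ∈ G ∧ ∀ z ∈ L, w z ≤ 1 → w (g • z - z) < 1}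
  one_mem' := ⟨G.one_mem, fun z _ _ => by simp⟩
  mul_mem' {g g'} hg hg' := ⟨G.mul_mem hg.1 hg'.1, fun z hz h1 => by
    have : (g * g') • z - z = (g • (g' • z) - g' • z) + (g' • z - z) := by
      rw [mul_smul]; ring
    rw [this]
    exact w.map_add_lt (hg.2 _ (hL _ hg'.1 _ hz) (by rwa [hiso _ hg'.1 _ hz])) (hg'.2 z hz h1)⟩
  inv_mem' {g} hg := ⟨G.inv_mem hg.1, fun z hz h1 => by
    have h2 := hg.2 _ (hL _ (G.inv_mem hg.1) _ hz) (by rwa [hiso _ (G.inv_mem hg.1) _ hz])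
    rwa [smul_inv_smul, Valuation.map_sub_swap] at h2⟩

section Inert

variable {w : Valuation M Δ} {G : Subgroup Γ} {L : Subfield M}
  {hL : ∀ g ∈ G, ∀ z ∈ L, g • z ∈ L} {hiso : ∀ g ∈ G, ∀ z ∈ L, w (g • z) = w z}

lemma mem_inert {g : Γ} : g ∈ inert w G L hL hiso ↔
    g ∈ G ∧ ∀ z ∈ L, w z ≤ 1 → w (g • z - z) < 1 := Iff.rfl

lemma inert_le : inert w G L hL hiso ≤ G := fun _ h => h.1

lemma mem_inert_of_fix {g : Γ} (hg : g ∈ G) (h : ∀ z ∈ L, g • z = z) :
    g ∈ inert w G L hL hiso := ⟨hg, fun z hz _ => by simp [h z hz]⟩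

/-- conjugation by an isometry of `L` which normalises `G` -/
lemma conj_mem_inert {t g : Γ} (hg : g ∈ inert w G L hL hiso) (hG : t * g * t⁻¹ ∈ G)
    (ht : ∀ z ∈ L, t⁻¹ • z ∈ L) (htw : ∀ z ∈ L, w (t • z) = w z) :
    t * g * t⁻¹ ∈ inert w G L hL hiso := by
  refine ⟨hG, fun z hz h1 => ?_⟩
  have h2 : w (t⁻¹ • z) ≤ 1 := by rwa [← htw _ (ht z hz), smul_inv_smul]
  have h3 : (t * g * t⁻¹) • z - z = t • (g • t⁻¹ • z - t⁻¹ • z) := by
    rw [smul_sub, smul_inv_smul, mul_smul, mul_smul]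
  rw [h3, htw _ (L.sub_mem (hL _ hg.1 _ (ht z hz)) (ht z hz))]
  exact hg.2 _ (ht z hz) h2

lemma inert_normal [hG : G.Normal] (h1 : ∀ (t : Γ), ∀ z ∈ L, t • z ∈ L)
    (h2 : ∀ (t : Γ), ∀ z ∈ L, w (t • z) = w z) : (inert w G L hL hiso).Normal :=
  ⟨fun g hg t => conj_mem_inert hg (hG.conj_mem g hg.1 t) (h1 _) (h2 _)⟩

/-- the image of the inertia group in the automorphisms of `L` is a `p`-group -/
lemma pow_eq_one_of_mem (hfin : FinOn G L) {p : ℕ} (hp : p.Prime) (hwp : w (p : M) < 1)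
    (hv : ∀ z ∈ L, ∃ c ∈ L, (∀ g ∈ G, g • c = c) ∧ w z = w c) {g : G}
    (hg : (g : Γ) ∈ inert w G L hL hiso) : ∃ k : ℕ, resAut G L hL g ^ p ^ k = 1 := by
  have := hfin.finite_range hL
  have hfo : IsOfFinOrder (resAut G L hL g) := by
    have := isOfFinOrder_of_finite (⟨resAut G L hL g, g, rfl⟩ : (resAut G L hL).range)
    exact (resAut G L hL).range.subtype.isOfFinOrder this
  refine exists_pow_eq_one_of_inert (Q := RingAut L) (L := L) (w.comap L.subtype) hp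
    (by simpa using hwp) hfo (inert_of_res _ (fun z => ?_) fun z hz => hg.2 z z.2 hz)
  obtain ⟨c, hc, h1, h2⟩ := hv z z.2
  exact ⟨⟨c, hc⟩, Subtype.ext (h1 g g.2), h2⟩

/-- **inertia acts on `L` through a `p`-group** -/
theorem inert_pow (hfin : FinOn G L) {p : ℕ} (hp : p.Prime) (hwp : w (p : M) < 1)
    (hv : ∀ z ∈ L, ∃ c ∈ L, (∀ g ∈ G, g • c = c) ∧ w z = w c) {g : Γ}
    (hg : g ∈ inert w G L hL hiso) : ∃ k : ℕ, ∀ z ∈ L, (g ^ p ^ k) • z = z := by
  obtain ⟨k, hk⟩ := pow_eq_one_of_mem hfin hp hwp hv (g := ⟨g, hg.1⟩) hg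
  refine ⟨k, fun z hz => ?_⟩
  rw [← map_pow] at hk
  exact congrArg Subtype.val (RingEquiv.congr_fun hk ⟨z, hz⟩)

/-- an element outside the inertia group moves the residue of an invariant of inertia -/
lemma exists_unit_fix (hfin : FinOn G L) {p : ℕ} (hp : p.Prime) (hwp : w (p : M) < 1)
    (hv : ∀ z ∈ L, ∃ c ∈ L, (∀ g ∈ G, g • c = c) ∧ w z = w c) {q : Γ} (hq : q ∈ G)
    (hqI : q ∉ inert w G L hL hiso) :
    ∃ u ∈ L, (∀ g ∈ inert w G L hL hiso, g • u = u) ∧ w u ≤ 1 ∧ w (q • u - u) = 1 := by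
  have := hfin.finite_range hL
  let I : Subgroup (RingAut L) := ((inert w G L hL hiso).subgroupOf G).map (resAut G L hL)
  have hIle : I ≤ (resAut G L hL).range := Subgroup.map_le_range _ _
  have : Finite I := Finite.of_injective _ (Subgroup.inclusion_injective hIle)
  have hI : IsPGroup p I := by
    rintro ⟨_, g, hg, rfl⟩
    obtain ⟨k, hk⟩ := pow_eq_one_of_mem (hL := hL) (hiso := hiso) hfin hp hwp hv (g := g) hg
    exact ⟨k, Subtype.ext hk⟩
  obtain ⟨z, hz, hz1, hz2⟩ : ∃ z ∈ L, w z ≤ 1 ∧ w (q • z - z) = 1 := by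
    by_contra hcon
    push Not at hcon
    refine hqI ⟨hq, fun z hz h1 => lt_of_le_of_ne ?_ (hcon z hz h1)⟩
    exact w.map_sub_le (by rwa [hiso q hq z hz]) h1
  obtain ⟨u, hu1, hu2, hu3⟩ := exists_unit_sub (Q := RingAut L) (L := L) (w.comap L.subtype) hp
    (by simpa using hwp) I hI
    (by
      rintro _ ⟨g, hg, rfl⟩ y hy
      exact hg.2 y y.2 hy)
    (q := resAut G L hL ⟨q, hq⟩) (fun y => hiso q hq y y.2) (z := ⟨z, hz⟩) hz1 hz2
  exact ⟨u, u.2, fun g hg =>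
    congrArg Subtype.val (hu1 _ ⟨⟨g, hg.1⟩, hg, rfl⟩), hu2, hu3⟩

end Inert

/-- the elements of `L` fixed by `I` -/
def fixIn (I : Subgroup Γ) (L : Subfield M) : Subfield M where
  carrier := {z | z ∈ L ∧ ∀ g ∈ I, g • z = z}
  mul_mem' ha hb := ⟨L.mul_mem ha.1 hb.1, fun g hg => by rw [smul_mul', ha.2 g hg, hb.2 g hg]⟩
  one_mem' := ⟨L.one_mem, fun g _ => smul_one g⟩
  add_mem' ha hb := ⟨L.add_mem ha.1 hb.1, fun g hg => by rw [smul_add, ha.2 g hg, hb.2 g hg]⟩
  zero_mem' := ⟨L.zero_mem, fun g _ => smul_zero g⟩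
  neg_mem' ha := ⟨L.neg_mem ha.1, fun g hg => by rw [smul_neg, ha.2 g hg]⟩
  inv_mem' a ha := ⟨L.inv_mem ha.1, fun g hg => by rw [smul_inv'', ha.2 g hg]⟩

lemma mem_fixIn {I : Subgroup Γ} {L : Subfield M} {z : M} :
    z ∈ fixIn I L ↔ z ∈ L ∧ ∀ g ∈ I, g • z = z := Iff.rfl

lemma fixIn_le (I : Subgroup Γ) (L : Subfield M) : fixIn I L ≤ L := fun _ h => h.1

/-- an element normalising `I` and preserving `L` preserves the fixed field -/
lemma smul_mem_fixIn {I : Subgroup Γ} {L : Subfield M} {t : Γ}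
    (h1 : ∀ g ∈ I, t⁻¹ * g * t ∈ I) (h2 : ∀ z ∈ L, t • z ∈ L) {z : M} (hz : z ∈ fixIn I L) :
    t • z ∈ fixIn I L := by
  refine ⟨h2 z hz.1, fun g hg => ?_⟩
  have := hz.2 _ (h1 g hg)
  rw [mul_smul, mul_smul, inv_smul_eq_iff] at this
  exact this

section Der

variable {U : Type*} [Field U]

/-- a derivation which maps the invariants into `K` maps `K` into `K` -/
lemma der_mem {K Q : Type*} [Field K] [Group Q] [Finite Q] [MulSemiringAction Q K]
    (κ : K →+* U) (D : U →+ U) (hD : ∀ a b, D (a * b) = a * D b + b * D a)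
    (hF : ∀ z : K, (∀ q : Q, q • z = z) → ∃ z', D (κ z) = κ z') (z : K) :
    ∃ z', D (κ z) = κ z' := by
  let F := FixedPoints.subfield Q K
  have hsep : IsSeparable F z := Algebra.IsSeparable.isSeparable F z
  have h0 : aeval z (minpoly F z) = 0 := minpoly.aeval F z
  have h1 : aeval z (derivative (minpoly F z)) ≠ 0 :=
    Polynomial.Separable.aeval_derivative_ne_zero hsep h0
  set f : U[X] := (minpoly F z).map (κ.comp (algebraMap F K)) with hf
  have e1 : ∀ g : F[X], (g.map (κ.comp (algebraMap F K))).eval (κ z) = κ (aeval z g) := by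
    intro g
    rw [eval_map, aeval_def, hom_eval₂]
  have h2 := der_eval_sub D hD f (κ z)
  rw [hf, derivative_map, e1, e1, h0, map_zero, map_zero, ← hf] at h2
  have h3 : (f.sum fun j c => D c * κ z ^ j) ∈ κ.fieldRange := by
    rw [Polynomial.sum_def]
    refine Subfield.sum_mem _ fun j _ => Subfield.mul_mem _ ?_
      (Subfield.pow_mem _ (κ.mem_fieldRange_self z) j)
    rw [hf, coeff_map]
    obtain ⟨z', hz'⟩ := hF _ ((minpoly F z).coeff j).2
    exact ⟨z', hz'.symm⟩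
  have h4 : κ (aeval z (derivative (minpoly F z))) ≠ 0 := (map_ne_zero κ).2 h1
  have h5 : D (κ z) = -(f.sum fun j c => D c * κ z ^ j) /
      κ (aeval z (derivative (minpoly F z))) := by
    rw [eq_div_iff h4, eq_neg_iff_add_eq_zero, mul_comm]
    exact h2.symm
  obtain ⟨z', hz'⟩ : D (κ z) ∈ κ.fieldRange := by
    rw [h5]
    exact Subfield.div_mem _ (Subfield.neg_mem _ h3) (κ.mem_fieldRange_self _)
  exact ⟨z', hz'.symm⟩

/-- **the fixed field of inertia is étale**: derivations stay integral. -/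
theorem inert_der (ι : M →+* U) (v : Valuation U Δ) {G : Subgroup Γ} {L : Subfield M}
    {hL : ∀ g ∈ G, ∀ z ∈ L, g • z ∈ L}
    {hiso : ∀ g ∈ G, ∀ z ∈ L, (v.comap ι) (g • z) = (v.comap ι) z}
    (hfin : FinOn G L) {p : ℕ} (hp : p.Prime) (hvp : v (p : U) < 1)
    (D : U →+ U) (hD : ∀ a b, D (a * b) = a * D b + b * D a)
    (hv : ∀ z ∈ L, ∃ c ∈ L, (∀ g ∈ G, g • c = c) ∧ D (ι c) = 0 ∧ v (ι z) = v (ι c))
    (c : ℕ → M) (hcL : ∀ i, c i ∈ L) (hc1 : ∀ i, v (ι (c i)) ≤ 1)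
    (hc2 : ∀ i j, i ≠ j → v (ι (c i - c j)) = 1) (hc3 : ∀ g ∈ G, ∀ i, g • c i = c i)
    (hF : ∀ z ∈ L, (∀ g ∈ G, g • z = z) →
      (∃ z' ∈ L, (∀ g ∈ G, g • z' = z') ∧ D (ι z) = ι z') ∧ v (D (ι z)) ≤ v (ι z))
    {z : M} (hz : z ∈ fixIn (inert (v.comap ι) G L hL hiso) L) :
    (∃ z' ∈ fixIn (inert (v.comap ι) G L hL hiso) L, D (ι z) = ι z') ∧
      v (D (ι z)) ≤ v (ι z) := by
  classical
  set w := v.comap ι with hw
  set I := inert w G L hL hiso with hI
  set K := fixIn I L with hK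
  have hv' : ∀ z ∈ L, ∃ c ∈ L, (∀ g ∈ G, g • c = c) ∧ w z = w c := fun z hz => by
    obtain ⟨c, h1, h2, -, h4⟩ := hv z hz
    exact ⟨c, h1, h2, h4⟩
  have hwp : w (p : M) < 1 := by simpa [hw] using hvp
  have hKG : ∀ g ∈ G, ∀ z ∈ K, g • z ∈ K := fun g hg z hz =>
    smul_mem_fixIn (fun h hh => by
      have := conj_mem_inert (t := g⁻¹) hh
        (G.mul_mem (G.mul_mem (G.inv_mem hg) hh.1) (G.inv_mem (G.inv_mem hg)))
        (fun y hy => hL _ (G.inv_mem (G.inv_mem hg)) y hy) (hiso _ (G.inv_mem hg))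
      rwa [inv_inv] at this) (hL g hg) hz
  have hGK : ∀ y ∈ L, (∀ g ∈ G, g • y = y) → y ∈ K := fun y hy h =>
    ⟨hy, fun g hg => h g hg.1⟩
  let Q := (resAut G K hKG).range
  have : Finite Q := (hfin.mono (fixIn_le I L)).finite_range hKG
  have := Fintype.ofFinite Q
  let κ : K →+* U := ι.comp K.subtype
  have hfix : ∀ y : K, (∀ q : Q, q • y = y) → ∀ g ∈ G, g • (y : M) = y := fun y hy g hg =>
    congrArg Subtype.val (hy ⟨resAut G K hKG ⟨g, hg⟩, _, rfl⟩)
  have hmem : ∀ y : K, ∃ y', D (κ y) = κ y' := der_mem (Q := Q) κ D hD fun y hy => by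
    obtain ⟨⟨y', h1, h2, h3⟩, -⟩ := hF y y.2.1 (hfix y hy)
    exact ⟨⟨y', hGK y' h1 h2⟩, h3⟩
  choose d hd using hmem
  let DK : K →+ K := AddMonoidHom.mk' d fun a b => κ.injective (by
    rw [← hd, map_add, map_add, map_add, hd, hd])
  have hDK : ∀ a b, DK (a * b) = a * DK b + b * DK a := fun a b => κ.injective (by
    change κ (d (a * b)) = κ (a * d b + b * d a)
    rw [← hd, map_mul, hD, map_add, map_mul, map_mul, hd, hd])
  have hisoQ : ∀ (q : Q) (y : K), (v.comap κ) (q • y) = (v.comap κ) y := by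
    rintro ⟨_, g, rfl⟩ y
    exact hiso g g.2 y y.2.1
  obtain ⟨α, hα, hsep⟩ := exists_sep (Q := Q) (L := K) (v.comap κ)
    (fun i => ⟨c i, hGK _ (hcL i) fun g hg => hc3 g hg i⟩) hc1 hc2
    (by
      rintro ⟨_, g, rfl⟩ i
      exact Subtype.ext (hc3 g g.2 i))
    hisoQ (Finset.univ.erase 1)
    (by
      rintro ⟨_, g, rfl⟩ hq
      have hgI : (g : Γ) ∉ I := fun h => Finset.ne_of_mem_erase hq
        (Subtype.ext (RingEquiv.ext fun y => Subtype.ext (y.2.2 g h)))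
      obtain ⟨u, h1, h2, h3, h4⟩ := exists_unit_fix hfin hp hwp hv' g.2 hgI
      exact ⟨⟨u, h1, h2⟩, h3, h4⟩)
  have hint : ∀ y : K, v (κ y) ≤ 1 → v (D (κ y)) ≤ 1 := fun y hy => by
    have := der_le_one (Q := Q) (v.comap κ) DK hDK hisoQ
      (fun y hy h1 => by
        change v (κ (d y)) ≤ 1
        rw [← hd]
        exact (hF y y.2.1 (hfix y hy)).2.trans h1)
      hα (fun q hq => hsep q (Finset.mem_erase.2 ⟨hq, Finset.mem_univ _⟩)) (z := y) hy
    rw [hd]
    exact this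
  refine ⟨⟨d ⟨z, hz⟩, (d ⟨z, hz⟩).2, hd ⟨z, hz⟩⟩, ?_⟩
  by_cases h0 : z = 0
  · simp [h0]
  obtain ⟨a, ha, ha1, ha2, ha3⟩ := hv z hz.1
  have hvz : v (ι z) ≠ 0 := by simpa using h0
  have ha0 : a ≠ 0 := by
    rintro rfl
    exact hvz (by simpa using ha3)
  have h1 := hint ⟨z / a, K.div_mem hz (hGK a ha ha1)⟩ (by
    change v (ι (z / a)) ≤ 1
    rw [map_div₀, map_div₀, ← ha3, div_self hvz])
  change v (D (ι (z / a))) ≤ 1 at h1
  have h2 : D (ι z) = ι a * D (ι (z / a)) := by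
    conv_lhs => rw [← mul_div_cancel₀ z ha0, map_mul, hD, ha2, mul_zero, add_zero]
  rw [h2, map_mul, ha3]
  exact mul_le_of_le_one_right' h1

end Der

/-- **a lift which stabilises a valuation ring** -/
theorem exists_stab {G : Subgroup Γ} {L : Subfield M} (hL : ∀ g ∈ G, ∀ z ∈ L, g • z ∈ L)
    (hfin : FinOn G L) (V : ValuationSubring L) (τ : L →+* L)
    (hτ : ∀ z : L, (∀ g ∈ G, g • (z : M) = z) → (τ z ∈ V ↔ z ∈ V)) :
    ∃ h ∈ G, ∀ z z' : L, (z' : M) = h • (z : M) → (τ z' ∈ V ↔ z ∈ V) := by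
  let Q := (resAut G L hL).range
  have : Finite Q := hfin.finite_range hL
  let F := FixedPoints.subfield Q L
  obtain ⟨g, hg⟩ := exists_conj (F := F) (V.comap τ) V fun a =>
    hτ a fun g hg => congrArg Subtype.val (a.2 ⟨resAut G L hL ⟨g, hg⟩, _, rfl⟩)
  obtain ⟨⟨_, h, rfl⟩, rfl⟩ := FixedPoints.toAlgAut_surjective Q L g
  refine ⟨h, h.2, fun z z' e => ?_⟩
  have : z' = resAut G L hL h z := Subtype.ext e
  rw [this]
  exact (hg z).symm

/-- the `p`-part of an element of finite order is a power with exponent `≡ 1 mod p ^ a` -/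
theorem exists_ppart {p : ℕ} (hp : p.Prime) (a : ℕ) {r : ℕ} (hr : 0 < r) :
    ∃ m k : ℕ, m ≡ 1 [MOD p ^ a] ∧ 0 < m ∧ r ∣ m * p ^ k := by
  obtain ⟨k, s, hs, he⟩ := Nat.exists_eq_pow_mul_and_not_dvd hr.ne' p hp.ne_one
  have hc : Nat.Coprime s (p ^ a) :=
    (((Nat.Prime.coprime_iff_not_dvd hp).2 hs).symm).pow_right a
  have hs0 : 0 < s := Nat.pos_of_ne_zero fun h => hs (h ▸ dvd_zero p)
  refine ⟨s ^ (p ^ a).totient, k, Nat.ModEq.pow_totient hc, pow_pos hs0 _, ?_⟩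
  rw [he, mul_comm]
  exact Nat.mul_dvd_mul_right
    (dvd_pow_self s (Nat.totient_pos.2 (pow_pos hp.pos a)).ne') _

end Crest.Agent.T170.Desc86
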