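import Crest.Agent.T170.DescAsmA_64
import Crest.Agent.T170.DescIn_86
import Crest.Agent.T170.DescGrp_35
import Crest.Agent.T170.DescFine_74

/-!
# Row 170, descent (helper64): the assembly  `descent64 : GeoStmt p → DescentStmt p`
-/

set_option autoImplicit false

noncomputable section

namespace Crest.Agent.T170.Desc64

open scoped NNReal Classical
open Crest.Agent.T170.Fr Crest.Agent.T170.Ds Crest.Agent.T170.Desc86 IntermediateField
open WeierstrassCurve WeierstrassCurve.Affine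

theorem exists_hom {A M U : Type*} [Field A] [Field M] [Field U] (i : A →+* U) (ι : M →+* U)
    (h : ∀ a, ∃ z, ι z = i a) : ∃ κ : A →+* M, ∀ a, ι (κ a) = i a := by
  choose f hf using h
  exact ⟨{ toFun := f
           map_one' := ι.injective (by rw [hf, map_one, map_one])
           map_mul' := fun a b => ι.injective (by rw [hf, map_mul, map_mul, hf, hf])
           map_zero' := ι.injective (by rw [hf, map_zero, map_zero])
           map_add' := fun a b => ι.injective (by rw [hf, map_add, map_add, hf, hf]) }, hf⟩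

variable {p n : ℕ} [NeZero n] {U : Type} [Field U] [Algebra ℂ U] {X : World p n U}

/-- `F` is algebraically closed in `F(x, y)` -/
theorem mem_F_of_isC {z : U} (hz : z ∈ EF X) (hc : IsC z) : ∃ c : X.F, algebraMap X.F U c = z := by
  let : Algebra X.R X.F := ((Subfield.inclusion X.CF).comp X.R.subtype).toAlgebra
  have : IsScalarTower X.R X.F U := IsScalarTower.of_algebraMap_eq' rfl
  let L : IntermediateField X.F U := adjoin X.F {X.x, X.y}
  have hx : X.x ∈ L := subset_adjoin _ _ (by simp)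
  have hy : X.y ∈ L := subset_adjoin _ _ (by simp)
  have hG : Ell.IsGen X.W X.F (⟨X.x, hx⟩ : L) ⟨X.y, hy⟩ := by
    refine ⟨((baseChange_nonsingular (W := X.W) (f := L.val.restrictScalars X.R)
      L.val.injective (⟨X.x, hx⟩ : L) (⟨X.y, hy⟩ : L)).1 X.ns).1, fun h => W3.trans_of (K := ℂ) X.trans (h.algHom L.val), ?_⟩
    apply IntermediateField.lift_injective L
    rw [IntermediateField.lift_top, IntermediateField.lift_adjoin, Set.image_pair]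
  have hzL : z ∈ L := EF_le X (S := L.toSubfield) L.algebraMap_mem hx hy hz
  obtain ⟨f, g, r, hr, he⟩ := hG.exists_eq_div ⟨z, hzL⟩
  obtain ⟨c, rfl⟩ := hc
  have he' := congrArg L.val he
  rw [map_div₀, map_add, map_mul, ← Polynomial.aeval_algHom_apply,
    ← Polynomial.aeval_algHom_apply, ← Polynomial.aeval_algHom_apply] at he'
  change algebraMap ℂ U c = (Polynomial.aeval X.x f + Polynomial.aeval X.x g * X.y) /
    Polynomial.aeval X.x r at he'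
  have hr0 : Polynomial.aeval X.x r ≠ 0 := fun h0 =>
    W3.trans_of (K := ℂ) X.trans ⟨r, hr, h0⟩
  have h1 : Polynomial.aeval X.xB (f.map (algebraMap X.F ℂ) -
      Polynomial.C c * r.map (algebraMap X.F ℂ)) +
      Polynomial.aeval X.xB (g.map (algebraMap X.F ℂ)) * X.yB = 0 := by
    apply X.B.val.injective
    change X.B.val _ = X.B.val 0
    rw [map_zero, map_add, map_mul, ← Polynomial.aeval_algHom_apply,
      ← Polynomial.aeval_algHom_apply, map_sub, map_mul, Polynomial.aeval_C,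
      Polynomial.aeval_map_algebraMap, Polynomial.aeval_map_algebraMap,
      Polynomial.aeval_map_algebraMap, he']
    change Polynomial.aeval X.x f - _ * Polynomial.aeval X.x r + Polynomial.aeval X.x g * X.y = 0
    field_simp
    ring
  have h2 := congrArg (fun q => q.coeff r.natDegree) (sub_eq_zero.1 (X.isGenB.basis_eq_zero h1).1)
  simp only [Polynomial.coeff_map, Polynomial.coeff_C_mul] at h2
  have h3 : algebraMap X.F ℂ (r.coeff r.natDegree) ≠ 0 := by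
    simpa using Polynomial.leadingCoeff_ne_zero.2 hr
  refine ⟨f.coeff r.natDegree / r.coeff r.natDegree, ?_⟩
  rw [IsScalarTower.algebraMap_apply X.F ℂ U, map_div₀, h2, mul_div_cancel_right₀ _ h3]

namespace FL

variable {M : IntermediateField X.B U} (Z : FL X M)

/-- the constants -/
def L : Subfield Z.M₁ := (algebraMap ℂ U).fieldRange.comap Z.ι

variable {Z} in
theorem mem_L {z : Z.M₁} : z ∈ Z.L ↔ IsC (Z.ι z) := Iff.rfl

theorem smul_mem_L (δ : Z.Γ) (z : Z.M₁) (hz : z ∈ Z.L) : δ • z ∈ Z.L := by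
  obtain ⟨φ, j, hφ, h⟩ := Z.lift δ
  rw [mem_L, ← h]
  exact hφ.isC hz

theorem val_smul (δ : Z.Γ) (z : Z.M₁) (hz : z ∈ Z.L) :
    (X.v.comap Z.ι) (δ • z) = (X.v.comap Z.ι) z := by
  obtain ⟨φ, j, hφ, h⟩ := Z.lift δ
  rw [Valuation.comap_apply, Valuation.comap_apply, ← h]
  exact hφ.val hz

theorem smul_mem_EF (δ : Z.Γ) (z : Z.M₁) (hz : Z.ι z ∈ EF X) : Z.ι (δ • z) ∈ EF X := by
  obtain ⟨φ, j, hφ, h⟩ := Z.lift δ
  rw [← h]
  exact hφ.mem_EF hz

/-- the fixer of `F(x, y)` -/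
def G0 : Subgroup Z.Γ where
  carrier := {δ | ∀ w, Z.ι w ∈ EF X → δ • w = w}
  one_mem' w _ := one_smul _ w
  mul_mem' {a b} ha hb w hw := by rw [mul_smul, hb w hw, ha w hw]
  inv_mem' {a} ha w hw := by rw [inv_smul_eq_iff, ha w hw]

instance : Z.G0.Normal := ⟨fun a ha s w hw => by
  rw [mul_smul, mul_smul, ha _ (Z.smul_mem_EF _ _ hw), smul_inv_smul]⟩

theorem range_normal : Z.r.range.Normal := ⟨fun a ha s => by
  rw [Z.r_range] at ha ⊢
  intro w hw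
  rw [mul_smul, mul_smul, ha _ (Z.smul_mem_L _ _ hw), smul_inv_smul]⟩

/-- the inertia group -/
def I : Subgroup Z.Γ :=
  inert (X.v.comap Z.ι) Z.G0 Z.L (fun g _ => Z.smul_mem_L g) (fun g _ => Z.val_smul g)

theorem I_normal : Z.I.Normal := inert_normal Z.smul_mem_L Z.val_smul

theorem I_le : Z.I ≤ Z.G0 := inert_le

theorem range_le : Z.r.range ≤ Z.I := by
  intro δ hδ
  rw [Z.r_range] at hδ
  refine mem_inert_of_fix (fun w hw => ?_) hδ
  obtain ⟨φ, j, hφ, h⟩ := Z.lift δ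
  have h0 : Lift X φ 0 := lift_zero_of_fix hφ fun c _ => by
    obtain ⟨z, hz⟩ := Z.memE _ (F_mem_EF X c)
    rw [← hz, h, hδ z ⟨c, hz.symm⟩]
    simp
  apply Z.ι.injective
  rw [← h, h0.fix hw]

theorem exists_const (z : Z.M₁) (hz : z ∈ Z.L) : ∃ c ∈ Z.L, (∀ g ∈ Z.G0, g • c = c) ∧
    (∀ i, X.D i (Z.ι c) = 0) ∧ X.v (Z.ι z) = X.v (Z.ι c) := by
  obtain ⟨c, hc⟩ := hz
  obtain ⟨c', hc'⟩ := X.vgrp c
  obtain ⟨w, hw⟩ := Z.memE _ ((EF X).algebraMap_mem c')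
  refine ⟨w, ⟨c', hw.symm⟩, fun g hg => hg w (hw ▸ (EF X).algebraMap_mem c'), fun i => ?_, ?_⟩
  · rw [hw, Derivation.map_algebraMap]
  · rw [hw, hc', hc]

theorem I_pow (hp : p.Prime) (g : Z.Γ) (hg : g ∈ Z.I) : ∃ k, g ^ p ^ k ∈ Z.r.range := by
  obtain ⟨k, hk⟩ := inert_pow (finOn_of_finite _ _) hp (by simpa using X.vp) (fun z hz => by
    obtain ⟨c, h1, h2, -, h3⟩ := Z.exists_const z hz
    exact ⟨c, h1, h2, h3⟩) hg
  exact ⟨k, (Z.r_range _).2 hk⟩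

theorem mem_F (z : Z.M₁) (hz : z ∈ Z.L) (h : ∀ g ∈ Z.G0, g • z = z) :
    ∃ c : X.F, algebraMap X.F U c = Z.ι z :=
  mem_F_of_isC (Z.fixE z h) hz

theorem mem_fixIn {w : Z.M₁} (h1 : IsC (Z.ι w)) (h2 : Z.ι w ∈ EF X) : w ∈ fixIn Z.I Z.L :=
  ⟨h1, fun _ hg => Z.I_le hg w h2⟩

theorem F_mem_map (c : X.F) : algebraMap X.F U c ∈ (fixIn Z.I Z.L).map Z.ι := by
  obtain ⟨w, hw⟩ := Z.memE _ (F_mem_EF X c)
  exact ⟨w, Z.mem_fixIn ⟨c, hw.symm⟩ (hw ▸ F_mem_EF X c), hw⟩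

/-- the inertia field -/
def K : IntermediateField X.C U :=
  ((fixIn Z.I Z.L).map Z.ι).toIntermediateField fun c => Z.F_mem_map (Subfield.inclusion X.CF c)

variable {Z} in
theorem mem_K {u : U} : u ∈ Z.K ↔ u ∈ (fixIn Z.I Z.L).map Z.ι := Iff.rfl

theorem vD_le (hp : p.Prime) (i : Fin n) (u : U) (hu : u ∈ Z.K) : X.v (X.D i u) ≤ X.v u := by
  obtain ⟨z, hz, rfl⟩ := hu
  have := X.Cac
  obtain ⟨c, hc1, hc2⟩ := exists_seq (X.v.comap (algebraMap X.C U))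
  choose w hw using fun k => Z.memE _ ((EF X).algebraMap_mem (c k))
  refine (inert_der Z.ι X.v (G := Z.G0) (L := Z.L) (finOn_of_finite _ _) hp X.vp (X.D i).toLinearMap.toAddMonoidHom
    (fun a b => (X.D i).leibniz a b) (fun z hz => ?_) w (fun k => ⟨c k, (hw k).symm⟩)
    (fun k => ?_) (fun k l hkl => ?_)
    (fun g hg k => hg _ (hw k ▸ (EF X).algebraMap_mem (c k))) (fun z hz h => ?_) hz).2
  · obtain ⟨c, h1, h2, h3, h4⟩ := Z.exists_const z hz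
    exact ⟨c, h1, h2, h3 i, h4⟩
  · rw [hw]; exact hc1 k
  · rw [map_sub, hw, hw, ← map_sub]; exact hc2 k l hkl
  · obtain ⟨a, ha⟩ := Z.mem_F z hz h
    obtain ⟨a', ha'⟩ := X.DF i a
    obtain ⟨z', hz'⟩ := Z.memE _ (F_mem_EF X a')
    refine ⟨⟨z', ⟨a', hz'.symm⟩, fun g hg => hg _ (hz' ▸ F_mem_EF X a'), ?_⟩, ?_⟩
    · rw [hz', ← ha]; exact ha'
    · rw [← ha]; exact X.vD i a

theorem stab (S : Subfield Z.M₁) {t : Z.Γ} {φ : Aut X} (hφ : ∀ z, φ (Z.ι z) = Z.ι (t • z))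
    (h1 : ∀ z ∈ S, t • z ∈ S) (h2 : ∀ z ∈ S, t⁻¹ • z ∈ S) (u : U) :
    u ∈ S.map Z.ι ↔ φ u ∈ S.map Z.ι := by
  constructor
  · rintro ⟨z, hz, rfl⟩
    exact ⟨_, h1 z hz, (hφ z).symm⟩
  · rintro ⟨z, hz, he⟩
    refine ⟨_, h2 z hz, φ.injective ?_⟩
    rw [hφ, smul_inv_smul, he]

theorem smul_mem_K (t : Z.Γ) (z : Z.M₁) (hz : z ∈ fixIn Z.I Z.L) : t • z ∈ fixIn Z.I Z.L :=
  smul_mem_fixIn (fun g hg => by simpa using Z.I_normal.conj_mem g hg t⁻¹) (Z.smul_mem_L t) hz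

instance algFK : Algebra X.F Z.K := ((algebraMap X.F U).codRestrict Z.K Z.F_mem_map).toAlgebra

instance : IsScalarTower X.F Z.K U := IsScalarTower.of_algebraMap_eq' rfl

theorem exists_κ : ∃ κ : Z.K →+* Z.L, ∀ u, Z.ι (κ u) = u := by
  obtain ⟨κ, hκ⟩ := exists_hom (algebraMap Z.K U) (Z.ι.comp Z.L.subtype) fun u => by
    obtain ⟨z, hz, he⟩ := u.2
    exact ⟨⟨z, hz.1⟩, he⟩
  exact ⟨κ, hκ⟩

instance finK : FiniteDimensional X.F Z.K := by
  obtain ⟨κ, hκ⟩ := Z.exists_κ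
  let : Algebra X.F Z.L := (κ.comp (algebraMap X.F Z.K)).toAlgebra
  let : MulSemiringAction Z.G0 Z.L :=
    MulSemiringAction.compHom Z.L (resAut Z.G0 Z.L fun g _ => Z.smul_mem_L g)
  have : FiniteDimensional X.F Z.L := finite_of_fixed (Q := Z.G0) fun z hz => by
    obtain ⟨c, hc⟩ := Z.mem_F z z.2 fun g hg => congrArg Subtype.val (hz ⟨g, hg⟩)
    exact ⟨c, Subtype.ext (Z.ι.injective ((hκ _).trans hc))⟩
  let κ' : Z.K →ₐ[X.F] Z.L := { κ with commutes' := fun _ => rfl }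
  exact FiniteDimensional.of_injective κ'.toLinearMap κ.injective

theorem cplK (hp : p ≠ 0) : Cpl (X.v.comap (algebraMap Z.K U)) :=
  Gal.Cpl.finite (F := X.F) (v := X.v.comap (algebraMap X.F U)) X.cpl (X.nontriv hp) _
    fun _ => rfl

/-- the `p`-element over `g` fixing a fine valuation ring -/
theorem exists_t (hp : p.Prime) {a : ℕ} (hn : n = p ^ a) :
    ∃ (t : Z.Γ) (φ : Aut X) (k : ℕ) (V : ValuationSubring Z.K), t ^ p ^ k = 1 ∧ Lift X φ 1 ∧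
      (∀ z, φ (Z.ι z) = Z.ι (t • z)) ∧ Fine (C := X.C) (X.v.comap (algebraMap Z.K U)) V ∧
      ∀ z z' : Z.K, (z' : U) = φ z → (z' ∈ V ↔ z ∈ V) := by
  obtain ⟨κ, hκ⟩ := Z.exists_κ
  obtain ⟨VL, hVL⟩ := Log.exists_vs_ext (κ.comp (algebraMap X.F Z.K)) X.V
  let τ : Z.L ≃+* Z.L := resAut ⊤ Z.L (fun g _ => Z.smul_mem_L g) ⟨Z.g, trivial⟩
  obtain ⟨h, hh, hs⟩ := exists_stab (G := Z.G0) (fun g _ => Z.smul_mem_L g) (finOn_of_finite _ _)
    VL (τ : Z.L →+* Z.L) fun z hz => by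
      obtain ⟨c, hc⟩ := Z.mem_F z z.2 hz
      have h1 : z = (κ.comp (algebraMap X.F Z.K)) c :=
        Subtype.ext (Z.ι.injective ((hκ _).trans hc).symm)
      have h2 : (τ : Z.L →+* Z.L) z = (κ.comp (algebraMap X.F Z.K)) (X.σ c) := by
        refine Subtype.ext (Z.ι.injective (Eq.trans ?_ (hκ _).symm))
        change Z.ι (Z.g • (z : Z.M₁)) = algebraMap X.F U (X.σ c)
        rw [← Z.hg, ← hc, X.gσ]
      rw [h2, hVL, X.Vσ, h1, hVL]
  obtain ⟨m, k, hm, -, hmk⟩ := exists_ppart hp a (orderOf_pos (Z.g * h))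
  obtain ⟨φ, j, -, hφ⟩ := Z.lift ((Z.g * h) ^ m)
  have hE : ∀ (l : ℕ) w, Z.ι w ∈ EF X → Z.ι ((Z.g * h) ^ l • w) = (X.g ^ l) (Z.ι w) := by
    intro l
    induction l with
    | zero => intro w _; rw [pow_zero, one_smul]; rfl
    | succ l ih =>
      intro w hw
      rw [pow_succ, mul_smul, mul_smul, hh w hw, ih _ (Z.smul_mem_EF _ _ hw), pow_succ,
        AlgEquiv.mul_apply, Z.hg]
  have hV : ∀ (l : ℕ) (z z' : Z.L), (z' : Z.M₁) = (Z.g * h) ^ l • (z : Z.M₁) →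
      (z' ∈ VL ↔ z ∈ VL) := by
    intro l
    induction l with
    | zero =>
      intro z z' he
      rw [pow_zero, one_smul] at he
      rw [Subtype.ext he]
    | succ l ih =>
      intro z z' he
      have h1 := hs z ⟨h • (z : Z.M₁), Z.smul_mem_L _ _ z.2⟩ rfl
      rw [← h1]
      refine ih _ _ ?_
      rw [he, pow_succ, mul_smul, mul_smul]
      rfl
  have := X.Cac
  refine ⟨(Z.g * h) ^ m, φ, k, VL.comap κ, ?_, ?_, hφ, ?_, fun z z' he => ?_⟩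
  · rw [← pow_mul, ← orderOf_dvd_iff_pow_eq_one]; exact hmk
  · refine Lift.mod (Lift.of_eq_on (j := m) fun u hu => ?_) (hn ▸ hm)
    obtain ⟨w, rfl⟩ := Z.memE u hu
    rw [hφ, hE m w hu]
  · exact Desc74.fine_ext (F := X.F) (K := Z.K) (Subfield.inclusion X.CF) (fun _ => rfl)
      (X.v.comap (algebraMap Z.K U)) (X.nontriv hp.ne_zero) X.cpl X.V X.Vle X.Vconst X.Vres _ hVL
  · refine hV m (κ z) (κ z') (Z.ι.injective ?_)
    rw [hκ, ← hφ, hκ, he]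

theorem rot {G : Type} [Group G] (Y : X.RD G) (Z : FL X Y.M) (s : Z.Γ) (i : Fin n) :
    ∃ j h, s * Z.r (Y.γ i) * s⁻¹ = Z.r (h * Y.γ j * h⁻¹) := by
  obtain ⟨φ, k, hφ, h⟩ := Z.lift s
  have H := Ds79.adm_of_lift hφ
  obtain ⟨c, hc⟩ := isConj_iff.1 (H.isConj_cj Y i).symm
  refine ⟨World.sh k i, c, ?_⟩
  rw [hc]
  refine FaithfulSMul.eq_of_smul_eq_smul (α := Z.M₁) fun z => Z.ι.injective ?_
  have h1 : (⟨Z.ι z, Z.le z⟩ : Y.M) = H.jM Y ⟨Z.ι (s⁻¹ • z), Z.le _⟩ := by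
    apply Subtype.ext
    change Z.ι z = φ (Z.ι (s⁻¹ • z))
    rw [h, smul_inv_smul]
  rw [Z.r_apply, h1, H.cj_jM, mul_smul, mul_smul, ← h, Z.r_apply]
  rfl

end FL

/-- **the descent** -/
theorem descent64 (hp : p.Prime) (geo : GeoStmt p) : DescentStmt p := by
  intro hW hR _ hC G _ _ c hc
  have : Fact p.Prime := ⟨hp⟩
  obtain ⟨a, ha, hbd⟩ := Desc35.exists_exp hp (Nat.card G)
  have : NeZero (p ^ a) := ⟨pow_ne_zero _ hp.ne_zero⟩
  obtain ⟨U, _, _, _, ⟨X⟩⟩ := hW a ha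
  obtain ⟨Y⟩ := X.exists_RD hR G
  obtain ⟨Z⟩ := exists_FL Y
  obtain ⟨t, φ, k, V, ht, hφ, hφt, hfine, hV⟩ := Z.exists_t hp rfl
  refine ⟨a, Desc35.cnt_of_grp Z.r Z.inj Z.I Z.range_normal Z.I_normal Z.range_le (Z.I_pow hp) t
    ⟨k, ht ▸ one_mem _⟩ Y.γ c hc (FL.rot Y Z) (fun A => Y.cnt A c) ?_⟩
  intro J hJI hJn hJt hJc hJp
  have hJt' : ∀ z ∈ J, t⁻¹ * z * t ∈ J := by
    have h1 : ∀ m : ℕ, ∀ z ∈ J, t ^ m * z * (t ^ m)⁻¹ ∈ J := by
      intro m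
      induction m with
      | zero => intro z hz; simpa using hz
      | succ m ih =>
        intro z hz
        have := hJt _ (ih z hz)
        rwa [show t * (t ^ m * z * (t ^ m)⁻¹) * t⁻¹ = t ^ (m + 1) * z * (t ^ (m + 1))⁻¹ by group]
          at this
    have h2 : t ^ (p ^ k - 1) = t⁻¹ := by
      rw [eq_inv_iff_mul_eq_one, ← pow_succ, Nat.sub_add_cancel (Nat.one_le_pow _ _ hp.pos), ht]
    intro z hz
    simpa [h2] using h1 (p ^ k - 1) z hz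
  let E : IntermediateField Z.K U := adjoin Z.K {X.x, X.y}
  have hEI : ∀ u ∈ E, u ∈ (fixIn Z.I ⊤).map Z.ι := by
    have h1 : ∀ u ∈ EF X, u ∈ (fixIn Z.I ⊤).map Z.ι := fun u hu => by
      obtain ⟨w, rfl⟩ := Z.memE u hu
      exact ⟨w, ⟨trivial, fun g hg => Z.I_le hg w hu⟩, rfl⟩
    have h2 : E ≤ ((fixIn Z.I ⊤).map Z.ι).toIntermediateField fun u : Z.K => by
        obtain ⟨w, hw, he⟩ := u.2
        exact ⟨w, ⟨trivial, hw.2⟩, he⟩ := by
      rw [adjoin_le_iff, Set.insert_subset_iff, Set.singleton_subset_iff]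
      exact ⟨h1 _ (x_mem_EF X), h1 _ (y_mem_EF X)⟩
    exact fun u hu => h2 hu
  let N : IntermediateField E U := ((fixIn J ⊤).map Z.ι).toIntermediateField fun u => by
    obtain ⟨w, hw, he⟩ := hEI u u.2
    exact ⟨w, ⟨trivial, fun g hg => hw.2 g (hJI hg)⟩, he⟩
  obtain ⟨j, hj⟩ := exists_hom (algebraMap N U) Z.ι fun u => by
    obtain ⟨w, -, he⟩ := u.2
    exact ⟨w, he⟩
  obtain ⟨h1, h2, h3, ψ, hψs, hψk, hψ⟩ := Desc35.gal_dict (E := E) Z.I J hJn j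
    (fun z => ⟨by
      rintro ⟨u, rfl⟩
      obtain ⟨w, hw, he⟩ := u.2
      rw [Z.ι.injective ((hj u).trans he.symm)]
      exact hw.2, fun hz => ⟨⟨Z.ι z, z, ⟨trivial, hz⟩, rfl⟩, Z.ι.injective (hj _)⟩⟩)
    (fun z => ⟨by
      rintro ⟨u, rfl⟩
      obtain ⟨w, hw, he⟩ := hEI u u.2
      rw [Z.ι.injective ((hj (algebraMap E N u)).trans he.symm)]
      exact hw.2, fun hz => by
      have h := Z.gen Z.I Z.range_le E.toSubfield
        (fun u hu => EF_le X (S := E.toSubfield)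
          (fun c => E.algebraMap_mem ⟨_, Z.F_mem_map c⟩) (subset_adjoin _ _ (by simp))
          (subset_adjoin _ _ (by simp)) hu)
        (fun w hw hw' => E.algebraMap_mem ⟨_, w, ⟨hw, hw'⟩, rfl⟩) (j z) hz
      rw [hj] at h
      exact ⟨⟨_, h⟩, rfl⟩⟩)
  refine Desc35.exists_Q Z.I J hJI ψ hψs hψk ?_
  obtain ⟨u, hu, hgen⟩ := Y.gen 0
  have hpow : ∀ (m : ℕ) z, (φ ^ m) (Z.ι z) = Z.ι (t ^ m • z) := by
    intro m
    induction m with
    | zero => intro z; rw [pow_zero, pow_zero, one_smul]; rfl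
    | succ m ih => intro z; rw [pow_succ, pow_succ, AlgEquiv.mul_apply, hφt, ih, mul_smul]
  refine @geo hC (p ^ a) _ U _ _ _ X Y.M Y.fin Y.gal Y.unr Z.K Z.F_mem_map ?_
    (Z.cplK hp.ne_zero) (Z.vD_le hp) N h1 h2 ?_ φ hφ
    (Z.stab _ hφt (Z.smul_mem_K t) (Z.smul_mem_K t⁻¹))
    (Z.stab (fixIn J ⊤) hφt (fun z hz => smul_mem_fixIn hJt' (fun _ _ => Subfield.mem_top _) hz)
      (fun z hz => smul_mem_fixIn (by simpa using hJt) (fun _ _ => Subfield.mem_top _) hz))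
    ⟨p ^ k, pow_pos hp.pos k, ?_⟩ V hfine hV 0 Y.n₀ Y.ζ u (Y.γ 0)
    (ψ ⟨Z.r (Y.γ 0), Z.range_le ⟨_, rfl⟩⟩) Y.pos Y.prim hu hgen ?_
    (Desc35.dvd_orderOf Z.I J ψ hψk _ (hJp 0)) (hbd _ (h3 ▸ hJc))
  · rintro _ ⟨w, hw, rfl⟩
    exact hw.1
  · rintro _ ⟨w, -, rfl⟩
    exact Z.le w
  · rintro _ ⟨w, -, rfl⟩
    rw [hpow, ht, one_smul]
  · intro z z' he
    have h4 := congrArg Z.ι (hψ ⟨Z.r (Y.γ 0), Z.range_le ⟨_, rfl⟩⟩ z)
    rw [hj, Z.r_apply] at h4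
    refine Eq.trans ?_ h4.symm
    congr 2
    exact Subtype.ext (he.trans (hj z).symm)

end Crest.Agent.T170.Desc64
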