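import Crest.Agent.T170.Fr_20

/-!
# Row 170, module F (helper6): the descent.  Definitions and leaf statements (Props only)

Everything happens inside the field `U` of a `Fr.World`.
-/

set_option autoImplicit false

noncomputable section

namespace Crest.Agent.T170.Ds

open scoped NNReal Polynomial Classical
open WeierstrassCurve WeierstrassCurve.Affine Crest.Agent.R170 Crest.Agent.T170.Ret
open Crest.Agent.T170.Fr

section Defs

variable {p n : ℕ} [NeZero n] {U : Type} [Field U] [Algebra ℂ U]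

/-- the automorphisms of `U` over the constants -/
abbrev Aut (X : World p n U) : Type := U ≃ₐ[X.C] U

/-- `B = ℂ(x, y)` -/
def B (X : World p n U) : IntermediateField ℂ U := IntermediateField.adjoin ℂ {X.x, X.y}

/-- `x` in `B` -/
def xB (X : World p n U) : B X := ⟨X.x, IntermediateField.subset_adjoin _ _ (by simp)⟩

/-- `y` in `B` -/
def yB (X : World p n U) : B X := ⟨X.y, IntermediateField.subset_adjoin _ _ (by simp)⟩

/-- the abscissae of the punctures, as complex numbers -/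
def aC (X : World p n U) (i : Fin n) : ℂ := X.a i

/-- the ordinates of the punctures, as complex numbers -/
def bC (X : World p n U) (i : Fin n) : ℂ := X.b i

/-- `z` is a complex constant -/
def IsC (z : U) : Prop := ∃ c : ℂ, algebraMap ℂ U c = z

/-- `φ` agrees with `g ^ j` on `F(x, y)` -/
structure Lift (X : World p n U) (φ : Aut X) (j : ℕ) : Prop where
  F : ∀ z : X.F, φ (algebraMap X.F U z) = (X.g ^ j) (algebraMap X.F U z)
  x : φ X.x = (X.g ^ j) X.x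
  y : φ X.y = (X.g ^ j) X.y

/-- `φ` fixes `ℂ`, `x`, `y` -/
structure Geo (X : World p n U) (φ : Aut X) : Prop where
  C : ∀ c : ℂ, φ (algebraMap ℂ U c) = algebraMap ℂ U c
  x : φ X.x = X.x
  y : φ X.y = X.y

end Defs

/-- **canonicity**: the maximal extension is stable under all lifts -/
def CanStmt : Prop :=
  ∀ (p n : ℕ) [NeZero n] (U : Type) [Field U] [Algebra ℂ U] [IsAlgClosed U] (X : World p n U)
    (G : Type) [Group G] (M : IntermediateField (B X) U),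
    FiniteDimensional (B X) M → IsGalois (B X) M → ResW (M ≃ₐ[B X] M) G →
    UnrE M (xB X) (yB X) (aC X) (bC X) →
    (∀ N : IntermediateField (B X) U, FiniteDimensional (B X) N → IsGalois (B X) N →
      ResW (N ≃ₐ[B X] N) G → UnrE N (xB X) (yB X) (aC X) (bC X) → N ≤ M) →
    ∀ (φ : Aut X) (j : ℕ), Lift X φ j → ∀ z ∈ M, φ z ∈ M

/-- **labels**: lifts permute the classes of the canonical generators -/
def LabStmt : Prop :=
  UniqStmt →
  ∀ (p n : ℕ) [NeZero n] (U : Type) [Field U] [Algebra ℂ U] [IsAlgClosed U] (X : World p n U)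
    (M : IntermediateField (B X) U) [FiniteDimensional (B X) M] [IsGalois (B X) M]
    (n₀ : ℕ) (ζ : ℂ), 0 < n₀ → IsPrimitiveRoot ζ n₀ → ∀ γ : Fin n → (M ≃ₐ[B X] M),
    (∀ i, ∃ u : AV (B X), AtPt u (xB X) (yB X) (aC X i) (bC X i) n₀ ∧
      GenOver u (algebraMap ℂ (B X) ζ) (γ i)) →
    ∀ (φ : Aut X) (j : ℕ), Lift X φ j → (∀ z, z ∈ M ↔ φ z ∈ M) →
    ∀ (i : Fin n) (δ : M ≃ₐ[B X] M),
      (∀ z z' : M, (z' : U) = φ z → ((δ z' : M) : U) = φ ((γ i z : M) : U)) →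
      ∃ i', IsConj δ (γ i')

/-- **the Gauss valuation** -/
def GaussStmt : Prop :=
  ∀ (p n : ℕ) [NeZero n] (U : Type) [Field U] [Algebra ℂ U] (X : World p n U) (f : ℂ[X]),
    X.v (Polynomial.aeval X.x f) = f.support.sup fun i => X.v (algebraMap ℂ U (f.coeff i))

/-- **lifts are isometries of `B`** (for complex constants this is `Gal.val_equiv`) -/
def IsoStmt : Prop :=
  ∀ (p n : ℕ) [NeZero n] (U : Type) [Field U] [Algebra ℂ U] (X : World p n U) (φ : Aut X),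
    (∀ c : ℂ, IsC (φ (algebraMap ℂ U c))) → (∀ c : ℂ, IsC (φ.symm (algebraMap ℂ U c))) →
    (∀ c : ℂ, X.v (φ (algebraMap ℂ U c)) = X.v (algebraMap ℂ U c)) →
    Point.map (φ : U →ₐ[X.C] U) (Point.some _ _ X.ns) =
      Point.some _ _ X.ns - Point.baseChange X.C U X.P →
    ∀ z ∈ B X, X.v (φ z) = X.v z

/-- **fine valuation rings extend**, equivariantly: `Q` is a finite group acting on `L`, `F` its
field of invariants, `τ` an automorphism of `L` preserving `F` and `V`. -/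
def FineStmt : Prop :=
  ∀ (C L Q : Type) [Field C] [IsAlgClosed C] [Field L] [Algebra C L] [Group Q] [Finite Q]
    [MulSemiringAction Q L] (v : Valuation L ℝ≥0) (F : IntermediateField C L),
    (∀ z : L, z ∈ F ↔ ∀ q : Q, q • z = z) → ∀ V : ValuationSubring F,
    Fine (C := C) (v.comap (algebraMap F L)) V → ∀ τ : L ≃+* L, (∀ z, τ z ∈ F ↔ z ∈ F) →
    (∀ z z' : F, (z' : L) = τ z → (z' ∈ V ↔ z ∈ V)) →
    ∃ (V' : ValuationSubring L) (q : Q), Fine (C := C) v V' ∧ ∀ z, q • τ z ∈ V' ↔ z ∈ V'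

/-- **the Smith lemma for an infinite group** acting through a finite quotient -/
def SmithStmt : Prop :=
  ∀ (p : ℕ) (Γ H G : Type) [Group Γ] [Group H] [Finite H] [Group G] [Finite G], p.Prime →
    ∀ (N Λ : Subgroup Γ) [N.Normal] [Λ.Normal] [Λ.FiniteIndex] (r : N →* H),
    Function.Surjective r → (∀ x : N, r x = 1 ↔ (x : Γ) ∈ Λ) →
    (∀ γ : Γ, ∃ k : ℕ, γ ^ p ^ k ∈ N ⊔ Λ) → ∀ T : Set (H →* G),
    (∀ (g : G) ρ, ρ ∈ T → (MulAut.conj g).toMonoidHom.comp ρ ∈ T) →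
    (∀ (γ : Γ) (ρ ρ' : H →* G), ρ ∈ T →
      (∀ x : N, ρ' (r x) = ρ (r (MulAut.conjNormal γ x))) → ρ' ∈ T) →
    (∀ ρ' : Γ →* G, Λ ≤ ρ'.ker → ∀ ρ ∈ T, (∀ x : N, ρ' x = ρ (r x)) →
      Smith13.HasOp p ρ'.range) →
    ((p * pPart p (Nat.card G) : ℕ) : ℤ) ∣ ∑ᶠ ρ : T, sA p (ρ : H →* G).range

/-- **the finite level**: a finite set `Θ ⊆ M`, stable under the lifts, containing given complex
constants, which detects `M`, and such that an automorphism over `F(x, y)` which fixes the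
constants in `Θ` is geometric on `Θ` -/
def ThetaStmt : Prop :=
  ∀ (p n : ℕ) [NeZero n] (U : Type) [Field U] [Algebra ℂ U] [IsAlgClosed U] (X : World p n U)
    (M : IntermediateField (B X) U) [FiniteDimensional (B X) M],
    (∀ (φ : Aut X) (j : ℕ), Lift X φ j → ∀ z ∈ M, φ z ∈ M) → ∀ Z : Finset ℂ,
    ∃ Θ : Finset U, (∀ c ∈ Z, algebraMap ℂ U c ∈ Θ) ∧ (∀ z ∈ Θ, z ∈ M) ∧
      (∀ (φ : Aut X) (j : ℕ), Lift X φ j → ∀ z ∈ Θ, φ z ∈ Θ) ∧
      (∀ φ : Aut X, Geo X φ → (∀ z ∈ Θ, φ z = z) → ∀ z ∈ M, φ z = z) ∧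
      ∀ φ : Aut X, Lift X φ 0 → (∀ z ∈ Θ, IsC z → φ z = z) →
        ∃ π : Aut X, Geo X π ∧ ∀ z ∈ Θ, φ z = π z

/-- **the geometric claim**: construction of the `CoreData` from subfields of `U` -/
def GeoStmt (p : ℕ) : Prop :=
  CoreStmt p →
  ∀ (n : ℕ) [NeZero n] (U : Type) [Field U] [Algebra ℂ U] [IsAlgClosed U] (X : World p n U)
    (M : IntermediateField (B X) U) [FiniteDimensional (B X) M] [IsGalois (B X) M],
    UnrE M (xB X) (yB X) (aC X) (bC X) →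
    ∀ K : IntermediateField X.C U, (∀ z : X.F, algebraMap X.F U z ∈ K) → (∀ z ∈ K, IsC z) →
    Cpl (X.v.comap (algebraMap K U)) → (∀ i, ∀ z ∈ K, X.v (X.D i z) ≤ X.v z) →
    ∀ (N : IntermediateField (IntermediateField.adjoin K {X.x, X.y}) U)
      [FiniteDimensional (IntermediateField.adjoin K {X.x, X.y}) N]
      [IsGalois (IntermediateField.adjoin K {X.x, X.y}) N], (∀ z ∈ N, z ∈ M) →
    ∀ φ : Aut X, Lift X φ 1 → (∀ z, z ∈ K ↔ φ z ∈ K) → (∀ z, z ∈ N ↔ φ z ∈ N) →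
    (∃ r : ℕ, 0 < r ∧ ∀ z ∈ N, (φ ^ r) z = z) →
    ∀ V : ValuationSubring K, Fine (C := X.C) (X.v.comap (algebraMap K U)) V →
    (∀ z z' : K, (z' : U) = φ z → (z' ∈ V ↔ z ∈ V)) →
    ∀ (i₀ : Fin n) (n₀ : ℕ) (ζ : ℂ) (u : AV (B X)) (γ : M ≃ₐ[B X] M)
      (g₀ : N ≃ₐ[IntermediateField.adjoin K {X.x, X.y}] N), 0 < n₀ → IsPrimitiveRoot ζ n₀ →
    AtPt u (xB X) (yB X) (aC X i₀) (bC X i₀) n₀ → GenOver u (algebraMap ℂ (B X) ζ) γ →
    (∀ (z : N) (z' : M), (z' : U) = z → ((γ z' : M) : U) = ((g₀ z : N) : U)) →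
    p ∣ orderOf g₀ →
    Module.finrank (IntermediateField.adjoin K {X.x, X.y}) N *
      (4 * Module.finrank (IntermediateField.adjoin K {X.x, X.y}) N + 1) + 1 < n →
    ∃ Q : Subgroup (N ≃ₐ[IntermediateField.adjoin K {X.x, X.y}] N),
      Q.Normal ∧ Q ≠ ⊥ ∧ IsPGroup p Q

/-- the basic properties of lifts (proved in `DsLift_6`) -/
structure LiftApi {p n : ℕ} [NeZero n] {U : Type} [Field U] [Algebra ℂ U] (X : World p n U) :
    Prop where
  one : Lift X 1 0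
  g : Lift X X.g 1
  mul : ∀ φ ψ i j, Lift X φ i → Lift X ψ j → Lift X (φ * ψ) (i + j)
  mod : ∀ φ i j, Lift X φ i → i ≡ j [MOD n] → Lift X φ j
  inv : ∀ φ j, Lift X φ j → Lift X φ⁻¹ ((n - 1) * j)
  geo : ∀ φ, Geo X φ → Lift X φ 0
  isC : ∀ φ j, Lift X φ j → ∀ z, IsC (φ z) ↔ IsC z
  memB : ∀ φ j, Lift X φ j → ∀ z, φ z ∈ B X ↔ z ∈ B X
  val : ∀ φ j, Lift X φ j → ∀ z, IsC z → X.v (φ z) = X.v z
  der : ∀ φ, Lift X φ 1 → ∀ i z, φ (X.D i z) = X.D (i + 1) (φ z)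
  derC : ∀ i z, IsC z → IsC (X.D i z)
  pt : ∀ φ j, Lift X φ j → Point.map (φ : U →ₐ[X.C] U) (Point.some _ _ X.ns) =
    Point.some _ _ X.ns - j • Point.baseChange X.C U X.P
  ptO : ∀ φ j, Lift X φ j → ∀ i, ∃ i', Point.map (φ : U →ₐ[X.C] U) (Point.some _ _ (X.nsO i)) +
    j • Point.baseChange X.C U X.P = Point.some _ _ (X.nsO i')
  root : ∀ (ζ : ℂ) (m : ℕ), 0 < m → ζ ^ m = 1 → ζ ∈ X.C
  alg : Algebra.IsAlgebraic (B X) U
  inj : Function.Injective (aC X)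

end Crest.Agent.T170.Ds
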