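import Crest.Agent.T170.DescCore2_74
import Crest.Agent.T170.DsDef_6

/-!
# Row 170, descent (helper74): the geometric claim `Ds.GeoStmt`
-/

set_option autoImplicit false

namespace Crest.Agent.T170.Desc74

open scoped NNReal Polynomial Classical
open WeierstrassCurve WeierstrassCurve.Affine Crest.Agent.T170.Fr Crest.Agent.T170.Ret

/-- the generators of an adjunction generate it -/
theorem adjoin_gen_top {K U : Type*} [Field K] [Field U] [Algebra K U] (x y : U) :
    IntermediateField.adjoin K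
      ({⟨x, IntermediateField.subset_adjoin K _ (Set.mem_insert _ _)⟩,
        ⟨y, IntermediateField.subset_adjoin K _ (Set.mem_insert_of_mem _ rfl)⟩} :
        Set (IntermediateField.adjoin K {x, y})) = ⊤ := by
  apply IntermediateField.lift_injective
  rw [IntermediateField.lift_adjoin, IntermediateField.lift_top, Set.image_pair]

/-- restriction of an automorphism to a stable subfield -/
theorem exists_res_aut {C N U : Type*} [Field C] [Field N] [Field U] [Algebra C N] [Algebra C U]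
    (j : N →ₐ[C] U) (φ : U ≃ₐ[C] U) (h : ∀ z, z ∈ j.fieldRange ↔ φ z ∈ j.fieldRange) :
    ∃ γ : N ≃ₐ[C] N, ∀ z, j (γ z) = φ (j z) := by
  have hi := j.toRingHom.injective
  have h1 : ∀ z, ∃ z', j z' = φ (j z) := fun z => (h _).1 ⟨z, rfl⟩
  choose f hf using h1
  let ψ : N →ₐ[C] N :=
    { toFun := f
      map_one' := hi (by change j _ = j _; rw [hf]; simp)
      map_mul' := fun a b => hi (by change j _ = j _; rw [hf, map_mul, map_mul, map_mul, hf, hf])
      map_zero' := hi (by change j _ = j _; rw [hf]; simp)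
      map_add' := fun a b => hi (by change j _ = j _; rw [hf, map_add, map_add, map_add, hf, hf])
      commutes' := fun c => hi (by change j _ = j _; rw [hf, j.commutes, φ.commutes]) }
  refine ⟨AlgEquiv.ofBijective ψ ⟨ψ.toRingHom.injective, fun z => ?_⟩, hf⟩
  obtain ⟨z', hz'⟩ := (h (φ.symm (j z))).2 (by rw [φ.apply_symm_apply]; exact ⟨z, rfl⟩)
  refine ⟨z', hi ?_⟩
  change j (f z') = j z
  rw [hf]
  exact (congrArg φ hz').trans (φ.apply_symm_apply _)

/-- the geometric claim for an abstract tower -/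
theorem geo_abs {p : ℕ} (hp : p.Prime) (hcore : CoreStmt p) {n : ℕ} [NeZero n] {U : Type}
    [Field U] [Algebra ℂ U] (X : World p n U) {B : Type} [Field B] [Algebra ℂ B] [Algebra B U]
    [IsScalarTower ℂ B U] (Y : Up X B) (M : IntermediateField B U) [FiniteDimensional B M]
    [IsGalois B M] (hU : UnrE M Y.x Y.y (fun i => (X.a i : ℂ)) (fun i => (X.b i : ℂ)))
    (K E N : Type) [Field K] [Field E] [Field N] [Algebra X.C K] [Algebra K E] [Algebra E N]
    [FiniteDimensional E N] [IsGalois E N] (j : N →+* U) (jK : K →+* U)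
    (hjK : ∀ k, j (algebraMap E N (algebraMap K E k)) = jK k)
    (hjC : ∀ c, jK (algebraMap X.C K c) = algebraMap X.C U c)
    (ι : X.F →+* K) (hι : ∀ z, jK (ι z) = algebraMap X.F U z)
    (hKC : ∀ k, ∃ c : ℂ, algebraMap ℂ U c = jK k)
    (x y : E) (jx : j (algebraMap E N x) = X.x) (jy : j (algebraMap E N y) = X.y)
    (gen : IntermediateField.adjoin K {x, y} = ⊤)
    (cpl : Cpl (X.v.comap jK)) (hvd : ∀ i k, X.v (X.D i (jK k)) ≤ X.v (jK k))
    (hNM : ∀ z, j z ∈ M) (φ : U ≃ₐ[X.C] U)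
    (hF : ∀ z : X.F, φ (algebraMap X.F U z) = X.g (algebraMap X.F U z))
    (hx : φ X.x = X.g X.x) (hy : φ X.y = X.g X.y) (hφK : ∀ k, ∃ k', jK k' = φ (jK k))
    (hφN : ∀ z, z ∈ j.fieldRange ↔ φ z ∈ j.fieldRange)
    (hfin : ∃ r : ℕ, 0 < r ∧ ∀ z, (φ ^ r) (j z) = j z)
    (V : ValuationSubring K) (fine : Fine (C := X.C) (X.v.comap jK) V)
    (hV : ∀ k k' : K, jK k' = φ (jK k) → (k' ∈ V ↔ k ∈ V))
    (i₀ : Fin n) {n₀ : ℕ} (hn : 0 < n₀) {ζ : ℂ} (hζ : IsPrimitiveRoot ζ n₀) {u₀ : AV B}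
    (hu : AtPt u₀ Y.x Y.y (X.a i₀) (X.b i₀) n₀) {γ₀ : M ≃ₐ[B] M}
    (hγ : GenOver u₀ (algebraMap ℂ B ζ) γ₀) {h : N ≃ₐ[E] N}
    (hh : ∀ (z : N) (z' : M), (z' : U) = j z → (γ₀ z' : U) = j (h z))
    (hph : p ∣ orderOf h) (hrk : Module.finrank E N * (4 * Module.finrank E N + 1) + 1 < n) :
    ∃ Q : Subgroup (N ≃ₐ[E] N), Q.Normal ∧ Q ≠ ⊥ ∧ IsPGroup p Q := by
  have := X.Cac
  let _ : Algebra X.F K := ι.toAlgebra
  let _ : Algebra X.C E := ((algebraMap K E).comp (algebraMap X.C K)).toAlgebra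
  let _ : Algebra K N := ((algebraMap E N).comp (algebraMap K E)).toAlgebra
  let _ : Algebra X.C N := ((algebraMap K N).comp (algebraMap X.C K)).toAlgebra
  have : IsScalarTower X.C K E := IsScalarTower.of_algebraMap_eq fun _ => rfl
  have : IsScalarTower K E N := IsScalarTower.of_algebraMap_eq fun _ => rfl
  have : IsScalarTower X.C E N := IsScalarTower.of_algebraMap_eq fun _ => rfl
  have : IsScalarTower X.C K N := IsScalarTower.of_algebraMap_eq fun _ => rfl
  have : Algebra.IsAlgebraic X.F K := ⟨fun k => by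
    obtain ⟨c, hc⟩ := hKC k
    let jK' : K →ₐ[X.F] U := { jK with commutes' := hι }
    have h1 : IsAlgebraic X.F (jK' k) := by
      change IsAlgebraic X.F (jK k)
      rw [← hc]
      exact (X.algF c).algebraMap
    exact (isAlgebraic_algHom_iff jK' jK.injective).1 h1⟩
  let j' : N →ₐ[X.C] U := { j with commutes' := fun c => (hjK _).trans (hjC c) }
  let J : Emb X K E N :=
    { j := j'
      jF := fun z => (hjK _).trans (hι z)
      x := x
      y := y
      jx := jx
      jy := jy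
      gen := gen }
  have hK' : ∀ k, j' (algebraMap K N k) = jK k := hjK
  have hv : J.vE.comap (algebraMap K E) = X.v.comap jK :=
    Valuation.ext fun k => congrArg X.v (hjK k)
  obtain ⟨γ, hγ'⟩ := exists_res_aut j' φ hφN
  have hi : Function.Injective j' := j.injective
  have hpow : ∀ (m : ℕ) z, j' ((γ ^ m) z) = (φ ^ m) (j' z) := by
    intro m
    induction m with
    | zero => intro z; rfl
    | succ m ih =>
      intro z
      rw [pow_succ', pow_succ', AlgEquiv.mul_apply, AlgEquiv.mul_apply, hγ', ih]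
  refine hcore n X.R X.C K E N
    (J.coreData hp (hv ▸ cpl) (fun i k => ?_) γ (fun z => hi ?_) ?_ ?_
      (fun k => ?_) ?_ V (hv ▸ fine) (fun k k' hk => hV k k' ?_) Y M hU hNM i₀ hn hζ hu hγ
      hh hph) hrk
  · have e : J.jK k = jK k := hjK k
    rw [e]; exact hvd i k
  · rw [hγ', hK', hK']
    exact (congrArg φ (hι z)).trans ((hF z).trans ((X.gσ z).trans (hι _).symm))
  · exact (hγ' _).trans ((congrArg φ jx).trans hx)
  · exact (hγ' _).trans ((congrArg φ jy).trans hy)
  · obtain ⟨k', hk'⟩ := hφK k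
    exact ⟨k', hi (by rw [hγ', hK', hK', hk'])⟩
  · obtain ⟨r, hr0, hr1⟩ := hfin
    refine isOfFinOrder_iff_pow_eq_one.2 ⟨r, hr0, AlgEquiv.ext fun z => hi ?_⟩
    exact (hpow r z).trans (hr1 z)
  · rw [← hK', ← hK', ← hk, hγ']

/-- **the geometric claim** -/
theorem geoStmt {p : ℕ} (hp : p.Prime) : Ds.GeoStmt p := by
  intro hcore n _ U _ _ _ X M _ _ hU K hFK hKC cpl hvd N _ _ hNM φ hφ hφK hφN hfin V fine hV
    i₀ n₀ ζ u γ₀ g₀ hn hζ hu hγ hh hpg hrk
  let Y : Up X (Ds.B X) :=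
    { x := Ds.xB X
      y := Ds.yB X
      hx := rfl
      hy := rfl
      gen := adjoin_gen_top _ _ }
  have hr : ∀ z, z ∈ (algebraMap N U).fieldRange ↔ z ∈ N := fun z =>
    ⟨fun ⟨t, ht⟩ => ht ▸ t.2, fun hz => ⟨⟨z, hz⟩, rfl⟩⟩
  obtain ⟨r, hr0, hr1⟩ := hfin
  exact geo_abs hp hcore X Y M hU K (IntermediateField.adjoin K {X.x, X.y}) N (algebraMap N U)
    (algebraMap K U) (fun _ => rfl) (fun _ => rfl) ((algebraMap X.F U).codRestrict K hFK)
    (fun _ => rfl) (fun k => hKC k k.2)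
    ⟨X.x, IntermediateField.subset_adjoin K _ (Set.mem_insert _ _)⟩
    ⟨X.y, IntermediateField.subset_adjoin K _ (Set.mem_insert_of_mem _ rfl)⟩ rfl rfl
    (adjoin_gen_top _ _) cpl (fun i k => hvd i k k.2) (fun z => hNM z z.2) φ
    (fun z => by simpa using hφ.F z) (by simpa using hφ.x) (by simpa using hφ.y)
    (fun k => ⟨⟨φ k, (hφK k).1 k.2⟩, rfl⟩) (fun z => by rw [hr, hr]; exact hφN z)
    ⟨r, hr0, fun z => hr1 z z.2⟩ V fine hV i₀ hn hζ hu hγ hh hpg hrk

end Crest.Agent.T170.Desc74
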