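import Crest.Agent.T170.EllB_61

/-!
# Row 170, module D (helper61), part C: operations on places, the Gauss valuation on `K(E)`

* `Place.ofRel`, `Place.comap`, `Place.map`, `Place.comp`.
* `GaussX v K x` : `v` is the Gauss valuation on `K[x]`; `GaussX.val_add_mul_y`, `exists_int_div`,
  `exists_val_eq`, `valuation_ext`, `exists_sp_eq`, `isGen_sp`, `gaussX_of_isAlgClosed`.
-/

set_option autoImplicit false

namespace Crest.Agent.T170.Ell

open WeierstrassCurve WeierstrassCurve.Affine Polynomial Place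

namespace Place

variable {K L Om Om' : Type*} [Field K] [Field L] [Field Om] [Field Om']

/-- A place given by its graph. -/
theorem exists_of_rel (S : L → Om → Prop) (h1 : S 1 1)
    (hsub : ∀ {x y a b}, S x a → S y b → S (x - y) (a - b))
    (hmul : ∀ {x y a b}, S x a → S y b → S (x * y) (a * b))
    (h0 : ∀ a, S 0 a → a = 0) (hinv : ∀ {x a}, S x a → a ≠ 0 → ∃ b, S x⁻¹ b)
    (htot : ∀ x, (∃ a, S x a) ∨ ∃ a, S x⁻¹ a) : ∃ P : Place L Om, ∀ x a, P.Sp x a ↔ S x a := by
  have hz : S 0 0 := by simpa using hsub h1 h1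
  have hneg : ∀ {x a}, S x a → S (-x) (-a) := fun h => by simpa using hsub hz h
  have hadd : ∀ {x y a b}, S x a → S y b → S (x + y) (a + b) := fun h h' => by
    simpa using hsub h (hneg h')
  have hu : ∀ {x a b}, S x a → S x b → a = b := fun h h' =>
    sub_eq_zero.mp (h0 _ (by simpa using hsub h h'))
  let A : ValuationSubring L :=
    { carrier := {x | ∃ a, S x a}
      mul_mem' := fun ⟨_, h⟩ ⟨_, h'⟩ => ⟨_, hmul h h'⟩
      one_mem' := ⟨_, h1⟩
      add_mem' := fun ⟨_, h⟩ ⟨_, h'⟩ => ⟨_, hadd h h'⟩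
      zero_mem' := ⟨_, hz⟩
      neg_mem' := fun ⟨_, h⟩ => ⟨_, hneg h⟩
      mem_or_inv_mem' := htot }
  choose f hf using fun x : A => (x.2 : ∃ a, S x a)
  let φ : A →+* Om :=
    { toFun := f
      map_one' := hu (hf 1) h1
      map_mul' := fun x y => hu (hf _) (hmul (hf x) (hf y))
      map_zero' := hu (hf 0) hz
      map_add' := fun x y => hu (hf _) (hadd (hf x) (hf y)) }
  refine ⟨⟨A, φ, fun a ha => hinv (hf a) ha⟩, fun x a => ⟨?_, fun h => ⟨⟨a, h⟩, hu (hf _) h⟩⟩⟩
  rintro ⟨hx, rfl⟩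
  exact hf ⟨x, hx⟩

theorem mem_iff_exists_sp {P : Place L Om} {x : L} : x ∈ P.A ↔ ∃ a, P.Sp x a :=
  ⟨fun h => ⟨_, sp_val h⟩, fun ⟨_, h⟩ => h.mem⟩

theorem sp_total (P : Place L Om) (x : L) : (∃ a, P.Sp x a) ∨ P.Sp x⁻¹ 0 := by
  by_cases h : x ∈ P.A
  · exact Or.inl ⟨_, sp_val h⟩
  · exact Or.inr (sp_inv_of_not_mem h)

/-- Restriction of a place to a subfield. -/
def comap (P : Place L Om) (j : K →+* L) : Place K Om where
  A := P.A.comap j
  φ := P.φ.comp (((j.comp (P.A.comap j).subtype)).codRestrict P.A.toSubring fun a => a.2)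
  loc := fun a ha => by
    have := P.loc ⟨j a, a.2⟩ ha
    rwa [← map_inv₀] at this

theorem comap_sp (P : Place L Om) (j : K →+* L) (x : K) (a : Om) :
    (P.comap j).Sp x a ↔ P.Sp (j x) a := Iff.rfl

theorem mem_comap (P : Place L Om) (j : K →+* L) (x : K) : x ∈ (P.comap j).A ↔ j x ∈ P.A :=
  Iff.rfl

/-- Enlarging the field of values. -/
def map (P : Place L Om) (f : Om →+* Om') : Place L Om' where
  A := P.A
  φ := f.comp P.φ
  loc := fun a ha => P.loc a fun h => ha (by simp [h])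

theorem map_sp (P : Place L Om) (f : Om →+* Om') (x : L) (b : Om') :
    (P.map f).Sp x b ↔ ∃ a, P.Sp x a ∧ f a = b :=
  ⟨fun ⟨h, e⟩ => ⟨_, ⟨h, rfl⟩, e⟩, fun ⟨_, ⟨h, e⟩, e'⟩ => ⟨h, by rw [← e', ← e]; rfl⟩⟩

theorem Sp.map {P : Place L Om} {x : L} {a : Om} (h : P.Sp x a) (f : Om →+* Om') :
    (P.map f).Sp x (f a) := (map_sp _ _ _ _).mpr ⟨a, h, rfl⟩

theorem exists_comp (P : Place L Om) (P' : Place Om Om') :
    ∃ Q : Place L Om', ∀ x b, Q.Sp x b ↔ ∃ a, P.Sp x a ∧ P'.Sp a b := by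
  refine exists_of_rel _ ⟨1, sp_one, sp_one⟩ ?_ ?_ ?_ ?_ fun x => ?_
  · rintro x y a b ⟨c, h, h'⟩ ⟨d, k, k'⟩
    exact ⟨_, h.sub k, h'.sub k'⟩
  · rintro x y a b ⟨c, h, h'⟩ ⟨d, k, k'⟩
    exact ⟨_, h.mul k, h'.mul k'⟩
  · rintro a ⟨c, h, h'⟩
    rw [h.unique sp_zero] at h'
    exact h'.unique sp_zero
  · rintro x a ⟨c, h, h'⟩ ha
    exact ⟨_, _, h.inv (h'.ne_zero ha), h'.inv ha⟩
  · rcases P.sp_total x with ⟨a, h⟩ | h
    · by_cases ha : a ∈ P'.A
      · exact Or.inl ⟨_, _, h, sp_val ha⟩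
      · obtain ⟨h0, hi⟩ := not_mem_iff.mp ha
        exact Or.inr ⟨_, _, h.inv h0, hi⟩
    · exact Or.inr ⟨_, _, h, sp_zero⟩

/-- Composition of places. -/
noncomputable def comp (P : Place L Om) (P' : Place Om Om') : Place L Om' :=
  (exists_comp P P').choose

theorem comp_sp (P : Place L Om) (P' : Place Om Om') (x : L) (b : Om') :
    (P.comp P').Sp x b ↔ ∃ a, P.Sp x a ∧ P'.Sp a b := (exists_comp P P').choose_spec x b

theorem Sp.comp {P : Place L Om} {P' : Place Om Om'} {x : L} {a : Om} {b : Om'} (h : P.Sp x a)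
    (h' : P'.Sp a b) : (P.comp P').Sp x b := (comp_sp _ _ _ _).mpr ⟨a, h, h'⟩

/-- A place whose values lie in a subfield. -/
theorem exists_codRestrict (P : Place L Om') (f : Om →+* Om')
    (h : ∀ x b, P.Sp x b → ∃ a, f a = b) : ∃ Q : Place L Om, ∀ x a, Q.Sp x a ↔ P.Sp x (f a) := by
  refine exists_of_rel _ (by simpa using sp_one) ?_ ?_ ?_ ?_ fun x => ?_
  · intro x y a b k k'
    simpa using k.sub k'
  · intro x y a b k k'
    simpa using k.mul k'
  · intro a k
    exact (map_eq_zero f).mp (k.unique sp_zero)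
  · intro x a k ha
    exact ⟨a⁻¹, by simpa using k.inv ((map_ne_zero f).mpr ha)⟩
  · rcases P.sp_total x with ⟨b, k⟩ | k
    · obtain ⟨a, rfl⟩ := h _ _ k
      exact Or.inl ⟨a, k⟩
    · exact Or.inr ⟨0, by simpa using k⟩

/-- If `f, j` intertwine `P` and `Q`, membership in the valuation rings corresponds. -/
theorem mem_iff_of_sp {P : Place K Om} {Q : Place L Om'} {j : K →+* L} {f : Om →+* Om'}
    (h : ∀ x a, P.Sp x a → Q.Sp (j x) (f a)) (x : K) : j x ∈ Q.A ↔ x ∈ P.A := by
  refine ⟨fun hx => ?_, fun hx => (h _ _ (sp_val hx)).mem⟩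
  by_contra hm
  obtain ⟨h0, hi⟩ := not_mem_iff.mp hm
  have := h _ _ hi
  rw [map_inv₀, map_zero] at this
  exact absurd hx (not_mem_iff.mpr ⟨(map_ne_zero j).mpr h0, this⟩)

theorem sp_iff_of_sp {P : Place K Om} {Q : Place L Om'} {j : K →+* L} {f : Om →+* Om'}
    (h : ∀ x a, P.Sp x a → Q.Sp (j x) (f a)) (x : K) (a : Om) : Q.Sp (j x) (f a) ↔ P.Sp x a := by
  refine ⟨fun hx => ?_, h _ _⟩
  have hm := (mem_iff_of_sp h x).mp hx.mem
  exact f.injective ((h _ _ (sp_val hm)).unique hx) ▸ sp_val hm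

section Val

variable {Γ : Type*} [LinearOrderedCommGroupWithZero Γ]

/-- The valuation ring of the place `P` is the ring of the valuation `v`. -/
def IsOf (P : Place L Om) (v : Valuation L Γ) : Prop := ∀ z, z ∈ P.A ↔ v z ≤ 1

variable {P : Place L Om} {v : Valuation L Γ}

theorem IsOf.A_eq (h : P.IsOf v) : P.A = v.valuationSubring :=
  ValuationSubring.ext _ _ h

theorem IsOf.le_one (h : P.IsOf v) {z : L} {a : Om} (hz : P.Sp z a) : v z ≤ 1 := (h z).mp hz.mem

theorem IsOf.eq_one (h : P.IsOf v) {z : L} {a : Om} (hz : P.Sp z a) (ha : a ≠ 0) : v z = 1 := by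
  refine le_antisymm (h.le_one hz) ?_
  have h1 := h.le_one (hz.inv ha)
  rw [map_inv₀] at h1
  exact (inv_le_one₀ (zero_lt_iff.mpr ((map_ne_zero v).mpr (hz.ne_zero ha)))).mp h1

theorem IsOf.sp_zero_iff (h : P.IsOf v) {z : L} : P.Sp z 0 ↔ v z < 1 := by
  rcases eq_or_ne z 0 with rfl | h0
  · simpa using sp_zero
  have h1 : P.Sp z 0 ↔ z⁻¹ ∉ P.A := by rw [not_mem_iff, inv_inv]; simp [h0]
  rw [h1, h, map_inv₀, not_le, one_lt_inv₀ (zero_lt_iff.mpr ((map_ne_zero v).mpr h0))]

theorem IsOf.sp_of_sub (h : P.IsOf v) {z w : L} {a : Om} (hw : P.Sp w a) (hz : v (z - w) < 1) :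
    P.Sp z a := by
  simpa using (h.sp_zero_iff.mpr hz).add hw

theorem IsOf.exists_sp_ne_zero (h : P.IsOf v) {z : L} (hz : v z = 1) :
    ∃ a, a ≠ 0 ∧ P.Sp z a := by
  have hm := sp_val ((h z).mpr hz.le)
  refine ⟨_, fun h0 => ?_, hm⟩
  rw [h0, h.sp_zero_iff, hz] at hm
  exact lt_irrefl _ hm

/-- The place of a valuation, with values in the residue field. -/
theorem isOf_ofValuationSubring (v : Valuation L Γ) :
    (Place.ofValuationSubring v.valuationSubring).IsOf v := fun _ => Iff.rfl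

theorem ofValuationSubring_surj (A : ValuationSubring L) (a : IsLocalRing.ResidueField A) :
    ∃ z, (Place.ofValuationSubring A).Sp z a := by
  obtain ⟨z, rfl⟩ := IsLocalRing.residue_surjective a
  exact ⟨z, z.2, rfl⟩

/-- An "unramified" extension of a valuation along a place. -/
theorem exists_valuation (v : Valuation K Γ) (Q : Place L Om) (j : K →+* L)
    (hj : ∀ c, j c ∈ Q.A ↔ v c ≤ 1) (hd : ∀ z, ∃ c u a, a ≠ 0 ∧ Q.Sp u a ∧ z = j c * u) :
    ∃ η : Valuation L Γ, (∀ c, η (j c) = v c) ∧ Q.IsOf η := by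
  let D : L → K → Prop := fun z c => ∃ u a, a ≠ 0 ∧ Q.Sp u a ∧ z = j c * u
  have hle : ∀ {z c c'}, D z c → (∃ w ∈ Q.A, z = j c' * w) → v c ≤ v c' := by
    rintro z c c' ⟨u, a, ha, hu, rfl⟩ ⟨w, hw, e⟩
    rcases eq_or_ne c' 0 with rfl | h0
    · have : j c = 0 := by simpa [hu.ne_zero ha] using e
      simp [(map_eq_zero j).mp this]
    have h1 : j (c / c') = w * u⁻¹ := by
      have := hu.ne_zero ha
      have := (map_ne_zero j).mpr h0
      rw [map_div₀]
      field_simp
      exact e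
    have h2 := (hj _).mp (h1 ▸ mul_mem hw (hu.inv ha).mem)
    rwa [map_div₀, div_le_one₀ (zero_lt_iff.mpr ((map_ne_zero v).mpr h0))] at h2
  have hw : ∀ {z c}, D z c → ∃ w ∈ Q.A, z = j c * w := fun ⟨u, _, _, hu, e⟩ => ⟨u, hu.mem, e⟩
  have hu : ∀ {z c c'}, D z c → D z c' → v c = v c' := fun h h' =>
    le_antisymm (hle h (hw h')) (hle h' (hw h))
  have hc : ∀ c, D (j c) c := fun c => ⟨1, 1, one_ne_zero, sp_one, (mul_one _).symm⟩
  choose g hg using (hd : ∀ z, ∃ c, D z c)
  have hadd : ∀ z z', v (g z') ≤ v (g z) → v (g (z + z')) ≤ v (g z) := by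
    intro z z' h
    obtain ⟨w, hw1, e⟩ := hw (hg z)
    obtain ⟨w', hw', e'⟩ := hw (hg z')
    rcases eq_or_ne (g z) 0 with h0 | h0
    · have h1 : g z' = 0 := by simpa [h0] using h
      refine hle (hg _) ⟨0, zero_mem _, ?_⟩
      rw [e, e', h0, h1]; simp
    have h1 : j (g z' / g z) ∈ Q.A := by
      rw [hj, map_div₀, div_le_one₀ (zero_lt_iff.mpr ((map_ne_zero v).mpr h0))]
      exact h
    refine hle (hg _) ⟨w + j (g z' / g z) * w', add_mem hw1 (mul_mem h1 hw'), ?_⟩
    have := (map_ne_zero j).mpr h0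
    rw [mul_add, ← e, map_div₀, ← mul_assoc, mul_div_cancel₀ _ this, ← e']
  let η : Valuation L Γ :=
    { toFun := fun z => v (g z)
      map_zero' := (hu (hg 0) (by simpa using hc 0)).trans (map_zero v)
      map_one' := (hu (hg 1) (by simpa using hc 1)).trans (map_one v)
      map_mul' := fun z z' => by
        rw [← map_mul]
        obtain ⟨u, a, ha, hs, e⟩ := hg z
        obtain ⟨u', a', ha', hs', e'⟩ := hg z'
        refine hu (hg _) ⟨u * u', a * a', mul_ne_zero ha ha', hs.mul hs', ?_⟩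
        rw [map_mul, mul_mul_mul_comm, ← e, ← e']
      map_add_le_max' := fun z z' => by
        rcases le_total (v (g z')) (v (g z)) with h | h
        · exact le_max_of_le_left (hadd z z' h)
        · exact le_max_of_le_right (add_comm z z' ▸ hadd z' z h) }
  refine ⟨η, fun c => hu (hg _) (hc c), fun z => ⟨fun hz => ?_, fun hz => ?_⟩⟩
  · exact (hle (c' := 1) (hg z) ⟨z, hz, by simp⟩).trans_eq (map_one v)
  · obtain ⟨w, hw1, e⟩ := hw (hg z)
    rw [e]
    exact mul_mem ((hj _).mpr hz) hw1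

end Val

section Poly

variable {P : Place K Om}

/-- Coefficientwise specialisation of polynomials. -/
def PolySp (P : Place K Om) (p : K[X]) (pb : Om[X]) : Prop := ∀ i, P.Sp (p.coeff i) (pb.coeff i)

theorem exists_polySp {p : K[X]} (h : ∀ i, p.coeff i ∈ P.A) : ∃ pb, P.PolySp p pb := by
  refine ⟨∑ i ∈ p.support, monomial i (P.val (p.coeff i)), fun i => ?_⟩
  simp only [finsetSum_coeff, coeff_monomial, Finset.sum_ite_eq']
  split_ifs with hi
  · exact sp_val (h i)
  · rw [notMem_support_iff.mp hi]; exact sp_zero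

theorem polySp_zero : P.PolySp 0 0 := fun _ => by simpa using sp_zero

theorem polySp_one : P.PolySp 1 1 := fun i => by
  simp only [coeff_one]
  split_ifs
  exacts [sp_one, sp_zero]

theorem exists_polySp_lift (hs : ∀ d, ∃ c, P.Sp c d) (pb : Om[X]) : ∃ p, P.PolySp p pb := by
  choose g hg using hs
  refine ⟨∑ i ∈ pb.support, monomial i (g (pb.coeff i)), fun i => ?_⟩
  simp only [finsetSum_coeff, coeff_monomial, Finset.sum_ite_eq']
  split_ifs with hi
  · exact hg _
  · rw [notMem_support_iff.mp hi]; exact sp_zero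

theorem Sp.polySp_C {c : K} {d : Om} (h : P.Sp c d) : P.PolySp (C c) (C d) := fun i => by
  simp only [coeff_C]
  split_ifs
  exacts [h, sp_zero]

theorem polySp_X : P.PolySp X X := fun i => by
  simp only [coeff_X]
  split_ifs
  exacts [sp_one, sp_zero]

theorem PolySp.add {p q : K[X]} {pb qb : Om[X]} (h : P.PolySp p pb) (h' : P.PolySp q qb) :
    P.PolySp (p + q) (pb + qb) := fun i => by simpa using (h i).add (h' i)

theorem PolySp.sub {p q : K[X]} {pb qb : Om[X]} (h : P.PolySp p pb) (h' : P.PolySp q qb) :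
    P.PolySp (p - q) (pb - qb) := fun i => by simpa using (h i).sub (h' i)

theorem PolySp.mul {p q : K[X]} {pb qb : Om[X]} (h : P.PolySp p pb) (h' : P.PolySp q qb) :
    P.PolySp (p * q) (pb * qb) := fun i => by
  rw [coeff_mul, coeff_mul]
  exact sp_sum _ fun j _ => (h _).mul (h' _)

theorem PolySp.natDegree_le {p : K[X]} {pb : Om[X]} (h : P.PolySp p pb) :
    pb.natDegree ≤ p.natDegree :=
  natDegree_le_iff_coeff_eq_zero.mpr fun i hi =>
    (h i).unique (by rw [coeff_eq_zero_of_natDegree_lt hi]; exact sp_zero)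

theorem PolySp.pow {p : K[X]} {pb : Om[X]} (h : P.PolySp p pb) (n : ℕ) :
    P.PolySp (p ^ n) (pb ^ n) := by
  induction n with
  | zero => simpa using polySp_one
  | succ n ih => simpa only [pow_succ] using ih.mul h

theorem PolySp.sp_eval₂ {p : K[X]} {pb : Om[X]} (h : P.PolySp p pb) {Q : Place L Om'}
    {j : K →+* L} {f : Om →+* Om'} (hQ : ∀ c d, P.Sp c d → Q.Sp (j c) (f d)) {x : L} {a : Om'}
    (hx : Q.Sp x a) : Q.Sp (eval₂ j x p) (eval₂ f a pb) := by
  rw [eval₂_eq_sum_range' j (Nat.lt_succ_self _), eval₂_eq_sum_range' f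
    (Nat.lt_succ_of_le h.natDegree_le)]
  exact sp_sum _ fun i _ => (hQ _ _ (h i)).mul (hx.pow i)

theorem exists_content (P : Place K Om) (s : Finset K) (hs : ∃ a ∈ s, a ≠ 0) :
    ∃ c ∈ s, c ≠ 0 ∧ ∀ a ∈ s, c⁻¹ * a ∈ P.A := by
  obtain ⟨a, ha, ha0⟩ := hs
  obtain ⟨c, hc, hmax⟩ := s.exists_max_image P.A.valuation ⟨a, ha⟩
  have hc0 : c ≠ 0 := by
    rintro rfl
    exact ha0 (by simpa using hmax a ha)
  refine ⟨c, hc, hc0, fun b hb => ?_⟩
  rw [← P.A.valuation_le_one_iff, map_mul, map_inv₀,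
    inv_mul_le_one₀ (zero_lt_iff.mpr ((_root_.map_ne_zero _).mpr hc0))]
  exact hmax b hb

/-- Extraction of the content of a pair of polynomials. -/
theorem exists_polySp_pair (P : Place K Om) (p q : K[X]) : ∃ (c : K) (p' q' : K[X])
    (pb qb : Om[X]), p = C c * p' ∧ q = C c * q' ∧ P.PolySp p' pb ∧ P.PolySp q' qb ∧
      (pb ≠ 0 ∨ qb ≠ 0) := by
  classical
  by_cases h : p = 0 ∧ q = 0
  · exact ⟨0, 1, 0, 1, 0, by simp [h.1], by simp [h.2], polySp_one, polySp_zero,
      Or.inl one_ne_zero⟩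
  obtain ⟨c, hc, hc0, hm⟩ := P.exists_content (p.coeffs ∪ q.coeffs) (by
    rcases not_and_or.mp h with h | h
    · exact ⟨p.leadingCoeff, Finset.mem_union_left _ (coeff_mem_coeffs (leadingCoeff_ne_zero.mpr h)),
        leadingCoeff_ne_zero.mpr h⟩
    · exact ⟨q.leadingCoeff, Finset.mem_union_right _ (coeff_mem_coeffs
        (leadingCoeff_ne_zero.mpr h)), leadingCoeff_ne_zero.mpr h⟩)
  have key : ∀ r : K[X], r.coeffs ⊆ p.coeffs ∪ q.coeffs → ∀ i, (C c⁻¹ * r).coeff i ∈ P.A := by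
    intro r hr i
    rw [coeff_C_mul]
    by_cases hi : r.coeff i = 0
    · rw [hi, mul_zero]; exact zero_mem _
    · exact hm _ (hr (coeff_mem_coeffs hi))
  obtain ⟨pb, hp⟩ := exists_polySp (key p Finset.subset_union_left)
  obtain ⟨qb, hq⟩ := exists_polySp (key q Finset.subset_union_right)
  have e : ∀ r : K[X], r = C c * (C c⁻¹ * r) := fun r => by
    rw [← mul_assoc, ← C_mul, mul_inv_cancel₀ hc0, C_1, one_mul]
  have k2 : ∀ (r : K[X]) rb, P.PolySp (C c⁻¹ * r) rb → c ∈ r.coeffs → rb ≠ 0 := by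
    intro r rb hr hcr h0
    obtain ⟨i, -, hi⟩ := mem_coeffs_iff.mp hcr
    have := hr i
    rw [coeff_C_mul, ← hi, inv_mul_cancel₀ hc0, h0, coeff_zero] at this
    exact one_ne_zero (sp_one.unique this)
  exact ⟨c, _, _, pb, qb, e p, e q, hp, hq,
    (Finset.mem_union.mp hc).imp (k2 p pb hp) (k2 q qb hq)⟩

theorem exists_polySp_content (P : Place K Om) (p : K[X]) : ∃ (c : K) (p' : K[X]) (pb : Om[X]),
    p = C c * p' ∧ P.PolySp p' pb ∧ pb ≠ 0 := by
  obtain ⟨c, p', q', pb, qb, e, e', hp, hq, h⟩ := P.exists_polySp_pair p p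
  rcases h with h | h
  exacts [⟨c, p', pb, e, hp, h⟩, ⟨c, q', qb, e', hq, h⟩]

end Poly

end Place

section GaussX

variable {R K L : Type*} [CommRing R] [Field K] [Field L] [Algebra R L] [Algebra K L]
  {Γ : Type*} [LinearOrderedCommGroupWithZero Γ]

/-- `v` is the Gauss valuation on `K[x]`. -/
def GaussX (v : Valuation L Γ) (K : Type*) [Field K] [Algebra K L] (x : L) : Prop :=
  ∀ (f : K[X]) (γ : Γ), v (aeval x f) ≤ γ ↔ ∀ i, v (algebraMap K L (f.coeff i)) ≤ γ

theorem gaussX_iff_sup {v : Valuation L NNReal} {x : L} : GaussX v K x ↔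
    ∀ f : K[X], v (aeval x f) = f.support.sup fun i => v (algebraMap K L (f.coeff i)) := by
  have key : ∀ (f : K[X]) (γ : NNReal), (f.support.sup fun i => v (algebraMap K L (f.coeff i))) ≤ γ
      ↔ ∀ i, v (algebraMap K L (f.coeff i)) ≤ γ := fun f γ => by
    rw [Finset.sup_le_iff]
    refine ⟨fun h i => ?_, fun h i _ => h i⟩
    by_cases hi : i ∈ f.support
    · exact h i hi
    · simp [notMem_support_iff.mp hi]
  exact ⟨fun h f => eq_of_forall_ge_iff fun γ => (h f γ).trans (key f γ).symm,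
    fun h f γ => by rw [h f, key]⟩

variable {v : Valuation L Γ} {x y : L} {κ : Type*} [Field κ] {P : Place K κ}

theorem GaussX.le_one (hg : GaussX v K x) : v x ≤ 1 := by
  have := (hg X 1).mpr fun i => by
    rw [coeff_X]
    split_ifs <;> simp
  simpa using this

theorem GaussX.eq_one (hg : GaussX v K x) (hP : P.IsOf (v.comap (algebraMap K L))) {f : K[X]}
    {fb : κ[X]} (hf : P.PolySp f fb) (h0 : fb ≠ 0) : v (aeval x f) = 1 := by
  refine le_antisymm ((hg f 1).mpr fun i => hP.le_one (hf i)) ?_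
  have h1 : v (algebraMap K L (f.coeff fb.natDegree)) = 1 :=
    hP.eq_one (hf _) (leadingCoeff_ne_zero.mpr h0)
  exact h1 ▸ (hg f _).mp le_rfl _

theorem GaussX.val_x (hg : GaussX v K x) : v x = 1 := by
  simpa using hg.eq_one (isOf_ofValuationSubring _) polySp_X X_ne_zero

theorem GaussX.transcendental (hg : GaussX v K x) : Transcendental K x := by
  rintro ⟨f, hf, h0⟩
  have := (hg f 0).mp (by simp [h0]) f.natDegree
  exact hf (by simpa using this)

theorem val_aeval_le (hx : v x ≤ 1) {f : K[X]} {γ : Γ}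
    (hf : ∀ i, v (algebraMap K L (f.coeff i)) ≤ γ) : v (aeval x f) ≤ γ := by
  rw [aeval_eq_sum_range]
  refine Valuation.map_sum_le _ fun i _ => ?_
  rw [Algebra.smul_def, map_mul, map_pow]
  exact (mul_le_of_le_one_right' (pow_le_one₀ zero_le hx)).trans (hf i)

/-- Criterion for the Gauss property: primitive polynomials in `x` are units. -/
theorem gaussX_of_eq_one (hP : P.IsOf (v.comap (algebraMap K L)))
    (h : ∀ f fb, P.PolySp f fb → fb ≠ 0 → v (aeval x f) = 1) : GaussX v K x := by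
  have hx : v x ≤ 1 := by simpa using (h _ _ polySp_X X_ne_zero).le
  refine fun f γ => ⟨fun hf i => ?_, val_aeval_le hx⟩
  obtain ⟨c, p, pb, rfl, hp, h0⟩ := P.exists_polySp_content f
  rw [map_mul, aeval_C, map_mul, h _ _ hp h0, mul_one] at hf
  rw [coeff_C_mul, map_mul, map_mul]
  exact (mul_le_of_le_one_right' (hP.le_one (hp i))).trans hf

theorem gaussX_of_transcendental {Om : Type*} [Field Om] [Algebra κ Om] {Q : Place L Om}
    (hQ : Q.IsOf v) (hPQ : ∀ c d, P.Sp c d → Q.Sp (algebraMap K L c) (algebraMap κ Om d))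
    {xb : Om} (hx : Q.Sp x xb) (ht : Transcendental κ xb) : GaussX v K x :=
  gaussX_of_eq_one (P := P) (fun c => (mem_iff_of_sp hPQ c).symm.trans (hQ _)) fun _ fb hf h0 =>
    hQ.eq_one (hf.sp_eval₂ hPQ hx) fun e => ht ⟨fb, h0, e⟩

theorem GaussX.transcendental_sp (hg : GaussX v K x) {Om : Type*} [Field Om] [Algebra κ Om]
    {Q : Place L Om} (hQ : Q.IsOf v)
    (hPQ : ∀ c d, P.Sp c d → Q.Sp (algebraMap K L c) (algebraMap κ Om d))
    (hs : ∀ d, ∃ c, P.Sp c d) {xb : Om} (hx : Q.Sp x xb) : Transcendental κ xb := by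
  rintro ⟨fb, h0, e⟩
  obtain ⟨f, hf⟩ := exists_polySp_lift hs fb
  have h1 := hg.eq_one (P := P) (fun c => (mem_iff_of_sp hPQ c).symm.trans (hQ _)) hf h0
  have h2 : Q.Sp (aeval x f) (aeval xb fb) := hf.sp_eval₂ hPQ hx
  rw [e, hQ.sp_zero_iff, h1] at h2
  exact lt_irrefl _ h2

/-- Over an algebraically closed field the Gauss property is a condition on linear polynomials. -/
theorem gaussX_of_isAlgClosed [IsAlgClosed K] (hx : v x ≤ 1)
    (h : ∀ c : K, 1 ≤ v (x - algebraMap K L c)) : GaussX v K x := by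
  let w := v.comap (algebraMap K L)
  have key : ∀ (s : Multiset K) (i : ℕ),
      w (((s.map fun a => X - C a).prod).coeff i) ≤ v (aeval x (s.map fun a => X - C a).prod) := by
    intro s
    induction s using Multiset.induction_on with
    | empty =>
      intro i
      simp only [Multiset.map_zero, Multiset.prod_zero, coeff_one]
      split_ifs <;> simp
    | cons a s ih =>
      intro i
      rw [Multiset.map_cons, Multiset.prod_cons, map_mul, map_mul, sub_mul, coeff_sub, coeff_C_mul]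
      set g := (s.map fun a => X - C a).prod
      have e : aeval x (X - C a) = x - algebraMap K L a := by simp
      have h1 : w a ≤ v (x - algebraMap K L a) := by
        by_contra hlt
        push Not at hlt
        have h2 : v x = w a := by
          have := v.map_add_eq_of_lt_right (x := x - algebraMap K L a) (y := algebraMap K L a) hlt
          rwa [sub_add_cancel] at this
        exact absurd ((h a).trans_lt (hlt.trans_le (h2 ▸ hx))) (lt_irrefl _)
      rw [e]
      refine (w.map_sub _ _).trans (max_le ?_ ?_)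
      · refine le_trans ?_ (le_mul_of_one_le_left' (h a))
        rcases i with _ | i
        · simp
        · rw [coeff_X_mul]; exact ih i
      · rw [map_mul]; exact mul_le_mul' h1 (ih i)
  refine fun f γ => ⟨fun hf i => le_trans ?_ hf, val_aeval_le hx⟩
  have e := (IsAlgClosed.splits f).eq_prod_roots
  have := key f.roots i
  conv_lhs => rw [e, coeff_C_mul, map_mul, map_mul]
  conv_rhs => rw [e, map_mul, aeval_C, map_mul]
  exact mul_le_mul' le_rfl this

theorem GaussX.of_tower {K' : Type*} [Field K'] [Algebra K' K] [Algebra K' L]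
    [IsScalarTower K' K L] (hg : GaussX v K x) : GaussX v K' x := fun f γ => by
  rw [← aeval_map_algebraMap K, hg]
  simp only [coeff_map, ← IsScalarTower.algebraMap_apply]

variable {W : Affine R}

theorem val_y_le_one (hR : ∀ r : R, v (algebraMap R L r) ≤ 1) (he : (W⁄L).Equation x y)
    (hx : v x ≤ 1) : v y ≤ 1 := by
  rw [equation_iff] at he
  have hm : ∀ r : R, algebraMap R L r ∈ v.valuationSubring := hR
  have hx' : x ∈ v.valuationSubring := hx
  refine mem_of_sq (P := Place.ofValuationSubring v.valuationSubring)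
    (b := (W⁄L).a₁ * x + (W⁄L).a₃)
    (c := x ^ 3 + (W⁄L).a₂ * x ^ 2 + (W⁄L).a₄ * x + (W⁄L).a₆) ?_ ?_ ?_
  · exact add_mem (mul_mem (hm _) hx') (hm _)
  · exact add_mem (add_mem (add_mem (pow_mem hx' 3) (mul_mem (hm _) (pow_mem hx' 2)))
      (mul_mem (hm _) hx')) (hm _)
  · rw [← he]; ring

variable [Algebra R K] [IsScalarTower R K L]

/-- primitive elements `p(x) + q(x) y` are units -/
theorem GaussX.val_basis_eq_one (hg : GaussX v K x) (hR : ∀ r : R, v (algebraMap R L r) ≤ 1)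
    (he : (W⁄L).Equation x y) (hP : P.IsOf (v.comap (algebraMap K L))) {p q : K[X]} {pb qb : κ[X]}
    (hp : P.PolySp p pb) (hq : P.PolySp q qb) (h0 : pb ≠ 0 ∨ qb ≠ 0) :
    v (aeval x p + aeval x q * y) = 1 := by
  have hm : ∀ r : R, P.Sp (algebraMap R K r) (P.val (algebraMap R K r)) := fun r =>
    sp_val ((hP _).mpr (by rw [Valuation.comap_apply, ← IsScalarTower.algebraMap_apply]; exact hR r))
  let a : R → κ := fun r => P.val (algebraMap R K r)
  let Wb : Affine κ := ⟨a W.a₁, a W.a₂, a W.a₃, a W.a₄, a W.a₆⟩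
  have hN := ((hp.pow 2).sub ((hp.mul hq).mul (((hm W.a₁).polySp_C.mul polySp_X).add
    (hm W.a₃).polySp_C))).sub ((hq.pow 2).mul ((((polySp_X.pow 3).add ((hm W.a₂).polySp_C.mul
      (polySp_X.pow 2))).add ((hm W.a₄).polySp_C.mul polySp_X)).add (hm W.a₆).polySp_C))
  have h1 := hg.eq_one hP hN (by
    intro h5
    have h6 := CoordinateRing.degree_norm_smul_basis (W' := Wb) pb qb
    rw [CoordinateRing.norm_smul_basis] at h6
    change degree (pb ^ 2 - pb * qb * (C (a W.a₁) * X + C (a W.a₃)) -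
      qb ^ 2 * (X ^ 3 + C (a W.a₂) * X ^ 2 + C (a W.a₄) * X + C (a W.a₆))) = _ at h6
    rw [h5, degree_zero, eq_comm, max_eq_bot] at h6
    rcases h0 with h0 | h0
    · have := h6.1
      rw [degree_eq_natDegree h0, two_nsmul] at this
      exact absurd this (by norm_cast)
    · have := h6.2
      rw [degree_eq_natDegree h0, two_nsmul] at this
      exact absurd this (by norm_cast))
  have hx := hg.le_one
  have hy := val_y_le_one hR he hx
  have hy' := val_y_le_one hR ((equation_neg x y).mpr he) hx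
  have hle : ∀ {z : L}, v z ≤ 1 → v (aeval x p + aeval x q * z) ≤ 1 := fun hz =>
    v.map_add_le (val_aeval_le hx fun i => hP.le_one (hp i))
      (by rw [map_mul]; exact mul_le_one' (val_aeval_le hx fun i => hP.le_one (hq i)) hz)
  have h2 : v (aeval x p + aeval x q * y) * v (aeval x p + aeval x q * (W⁄L).negY x y) = 1 := by
    rw [← h1, ← map_mul]
    congr 1
    rw [equation_iff] at he
    simp only [map_sub, map_mul, map_add, map_pow, aeval_C, aeval_X,
      ← IsScalarTower.algebraMap_apply, negY]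
    change _ = _ - _ * ((W⁄L).a₁ * x + (W⁄L).a₃) -
      _ * (x ^ 3 + (W⁄L).a₂ * x ^ 2 + (W⁄L).a₄ * x + (W⁄L).a₆)
    rw [← he]
    ring
  refine le_antisymm (hle hy) ?_
  rw [← h2]
  exact mul_le_of_le_one_right' (hle hy')

/-- **Gauss formula** on `K[x, y]`. -/
theorem GaussX.val_add_mul_y (hg : GaussX v K x) (hR : ∀ r : R, v (algebraMap R L r) ≤ 1)
    (he : (W⁄L).Equation x y) (f g : K[X]) :
    v (aeval x f + aeval x g * y) = max (v (aeval x f)) (v (aeval x g)) := by
  have hP := isOf_ofValuationSubring (v.comap (algebraMap K L))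
  obtain ⟨c, p, q, pb, qb, rfl, rfl, hp, hq, h0⟩ := (Place.ofValuationSubring
    (v.comap (algebraMap K L)).valuationSubring).exists_polySp_pair f g
  have h1 := hg.val_basis_eq_one hR he hP hp hq h0
  have h2 : max (v (aeval x p)) (v (aeval x q)) = 1 := by
    refine le_antisymm (max_le (val_aeval_le hg.le_one fun i => hP.le_one (hp i))
      (val_aeval_le hg.le_one fun i => hP.le_one (hq i))) ?_
    rcases h0 with h0 | h0
    · exact le_max_of_le_left (hg.eq_one hP hp h0).ge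
    · exact le_max_of_le_right (hg.eq_one hP hq h0).ge
  simp only [map_mul, aeval_C]
  rw [mul_assoc, ← mul_add, map_mul, h1, ← mul_max, h2]

/-- Every element of `K(E)` is a constant times a quotient of primitive elements. -/
theorem IsGen.exists_decomp (h : IsGen W K x y) (P : Place K κ) (z : L) :
    ∃ (c : K) (p q r : K[X]) (pb qb rb : κ[X]), P.PolySp p pb ∧ P.PolySp q qb ∧ P.PolySp r rb ∧
      (pb ≠ 0 ∨ qb ≠ 0) ∧ rb ≠ 0 ∧
      z = algebraMap K L c * ((aeval x p + aeval x q * y) / aeval x r) := by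
  obtain ⟨p, q, r, hr, rfl⟩ := h.exists_eq_div z
  obtain ⟨c, p', q', pb, qb, rfl, rfl, hp, hq, h0⟩ := P.exists_polySp_pair p q
  obtain ⟨d, r', rb, rfl, hr', hr0⟩ := P.exists_polySp_content r
  refine ⟨c / d, p', q', r', pb, qb, rb, hp, hq, hr', h0, hr0, ?_⟩
  simp only [map_mul, aeval_C, map_div₀]
  ring

/-- `z = c (p + q y) / r` with integral `p, q, r`, `v r = 1` and `v z = v c`. -/
theorem GaussX.exists_decomp (hg : GaussX v K x) (hR : ∀ r : R, v (algebraMap R L r) ≤ 1)
    (h : IsGen W K x y) (z : L) : ∃ (c : K) (p q r : K[X]),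
      (∀ i, v (algebraMap K L (p.coeff i)) ≤ 1) ∧ (∀ i, v (algebraMap K L (q.coeff i)) ≤ 1) ∧
      (∀ i, v (algebraMap K L (r.coeff i)) ≤ 1) ∧ v (aeval x p + aeval x q * y) = 1 ∧
      v (aeval x r) = 1 ∧ v z = v (algebraMap K L c) ∧
      z = algebraMap K L c * ((aeval x p + aeval x q * y) / aeval x r) := by
  have hP := isOf_ofValuationSubring (v.comap (algebraMap K L))
  obtain ⟨c, p, q, r, pb, qb, rb, hp, hq, hr, h0, hr0, rfl⟩ := h.exists_decomp
    (Place.ofValuationSubring (v.comap (algebraMap K L)).valuationSubring) z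
  have h1 := hg.val_basis_eq_one hR h.eqn hP hp hq h0
  have h2 := hg.eq_one hP hr hr0
  refine ⟨c, p, q, r, fun i => hP.le_one (hp i), fun i => hP.le_one (hq i),
    fun i => hP.le_one (hr i), h1, h2, ?_, rfl⟩
  rw [map_mul, map_div₀, h1, h2, div_one, mul_one]

/-- The value group does not grow. -/
theorem GaussX.exists_val_eq (hg : GaussX v K x) (hR : ∀ r : R, v (algebraMap R L r) ≤ 1)
    (h : IsGen W K x y) (z : L) : ∃ c : K, v (algebraMap K L c) = v z := by
  obtain ⟨c, -, -, -, -, -, -, -, -, e, -⟩ := hg.exists_decomp hR h z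
  exact ⟨c, e.symm⟩

/-- Integral elements are quotients of integral elements by a primitive polynomial. -/
theorem GaussX.exists_int_div (hg : GaussX v K x) (hR : ∀ r : R, v (algebraMap R L r) ≤ 1)
    (h : IsGen W K x y) {z : L} (hz : v z ≤ 1) : ∃ p q r : K[X],
      (∀ i, v (algebraMap K L (p.coeff i)) ≤ 1) ∧ (∀ i, v (algebraMap K L (q.coeff i)) ≤ 1) ∧
      (∀ i, v (algebraMap K L (r.coeff i)) ≤ 1) ∧ v (aeval x r) = 1 ∧
      z = (aeval x p + aeval x q * y) / aeval x r := by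
  obtain ⟨c, p, q, r, hp, hq, hr, -, h2, e, rfl⟩ := hg.exists_decomp hR h z
  rw [e] at hz
  refine ⟨C c * p, C c * q, r, fun i => ?_, fun i => ?_, hr, h2, ?_⟩
  · rw [coeff_C_mul, map_mul, map_mul]; exact mul_le_one' hz (hp i)
  · rw [coeff_C_mul, map_mul, map_mul]; exact mul_le_one' hz (hq i)
  · simp only [map_mul, aeval_C]; ring

/-- **Uniqueness of the Gauss valuation.** -/
theorem GaussX.valuation_ext {v' : Valuation L Γ} (hg : GaussX v K x) (hg' : GaussX v' K x)
    (hR : ∀ r : R, v (algebraMap R L r) ≤ 1) (h : IsGen W K x y)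
    (hK : ∀ c : K, v (algebraMap K L c) = v' (algebraMap K L c)) : v = v' := by
  have hR' : ∀ r : R, v' (algebraMap R L r) ≤ 1 := fun r => by
    rw [IsScalarTower.algebraMap_apply R K L, ← hK, ← IsScalarTower.algebraMap_apply]; exact hR r
  have e : ∀ f : K[X], v (aeval x f) = v' (aeval x f) := fun f =>
    eq_of_forall_ge_iff fun γ => by rw [hg, hg']; simp only [hK]
  ext z
  obtain ⟨p, q, r, -, rfl⟩ := h.exists_eq_div z
  rw [map_div₀, map_div₀, hg.val_add_mul_y hR h.eqn, hg'.val_add_mul_y hR' h.eqn, e, e, e]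

/-- The values of the Gauss place. -/
theorem GaussX.exists_sp_eq (hg : GaussX v K x) (hR : ∀ r : R, v (algebraMap R L r) ≤ 1)
    (h : IsGen W K x y) {Om : Type*} [Field Om] [Algebra κ Om] {Q : Place L Om} (hQ : Q.IsOf v)
    (hPQ : ∀ c d, P.Sp c d → Q.Sp (algebraMap K L c) (algebraMap κ Om d)) {xb yb : Om}
    (hx : Q.Sp x xb) (hy : Q.Sp y yb) {z : L} {a : Om} (hz : Q.Sp z a) :
    ∃ pb qb rb : κ[X], aeval xb rb ≠ 0 ∧ a = (aeval xb pb + aeval xb qb * yb) / aeval xb rb := by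
  have hP : P.IsOf (v.comap (algebraMap K L)) := fun c => (mem_iff_of_sp hPQ c).symm.trans (hQ _)
  obtain ⟨p, q, r, hp, hq, hr, h1, rfl⟩ := hg.exists_int_div hR h (hQ.le_one hz)
  obtain ⟨pb, hp⟩ := exists_polySp fun i => (hP _).mpr (hp i)
  obtain ⟨qb, hq⟩ := exists_polySp fun i => (hP _).mpr (hq i)
  obtain ⟨rb, hr⟩ := exists_polySp fun i => (hP _).mpr (hr i)
  have sr : Q.Sp (aeval x r) (aeval xb rb) := hr.sp_eval₂ hPQ hx
  have h0 : aeval xb rb ≠ 0 := fun e => by
    rw [e, hQ.sp_zero_iff, h1] at sr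
    exact lt_irrefl _ sr
  exact ⟨pb, qb, rb, h0,
    hz.unique (((hp.sp_eval₂ hPQ hx).add ((hq.sp_eval₂ hPQ hx).mul hy)).div sr h0)⟩

/-- The residue field of the Gauss valuation is the function field of the reduced curve. -/
theorem GaussX.isGen_sp (hg : GaussX v K x) (h : IsGen W K x y) {Om : Type*} [Field Om]
    [Algebra κ Om] [Algebra R Om] {Q : Place L Om} (hQ : Q.IsOf v) (hQR : Q.Over R)
    (hPQ : ∀ c d, P.Sp c d → Q.Sp (algebraMap K L c) (algebraMap κ Om d))
    (hs : ∀ d, ∃ c, P.Sp c d) (hQs : ∀ a, ∃ z, Q.Sp z a) {xb yb : Om}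
    (hx : Q.Sp x xb) (hy : Q.Sp y yb) : IsGen W κ xb yb := by
  refine ⟨equation_sp hQR h.eqn hx hy, hg.transcendental_sp hQ hPQ hs hx, eq_top_iff.mpr ?_⟩
  intro a _
  obtain ⟨z, hz⟩ := hQs a
  obtain ⟨pb, qb, rb, -, rfl⟩ := hg.exists_sp_eq (fun r => hQ.le_one (hQR r)) h hQ hPQ hx hy hz
  set M := IntermediateField.adjoin κ {xb, yb}
  have hxM : xb ∈ M := IntermediateField.subset_adjoin _ _ (by simp)
  have hyM : yb ∈ M := IntermediateField.subset_adjoin _ _ (by simp)
  have hp : ∀ p : κ[X], aeval xb p ∈ M := fun p => by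
    rw [aeval_eq_sum_range]
    exact sum_mem fun j _ => M.smul_mem (pow_mem hxM j)
  exact div_mem (add_mem (hp _) (mul_mem (hp _) hyM)) (hp _)

end GaussX

end Crest.Agent.T170.Ell
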