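import Crest.Agent.T170.Smith2_13

/-!
# Row 170 (T170): the counting statement `CNT` (helper9)

`CNT p` : for every finite group `G` and every `p`-singular `c`, for some `n = p ^ a`,
`p |G|_p` divides `∑ sA p ⟨x, y, g⟩` over the tuples `[x, y] = g_1 ⋯ g_n`, `g_i ∼ c`.
`CNTc p` : the same in chain form.
-/

set_option autoImplicit false

namespace Crest.Agent.T170

open Crest.Agent.R170 Crest.Agent.T170.Smith13

/-- the counting statement, `sA` form -/
def CNT (p : ℕ) : Prop :=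
  ∀ (G : Type) [Group G] [Finite G] (c : G), p ∣ orderOf c → ∃ a : ℕ,
    ((p * pPart p (Nat.card G) : ℕ) : ℤ) ∣
      ∑ᶠ w : Tup G (fun (_ : Fin (p ^ a)) (g : G) => IsConj g c), sA p (tcl w.1)

/-- the counting statement, chain form -/
def CNTc (p : ℕ) : Prop :=
  ∀ (G : Type) [Group G] [Finite G] (c : G), p ∣ orderOf c → ∃ a : ℕ,
    ((p * pPart p (Nat.card G) : ℕ) : ℤ) ∣
      ∑ᶠ σ : Ch p G, sgn σ *
        (Nat.card (Tup (st σ) (fun (_ : Fin (p ^ a)) (h : st σ) => IsConj (h : G) c)) : ℤ)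

theorem cnt_iff (p : ℕ) : CNT p ↔ CNTc p := by
  constructor
  · intro h G _ _ c hc
    obtain ⟨a, ha⟩ := h G c hc
    exact ⟨a, by rw [tuple_sum_eq p (fun (_ : Fin (p ^ a)) (g : G) => IsConj g c)]; exact ha⟩
  · intro h G _ _ c hc
    obtain ⟨a, ha⟩ := h G c hc
    exact ⟨a, by rw [← tuple_sum_eq p (fun (_ : Fin (p ^ a)) (g : G) => IsConj g c)]; exact ha⟩

end Crest.Agent.T170
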