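import Mathlib

/-!
# Row 170, module C (helper90): Riemann existence on the line — definitions and statements

* `Rot v ζ g`      : `g` acts on the `k`-th graded piece of the valuation `v` by `ζ ^ k`;
* `GenOver u ζ g`  : `g ∈ Gal(N/K)` is a canonical inertia generator over the valuation `u` of `K`;
* `Ctr C u t n`    : `u` is trivial on the constants `C` and `u t = n`;
* `IsGen C t ζ n g`, `Unr C N t` : generator / unramified at the place with uniformiser `t`;
* `IsRat C K x`    : `K = C(x)`;
* `UniqStmt`, `GStmt`, `EStmt`, `RetP1` : the leaves and the final statement.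
-/

set_option autoImplicit false

namespace Crest.Agent.T170.Ret

/-- `ℤ`-valued additive valuations. -/
abbrev AV (N : Type*) [Field N] := AddValuation N (WithTop ℤ)

/-- `g` acts on the `k`-th graded piece of `v` by multiplication with `ζ ^ k`. -/
def Rot {N : Type*} [Field N] (v : AV N) (ζ : N) (g : N → N) : Prop :=
  ∀ (f : N) (k : ℤ), v f = (k : WithTop ℤ) → (k : WithTop ℤ) < v (g f - ζ ^ k * f)

/-- `g` is a canonical inertia generator (w.r.t. `ζ`) at some extension of the valuation `u`. -/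
def GenOver {K N : Type*} [Field K] [Field N] [Algebra K N] (u : AV K) (ζ : K)
    (g : N ≃ₐ[K] N) : Prop :=
  ∃ v : AV N, (∀ f : K, v (algebraMap K N f) = u f) ∧ Rot v (algebraMap K N ζ) g

/-- `u` is trivial on the constants and `u t = n`. -/
def Ctr (C : Type*) {K : Type*} [Field C] [Field K] [Algebra C K] (u : AV K) (t : K) (n : ℕ) :
    Prop :=
  (∀ c : C, c ≠ 0 → u (algebraMap C K c) = 0) ∧ u t = ((n : ℤ) : WithTop ℤ)

/-- `g` is a canonical inertia generator at a place of `K/C` where `t` has order `n` in the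
normalisation with respect to which `ζ` (a primitive `n`-th root of unity) is the rotation. -/
def IsGen (C : Type*) {K N : Type*} [Field C] [Field K] [Field N] [Algebra C K] [Algebra K N]
    (t : K) (ζ : C) (n : ℕ) (g : N ≃ₐ[K] N) : Prop :=
  ∃ u : AV K, Ctr C u t n ∧ GenOver u (algebraMap C K ζ) g

/-- `t` stays a uniformiser at some place of `N`. -/
def Unr (C : Type*) {K : Type*} (N : Type*) [Field C] [Field K] [Field N] [Algebra C K]
    [Algebra K N] (t : K) : Prop :=
  ∃ v : AV N, Ctr C (v.comap (algebraMap K N)) t 1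

/-- `K = C(x)`. -/
def IsRat (C : Type*) (K : Type*) [Field C] [Field K] [Algebra C K] (x : K) : Prop :=
  Transcendental C x ∧ IntermediateField.adjoin C {x} = ⊤

/-- **Uniqueness**: canonical generators over the same valuation (residue characteristic `0`) are
conjugate. -/
def UniqStmt : Prop :=
  ∀ (K N : Type) [Field K] [Field N] [Algebra K N] [FiniteDimensional K N] [IsGalois K N]
    (u : AV K) (ζ : K), (∀ r : ℕ, r ≠ 0 → u (r : K) = 0) → u ζ = 0 →
    (∃ t : K, t ≠ 0 ∧ 0 < u t) →
    ∀ g g' : N ≃ₐ[K] N, GenOver u ζ g → GenOver u ζ g' → IsConj g g'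

/-- `exp (2 π i / n)`. -/
noncomputable def zt (n : ℕ) : ℂ := Complex.exp (2 * Real.pi * Complex.I / n)

/-- **(G)** monodromy: generators with product relation for any finite Galois extension of
`ℂ(x)`. -/
def GStmt : Prop :=
  ∀ (K N : Type) [Field K] [Field N] [Algebra ℂ K] [Algebra K N] [FiniteDimensional K N]
    [IsGalois K N] (x : K), IsRat ℂ K x →
    ∀ n : ℕ, 0 < n → (∀ g : N ≃ₐ[K] N, g ^ n = 1) → ∀ S : Finset ℂ,
    ∃ (m : ℕ) (a : Fin m → ℂ) (g : Fin m → (N ≃ₐ[K] N)), Function.Injective a ∧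
      (∀ b ∈ S, b ∈ Set.range a) ∧
      (∀ i, IsGen ℂ (x - algebraMap ℂ K (a i)) (zt n) n (g i)) ∧
      IsGen ℂ x⁻¹ (zt n) n (List.ofFn g).prod⁻¹ ∧
      Subgroup.closure (Set.range g) = ⊤

/-- **(E)** existence: every finite group with `m` generators is the group of a Galois extension
of `ℂ(x)` unramified outside `m` given points (increasing real parts) and `∞`. -/
def EStmt : Prop :=
  ∀ (K : Type) [Field K] [Algebra ℂ K] (x : K), IsRat ℂ K x →
    ∀ (m : ℕ) (a : Fin m → ℂ), StrictMono (fun i => (a i).re) →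
    ∀ (H : Type) [Group H] [Finite H] (w : Fin m → H), Subgroup.closure (Set.range w) = ⊤ →
    ∃ N : IntermediateField K (AlgebraicClosure K), FiniteDimensional K N ∧ IsGalois K N ∧
      Nonempty ((N ≃ₐ[K] N) ≃* H) ∧
      ∀ b : ℂ, b ∉ Set.range a → Unr ℂ N (x - algebraMap ℂ K b)

/-- the homomorphisms to `W` separate the points of `Γ`. -/
def ResW (Γ W : Type*) [Group Γ] [Group W] : Prop :=
  ∀ γ : Γ, (∀ ρ : Γ →* W, ρ γ = 1) → γ = 1

/-- **Riemann existence on the line** over any algebraically closed field of characteristic `0`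
with the cardinality of `ℂ`. -/
def RetP1 : Prop :=
  ∀ (C K Ω : Type) [Field C] [Field K] [Field Ω] [CharZero C] [IsAlgClosed C] [Algebra C K]
    [Algebra K Ω] [IsAlgClosure K Ω], Cardinal.mk C = Cardinal.continuum →
    ∀ x : K, IsRat C K x → ∀ (m : ℕ) (a : Fin m → C), Function.Injective a →
    ∀ (W : Type) [Group W] [Finite W] (n : ℕ), 0 < n → (∀ w : W, w ^ n = 1) →
    ∃ (ζ : C) (M : IntermediateField K Ω), IsPrimitiveRoot ζ n ∧
      FiniteDimensional K M ∧ IsGalois K M ∧ ResW (M ≃ₐ[K] M) W ∧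
      (∀ b : C, b ∉ Set.range a → Unr C M (x - algebraMap C K b)) ∧
      (∀ N : IntermediateField K Ω, FiniteDimensional K N → IsGalois K N →
        ResW (N ≃ₐ[K] N) W → (∀ b : C, b ∉ Set.range a → Unr C N (x - algebraMap C K b)) →
        N ≤ M) ∧
      ∃ (σ : Equiv.Perm (Fin m)) (g : Fin m → (M ≃ₐ[K] M)),
        (∀ i, IsGen C (x - algebraMap C K (a (σ i))) ζ n (g i)) ∧
        IsGen C x⁻¹ ζ n (List.ofFn g).prod⁻¹ ∧
        Subgroup.closure (Set.range g) = ⊤ ∧
        Function.Bijective (fun (ρ : (M ≃ₐ[K] M) →* W) (i : Fin m) => ρ (g i))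

end Crest.Agent.T170.Ret
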