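import Mathlib
import Crest.Agent.T170.CntDef_9
import Crest.Agent.T170.RetDefs_90

/-!
# Row 170 (helper20): the frame.  Definitions and joint statements (Props only).

`S0258 ⇐ CNT ⇐ Descent(WorldStmt, RetE, UniqStmt, CoreStmt; Smith13.smith)`,
`WorldStmt ⇐ BaseStmt + EllStmt`, `RetE ⇐ RetP1`, `CoreStmt ⇐ DM + EIG + ZStmt + PolyStmt + QStmt`.
-/

set_option autoImplicit false

namespace Crest.Agent.T170.Fr

open scoped NNReal Polynomial Classical
open WeierstrassCurve WeierstrassCurve.Affine Crest.Agent.R170 Crest.Agent.T170.Ret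

/-! ### Riemann existence on the punctured elliptic curve -/

/-- `u` is the place of `B = ℂ(x, y)` at the point `(a, b)` (not of order two), `u (x - a) = n₀` -/
def AtPt {B : Type} [Field B] [Algebra ℂ B] (u : AV B) (x y : B) (a b : ℂ) (n₀ : ℕ) : Prop :=
  Ctr ℂ u (x - algebraMap ℂ B a) n₀ ∧ 0 < u (y - algebraMap ℂ B b)

/-- `N / B` is unramified at all places of `B / ℂ` except the points `(a i, b i)` -/
def UnrE {B : Type} (N : Type) [Field B] [Field N] [Algebra ℂ B] [Algebra B N] (x y : B) {n : ℕ}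
    (a b : Fin n → ℂ) : Prop :=
  ∀ u : AV B, (∀ c : ℂ, c ≠ 0 → u (algebraMap ℂ B c) = 0) → (∃ t : B, u t = 1) →
    (∀ i, ¬ (0 < u (x - algebraMap ℂ B (a i)) ∧ 0 < u (y - algebraMap ℂ B (b i)))) →
    ∃ v : AV N, ∀ f : B, v (algebraMap B N f) = u f

/-- **RET on `E ∖ D`** with the count of labelled homomorphisms -/
def RetE : Prop :=
  ∀ (B U : Type) [Field B] [Field U] [Algebra ℂ B] [Algebra B U] [IsAlgClosure B U]
    (W : Affine ℂ) [W.IsElliptic] (x y : B), Transcendental ℂ x →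
    (W⁄B).Equation x y → IntermediateField.adjoin ℂ {x, y} = ⊤ →
    ∀ (n : ℕ) (a b : Fin n → ℂ), Function.Injective a → (∀ i, W.Equation (a i) (b i)) →
    (∀ i, b i ≠ W.negY (a i) (b i)) →
    ∀ (G : Type) [Group G] [Finite G],
    ∃ (n₀ : ℕ) (ζ : ℂ) (M : IntermediateField B U), 0 < n₀ ∧ IsPrimitiveRoot ζ n₀ ∧
      FiniteDimensional B M ∧ IsGalois B M ∧ ResW (M ≃ₐ[B] M) G ∧ UnrE M x y a b ∧
      (∀ N : IntermediateField B U, FiniteDimensional B N → IsGalois B N → ResW (N ≃ₐ[B] N) G →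
        UnrE N x y a b → N ≤ M) ∧
      ∃ γ : Fin n → (M ≃ₐ[B] M),
        (∀ i, ∃ u : AV B, AtPt u x y (a i) (b i) n₀ ∧ GenOver u (algebraMap ℂ B ζ) (γ i)) ∧
        ∀ (A : Subgroup G) (c : G),
          Nat.card {ρ : (M ≃ₐ[B] M) →* G // (∀ i, IsConj (ρ (γ i)) c) ∧ ρ.range ≤ A} =
            Nat.card (Smith13.Tup A fun (_ : Fin n) (h : A) => IsConj (h : G) c)

/-! ### The base field and the curve -/

/-- sequential completeness -/
def Cpl {K : Type*} [Field K] (v : Valuation K ℝ≥0) : Prop :=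
  ∀ f : ℕ → K, (∀ ε : ℝ≥0, 0 < ε → ∃ N, ∀ m ≥ N, ∀ m' ≥ N, v (f m - f m') < ε) →
    ∃ l : K, ∀ ε : ℝ≥0, 0 < ε → ∃ N, ∀ m ≥ N, v (f m - l) < ε

/-- `V` is a valuation ring refining the ring of integers of `v`, containing the integral
constants, with the residue field of the constants -/
structure Fine {C K : Type*} [Field C] [Field K] [Algebra C K] (v : Valuation K ℝ≥0)
    (V : ValuationSubring K) : Prop where
  le : ∀ z ∈ V, v z ≤ 1
  const : ∀ c : C, v (algebraMap C K c) ≤ 1 → algebraMap C K c ∈ V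
  res : ∀ z ∈ V, ∃ c : C, v (algebraMap C K c) ≤ 1 ∧ V.valuation (z - algebraMap C K c) < 1

/-- the base field: the completion of `C(s₀, …, s_{n-1})` at the Gauss valuation -/
structure Base (p n : ℕ) [NeZero n] (C F : Type) [Field C] [Field F] [Algebra C F] where
  v : Valuation F ℝ≥0
  vp : v (p : F) < 1
  vgrp : ∀ z : F, ∃ c : C, v (algebraMap C F c) = v z
  cpl : Cpl v
  s : Fin n → F
  vs : ∀ i, v (s i) ≤ 1
  vss : ∀ i j, i ≠ j → v (s i - s j) = 1
  σ : F ≃ₐ[C] F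
  σn : σ ^ n = 1
  σs : ∀ i, σ (s i) = s (i + 1)
  vσ : ∀ z, v (σ z) = v z
  D : Fin n → Derivation C F F
  Ds : ∀ i j, D i (s j) = if i = j then 1 else 0
  vD : ∀ i z, v (D i z) ≤ v z
  Dcomm : ∀ i j z, D i (D j z) = D j (D i z)
  σD : ∀ i z, σ (D i z) = D (i + 1) (σ z)
  V : ValuationSubring F
  fine : Fine (C := C) v V
  σV : ∀ z, σ z ∈ V ↔ z ∈ V

/-- existence of the base field -/
def BaseStmt (p : ℕ) : Prop :=
  ∀ a : ℕ, 0 < a → ∀ [NeZero (p ^ a)], ∃ (C F : Type) (_ : Field C) (_ : Field F) (_ : Algebra C F),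
    IsAlgClosed C ∧ CharZero C ∧ Cardinal.mk F = Cardinal.continuum ∧
      Nonempty (Base p (p ^ a) C F)

/-- an ordinary curve over the integers of `C` with a point `P` of order `n` whose reduction has
order `n`, and an integral point `R` such that the reductions of all `R + j P` are affine and not
of order two (so also `R̄ ≠ ± j P̄`, `R̄ + j P̄ ≠ ± j P̄`) -/
def EllStmt (p : ℕ) : Prop :=
  ∀ (C : Type) [Field C] [IsAlgClosed C] [CharZero C] (v : Valuation C ℝ≥0), v (p : C) < 1 →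
    ∀ a : ℕ, ∃ (W : Affine v.valuationSubring) (_ : W.IsElliptic)
      (P R : (W⁄C).Point), (p ^ a) • P = 0 ∧
      (∀ j : ℕ, ¬ p ^ a ∣ j → ∃ x y h, j • P = .some x y h ∧ v x ≤ 1) ∧
      ∀ j : ℕ, ∃ x y h, R + j • P = .some x y h ∧ v x ≤ 1 ∧
        v (y - (W⁄C).negY x y) = 1

/-! ### The world: all global data inside one algebraically closed field `U ⊇ ℂ(x, y)` -/

/-- the global data; `R ⊆ C ⊆ F ⊆ ℂ ⊆ U` -/
structure World (p n : ℕ) [NeZero n] (U : Type) [Field U] [Algebra ℂ U] where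
  C : Subfield ℂ
  F : Subfield ℂ
  R : Subring C
  CF : C ≤ F
  algF : ∀ c : ℂ, IsAlgebraic F c
  Cac : IsAlgClosed C
  v : Valuation U ℝ≥0
  vp : v (p : U) < 1
  vR : ∀ r : R, v (algebraMap R U r) ≤ 1
  vgrp : ∀ c : ℂ, ∃ z : C, v (algebraMap C U z) = v (algebraMap ℂ U c)
  cpl : Cpl (v.comap (algebraMap F U))
  W : Affine R
  ell : W.IsElliptic
  x : U
  y : U
  ns : (W⁄U).Nonsingular x y
  trans : Transcendental ℂ x
  alg : Algebra.IsAlgebraic (IntermediateField.adjoin ℂ {x}) U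
  vx : v x ≤ 1
  gauss : ∀ c : ℂ, 1 ≤ v (x - algebraMap ℂ U c)
  P : (W⁄C).Point
  nP : n • P = 0
  Pint : ∀ j : ℕ, ¬ n ∣ j → ∃ s t h, j • P = .some s t h ∧ v (algebraMap C U s) ≤ 1
  a : Fin n → F
  b : Fin n → F
  nsO : ∀ i, (W⁄U).Nonsingular (algebraMap F U (a i)) (algebraMap F U (b i))
  vW : ∀ i, v (algebraMap F U (b i) -
    (W⁄U).negY (algebraMap F U (a i)) (algebraMap F U (b i))) = 1
  a' : Fin n → C
  b' : Fin n → C
  va' : ∀ i, v (algebraMap C U (a' i)) ≤ 1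
  vaa' : ∀ i, v (algebraMap F U (a i) - algebraMap C U (a' i)) < 1
  vbb' : ∀ i, v (algebraMap F U (b i) - algebraMap C U (b' i)) < 1
  ns' : ∀ i, (W⁄C).Nonsingular (a' i) (b' i)
  O' : ∀ i, Point.some _ _ (ns' (i + 1)) = Point.some _ _ (ns' i) + P
  D : Fin n → Derivation C U U
  Dx : ∀ i, D i x = 0
  Dy : ∀ i, D i y = 0
  DF : ∀ i (z : F), ∃ z' : F, D i (algebraMap F U z) = algebraMap F U z'
  vD : ∀ i (z : F), v (D i (algebraMap F U z)) ≤ v (algebraMap F U z)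
  Dcomm : ∀ i j z, D i (D j z) = D j (D i z)
  Da : ∀ i j, j ≠ i → D j (algebraMap F U (a i)) = 0
  Db : ∀ i j, j ≠ i → D j (algebraMap F U (b i)) = 0
  big : ∀ i, v (p : U) < v (D i (algebraMap F U (a i)))
  g : U ≃ₐ[C] U
  σ : F ≃+* F
  gσ : ∀ z : F, g (algebraMap F U z) = algebraMap F U (σ z)
  vσ : ∀ z : F, v (algebraMap F U (σ z)) = v (algebraMap F U z)
  σn : σ ^ n = 1
  faith : ∀ j : ℕ, ¬ n ∣ j → ∃ z : F, v (algebraMap F U z) ≤ 1 ∧
    v (algebraMap F U ((σ ^ j) z - z)) = 1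
  gξ : Point.map (g : U →ₐ[C] U) (Point.some _ _ ns) = Point.some _ _ ns - Point.baseChange C U P
  gO : ∀ i, Point.map (g : U →ₐ[C] U) (Point.some _ _ (nsO i)) + Point.baseChange C U P =
    Point.some _ _ (nsO (i + 1))
  gD : ∀ i z, g (D i z) = D (i + 1) (g z)
  V : ValuationSubring F
  Vle : ∀ z ∈ V, v (algebraMap F U z) ≤ 1
  Vconst : ∀ z : C, v (algebraMap C U z) ≤ 1 → Subfield.inclusion CF z ∈ V
  Vres : ∀ z ∈ V, ∃ c : C, v (algebraMap C U c) ≤ 1 ∧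
    V.valuation (z - Subfield.inclusion CF c) < 1
  Vσ : ∀ z, σ z ∈ V ↔ z ∈ V

/-- existence of the world -/
def WorldStmt (p : ℕ) : Prop :=
  ∀ a : ℕ, 0 < a → ∀ [NeZero (p ^ a)], ∃ (U : Type) (_ : Field U) (_ : Algebra ℂ U),
    IsAlgClosed U ∧ Nonempty (World p (p ^ a) U)

/-! ### The `p`-adic core -/

/-- the data of the core: `C ⊆ K ⊆ E = K(x, y) ⊆ N` -/
structure CoreData (p n : ℕ) [NeZero n] (R C K E N : Type) [CommRing R] [Field C] [Field K]
    [Field E] [Field N] [Algebra C K] [Algebra K E] [Algebra E N] [Algebra C E] [Algebra C N]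
    [Algebra K N] [Algebra R C] [Algebra R E] [IsScalarTower R C E] where
  v : Valuation E ℝ≥0
  vp : v (p : E) < 1
  vgrp : ∀ z : K, ∃ c : C, v (algebraMap C E c) = v (algebraMap K E z)
  cpl : Cpl (v.comap (algebraMap K E))
  vR : ∀ r : R, v (algebraMap R E r) ≤ 1
  W : Affine R
  ell : W.IsElliptic
  x : E
  y : E
  ns : (W⁄E).Nonsingular x y
  gauss : ∀ f : K[X], v (Polynomial.aeval x f) =
    f.support.sup fun i => v (algebraMap K E (f.coeff i))
  gen : IntermediateField.adjoin K {x, y} = ⊤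
  P : (W⁄C).Point
  nP : n • P = 0
  Pint : ∀ j : ℕ, ¬ n ∣ j → ∃ s t h, j • P = .some s t h ∧ v (algebraMap C E s) ≤ 1
  a : Fin n → K
  b : Fin n → K
  a' : Fin n → C
  b' : Fin n → C
  va' : ∀ i, v (algebraMap C E (a' i)) ≤ 1
  vaa' : ∀ i, v (algebraMap K E (a i) - algebraMap C E (a' i)) < 1
  vbb' : ∀ i, v (algebraMap K E (b i) - algebraMap C E (b' i)) < 1
  ns' : ∀ i, (W⁄C).Nonsingular (a' i) (b' i)
  O' : ∀ i, Point.some _ _ (ns' (i + 1)) = Point.some _ _ (ns' i) + P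
  D : Fin n → Derivation C N N
  d : Fin n → K → K
  Dd : ∀ i z, D i (algebraMap K N z) = algebraMap K N (d i z)
  vd : ∀ i z, v (algebraMap K E (d i z)) ≤ v (algebraMap K E z)
  Dx : ∀ i, D i (algebraMap E N x) = 0
  Dy : ∀ i, D i (algebraMap E N y) = 0
  Dcomm : ∀ i j z, D i (D j z) = D j (D i z)
  pres₀ : ∀ i, ∀ h ∈ ({x - algebraMap K E (a i), y - algebraMap K E (b i)} : Set E), ∀ z : N,
    IsIntegral (Algebra.adjoin K {algebraMap E N x}) z →
    IsIntegral (Algebra.adjoin K {algebraMap E N x}) (h • D i z)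
  pres₁ : ∀ i, ∀ h ∈ ({1 - algebraMap K E (a i) / x, (y - algebraMap K E (b i)) / x ^ 2} : Set E),
    ∀ z : N, IsIntegral (Algebra.adjoin K {(algebraMap E N x)⁻¹}) z →
    IsIntegral (Algebra.adjoin K {(algebraMap E N x)⁻¹}) (h • D i z)
  /-- the wildly ramified puncture, with a place `u` of `N / K` over it -/
  i₀ : Fin n
  u : AV N
  n₀ : ℕ
  n₀pos : 0 < n₀
  uK : ∀ z : K, z ≠ 0 → u (algebraMap K N z) = 0
  uh : u (algebraMap E N (x - algebraMap K E (a i₀))) = ((n₀ : ℤ) : WithTop ℤ)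
  logd : ∀ (z : N) (k : ℤ), u z = (k : WithTop ℤ) →
    (k : WithTop ℤ) < u ((x - algebraMap K E (a i₀)) • D i₀ z +
      (((k : ℚ) / n₀ : ℚ) : N) * algebraMap K N (d i₀ (a i₀)) * z)
  wild : ∃ (z : N) (k : ℤ), u z = (k : WithTop ℤ) ∧ p ∣ ((k : ℚ) / n₀).den
  big : v (p : E) < v (algebraMap K E (d i₀ (a i₀)))
  γ : N ≃ₐ[C] N
  γE : E ≃ₐ[C] E
  γK : K ≃ₐ[C] K
  γγE : ∀ z, γ (algebraMap E N z) = algebraMap E N (γE z)
  γEK : ∀ z, γE (algebraMap K E z) = algebraMap K E (γK z)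
  γfin : IsOfFinOrder γ
  vγ : ∀ z, v (γE z) = v z
  γD : ∀ i z, γ (D i z) = D (i + 1) (γ z)
  γξ : Point.map (γE : E →ₐ[C] E) (Point.some _ _ ns) =
    Point.some _ _ ns - Point.baseChange C E P
  V : ValuationSubring K
  fine : Fine (C := C) (v.comap (algebraMap K E)) V
  γV : ∀ z, γK z ∈ V ↔ z ∈ V

/-- **Core**: the Galois group has a non-trivial normal `p`-subgroup -/
def CoreStmt (p : ℕ) : Prop :=
  ∀ (n : ℕ) [NeZero n] (R C K E N : Type) [CommRing R] [Field C] [Field K]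
    [Field E] [Field N] [Algebra C K] [Algebra K E] [Algebra E N] [Algebra C E] [Algebra C N]
    [Algebra K N] [Algebra R C] [Algebra R E] [IsScalarTower R C E] [IsScalarTower C K E]
    [IsScalarTower K E N] [IsScalarTower C E N] [IsScalarTower C K N]
    [IsAlgClosed C] [CharZero C] [FiniteDimensional E N] [IsGalois E N],
    Nonempty (CoreData p n R C K E N) →
    Module.finrank E N * (4 * Module.finrank E N + 1) + 1 < n →
    ∃ Q : Subgroup (N ≃ₐ[E] N), Q.Normal ∧ Q ≠ ⊥ ∧ IsPGroup p Q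

/-- **Descent**: the assembly of the counting statement -/
def DescentStmt (p : ℕ) : Prop :=
  WorldStmt p → RetE → UniqStmt → CoreStmt p → CNT p

/-! ### The special fibre -/

/-- **no bad place** (characteristic free; `k` the residue field of the constants, `κ` the residue
field of `K`, `Ω` an algebraic closure of `κ(x, y)`) -/
def ZStmt : Prop :=
  ∀ (R k Ω : Type) [CommRing R] [Field k] [Field Ω] [IsAlgClosed k] [Algebra k Ω] [Algebra R k]
    [Algebra R Ω] [IsScalarTower R k Ω] (κ : IntermediateField k Ω) (W : Affine R) [W.IsElliptic]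
    (n N : ℕ) [NeZero n] (x y : Ω) (ns : (W⁄Ω).Nonsingular x y) (P : (W⁄k).Point),
    addOrderOf P = n → ∀ (a b : Fin n → k) (ns' : ∀ i, (W⁄k).Nonsingular (a i) (b i)),
    (∀ i, Point.some _ _ (ns' (i + 1)) = Point.some _ _ (ns' i) + P) →
    ∀ (g : Ω ≃ₐ[k] Ω), (∀ z, g z ∈ κ ↔ z ∈ κ) →
    Point.map (g : Ω →ₐ[k] Ω) (Point.some _ _ ns) = Point.some _ _ ns - Point.baseChange k Ω P →
    ∀ V : ValuationSubring κ, (∀ c : k, algebraMap k κ c ∈ V) →
    (∀ z ∈ V, ∃ c : k, V.valuation (z - algebraMap k κ c) < 1) →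
    (∀ z z' : κ, (z' : Ω) = g z → (z' ∈ V ↔ z ∈ V)) →
    ∀ Θ : Finset (Fin n → Ω), Θ.card ≤ N → (∀ θ ∈ Θ, (fun i => g (θ (i - 1))) ∈ Θ) →
    (∀ θ ∈ Θ, ∀ i, θ i ≠ 0 → ∃ f : κ[X], f ≠ 0 ∧ f.natDegree ≤ 2 * N ∧
      ∀ w : ValuationSubring Ω, (∀ z : κ, (z : Ω) ∈ w) → x ∈ w → w.valuation (θ i) < 1 →
        w.valuation (Polynomial.aeval x f) < 1) →
    N * (4 * N + 1) + 1 < n →
    ∀ w : ValuationSubring Ω, (∀ z : κ, (z : Ω) ∈ w) → ∀ θ ∈ Θ, θ ≠ 0 →
      ∃ i, ¬ (w.valuation (x - algebraMap k Ω (a i)) < 1 ∧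
        w.valuation (y - algebraMap k Ω (b i)) < 1) ∧ ¬ w.valuation (θ i) < 1

/-- the polynomial bounding the zeros of a function with a simple pole along `x = ∞` -/
def PolyStmt : Prop :=
  ∀ (κ Ω : Type) [Field κ] [Field Ω] [Algebra κ Ω] (x φ : Ω) (r : ℕ), Transcendental κ x → φ ≠ 0 →
    IsIntegral (Algebra.adjoin κ {x}) φ → IsIntegral (Algebra.adjoin κ {x⁻¹}) (φ / x) →
    (minpoly (IntermediateField.adjoin κ {x}) φ).natDegree ≤ r →
    ∃ f : κ[X], f ≠ 0 ∧ f.natDegree ≤ r ∧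
      ∀ w : ValuationSubring Ω, (∀ z : κ, algebraMap κ Ω z ∈ w) → x ∈ w → w.valuation φ < 1 →
        w.valuation (Polynomial.aeval x f) < 1

/-- the separating polynomial on a chart -/
def QStmt : Prop :=
  ∀ (Ω ι : Type) [Field Ω] [Fintype ι] (A : Subring Ω) (T : Finset (ι → Ω)),
    (∀ w : ValuationSubring Ω, (∀ z ∈ A, z ∈ w) → ∀ t ∈ T, ∃ i, ¬ w.valuation (t i) < 1) →
    ∃ q : MvPolynomial ι A, MvPolynomial.constantCoeff q = 1 ∧
      ∀ t ∈ T, MvPolynomial.aeval t q = 0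

end Crest.Agent.T170.Fr
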