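import Crest.Agent.T170.BadA_10
import Crest.Agent.T170.EllC_61
import Crest.Agent.T170.Fr_20

/-!
# Row 170 (helper10): the frame statement `ZStmt` (there is no bad place).
-/

set_option autoImplicit false

namespace Crest.Agent.T170.Bad

open WeierstrassCurve WeierstrassCurve.Affine Polynomial Crest.Agent.T170.Ell
open Crest.Agent.T170.Ell.Place
open scoped Classical

section places

variable {L Om : Type*} [Field L] [Field Om]

theorem ofVS_sp_zero_iff (w : ValuationSubring L) (z : L) :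
    (Place.ofValuationSubring w).Sp z 0 ↔ w.valuation z < 1 := by
  constructor
  · rintro ⟨hz, h⟩
    exact (w.valuation_lt_one_iff ⟨z, hz⟩).1 ((IsLocalRing.residue_eq_zero_iff _).1 h)
  · intro h
    have hz : z ∈ w := (w.valuation_le_one_iff z).1 h.le
    exact ⟨hz, (IsLocalRing.residue_eq_zero_iff _).2 ((w.valuation_lt_one_iff ⟨z, hz⟩).2 h)⟩

theorem sp_zero_iff_or (Q : Place L Om) (z : L) : Q.Sp z 0 ↔ z = 0 ∨ z⁻¹ ∉ Q.A := by
  constructor
  · intro h
    by_cases hz : z = 0
    · exact Or.inl hz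
    · exact Or.inr (h.inv_not_mem hz)
  · rintro (rfl | h)
    · exact sp_zero
    · simpa using sp_inv_of_not_mem h

theorem valuation_lt_one_iff_or (w : ValuationSubring L) (z : L) :
    w.valuation z < 1 ↔ z = 0 ∨ z⁻¹ ∉ w := by
  rw [← ValuationSubring.mem_nonunits_iff, ValuationSubring.mem_nonunits_iff_or]

theorem valuation_comap_lt_one_iff {K : Type*} [Field K] (w : ValuationSubring L) (f : K →+* L)
    (z : K) : (w.comap f).valuation z < 1 ↔ w.valuation (f z) < 1 := by
  rw [valuation_lt_one_iff_or, valuation_lt_one_iff_or, ValuationSubring.mem_comap, map_inv₀,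
    map_eq_zero]

theorem mem_of_refine {Q : Place L Om} {w : ValuationSubring L}
    (h : ∀ z, w.valuation z < 1 → Q.Sp z 0) {z : L} (hz : z ∈ Q.A) : z ∈ w := by
  by_contra hw
  have h0 : z ≠ 0 := by
    rintro rfl
    exact hw (zero_mem _)
  have := h z⁻¹ ((valuation_lt_one_iff_or w _).2 (Or.inr (by simpa using hw)))
  exact this.inv_not_mem (inv_ne_zero h0) (by simpa using hz)

end places

section red

variable {R k L Om : Type*} [CommRing R] [Field k] [Field L] [Field Om] [Algebra R k]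
  [Algebra R L] [Algebra k L] [IsScalarTower R k L] [Algebra R Om] [Algebra k Om]
  [IsScalarTower R k Om] {W : Affine R} [W.IsElliptic]

theorem over_of_over {Q : Place L Om} (hQ : Q.Over k) : Q.Over R := fun r => by
  rw [IsScalarTower.algebraMap_apply R k L, IsScalarTower.algebraMap_apply R k Om]
  exact hQ _

theorem red_baseChange {Q : Place L Om} (hQ : Q.Over k) (hR : Q.Over R) (T : (W⁄k).Point) :
    red W hR (Point.baseChange k L T) = Point.baseChange k Om T := by
  rcases T with _ | ⟨x, y, h⟩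
  · simp only [← Point.zero_def, map_zero]
  · exact red_some_of_sp hR _ (hQ x) (hQ y)

end red

section shift

variable {R k Ω : Type*} [CommRing R] [Field k] [Field Ω] [Algebra R k]
  [Algebra R Ω] [Algebra k Ω] [IsScalarTower R k Ω] {W : Affine R} [W.IsElliptic]

/-- the centre of `ξ + P` is the centre of `ξ` plus `P` -/
theorem centre_shift (w : ValuationSubring Ω) (hw : ∀ c : k, algebraMap k Ω c ∈ w)
    {x y x' y' : Ω} (ns : (W⁄Ω).Nonsingular x y) (ns₁ : (W⁄Ω).Nonsingular x' y')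
    {a b a' b' : k} (h : (W⁄k).Nonsingular a b) (h' : (W⁄k).Nonsingular a' b') (P : (W⁄k).Point)
    (e : Point.some _ _ h' = Point.some _ _ h + P)
    (e₁ : Point.some _ _ ns₁ = Point.some _ _ ns + Point.baseChange k Ω P)
    (hx : w.valuation (x - algebraMap k Ω a) < 1) (hy : w.valuation (y - algebraMap k Ω b) < 1) :
    w.valuation (x' - algebraMap k Ω a') < 1 ∧ w.valuation (y' - algebraMap k Ω b') < 1 := by
  let f : k →+* IsLocalRing.ResidueField w :=
    (IsLocalRing.residue w).comp ((algebraMap k Ω).codRestrict w.toSubring hw)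
  let _ : Algebra k (IsLocalRing.ResidueField w) := f.toAlgebra
  let _ : Algebra R (IsLocalRing.ResidueField w) := (f.comp (algebraMap R k)).toAlgebra
  have : IsScalarTower R k (IsLocalRing.ResidueField w) :=
    IsScalarTower.of_algebraMap_eq fun _ => rfl
  let Q := Place.ofValuationSubring w
  have hQ : Q.Over k := fun c => ⟨hw c, rfl⟩
  have hR : Q.Over R := over_of_over hQ
  have key : ∀ (z : Ω) (c : k), w.valuation (z - algebraMap k Ω c) < 1 ↔
      Q.Sp z (algebraMap k _ c) := by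
    intro z c
    rw [← ofVS_sp_zero_iff]
    exact ⟨fun h => by simpa using h.add (hQ c), fun h => by simpa using h.sub (hQ c)⟩
  have h1 : red W hR (Point.some _ _ ns) = Point.baseChange k _ (Point.some _ _ h) :=
    red_some_of_sp hR _ ((key _ _).1 hx) ((key _ _).1 hy)
  have h2 : red W hR (Point.some _ _ ns₁) = Point.baseChange k _ (Point.some _ _ h') := by
    rw [e₁, map_add, h1, red_baseChange hQ, e, map_add]
  have h3 := (red_some_eq_some_iff hR ns₁ _).1 h2
  exact ⟨(key _ _).2 h3.1, (key _ _).2 h3.2⟩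

end shift

section compose

variable {k Ω : Type*} [Field k] [Field Ω] [Algebra k Ω] (κ : IntermediateField k Ω)
  (V : ValuationSubring κ)

/-- `Q` is a `k`-valued place over `k` inducing `V` on `κ` -/
def Good (Q : Place Ω k) : Prop := Q.Over k ∧ ∀ z : κ, (z : Ω) ∈ Q.A ↔ z ∈ V

variable {κ V}

theorem Good.sp {Q : Place Ω k} (hQ : Good κ V Q) {z : κ} {c : k}
    (h : V.valuation (z - algebraMap k κ c) < 1) : Q.Sp (z : Ω) c := by
  have h1 : Q.Sp ((z - algebraMap k κ c : κ) : Ω) 0 := by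
    rw [sp_zero_iff_or]
    rcases (valuation_lt_one_iff_or V _).1 h with h | h
    · exact Or.inl (by rw [h]; rfl)
    · exact Or.inr fun hm => h ((hQ.2 _).1 (by simpa using hm))
  simpa using h1.add (hQ.1 c)

theorem exists_good [IsAlgClosed k] (hk : ∀ c : k, algebraMap k κ c ∈ V)
    (hres : ∀ z ∈ V, ∃ c : k, V.valuation (z - algebraMap k κ c) < 1)
    (w : ValuationSubring Ω) (hw : ∀ z : κ, (z : Ω) ∈ w) :
    ∃ Q : Place Ω k, Good κ V Q ∧ ∀ z, w.valuation z < 1 → Q.Sp z 0 := by
  let f : k →+* IsLocalRing.ResidueField V :=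
    (IsLocalRing.residue V).comp ((algebraMap k κ).codRestrict V.toSubring hk)
  have hf : ∀ c, (Place.ofValuationSubring V).Sp (algebraMap k κ c) (f c) := fun c => ⟨hk c, rfl⟩
  obtain ⟨PV, hPV⟩ := exists_codRestrict (Place.ofValuationSubring V) f fun x b hb => by
    obtain ⟨c, hc⟩ := hres x hb.mem
    have := ((ofVS_sp_zero_iff V _).2 hc).add (hf c)
    simp only [sub_add_cancel, zero_add] at this
    exact ⟨c, this.unique hb⟩
  have hPVm : ∀ z, z ∈ PV.A ↔ z ∈ V := by
    intro z
    constructor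
    · intro hz
      exact ((hPV _ _).1 (sp_val hz)).mem
    · intro hz
      obtain ⟨c, hc⟩ := hres z hz
      have := ((ofVS_sp_zero_iff V _).2 hc).add (hf c)
      simp only [sub_add_cancel, zero_add] at this
      exact ((hPV _ _).2 this).mem
  let j : κ →+* IsLocalRing.ResidueField w :=
    (IsLocalRing.residue w).comp ((algebraMap κ Ω).codRestrict w.toSubring hw)
  have hj : ∀ z : κ, (Place.ofValuationSubring w).Sp (z : Ω) (j z) := fun z => ⟨hw z, rfl⟩
  obtain ⟨Q1, hQ1⟩ := PV.exists_extension j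
  have hsp : ∀ z c, PV.Sp z c →
      ((Place.ofValuationSubring w).comp Q1).Sp (algebraMap κ Ω z) (RingHom.id k c) :=
    fun z c h => (hj z).comp (hQ1 z c h)
  refine ⟨(Place.ofValuationSubring w).comp Q1, ⟨fun c => ?_, fun z => ?_⟩, fun z hz => ?_⟩
  · exact hsp _ _ ((hPV _ _).2 (hf c))
  · rw [← hPVm]
    exact mem_iff_of_sp hsp z
  · exact ((ofVS_sp_zero_iff w z).2 hz).comp sp_zero

/-- reduction of a nonzero polynomial over `κ` to a nonzero polynomial over `k` -/
theorem exists_red_poly (hres : ∀ z ∈ V, ∃ c : k, V.valuation (z - algebraMap k κ c) < 1)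
    {f : κ[X]} (hf : f ≠ 0) : ∃ (fb : k[X]) (u : κ), fb ≠ 0 ∧ fb.natDegree ≤ f.natDegree ∧
      ∀ Q : Place Ω k, Good κ V Q → ∀ x a, Q.Sp x a →
        Q.Sp ((u : Ω) * aeval x f) (fb.eval a) := by
  obtain ⟨j, hj, hmax⟩ := f.support.exists_max_image (fun i => V.valuation (f.coeff i))
    (support_nonempty.2 hf)
  have hj0 : f.coeff j ≠ 0 := mem_support_iff.1 hj
  have hV : ∀ i, (f.coeff j)⁻¹ * f.coeff i ∈ V := by
    intro i
    by_cases hi : i ∈ f.support
    · rw [← V.valuation_le_one_iff, map_mul, map_inv₀]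
      exact inv_mul_le_one_of_le₀ (hmax i hi) zero_le
    · rw [notMem_support_iff.1 hi, mul_zero]
      exact zero_mem _
  choose c hc using fun i => hres _ (hV i)
  have hjle : j ≤ f.natDegree := le_natDegree_of_mem_supp j hj
  refine ⟨∑ i ∈ Finset.range (f.natDegree + 1), monomial i (c i), (f.coeff j)⁻¹, ?_, ?_, ?_⟩
  · intro h0
    have h1 := congrArg (fun P : k[X] => P.coeff j) h0
    simp only [finsetSum_coeff, coeff_monomial, Finset.sum_ite_eq', Finset.mem_range,
      coeff_zero] at h1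
    rw [if_pos (by omega)] at h1
    have := hc j
    rw [h1, inv_mul_cancel₀ hj0, map_zero, sub_zero, map_one] at this
    exact lt_irrefl _ this
  · refine natDegree_sum_le_of_forall_le _ _ fun i hi => ?_
    exact (natDegree_monomial_le _).trans (Nat.lt_succ_iff.1 (Finset.mem_range.1 hi))
  · intro Q hQ x a hx
    rw [aeval_eq_sum_range, Finset.mul_sum, eval_finsetSum]
    refine sp_sum _ fun i _ => ?_
    rw [eval_monomial, Algebra.smul_def, ← mul_assoc]
    exact (by simpa using hQ.sp (hc i) : Q.Sp _ (c i)).mul (hx.pow i)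

end compose

section count

variable {k : Type*} [Field k] (W : Affine k)

theorem finite_card_points (f : k[X]) (hf : f ≠ 0) :
    ∃ s : Finset W.Point, s.card ≤ 2 * f.natDegree ∧
      ∀ x y (h : W.Nonsingular x y), f.eval x = 0 → Point.some x y h ∈ s := by
  have key : ∀ x : k, ∃ s : Finset W.Point, s.card ≤ 2 ∧
      ∀ y (h : W.Nonsingular x y), Point.some x y h ∈ s := by
    intro x
    by_cases hx : ∃ y, W.Nonsingular x y
    · obtain ⟨y₀, h₀⟩ := hx
      refine ⟨{Point.some x y₀ h₀, -Point.some x y₀ h₀}, Finset.card_le_two, fun y h => ?_⟩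
      rcases (Point.X_eq_iff (h₁ := h) (h₂ := h₀)).1 rfl with e | e <;> simp [e]
    · exact ⟨∅, by simp, fun y h => absurd ⟨y, h⟩ hx⟩
  choose t ht using key
  refine ⟨f.roots.toFinset.biUnion t, ?_, fun x y h hx => ?_⟩
  · refine Finset.card_biUnion_le.trans ?_
    refine (Finset.sum_le_card_nsmul _ _ 2 fun x _ => (ht x).1).trans ?_
    rw [smul_eq_mul, mul_comm]
    exact Nat.mul_le_mul_left 2 ((Multiset.toFinset_card_le _).trans (card_roots' f))
  · exact Finset.mem_biUnion.2 ⟨x, Multiset.mem_toFinset.2 ((mem_roots hf).2 hx), (ht x).2 y h⟩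

theorem le_card_of_stable {A : Type*} [AddGroup A] {P : A} {Y : Set A} {s : Finset A}
    (hs : ∀ T ∈ Y, T ∈ s) (hY : ∀ T ∈ Y, T + P ∈ Y) {T : A} (hT : T ∈ Y) :
    addOrderOf P ≤ s.card := by
  have h1 : ∀ j : ℕ, T + j • P ∈ Y := by
    intro j
    induction j with
    | zero => simpa using hT
    | succ j ih => simpa [succ_nsmul, add_assoc] using hY _ ih
  refine Finset.le_card_of_inj_on_range (fun j => T + j • P) (fun j _ => hs _ (h1 j)) ?_
  intro i hi j hj h
  exact nsmul_injOn_Iio_addOrderOf hi hj (add_left_cancel h)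

end count

theorem zStmt : Fr.ZStmt := by
  intro R k Ω _ _ _ _ _ _ _ _ κ W _ n N _ x y ns P hP a b ns' hO g hg hξ V hk hres hV Θ hΘ hΘg
    hf hn w₀ hw₀ θ₀ hθ₀ hθ₀0
  by_contra hbad
  let Bad : ValuationSubring Ω → (Fin n → Ω) → Prop := fun w θ =>
    (∀ z : κ, (z : Ω) ∈ w) ∧ θ ∈ Θ ∧ θ ≠ 0 ∧ ∀ i, ¬ (w.valuation (x - algebraMap k Ω (a i)) < 1 ∧
      w.valuation (y - algebraMap k Ω (b i)) < 1) → w.valuation (θ i) < 1
  have hbad₀ : Bad w₀ θ₀ := ⟨hw₀, hθ₀, hθ₀0, fun i hi => by
    by_contra h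
    exact hbad ⟨i, hi, h⟩⟩
  let Y : Set (W⁄k).Point := {T | ∃ (w : ValuationSubring Ω) (θ : Fin n → Ω) (Q : Place Ω k)
    (hQ : Good κ V Q), Bad w θ ∧ (∀ z, w.valuation z < 1 → Q.Sp z 0) ∧
      T = red W (over_of_over hQ.1) (Point.some _ _ ns)}
  -- `Y` is nonempty
  obtain ⟨Q₀, hQ₀, hQw₀⟩ := exists_good hk hres w₀ hw₀
  have hY0 : red W (over_of_over hQ₀.1) (Point.some _ _ ns) ∈ Y :=
    ⟨w₀, θ₀, Q₀, hQ₀, hbad₀, hQw₀, rfl⟩
  -- `g⁻¹ ξ = ξ + P`
  have nsg : (W⁄Ω).Nonsingular (g.symm x) (g.symm y) :=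
    (W.baseChange_nonsingular (f := (g.symm : Ω →ₐ[k] Ω)) g.symm.injective x y).2 ns
  have hξ' : Point.some _ _ nsg = Point.some _ _ ns + Point.baseChange k Ω P := by
    have h1 := congrArg (Point.map (W' := W) (g.symm : Ω →ₐ[k] Ω)) hξ
    rw [map_sub, Point.map_baseChange, Point.map_map] at h1
    have h2 : Point.map (W' := W) ((g.symm : Ω →ₐ[k] Ω).comp (g : Ω →ₐ[k] Ω))
        (Point.some _ _ ns) = Point.some _ _ ns := by
      rw [Point.map_some]
      simp
    rw [h2] at h1
    exact (sub_eq_iff_eq_add.1 h1.symm)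
  have hκ : ∀ z : κ, g.symm z ∈ κ := fun z => (hg _).1 (by simp)
  -- `Y` is stable under translation by `P`
  have hYP : ∀ T ∈ Y, T + P ∈ Y := by
    rintro T ⟨w, θ, Q, hQ, ⟨hw, hθ, hθ0, hb⟩, hQw, rfl⟩
    let gs : Ω →+* Ω := (g.symm : Ω →ₐ[k] Ω)
    have hgs : ∀ z, gs z = g.symm z := fun _ => rfl
    have hQ' : Good κ V (Q.comap gs) := by
      refine ⟨fun c => ?_, fun z => ?_⟩
      · rw [comap_sp, hgs, AlgEquiv.commutes]
        exact hQ.1 c
      · rw [Place.mem_comap, hgs]
        exact (hQ.2 ⟨_, hκ z⟩).trans (hV ⟨_, hκ z⟩ z (by simp)).symm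
    refine ⟨w.comap gs, fun i => g (θ (i - 1)), Q.comap gs, hQ', ⟨fun z => hw ⟨_, hκ z⟩,
      hΘg θ hθ, fun h0 => hθ0 ?_, fun i hi => ?_⟩, fun z hz => ?_, ?_⟩
    · ext i
      have := congrFun h0 (i + 1)
      simpa using this
    · rw [valuation_comap_lt_one_iff, hgs, AlgEquiv.symm_apply_apply]
      refine hb _ fun hc => hi ?_
      have hO' := hO (i - 1)
      have := centre_shift w (fun c => hw (algebraMap k κ c)) ns nsg (ns' (i - 1))
        (ns' (i - 1 + 1)) P hO' hξ' hc.1 hc.2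
      simp only [valuation_comap_lt_one_iff, hgs, map_sub, AlgEquiv.commutes]
      simpa using this
    · exact hQw _ ((valuation_comap_lt_one_iff w gs z).1 hz)
    · have h1 : red W (over_of_over hQ'.1) (Point.some _ _ ns) =
          red W (over_of_over hQ.1) (Point.some _ _ nsg) := by
        by_cases hx : g.symm x ∈ Q.A
        · have hy := y_mem (over_of_over hQ.1) nsg.1 hx
          rw [red_some_of_sp _ nsg (sp_val hx) (sp_val hy)]
          exact red_some_of_sp _ ns (sp_val hx) (sp_val hy)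
        · rw [red_some_of_not_mem _ nsg hx]
          exact red_some_of_not_mem _ ns hx
      rw [h1, hξ', map_add, red_baseChange hQ.1]
      congr 1
      rcases P with _ | ⟨s, t, h⟩ <;> rfl
  -- `Y` is small
  have hone : ∀ θ ∈ Θ, ∃ s : Finset (W⁄k).Point, s.card ≤ 4 * N + 1 ∧
      ∀ (w : ValuationSubring Ω) (Q : Place Ω k) (hQ : Good κ V Q), Bad w θ →
        (∀ z, w.valuation z < 1 → Q.Sp z 0) → x ∈ Q.A →
        red W (over_of_over hQ.1) (Point.some _ _ ns) ∈ s := by
    intro θ hθ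
    by_cases h0 : θ = 0
    · exact ⟨∅, by simp, fun w Q hQ hb => absurd h0 hb.2.2.1⟩
    obtain ⟨i, hi⟩ := Function.ne_iff.1 h0
    obtain ⟨f, hf0, hfd, hfw⟩ := hf θ hθ i hi
    obtain ⟨fb, u, hfb0, hfbd, hfb⟩ := exists_red_poly hres hf0
    obtain ⟨s, hs, hsm⟩ := finite_card_points (W⁄k) fb hfb0
    refine ⟨insert (Point.some _ _ (ns' i)) s, (Finset.card_insert_le _ _).trans (by omega),
      fun w Q hQ hb hQw hx => ?_⟩
    by_cases hc : w.valuation (x - algebraMap k Ω (a i)) < 1 ∧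
        w.valuation (y - algebraMap k Ω (b i)) < 1
    · have h1 : Q.Sp x (a i) := by simpa using (hQw _ hc.1).add (hQ.1 (a i))
      have h2 : Q.Sp y (b i) := by simpa using (hQw _ hc.2).add (hQ.1 (b i))
      rw [red_some_of_sp _ ns h1 h2]
      exact Finset.mem_insert_self _ _
    · have hy := y_mem (over_of_over hQ.1) ns.1 hx
      rw [red_some_of_sp _ ns (sp_val hx) (sp_val hy)]
      refine Finset.mem_insert_of_mem (hsm _ _ _ ?_)
      have h1 := hfw w hb.1 (mem_of_refine hQw hx) (hb.2.2.2 i hc)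
      have h2 : w.valuation ((u : Ω) * aeval x f) < 1 := by
        rw [← ValuationSubring.mem_nonunits_iff] at h1 ⊢
        exact mul_mem_nonunits w (hb.1 u) h1
      exact (hfb Q hQ x _ (sp_val hx)).unique (hQw _ h2)
  choose! s hs using hone
  have hcard : (insert 0 (Θ.biUnion s)).card ≤ N * (4 * N + 1) + 1 := by
    refine (Finset.card_insert_le _ _).trans (Nat.succ_le_succ ?_)
    refine Finset.card_biUnion_le.trans ?_
    refine (Finset.sum_le_card_nsmul _ _ (4 * N + 1) fun θ hθ => (hs θ hθ).1).trans ?_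
    rw [smul_eq_mul]
    exact Nat.mul_le_mul_right _ hΘ
  have := le_card_of_stable (s := insert 0 (Θ.biUnion s)) ?_ hYP hY0
  · omega
  rintro T ⟨w, θ, Q, hQ, hb, hQw, rfl⟩
  by_cases hx : x ∈ Q.A
  · exact Finset.mem_insert_of_mem
      (Finset.mem_biUnion.2 ⟨θ, hb.2.1, (hs θ hb.2.1).2 w Q hQ hb hQw hx⟩)
  · rw [red_some_of_not_mem _ ns hx]
    exact Finset.mem_insert_self _ _

end Crest.Agent.T170.Bad
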