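import Crest.Agent.T170.DMStm_38

/-!
Row 170, differential modules (helper83): `commonStmt : CommonStmt`.
-/

namespace Crest.Agent.T170.DM

open Module

namespace Com83

section Filt

variable {R : Type*} [CommRing R] {V : Type*} [AddCommGroup V] [Module R V]

/-- the span of the `δ ^ i e`, `i ≤ j`, `e ∈ s` -/
def P (R : Type*) [CommRing R] {V : Type*} [AddCommGroup V] [Module R V]
    (δ : AddMonoid.End V) (s : Set V) (j : ℕ) : Submodule R V :=
  Submodule.span R {w | ∃ i ≤ j, ∃ e ∈ s, (δ ^ i) e = w}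

variable {π : R} {m : ℕ} {δ : AddMonoid.End V} {s : Set V}

theorem P_zero : P R δ s 0 = Submodule.span R s := by
  unfold P
  congr 1
  ext w
  constructor
  · rintro ⟨i, hi, e, he, rfl⟩
    obtain rfl : i = 0 := Nat.le_zero.1 hi
    simpa [End_one_apply] using he
  · intro hw
    exact ⟨0, le_rfl, w, hw, by simp [End_one_apply]⟩

theorem P_mono {i j : ℕ} (h : i ≤ j) : P R δ s i ≤ P R δ s j :=
  Submodule.span_mono fun _ ⟨k, hk, e, he, hw⟩ => ⟨k, hk.trans h, e, he, hw⟩

theorem gen_mem {i j : ℕ} (h : i ≤ j) {e : V} (he : e ∈ s) : (δ ^ i) e ∈ P R δ s j :=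
  Submodule.subset_span ⟨i, h, e, he, rfl⟩

theorem P_fg (hs : s.Finite) (j : ℕ) : (P R δ s j).FG := by
  apply Submodule.fg_span
  refine (((Set.finite_Iic j).prod hs).image fun q => (δ ^ q.1) q.2).subset ?_
  rintro _ ⟨i, hi, e, he, rfl⟩
  exact ⟨(i, e), ⟨hi, he⟩, rfl⟩

theorem P_succ (h : IsConn π m δ) (j : ℕ) : ∀ v ∈ P R δ s j, δ v ∈ P R δ s (j + 1) := by
  refine h.map_span (fun w hw => P_mono (Nat.le_succ j) (Submodule.subset_span hw)) ?_
  rintro _ ⟨i, hi, e, he, rfl⟩
  rw [← End_pow_succ_apply]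
  exact gen_mem (Nat.succ_le_succ hi) he

theorem P_pow (h : IsConn π m δ) (i : ℕ) {j : ℕ} {v : V} (hv : v ∈ P R δ s j) :
    (δ ^ i) v ∈ P R δ s (j + i) := by
  induction i with
  | zero => simpa [End_one_apply] using hv
  | succ i ih => rw [End_pow_succ_apply]; exact P_succ h _ _ ih

theorem P_stab_of_comm (h : IsConn π m δ) {δ' : AddMonoid.End V} (h' : IsConn π m δ')
    (hc : δ' * δ = δ * δ') (hs : Stab (Submodule.span R s) δ') (j : ℕ) :
    Stab (P R δ s j) δ' := by
  refine h'.map_span Submodule.subset_span ?_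
  rintro _ ⟨i, hi, e, he, rfl⟩
  have h1 : δ' * δ ^ i = δ ^ i * δ' := (Commute.pow_right hc i).eq
  rw [← End_mul_apply, h1, End_mul_apply]
  have h2 : δ' e ∈ P R δ s 0 := by rw [P_zero]; exact hs e (Submodule.subset_span he)
  exact P_mono (by omega) (P_pow h i h2)

theorem P_stab (h : IsConn π m δ) {d : ℕ} (hd : ∀ e ∈ s, (δ ^ (d + 1)) e ∈ P R δ s d) :
    Stab (P R δ s d) δ := by
  refine h.map_span Submodule.subset_span ?_
  rintro _ ⟨i, hi, e, he, rfl⟩
  rw [← End_pow_succ_apply]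
  rcases hi.eq_or_lt with rfl | hi
  · exact hd e he
  · exact gen_mem hi he

/-- `T` is `δ ^ (d + 1)` up to lower order terms -/
def Mon (R : Type*) [CommRing R] {V : Type*} [AddCommGroup V] [Module R V]
    (δ : AddMonoid.End V) (s : Set V) (d : ℕ) (T : AddMonoid.End V) : Prop :=
  ∀ j, ∀ v ∈ P R δ s j, T v - (δ ^ (d + 1)) v ∈ P R δ s (j + d)

theorem Mon.mul (h : IsConn π m δ) {d d' : ℕ} {S T : AddMonoid.End V} (hS : Mon R δ s d S)
    (hT : Mon R δ s d' T) : Mon R δ s (d + d' + 1) (S * T) := by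
  intro j v hv
  have h1 : T v ∈ P R δ s (j + (d' + 1)) := by
    have := (P R δ s (j + (d' + 1))).add_mem (P_mono (by omega) (hT j v hv)) (P_pow h (d' + 1) hv)
    simpa using this
  have e : (S * T) v - (δ ^ (d + d' + 1 + 1)) v =
      (S (T v) - (δ ^ (d + 1)) (T v)) + (δ ^ (d + 1)) (T v - (δ ^ (d' + 1)) v) := by
    rw [End_mul_apply, map_sub, ← End_pow_add_apply,
      show d + 1 + (d' + 1) = d + d' + 1 + 1 by omega]
    abel
  rw [e]
  exact Submodule.add_mem _ (P_mono (by omega) (hS _ _ h1))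
    (P_mono (by omega) (P_pow h (d + 1) (hT j v hv)))

theorem Mon.pow (h : IsConn π m δ) {d : ℕ} {T : AddMonoid.End V} (hT : Mon R δ s d T) (k : ℕ) :
    ∃ d', Mon R δ s d' (T ^ (k + 1)) := by
  induction k with
  | zero => exact ⟨d, by simpa using hT⟩
  | succ k ih =>
    obtain ⟨d', hd'⟩ := ih
    exact ⟨_, by rw [pow_succ]; exact hd'.mul h hT⟩

/-- the operator `χ(δ) δ` -/
def op (χ : Polynomial R) (δ : AddMonoid.End V) : AddMonoid.End V :=
  (∑ j ∈ Finset.range (χ.natDegree + 1), sc V (χ.coeff j) * δ ^ j) * δ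

theorem op_apply (χ : Polynomial R) (v : V) :
    op χ δ v = ∑ j ∈ Finset.range (χ.natDegree + 1), χ.coeff j • (δ ^ j) (δ v) := by
  rw [op, End_mul_apply, End_sum_apply]
  rfl

theorem mon_op (h : IsConn π m δ) {χ : Polynomial R} (hχ : χ.Monic) :
    Mon R δ s χ.natDegree (op χ δ) := by
  intro j v hv
  rw [op_apply, Finset.sum_range_succ, hχ.coeff_natDegree, one_smul, ← End_pow_succ_apply',
    add_sub_cancel_right]
  refine Submodule.sum_mem _ fun i hi => Submodule.smul_mem _ _ ?_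
  have hi' := Finset.mem_range.1 hi
  rw [← End_pow_succ_apply']
  exact P_mono (by omega) (P_pow h (i + 1) hv)

theorem comm_op (h : IsConn π m δ) (χ : Polynomial R) : Comm π (op χ δ) := by
  intro v
  rw [op_apply, op_apply, Finset.smul_sum]
  refine Finset.sum_congr rfl fun j _ => ?_
  rw [h.1, pow_comm_pi h.1, smul_comm]

variable {ι : Type*} [Fintype ι] [DecidableEq ι]

theorem pow_vec_sub {b : ι → V} {A : Matrix ι ι R} (hA : IsMat b δ A) (h : IsConn π m δ)
    (j : ℕ) (c : ι → R) :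
    (δ ^ j) (vec b c) - vec b ((A ^ j).mulVec c) ∈ pw π (lat R b) m := by
  induction j with
  | zero => simp [End_one_apply]
  | succ j ih =>
    have e : (δ ^ (j + 1)) (vec b c) - vec b ((A ^ (j + 1)).mulVec c) =
        δ ((δ ^ j) (vec b c) - vec b ((A ^ j).mulVec c)) +
          (δ (vec b ((A ^ j).mulVec c)) - vec b (A.mulVec ((A ^ j).mulVec c))) := by
      rw [End_pow_succ_apply, map_sub, pow_succ', ← Matrix.mulVec_mulVec]
      abel
    rw [e]
    exact Submodule.add_mem _ ((hA.stab h).pw h.1 m _ ih) (hA.vec_sub h _)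

/-- Cayley–Hamilton modulo `π ^ m` -/
theorem small_op {b : ι → V} {A : Matrix ι ι R} (hA : IsMat b δ A) (h : IsConn π m δ) :
    Small π (lat R b) m (op A.charpoly δ) := by
  intro v hv
  obtain ⟨c, hc⟩ := mem_lat.1 (hA.stab h v hv)
  have h0 : ∑ j ∈ Finset.range (A.charpoly.natDegree + 1),
      A.charpoly.coeff j • vec b ((A ^ j).mulVec c) = 0 := by
    have h1 := Matrix.aeval_self_charpoly A
    rw [Polynomial.aeval_eq_sum_range] at h1
    have h2 := congrArg (fun B : Matrix ι ι R => vec b (B.mulVec c)) h1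
    simpa only [Matrix.sum_mulVec, Matrix.smul_mulVec, map_sum, map_smul, Matrix.zero_mulVec,
      map_zero] using h2
  rw [op_apply, ← hc, ← sub_zero (∑ j ∈ _, _), ← h0, ← Finset.sum_sub_distrib]
  refine Submodule.sum_mem _ fun j _ => ?_
  rw [← smul_sub]
  exact Submodule.smul_mem _ _ (pow_vec_sub hA h j c)

end Filt

variable {R K : Type*} [CommRing R] [IsDomain R] [ValuationRing R] [Field K] [Algebra R K]
  [IsFractionRing R K] {V : Type*} [AddCommGroup V] [Module K V] [Module R V]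
  [IsScalarTower R K V] [FiniteDimensional K V]

/-- every lattice is contained in a `δ`-stable lattice, which is stable under everything that
commutes with `δ` and stabilises the first lattice. -/
theorem exists_stab (hR : Arch R) {π : R} (h0 : π ≠ 0) (hπ : ¬ IsUnit π) {δ : AddMonoid.End V}
    (h : IsConn π 1 δ) (hs : HasStab R K δ) (L : Submodule R V) (hL : L.IsLattice K) :
    ∃ L' : Submodule R V, L'.IsLattice K ∧ L ≤ L' ∧ Stab L' δ ∧
      ∀ δ' : AddMonoid.End V, IsConn π 1 δ' → δ' * δ = δ * δ' → Stab L δ' → Stab L' δ' := by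
  classical
  obtain ⟨L₁, hL₁, hst⟩ := hs
  obtain ⟨b, rfl⟩ := exists_basis (ι := Fin (finrank K V)) (K := K) L₁ hL₁ (by simp)
  obtain ⟨A, hA⟩ := exists_isMat hst
  obtain ⟨a, ha⟩ := exists_pw_le (K := K) hR hπ L (lat R b) hL.fg hL₁
  obtain ⟨a', ha'⟩ := exists_pw_le (K := K) hR hπ (lat R b) L hL₁.fg hL
  obtain ⟨s, rfl⟩ := hL.fg
  have hT := (small_op hA h).pow (comm_op h _) (a + a' + 1)
  have hc := (comm_op h A.charpoly).pow (a + a' + 1)
  have hTL : Stab (Submodule.span R (s : Set V)) (op A.charpoly δ ^ (a + a' + 1)) := by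
    intro v hv
    have h1 := pw_anti π _ (Nat.le_succ (a + a')) (hT _ (ha (smul_mem_pw a hv)))
    rw [← pw_pw] at h1
    obtain ⟨w, hw, e⟩ := mem_pw.1 (pw_mono π ha' a h1)
    rw [hc.pow_left a] at e
    rw [← smul_cancel (K := K) (pow_ne_zero a h0) e]
    exact hw
  obtain ⟨d, hd⟩ := (mon_op (s := (s : Set V)) h A.charpoly_monic).pow h (a + a')
  have hle : Submodule.span R (s : Set V) ≤ P R δ s d := by
    rw [← P_zero (δ := δ)]; exact P_mono (Nat.zero_le d)
  refine ⟨P R δ s d, isLattice_of_le hL hle (P_fg s.finite_toSet d), hle, P_stab h fun e he => ?_,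
    fun δ' h' hc' hs' => P_stab_of_comm h h' hc' hs' d⟩
  have he0 : e ∈ P R δ s 0 := by rw [P_zero]; exact Submodule.subset_span he
  have h1 := hd 0 e he0
  rw [zero_add] at h1
  have h2 := hle (hTL e (Submodule.subset_span he))
  simpa using (P R δ s d).sub_mem h2 h1

/-- a common stable lattice containing a given lattice -/
theorem exists_common {n : Type*} [Finite n] (hR : Arch R) {π : R} (h0 : π ≠ 0)
    (hπ : ¬ IsUnit π) {δ : n → AddMonoid.End V} (h : ∀ i, IsConn π 1 (δ i))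
    (hc : ∀ i j, δ i * δ j = δ j * δ i) (hs : ∀ i, HasStab R K (δ i)) (L₀ : Submodule R V)
    (hL₀ : L₀.IsLattice K) :
    ∃ L : Submodule R V, L.IsLattice K ∧ L₀ ≤ L ∧ ∀ i, Stab L (δ i) := by
  classical
  have := Fintype.ofFinite n
  have key : ∀ t : Finset n, ∃ L : Submodule R V, L.IsLattice K ∧ L₀ ≤ L ∧
      ∀ i ∈ t, Stab L (δ i) := by
    intro t
    induction t using Finset.induction_on with
    | empty => exact ⟨L₀, hL₀, le_rfl, by simp⟩
    | insert i t _ ih =>
      obtain ⟨L, hL, hle, hst⟩ := ih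
      obtain ⟨L', hL', hle', h1, h2⟩ := exists_stab hR h0 hπ (h i) (hs i) L hL
      refine ⟨L', hL', hle.trans hle', fun j hj => ?_⟩
      rcases Finset.mem_insert.1 hj with rfl | hj
      · exact h1
      · exact h2 _ (h j) (hc j i) (hst j hj)
  obtain ⟨L, hL, hle, hst⟩ := key Finset.univ
  exact ⟨L, hL, hle, fun i => hst i (Finset.mem_univ i)⟩

end Com83

/-- **(COMMON)** -/
theorem commonStmt : CommonStmt := by
  intro R K V n _ _ _ _ _ _ _ _ _ _ _ _ π δ hR h0 hπ h hc hs
  obtain ⟨L, hL, -, hst⟩ := Com83.exists_common hR h0 hπ h hc hs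
    (lat R (Module.finBasis K V)) (isLattice_lat _)
  exact ⟨L, hL, hst⟩

end Crest.Agent.T170.DM
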