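import Crest.Agent.T170.DM2_38

/-!
Row 170, differential modules: the exact statements of the pieces, and the adapter for
`R = v.integer`.
-/

namespace Crest.Agent.T170.DM

open Module
open scoped NNReal

/-- every element of `R` is associated to a constant -/
def CstDense (R : Type*) [CommRing R] {V : Type*} [AddCommGroup V] [Module R V] {n : Type*}
    (δ : n → AddMonoid.End V) : Prop :=
  ∀ a : R, ∃ c : R, (∀ i, Comm c (δ i)) ∧ Associated a c

/-- the joint generalised kernel -/
noncomputable def V0 {F : Type*} [Field F] {W : Type*} [AddCommGroup W] [Module F W] {n : Type*}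
    (δb : n → Module.End F W) : Submodule F W := ⨅ i, (δb i).maxGenEigenspace 0

/-- `Eb` is unipotent on the joint generalised kernel and nilpotent on the rest. -/
def IsPre {F : Type*} [Field F] {W : Type*} [AddCommGroup W] [Module F W] {n : Type*}
    (δb : n → Module.End F W) (Eb : Module.End F W) : Prop :=
  IsNilpotent (Eb * Eb - Eb) ∧ Eb.maxGenEigenspace 1 = V0 δb

/-- The data common to the statements: a valuation ring `R` of rank one with fraction field `K`,
residue map `res` onto a field `F` of characteristic `p`, commuting connections `δ i` on `V`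
which are linear modulo `π`. -/
structure Setup (p : ℕ) (R : Type) [CommRing R] {F : Type} [Field F] (res : R →+* F) (π : R)
    {V : Type} [AddCommGroup V] [Module R V] {n : Type} (δ : n → AddMonoid.End V) : Prop where
  arch : Arch R
  surj : Function.Surjective res
  ker : ∀ a, res a = 0 ↔ ¬ IsUnit a
  char : CharP F p
  pi_ne : π ≠ 0
  pi_nonunit : ¬ IsUnit π
  /-- `π` is not a uniformiser -/
  pi_split : ∃ a a' : R, ¬ IsUnit a ∧ ¬ IsUnit a' ∧ π = a * a'
  conn : ∀ i, IsConn π 1 (δ i)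
  comm : ∀ i j, δ i * δ j = δ j * δ i
  cst : CstDense R δ

/-- (SPEC) the index of the joint generalised kernel is a power of `p`. -/
def SpecStmt : Prop :=
  ∀ (p : ℕ) [Fact p.Prime] (R K N F ι n : Type) [CommRing R] [IsDomain R] [ValuationRing R]
    [Field K] [Algebra R K] [IsFractionRing R K] [Field N] [Algebra K N] [Module R N]
    [IsScalarTower R K N] [FiniteDimensional K N] [IsGalois K N] [Field F] [Infinite F]
    [Fintype ι] [Fintype n] (res : R →+* F) (π : R) (δ : n → AddMonoid.End N),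
    Setup p R res π δ →
    (∀ i x y, δ i (x * y) = δ i x * y + x * δ i y) →
    (∀ i (g : N ≃ₐ[K] N) z, δ i (g z) = g (δ i z)) →
    ∀ (b : Basis ι K N) (δb : n → Module.End F (ι → F)), (∀ i, Red res b (δ i) (δb i)) →
    ∃ c : ℕ, finrank F (V0 δb) * p ^ c = finrank K N

/-- (IDEM) the topologically nilpotent vectors form a subspace of the expected dimension. -/
def IdemStmt : Prop :=
  ∀ (p : ℕ) [Fact p.Prime] (R K V F ι n : Type) [CommRing R] [IsDomain R] [ValuationRing R]
    [Field K] [Algebra R K] [IsFractionRing R K] [AddCommGroup V] [Module K V] [Module R V]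
    [IsScalarTower R K V] [Field F] [Fintype ι] [Fintype n]
    (res : R →+* F) (π : R) (δ : n → AddMonoid.End V), Setup p R res π δ →
    ∀ (b : Basis ι K V) (δb : n → Module.End F (ι → F)), (∀ i, Red res b (δ i) (δb i)) →
    ∀ (B₀ B₁ : AddSubgroup V),
    (∀ ϖ : R, ϖ ≠ 0 → ¬ IsUnit ϖ → (∀ i, Comm ϖ (δ i)) → Gaga ϖ (lat R b) B₀ B₁) →
    ∀ (E₀ E₁ : AddMonoid.End V) (Eb₀ Eb₁ : Module.End F (ι → F)),
    E₀ ∈ opRing R δ → E₁ ∈ opRing R δ → Set.MapsTo E₀ B₀ B₀ → Set.MapsTo E₁ B₁ B₁ →
    Red res b E₀ Eb₀ → Red res b E₁ Eb₁ → IsPre δb Eb₀ → IsPre δb Eb₁ →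
    ∃ N₀ : Submodule K V, (∀ z, z ∈ N₀ ↔ ∀ i, TNil π (lat R b) (δ i) z) ∧
      finrank K N₀ = finrank F (V0 δb)

/-- (COMMON) commuting power bounded connections have a common stable lattice containing any
given finite set. -/
def CommonStmt : Prop :=
  ∀ (R K V n : Type) [CommRing R] [IsDomain R] [ValuationRing R]
    [Field K] [Algebra R K] [IsFractionRing R K] [AddCommGroup V] [Module K V] [Module R V]
    [IsScalarTower R K V] [FiniteDimensional K V] [Fintype n]
    (π : R) (δ : n → AddMonoid.End V), Arch R → π ≠ 0 → ¬ IsUnit π → (∀ i, IsConn π 1 (δ i)) →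
    (∀ i j, δ i * δ j = δ j * δ i) → (∀ i, HasStab R K (δ i)) →
    ∃ L : Submodule R V, L.IsLattice K ∧ ∀ i, Stab L (δ i)

/-- the operator `c • D` -/
def scK {K : Type*} [Field K] {V : Type*} [AddCommGroup V] [Module K V] (c : K)
    (D : AddMonoid.End V) : AddMonoid.End V := sc V c * D

@[simp] theorem scK_apply {K : Type*} [Field K] {V : Type*} [AddCommGroup V] [Module K V] (c : K)
    (D : AddMonoid.End V) (z : V) : scK c D z = c • D z := rfl

/-- `D` is a connection over a valued field whose derivation does not increase `v`. -/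
def VConn {K : Type*} [Field K] (v : Valuation K ℝ≥0) {V : Type*} [AddCommGroup V] [Module K V]
    (D : AddMonoid.End V) : Prop :=
  ∀ a : K, ∃ a' : K, v a' ≤ v a ∧ ∀ z, D (a • z) = a • D z + a' • z

/-- (SLOPE) `C` is a set of constants whose values form the whole, divisible, value group. If the
scalars `c ∈ C` making all `c D i` power bounded have `v c ≤ r < 1`, there is an optimal one. -/
def SlopeStmt : Prop :=
  ∀ (K V n : Type) [Field K] (v : Valuation K ℝ≥0) [AddCommGroup V] [Module K V]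
    [FiniteDimensional K V] [Fintype n] (D : n → AddMonoid.End V) (C : Subfield K),
    (∀ i, VConn v (D i)) → (∀ c ∈ C, ∀ i z, D i (c • z) = c • D i z) →
    (∀ (a : K) (j : ℕ), 0 < j → ∃ c ∈ C, v c ^ j = v a) →
    (∃ a : K, 0 < v a ∧ v a < 1) →
    (∃ r : ℝ≥0, r < 1 ∧ ∀ c ∈ C, (∀ i, HasStab v.integer K (scK c (D i))) → v c ≤ r) →
    ∃ c ∈ C, 0 < v c ∧ v c < 1 ∧ (∀ i, HasStab v.integer K (scK c (D i))) ∧
      ∀ (π : v.integer) (L : Submodule v.integer V), ¬ IsUnit π → L.IsLattice K →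
        ∃ i z, ¬ TNil π L (scK c (D i)) z

/-- (FINAL) the normal `p`-subgroup. -/
def FinalStmt : Prop :=
  ∀ (p : ℕ) [Fact p.Prime] (R K N F ι n : Type) [CommRing R] [IsDomain R] [ValuationRing R]
    [Field K] [Algebra R K] [IsFractionRing R K] [Field N] [Algebra K N] [Module R N]
    [IsScalarTower R K N] [FiniteDimensional K N] [IsGalois K N] [Field F] [Infinite F]
    [Fintype ι] [Fintype n] (res : R →+* F) (π : R) (δ : n → AddMonoid.End N),
    Setup p R res π δ →
    (∀ i x y, δ i (x * y) = δ i x * y + x * δ i y) →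
    (∀ i (g : N ≃ₐ[K] N) z, δ i (g z) = g (δ i z)) →
    ∀ (b : Basis ι K N) (δb : n → Module.End F (ι → F)), (∀ i, Red res b (δ i) (δb i)) →
    (∃ i z, ¬ TNil π (lat R b) (δ i) z) →
    ∀ (B₀ B₁ : AddSubgroup N),
    (∀ ϖ : R, ϖ ≠ 0 → ¬ IsUnit ϖ → (∀ i, Comm ϖ (δ i)) → Gaga ϖ (lat R b) B₀ B₁) →
    ∀ (E₀ E₁ : AddMonoid.End N) (Eb₀ Eb₁ : Module.End F (ι → F)),
    E₀ ∈ opRing R δ → E₁ ∈ opRing R δ → Set.MapsTo E₀ B₀ B₀ → Set.MapsTo E₁ B₁ B₁ →
    Red res b E₀ Eb₀ → Red res b E₁ Eb₁ → IsPre δb Eb₀ → IsPre δb Eb₁ →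
    ∃ W : Subgroup (N ≃ₐ[K] N), W.Normal ∧ IsPGroup p W ∧ W ≠ ⊥

section Adapter

variable {K : Type*} [Field K] (v : Valuation K ℝ≥0)

theorem int_isUnit_iff (a : v.integer) : IsUnit a ↔ v a = 1 :=
  ⟨fun h => (Valuation.integer.integers v).one_of_isUnit h,
    fun h => (Valuation.integer.integers v).isUnit_of_one' h⟩

theorem int_nonunit_iff (a : v.integer) : ¬ IsUnit a ↔ v a < 1 := by
  rw [int_isUnit_iff]
  exact ⟨fun h => lt_of_le_of_ne a.2 h, fun h => ne_of_lt h⟩

theorem int_dvd_iff (a b : v.integer) : a ∣ b ↔ v b ≤ v a :=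
  (Valuation.integer.integers v).dvd_iff_le

theorem int_associated_iff (a b : v.integer) : Associated a b ↔ v a = v b := by
  rw [← dvd_dvd_iff_associated, int_dvd_iff, int_dvd_iff]
  exact ⟨fun h => le_antisymm h.2 h.1, fun h => ⟨h.ge, h.le⟩⟩

theorem int_arch : Arch v.integer := by
  intro a ha b hb
  rw [int_nonunit_iff] at ha
  have hb' : 0 < v b := by
    rw [pos_iff_ne_zero, Ne, Valuation.zero_iff]
    exact fun h => hb (Subtype.ext h)
  obtain ⟨k, hk⟩ := exists_pow_lt_of_lt_one hb' ha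
  exact ⟨k, (int_dvd_iff v _ _).2 (by simpa using hk.le)⟩

variable {V : Type*} [AddCommGroup V] [Module K V]

theorem int_smul (a : v.integer) (z : V) : a • z = (a : K) • z := rfl

/-- `c D` is a connection which is linear modulo `c`. -/
theorem VConn.isConn {D : AddMonoid.End V} (hD : VConn v D) (c : v.integer)
    (hc : ∀ z, D ((c : K) • z) = (c : K) • D z) : IsConn c 1 (scK (c : K) D) := by
  refine ⟨fun z => by rw [scK_apply, scK_apply, int_smul, int_smul, hc], fun a => ?_⟩
  obtain ⟨a', ha', h⟩ := hD a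
  refine ⟨⟨a', ha'.trans a.2⟩, fun z => ?_⟩
  rw [scK_apply, scK_apply, int_smul, int_smul, int_smul, int_smul, h, smul_add, pow_one,
    smul_comm]

end Adapter

end Crest.Agent.T170.DM
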