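import Crest.Agent.T170.Fr_20
import Crest.Agent.T170.DMStm_38

/-!
# Row 170 (helper20): the core, definitions and statements of the leaves
-/

set_option autoImplicit false

namespace Crest.Agent.T170.Fr

open scoped NNReal Polynomial
open Module Crest.Agent.T170.DM

namespace CoreData

variable {p n : ℕ} [NeZero n] {R C K E N : Type} [CommRing R] [Field C] [Field K]
  [Field E] [Field N] [Algebra C K] [Algebra K E] [Algebra E N] [Algebra C E] [Algebra C N]
  [Algebra K N] [Algebra R C] [Algebra R E] [IsScalarTower R C E]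
  (X : CoreData p n R C K E N)

/-- `D i` as an additive operator -/
def Dop (i : Fin n) : AddMonoid.End N := (X.D i).toLinearMap.toAddMonoidHom

@[simp] theorem Dop_apply (i : Fin n) (z : N) : X.Dop i z = X.D i z := rfl

/-- `δ c i = c • D i` -/
def δ (c : E) (i : Fin n) : AddMonoid.End N := scK c (X.Dop i)

@[simp] theorem δ_apply (c : E) (i : Fin n) (z : N) : X.δ c i z = c • X.D i z := rfl

/-- the integral closure of `K[t]` in `N`, as an additive group -/
def Bt (K : Type) {E : Type} (N : Type) [Field K] [Field E] [Field N] [Algebra E N] [Algebra K N]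
    (t : E) : AddSubgroup N :=
  (integralClosure (Algebra.adjoin K {algebraMap E N t}) N).toSubring.toAddSubgroup

theorem mem_Bt {t : E} {z : N} :
    z ∈ Bt K N t ↔ IsIntegral (Algebra.adjoin K {algebraMap E N t}) z := Iff.rfl

/-- the subring of the residue field generated by the residues of `O_K` and of `t` -/
def kt {F : Type} [Field F] (res : X.v.integer →+* F) (t : E) : Subring F :=
  Subring.closure (res '' {a | (a : E) ∈ Set.range (algebraMap K E) ∨ (a : E) = t})

end CoreData

open CoreData

/-- (EIG) a scalar making `c D` power bounded is small -/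
def EigStmt (p : ℕ) : Prop :=
  ∀ (n : ℕ) [NeZero n] (R C K E N : Type) [CommRing R] [Field C] [Field K]
    [Field E] [Field N] [Algebra C K] [Algebra K E] [Algebra E N] [Algebra C E] [Algebra C N]
    [Algebra K N] [Algebra R C] [Algebra R E] [IsScalarTower R C E] [IsScalarTower C K E]
    [IsScalarTower K E N] [IsScalarTower C E N] [IsScalarTower C K N]
    [IsAlgClosed C] [CharZero C] [FiniteDimensional E N] [IsGalois E N]
    (X : CoreData p n R C K E N) (c : C),
    HasStab X.v.integer E (X.δ (algebraMap C E c) X.i₀) →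
    X.v (algebraMap C E c) * X.v (algebraMap K E (X.d X.i₀ (X.a X.i₀))) ≤ X.v (p : E)

/-- (GAGA) instance of `DM.Gaga` -/
def GagaStmt (p : ℕ) : Prop :=
  ∀ (n : ℕ) [NeZero n] (R C K E N : Type) [CommRing R] [Field C] [Field K]
    [Field E] [Field N] [Algebra C K] [Algebra K E] [Algebra E N] [Algebra C E] [Algebra C N]
    [Algebra K N] [Algebra R C] [Algebra R E] [IsScalarTower R C E] [IsScalarTower C K E]
    [IsScalarTower K E N] [IsScalarTower C E N] [IsScalarTower C K N]
    [IsAlgClosed C] [CharZero C] [FiniteDimensional E N] [IsGalois E N]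
    (X : CoreData p n R C K E N) (ι : Type) [Fintype ι] (b : Basis ι E N) (ϖ : X.v.integer),
    ϖ ≠ 0 → ¬ IsUnit ϖ → Gaga ϖ (lat X.v.integer b) (Bt K N X.x) (Bt K N X.x⁻¹)

/-- (INT) an operator preserving the integral closure of `K[t]`, `t = x` or `1/x`, has a reduction
which is integral over `κ[t̄]` -/
def IntStmt (p : ℕ) : Prop :=
  ∀ (n : ℕ) [NeZero n] (R C K E N : Type) [CommRing R] [Field C] [Field K]
    [Field E] [Field N] [Algebra C K] [Algebra K E] [Algebra E N] [Algebra C E] [Algebra C N]
    [Algebra K N] [Algebra R C] [Algebra R E] [IsScalarTower R C E] [IsScalarTower C K E]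
    [IsScalarTower K E N] [IsScalarTower C E N] [IsScalarTower C K N]
    [IsAlgClosed C] [CharZero C] [FiniteDimensional E N] [IsGalois E N]
    (X : CoreData p n R C K E N) (F ι : Type) [Field F] [Fintype ι] (res : X.v.integer →+* F),
    Function.Surjective res → (∀ a, res a = 0 ↔ ¬ IsUnit a) →
    ∀ (b : Basis ι E N) (t : E), t = X.x ∨ t = X.x⁻¹ →
    ∀ (T : AddMonoid.End N) (Tb : Module.End F (ι → F)), Red res b T Tb →
    Set.MapsTo T (Bt K N t) (Bt K N t) →
    ∃ P : F[X], P.Monic ∧ (∀ j, P.coeff j ∈ X.kt res t) ∧ Polynomial.aeval Tb P = 0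

/-- (LAT) the optimal scalar and a `γ`-stable common lattice -/
def LatStmt (p : ℕ) : Prop :=
  ∀ (n : ℕ) [NeZero n] (R C K E N : Type) [CommRing R] [Field C] [Field K]
    [Field E] [Field N] [Algebra C K] [Algebra K E] [Algebra E N] [Algebra C E] [Algebra C N]
    [Algebra K N] [Algebra R C] [Algebra R E] [IsScalarTower R C E] [IsScalarTower C K E]
    [IsScalarTower K E N] [IsScalarTower C E N] [IsScalarTower C K N]
    [IsAlgClosed C] [CharZero C] [FiniteDimensional E N] [IsGalois E N]
    (X : CoreData p n R C K E N),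
    ∃ (c : X.v.integer) (c₀ : C) (b : Basis (Fin (finrank E N)) E N),
      algebraMap C E c₀ = c ∧ c ≠ 0 ∧ X.v c < 1 ∧
      (∀ i, Stab (lat X.v.integer b) (X.δ c i)) ∧
      (∃ i z, ¬ TNil c (lat X.v.integer b) (X.δ c i) z) ∧
      ∀ z, X.γ z ∈ lat X.v.integer b ↔ z ∈ lat X.v.integer b

/-- (THETA-γ) a semilinear automorphism rotating a commuting family; `γ` preserves the lattice and
is semilinear over `τ`, which induces `τb` on the residue field.  Then there is a `τb`-semilinear
bijection of the reduction that rotates the reduced family. -/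
def RotStmt : Prop :=
  ∀ (O E N F ι : Type) (n : ℕ) [NeZero n] [CommRing O] [IsDomain O] [Field E] [Algebra O E]
    [IsFractionRing O E] [AddCommGroup N] [Module E N] [Module O N] [IsScalarTower O E N] [Field F]
    [Fintype ι] (res : O →+* F), Function.Surjective res →
    ∀ (τ : O ≃+* O) (τb : F ≃+* F), (∀ a, res (τ a) = τb (res a)) →
    ∀ (b : Basis ι E N) (γ : N ≃+ N), (∀ (a : O) z, γ (a • z) = τ a • γ z) →
    (∀ z, γ z ∈ lat O b ↔ z ∈ lat O b) →
    ∀ (δ : Fin n → AddMonoid.End N) (δb : Fin n → Module.End F (ι → F)),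
    (∀ i, Red res b (δ i) (δb i)) → (∀ i z, γ (δ i z) = δ (i + 1) (γ z)) →
    ∃ S : (ι → F) ≃+ (ι → F), (∀ (a : F) u, S (a • u) = τb a • S u) ∧
      ∀ i u, S (δb i u) = δb (i + 1) (S u)

end Crest.Agent.T170.Fr
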