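import Mathlib

/-!
Row 170, differential modules over a discrete valuation ring: definitions and basic lemmas.
`R` is a ring with a distinguished element `π`, `V` an `R`-module, operators are additive
endomorphisms of `V`.
-/

namespace Crest.Agent.T170.DM

open Module

section Basic

variable {R : Type*} [CommRing R] {V : Type*} [AddCommGroup V] [Module R V]

/-- `δ` commutes with `π` and is `R`-linear modulo `π ^ m`. -/
def IsConn (π : R) (m : ℕ) (δ : AddMonoid.End V) : Prop :=
  (∀ v, δ (π • v) = π • δ v) ∧ ∀ a : R, ∃ b : R, ∀ v, δ (a • v) = a • δ v + π ^ m • b • v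

/-- `T` maps `L` into `L`. -/
def Stab (L : Submodule R V) (T : AddMonoid.End V) : Prop := ∀ v ∈ L, T v ∈ L

/-- The submodule `π ^ j L`. -/
def pw (π : R) (L : Submodule R V) (j : ℕ) : Submodule R V :=
  L.map (LinearMap.lsmul R V (π ^ j))

/-- `T ^ k v` tends to zero `π`-adically. -/
def TNil (π : R) (L : Submodule R V) (T : AddMonoid.End V) (v : V) : Prop :=
  ∀ j : ℕ, ∃ k₀ : ℕ, ∀ k, k₀ ≤ k → (T ^ k) v ∈ pw π L j

/-- scalar multiplication as an additive endomorphism -/
def sc (V : Type*) [AddCommGroup V] [Module R V] : R →+* AddMonoid.End V :=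
  Module.toAddMonoidEnd R V

@[simp] theorem sc_apply (a : R) (v : V) : sc V a v = a • v := rfl

theorem End_mul_apply (S T : AddMonoid.End V) (v : V) : (S * T) v = S (T v) := rfl
theorem End_add_apply (S T : AddMonoid.End V) (v : V) : (S + T) v = S v + T v := rfl
theorem End_sub_apply (S T : AddMonoid.End V) (v : V) : (S - T) v = S v - T v := rfl
theorem End_neg_apply (S : AddMonoid.End V) (v : V) : (-S) v = - S v := rfl
theorem End_one_apply (v : V) : (1 : AddMonoid.End V) v = v := rfl
theorem End_zero_apply (v : V) : (0 : AddMonoid.End V) v = 0 := rfl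
theorem End_pow_succ_apply (T : AddMonoid.End V) (k : ℕ) (v : V) :
    (T ^ (k + 1)) v = T ((T ^ k) v) := by rw [pow_succ']; rfl
theorem End_pow_succ_apply' (T : AddMonoid.End V) (k : ℕ) (v : V) :
    (T ^ (k + 1)) v = (T ^ k) (T v) := by rw [pow_succ]; rfl
theorem End_pow_add_apply (T : AddMonoid.End V) (k l : ℕ) (v : V) :
    (T ^ (k + l)) v = (T ^ k) ((T ^ l) v) := by rw [pow_add]; rfl
theorem End_sum_apply {ι : Type*} (s : Finset ι) (T : ι → AddMonoid.End V) (v : V) :
    (∑ i ∈ s, T i) v = ∑ i ∈ s, T i v := by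
  classical
  induction s using Finset.induction_on with
  | empty => simp
  | insert a s ha ih => rw [Finset.sum_insert ha, Finset.sum_insert ha, End_add_apply, ih]

theorem mem_pw {π : R} {L : Submodule R V} {j : ℕ} {v : V} :
    v ∈ pw π L j ↔ ∃ w ∈ L, π ^ j • w = v := by
  simp [pw, Submodule.mem_map]

theorem smul_mem_pw {π : R} {L : Submodule R V} (j : ℕ) {w : V} (hw : w ∈ L) :
    π ^ j • w ∈ pw π L j := mem_pw.2 ⟨w, hw, rfl⟩

@[simp] theorem pw_zero (π : R) (L : Submodule R V) : pw π L 0 = L := by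
  ext v; simp [mem_pw]

theorem pw_le (π : R) (L : Submodule R V) (j : ℕ) : pw π L j ≤ L := by
  intro v hv
  obtain ⟨w, hw, rfl⟩ := mem_pw.1 hv
  exact L.smul_mem _ hw

theorem pw_pw (π : R) (L : Submodule R V) (i j : ℕ) : pw π (pw π L i) j = pw π L (j + i) := by
  ext v
  simp only [mem_pw]
  constructor
  · rintro ⟨w, ⟨u, hu, rfl⟩, rfl⟩
    exact ⟨u, hu, by rw [pow_add, mul_smul]⟩
  · rintro ⟨u, hu, rfl⟩
    exact ⟨π ^ i • u, ⟨u, hu, rfl⟩, by rw [pow_add, mul_smul]⟩

theorem pw_mono (π : R) {L L' : Submodule R V} (h : L ≤ L') (j : ℕ) : pw π L j ≤ pw π L' j :=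
  Submodule.map_mono h

theorem pw_anti (π : R) (L : Submodule R V) {i j : ℕ} (h : i ≤ j) : pw π L j ≤ pw π L i := by
  obtain ⟨k, rfl⟩ := Nat.exists_eq_add_of_le h
  rw [← pw_pw π L k i]
  exact pw_mono π (pw_le π L k) i

theorem pow_smul_mem_pw {π : R} {L : Submodule R V} {i : ℕ} (j : ℕ) {v : V}
    (hv : v ∈ pw π L i) : π ^ j • v ∈ pw π L (j + i) := by
  rw [← pw_pw]; exact smul_mem_pw j hv

theorem comm_pow {π : R} {T : AddMonoid.End V} (h : ∀ v, T (π • v) = π • T v) (j : ℕ) (v : V) :
    T (π ^ j • v) = π ^ j • T v := by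
  induction j generalizing v with
  | zero => simp
  | succ j ih => rw [pow_succ, mul_smul, ih, h, mul_smul]

theorem pow_comm_pi {π : R} {T : AddMonoid.End V} (h : ∀ v, T (π • v) = π • T v) (k : ℕ) (v : V) :
    (T ^ k) (π • v) = π • (T ^ k) v := by
  induction k generalizing v with
  | zero => simp [End_one_apply]
  | succ k ih => rw [End_pow_succ_apply, End_pow_succ_apply, ih, h]

theorem Stab.pw {π : R} {L : Submodule R V} {T : AddMonoid.End V} (hL : Stab L T)
    (h : ∀ v, T (π • v) = π • T v) (j : ℕ) : Stab (pw π L j) T := by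
  intro v hv
  obtain ⟨w, hw, rfl⟩ := mem_pw.1 hv
  rw [comm_pow h]
  exact smul_mem_pw j (hL w hw)

theorem Stab.one (L : Submodule R V) : Stab L (1 : AddMonoid.End V) := fun _ hv => hv
theorem Stab.zero (L : Submodule R V) : Stab L (0 : AddMonoid.End V) := fun _ _ => L.zero_mem
theorem Stab.mul {L : Submodule R V} {S T : AddMonoid.End V} (hS : Stab L S) (hT : Stab L T) :
    Stab L (S * T) := fun v hv => hS _ (hT v hv)
theorem Stab.add {L : Submodule R V} {S T : AddMonoid.End V} (hS : Stab L S) (hT : Stab L T) :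
    Stab L (S + T) := fun v hv => L.add_mem (hS v hv) (hT v hv)
theorem Stab.neg {L : Submodule R V} {S : AddMonoid.End V} (hS : Stab L S) :
    Stab L (-S) := fun v hv => L.neg_mem (hS v hv)
theorem Stab.sub {L : Submodule R V} {S T : AddMonoid.End V} (hS : Stab L S) (hT : Stab L T) :
    Stab L (S - T) := fun v hv => L.sub_mem (hS v hv) (hT v hv)
theorem Stab.pow {L : Submodule R V} {T : AddMonoid.End V} (hT : Stab L T) (k : ℕ) :
    Stab L (T ^ k) := by
  induction k with
  | zero => rw [pow_zero]; exact Stab.one L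
  | succ k ih => rw [pow_succ]; exact ih.mul hT
theorem Stab.sc (L : Submodule R V) (a : R) : Stab L (sc V a) := fun _ hv => L.smul_mem a hv
theorem Stab.sum {ι : Type*} {L : Submodule R V} (s : Finset ι) {T : ι → AddMonoid.End V}
    (h : ∀ i ∈ s, Stab L (T i)) : Stab L (∑ i ∈ s, T i) := by
  intro v hv
  rw [End_sum_apply]
  exact L.sum_mem fun i hi => h i hi v hv

theorem IsConn.mono {π : R} {m m' : ℕ} {δ : AddMonoid.End V} (h : IsConn π m δ) (hm : m' ≤ m) :
    IsConn π m' δ := by
  refine ⟨h.1, fun a => ?_⟩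
  obtain ⟨b, hb⟩ := h.2 a
  obtain ⟨k, rfl⟩ := Nat.exists_eq_add_of_le hm
  refine ⟨π ^ k * b, fun v => ?_⟩
  rw [hb, pow_add, mul_smul, mul_smul]

theorem IsConn.add {π : R} {m : ℕ} {δ δ' : AddMonoid.End V} (h : IsConn π m δ)
    (h' : IsConn π m δ') : IsConn π m (δ + δ') := by
  refine ⟨fun v => by rw [End_add_apply, End_add_apply, h.1, h'.1, smul_add], fun a => ?_⟩
  obtain ⟨b, hb⟩ := h.2 a
  obtain ⟨b', hb'⟩ := h'.2 a
  refine ⟨b + b', fun v => ?_⟩
  rw [End_add_apply, End_add_apply, hb, hb', smul_add, add_smul, smul_add]; abel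

theorem IsConn.zero (π : R) (m : ℕ) : IsConn π m (0 : AddMonoid.End V) :=
  ⟨fun v => by simp, fun a => ⟨0, fun v => by simp⟩⟩

theorem IsConn.sc_mul {π : R} {m : ℕ} {δ : AddMonoid.End V} (h : IsConn π m δ) (c : R) :
    IsConn π m (sc V c * δ) := by
  refine ⟨fun v => by
    rw [End_mul_apply, End_mul_apply, h.1, sc_apply, sc_apply, smul_comm], fun a => ?_⟩
  obtain ⟨b, hb⟩ := h.2 a
  refine ⟨c * b, fun v => ?_⟩
  rw [End_mul_apply, End_mul_apply, hb, sc_apply, sc_apply, smul_add, smul_comm c a,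
    smul_comm c (π ^ m), mul_smul]

theorem IsConn.pow_mul {π : R} {m : ℕ} {δ : AddMonoid.End V} (h : IsConn π m δ) (k : ℕ) :
    IsConn π (k + m) (sc V (π ^ k) * δ) := by
  refine ⟨(h.sc_mul _).1, fun a => ?_⟩
  obtain ⟨b, hb⟩ := h.2 a
  refine ⟨b, fun v => ?_⟩
  rw [End_mul_apply, End_mul_apply, hb, sc_apply, sc_apply, smul_add, smul_comm (π ^ k) a,
    pow_add, mul_smul]

theorem IsConn.sum {ι : Type*} {π : R} {m : ℕ} (s : Finset ι) {δ : ι → AddMonoid.End V}
    (h : ∀ i ∈ s, IsConn π m (δ i)) : IsConn π m (∑ i ∈ s, δ i) := by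
  classical
  induction s using Finset.induction_on with
  | empty => simpa using IsConn.zero π m
  | insert a s ha ih =>
    rw [Finset.sum_insert ha]
    exact (h a (Finset.mem_insert_self _ _)).add
      (ih fun i hi => h i (Finset.mem_insert_of_mem hi))

/-- A connection which maps a generating set into `L` maps the span into `L`. -/
theorem IsConn.map_span {π : R} {m : ℕ} {δ : AddMonoid.End V} (h : IsConn π m δ)
    {s : Set V} {L : Submodule R V} (hs : s ⊆ L) (hδ : ∀ v ∈ s, δ v ∈ L) :
    ∀ v ∈ Submodule.span R s, δ v ∈ L := by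
  intro v hv
  have key : v ∈ L ∧ δ v ∈ L := by
    induction hv using Submodule.span_induction with
    | mem x hx => exact ⟨hs hx, hδ x hx⟩
    | zero => exact ⟨L.zero_mem, by rw [map_zero]; exact L.zero_mem⟩
    | add x y _ _ hx hy =>
      exact ⟨L.add_mem hx.1 hy.1, by rw [map_add]; exact L.add_mem hx.2 hy.2⟩
    | smul a x _ hx =>
      obtain ⟨b, hb⟩ := h.2 a
      exact ⟨L.smul_mem _ hx.1, by
        rw [hb]; exact L.add_mem (L.smul_mem _ hx.2) (L.smul_mem _ (L.smul_mem _ hx.1))⟩
  exact key.2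

/-- linearity of a connection modulo `π ^ m L` -/
theorem IsConn.smul_sub {π : R} {m : ℕ} {δ : AddMonoid.End V} (h : IsConn π m δ)
    {L : Submodule R V} (a : R) {v : V} (hv : v ∈ L) : δ (a • v) - a • δ v ∈ pw π L m := by
  obtain ⟨b, hb⟩ := h.2 a
  rw [hb, add_sub_cancel_left]
  exact smul_mem_pw m (L.smul_mem _ hv)

theorem TNil.zero (π : R) (L : Submodule R V) (T : AddMonoid.End V) : TNil π L T 0 :=
  fun j => ⟨0, fun k _ => by rw [map_zero]; exact (pw π L j).zero_mem⟩

theorem TNil.add {π : R} {L : Submodule R V} {T : AddMonoid.End V} {v w : V}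
    (hv : TNil π L T v) (hw : TNil π L T w) : TNil π L T (v + w) := by
  intro j
  obtain ⟨k₁, h₁⟩ := hv j
  obtain ⟨k₂, h₂⟩ := hw j
  refine ⟨max k₁ k₂, fun k hk => ?_⟩
  rw [map_add]
  exact (pw π L j).add_mem (h₁ k (le_trans (le_max_left _ _) hk))
    (h₂ k (le_trans (le_max_right _ _) hk))

theorem TNil.neg {π : R} {L : Submodule R V} {T : AddMonoid.End V} {v : V}
    (hv : TNil π L T v) : TNil π L T (-v) := by
  intro j
  obtain ⟨k₁, h₁⟩ := hv j
  exact ⟨k₁, fun k hk => by rw [map_neg]; exact (pw π L j).neg_mem (h₁ k hk)⟩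

theorem TNil.of_le {π : R} {L L' : Submodule R V} {T : AddMonoid.End V} {v : V} {t : ℕ}
    (hLL : pw π L t ≤ L') (hv : TNil π L T v) : TNil π L' T v := by
  intro j
  obtain ⟨k₁, h₁⟩ := hv (j + t)
  refine ⟨k₁, fun k hk => ?_⟩
  have := h₁ k hk
  rw [← pw_pw] at this
  exact pw_mono π hLL j this

end Basic

section Bases

variable {R : Type*} [CommRing R] {V : Type*} [AddCommGroup V] [Module R V]
variable {ι : Type*} [Fintype ι]

/-- the `R`-span of a family -/
def lat (R : Type*) [CommRing R] {V : Type*} [AddCommGroup V] [Module R V] {ι : Type*}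
    (b : ι → V) : Submodule R V := Submodule.span R (Set.range b)

/-- the vector with coordinates `c` -/
def vec (b : ι → V) : (ι → R) →ₗ[R] V := Fintype.linearCombination R b

theorem vec_apply (b : ι → V) (c : ι → R) : vec b c = ∑ i, c i • b i :=
  Fintype.linearCombination_apply _ _ _

theorem mem_lat {b : ι → V} {v : V} : v ∈ lat R b ↔ ∃ c : ι → R, vec b c = v := by
  simp only [lat, vec_apply]
  exact Submodule.mem_span_range_iff_exists_fun R

theorem vec_mem_lat (b : ι → V) (c : ι → R) : vec b c ∈ lat R b := mem_lat.2 ⟨c, rfl⟩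

omit [Fintype ι] in
theorem self_mem_lat (b : ι → V) (i : ι) : b i ∈ lat R b := Submodule.subset_span ⟨i, rfl⟩

theorem vec_single [DecidableEq ι] (b : ι → V) (j : ι) : vec b (Pi.single j (1 : R)) = b j := by
  rw [vec_apply, Finset.sum_eq_single j]
  · simp
  · intro i _ hi; simp [Pi.single_eq_of_ne hi]
  · simp

theorem mem_pw_lat {π : R} {b : ι → V} {j : ℕ} {v : V} :
    v ∈ pw π (lat R b) j ↔ ∃ c : ι → R, vec b (π ^ j • c) = v := by
  rw [mem_pw]
  constructor
  · rintro ⟨w, hw, rfl⟩
    obtain ⟨c, rfl⟩ := mem_lat.1 hw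
    exact ⟨c, by rw [map_smul]⟩
  · rintro ⟨c, rfl⟩
    exact ⟨vec b c, vec_mem_lat b c, by rw [map_smul]⟩

/-- `A` is the matrix of `T` on the family `b`. -/
def IsMat (b : ι → V) (T : AddMonoid.End V) (A : Matrix ι ι R) : Prop :=
  ∀ j, T (b j) = ∑ i, A i j • b i

theorem exists_isMat {b : ι → V} {T : AddMonoid.End V} (h : Stab (lat R b) T) :
    ∃ A : Matrix ι ι R, IsMat b T A := by
  have : ∀ j, ∃ c : ι → R, vec b c = T (b j) := fun j => mem_lat.1 (h _ (self_mem_lat b j))
  choose c hc using this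
  exact ⟨Matrix.of fun i j => c j i, fun j => by rw [← hc j, vec_apply]; rfl⟩

theorem IsMat.stab {π : R} {m : ℕ} {b : ι → V} {δ : AddMonoid.End V} {A : Matrix ι ι R}
    (hA : IsMat b δ A) (h : IsConn π m δ) : Stab (lat R b) δ := by
  refine h.map_span (L := lat R b) Submodule.subset_span ?_
  rintro _ ⟨j, rfl⟩
  rw [hA j]
  exact Submodule.sum_mem _ fun i _ => Submodule.smul_mem _ _ (self_mem_lat b i)

/-- On coordinates a connection is its matrix modulo `π ^ m`. -/
theorem IsMat.vec_sub {π : R} {m : ℕ} {b : ι → V} {δ : AddMonoid.End V} {A : Matrix ι ι R}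
    (hA : IsMat b δ A) (h : IsConn π m δ) (c : ι → R) :
    δ (vec b c) - vec b (A.mulVec c) ∈ pw π (lat R b) m := by
  have e1 : vec b (A.mulVec c) = ∑ j, c j • δ (b j) := by
    rw [vec_apply]
    simp only [hA _, Finset.smul_sum, Matrix.mulVec, dotProduct, Finset.sum_smul]
    rw [Finset.sum_comm]
    refine Finset.sum_congr rfl fun j _ => Finset.sum_congr rfl fun i _ => ?_
    rw [mul_comm, mul_smul]
  rw [e1, vec_apply, map_sum, ← Finset.sum_sub_distrib]
  exact Submodule.sum_mem _ fun j _ => h.smul_sub _ (self_mem_lat b j)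

variable {F : Type*} [CommRing F]

/-- `T` preserves the lattice spanned by `b` and reduces to the `F`-linear map `Tb` on
coordinates, along `res : R → F`. -/
def Red (res : R →+* F) (b : ι → V) (T : AddMonoid.End V) (Tb : Module.End F (ι → F)) : Prop :=
  ∀ c : ι → R, ∃ c' : ι → R, T (vec b c) = vec b c' ∧ (fun i => res (c' i)) = Tb fun i => res (c i)

theorem Red.stab {res : R →+* F} {b : ι → V} {T : AddMonoid.End V} {Tb : Module.End F (ι → F)}
    (h : Red res b T Tb) : Stab (lat R b) T := by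
  intro v hv
  obtain ⟨c, rfl⟩ := mem_lat.1 hv
  obtain ⟨c', hc', -⟩ := h c
  rw [hc']; exact vec_mem_lat b c'

theorem Red.one (res : R →+* F) (b : ι → V) : Red res b (1 : AddMonoid.End V) 1 :=
  fun c => ⟨c, rfl, rfl⟩

theorem Red.zero (res : R →+* F) (b : ι → V) : Red res b (0 : AddMonoid.End V) 0 :=
  fun c => ⟨0, by simp, by ext i; simp⟩

theorem Red.mul {res : R →+* F} {b : ι → V} {S T : AddMonoid.End V}
    {Sb Tb : Module.End F (ι → F)} (hS : Red res b S Sb) (hT : Red res b T Tb) :
    Red res b (S * T) (Sb * Tb) := by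
  intro c
  obtain ⟨c', h1, h2⟩ := hT c
  obtain ⟨c'', h3, h4⟩ := hS c'
  exact ⟨c'', by rw [End_mul_apply, h1, h3], by rw [h4, h2]; rfl⟩

theorem Red.add {res : R →+* F} {b : ι → V} {S T : AddMonoid.End V}
    {Sb Tb : Module.End F (ι → F)} (hS : Red res b S Sb) (hT : Red res b T Tb) :
    Red res b (S + T) (Sb + Tb) := by
  intro c
  obtain ⟨c', h1, h2⟩ := hT c
  obtain ⟨c'', h3, h4⟩ := hS c
  refine ⟨c'' + c', by rw [End_add_apply, h1, h3, map_add], ?_⟩
  rw [LinearMap.add_apply, ← h2, ← h4]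
  ext i; simp

theorem Red.neg {res : R →+* F} {b : ι → V} {T : AddMonoid.End V}
    {Tb : Module.End F (ι → F)} (hT : Red res b T Tb) : Red res b (-T) (-Tb) := by
  intro c
  obtain ⟨c', h1, h2⟩ := hT c
  refine ⟨-c', by rw [End_neg_apply, h1, map_neg], ?_⟩
  rw [LinearMap.neg_apply, ← h2]
  ext i; simp

theorem Red.sub {res : R →+* F} {b : ι → V} {S T : AddMonoid.End V}
    {Sb Tb : Module.End F (ι → F)} (hS : Red res b S Sb) (hT : Red res b T Tb) :
    Red res b (S - T) (Sb - Tb) := by
  rw [sub_eq_add_neg, sub_eq_add_neg]; exact hS.add hT.neg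

theorem Red.pow {res : R →+* F} {b : ι → V} {T : AddMonoid.End V}
    {Tb : Module.End F (ι → F)} (hT : Red res b T Tb) (k : ℕ) : Red res b (T ^ k) (Tb ^ k) := by
  induction k with
  | zero => rw [pow_zero, pow_zero]; exact Red.one res b
  | succ k ih => rw [pow_succ, pow_succ]; exact ih.mul hT

theorem Red.sc (res : R →+* F) (b : ι → V) (a : R) :
    Red res b (sc V a) (algebraMap F (Module.End F (ι → F)) (res a)) := by
  intro c
  refine ⟨a • c, by rw [sc_apply, map_smul], ?_⟩
  ext i; simp [Module.algebraMap_end_apply]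

theorem Red.sum {κ : Type*} {res : R →+* F} {b : ι → V} (s : Finset κ)
    {T : κ → AddMonoid.End V} {Tb : κ → Module.End F (ι → F)}
    (h : ∀ i ∈ s, Red res b (T i) (Tb i)) : Red res b (∑ i ∈ s, T i) (∑ i ∈ s, Tb i) := by
  classical
  induction s using Finset.induction_on with
  | empty => simpa using Red.zero res b
  | insert a s ha ih =>
    rw [Finset.sum_insert ha, Finset.sum_insert ha]
    exact (h a (Finset.mem_insert_self _ _)).add
      (ih fun i hi => h i (Finset.mem_insert_of_mem hi))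

theorem Red.prod_comm {κ : Type*} {res : R →+* F} {b : ι → V} (l : List κ)
    {T : κ → AddMonoid.End V} {Tb : κ → Module.End F (ι → F)}
    (h : ∀ i ∈ l, Red res b (T i) (Tb i)) : Red res b (l.map T).prod (l.map Tb).prod := by
  induction l with
  | nil => simpa using Red.one res b
  | cons a l ih =>
    rw [List.map_cons, List.map_cons, List.prod_cons, List.prod_cons]
    exact (h a List.mem_cons_self).mul (ih fun i hi => h i (List.mem_cons_of_mem _ hi))

/-- The reduction of a connection is the reduction of its matrix. -/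
theorem IsMat.red [DecidableEq ι] {π : R} {b : ι → V} {δ : AddMonoid.End V} {A : Matrix ι ι R}
    (hA : IsMat b δ A) (h : IsConn π 1 δ) {res : R →+* F} (hres : res π = 0) :
    Red res b δ (Matrix.toLin' (A.map res)) := by
  intro c
  obtain ⟨c', hc'⟩ := mem_pw_lat.1 (hA.vec_sub h c)
  refine ⟨A.mulVec c + π ^ 1 • c', by rw [map_add, hc']; abel, ?_⟩
  ext i
  simp [hres, Matrix.toLin'_apply, Matrix.mulVec, dotProduct]

end Bases

section Lattices

variable {R K : Type*} [CommRing R] [IsDomain R] [Field K] [Algebra R K] [IsFractionRing R K]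
variable {V : Type*} [AddCommGroup V] [Module K V] [Module R V] [IsScalarTower R K V]
variable {ι : Type*} [Fintype ι]

/-- `T` has a stable lattice (i.e. `T` is power bounded). -/
def HasStab (R K : Type*) [CommRing R] [Field K] [Algebra R K] {V : Type*} [AddCommGroup V]
    [Module K V] [Module R V] [IsScalarTower R K V] (T : AddMonoid.End V) : Prop :=
  ∃ L : Submodule R V, L.IsLattice K ∧ Stab L T

omit [IsDomain R] in
theorem vec_injective (b : Basis ι K V) : Function.Injective (vec (R := R) b) := by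
  have hli : LinearIndependent R b :=
    (LinearIndependent.iff_fractionRing R K).2 b.linearIndependent
  rw [← LinearMap.ker_eq_bot, LinearMap.ker_eq_bot']
  intro c hc
  rw [vec_apply] at hc
  exact funext (Fintype.linearIndependent_iff.1 hli c hc)

omit [IsDomain R] [IsFractionRing R K] in
theorem isLattice_lat (b : Basis ι K V) : (lat R b).IsLattice K where
  fg := Submodule.fg_span (Set.finite_range _)
  span_eq_top := by
    rw [eq_top_iff, ← b.span_eq]
    exact Submodule.span_mono Submodule.subset_span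

omit [IsDomain R] in
include K in
theorem smul_cancel {a : R} (ha : a ≠ 0) {v w : V} (h : a • v = a • w) : v = w := by
  have ha' : algebraMap R K a ≠ 0 := by
    simpa using ha
  rw [← algebraMap_smul K, ← algebraMap_smul K a w] at h
  exact smul_right_injective V ha' h

/-- rank one: powers of a non-unit become divisible by any nonzero element -/
def Arch (R : Type*) [CommRing R] : Prop :=
  ∀ a : R, ¬ IsUnit a → ∀ b : R, b ≠ 0 → ∃ k : ℕ, b ∣ a ^ k

omit [IsDomain R] [IsFractionRing R K] in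
theorem isLattice_of_le {L L' : Submodule R V} (hL : L.IsLattice K) (h : L ≤ L') (hfg : L'.FG) :
    L'.IsLattice K :=
  Submodule.IsLattice.of_le_of_isLattice_of_fg K h hfg

omit [IsDomain R] in
theorem exists_smul_mem (L : Submodule R V) (hL : L.IsLattice K) (v : V) :
    ∃ a : R, a ≠ 0 ∧ a • v ∈ L := by
  have : IsDomain R := (IsFractionRing.injective R K).isDomain
  have hv : v ∈ Submodule.span K (L : Set V) := by rw [hL.span_eq_top]; trivial
  induction hv using Submodule.span_induction with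
  | mem x hx => exact ⟨1, one_ne_zero, by simpa using hx⟩
  | zero => exact ⟨1, one_ne_zero, by simp⟩
  | add x y _ _ hx hy =>
    obtain ⟨s, hs0, hs⟩ := hx
    obtain ⟨t, ht0, ht⟩ := hy
    refine ⟨s * t, mul_ne_zero hs0 ht0, ?_⟩
    rw [smul_add]
    refine L.add_mem ?_ ?_
    · rw [mul_comm, mul_smul]; exact L.smul_mem _ hs
    · rw [mul_smul]; exact L.smul_mem _ ht
  | smul a x _ hx =>
    obtain ⟨s, hs0, hs⟩ := hx
    obtain ⟨r, d, hd, rfl⟩ := IsFractionRing.div_surjective R a
    have hd0 : d ≠ 0 := nonZeroDivisors.ne_zero hd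
    refine ⟨d * s, mul_ne_zero hd0 hs0, ?_⟩
    have hne : algebraMap R K d ≠ 0 := by simpa using hd0
    have : (d * s) • (algebraMap R K r / algebraMap R K d) • x = r • (s • x) := by
      rw [← algebraMap_smul K (d * s), ← algebraMap_smul K s x,
        ← algebraMap_smul K r, smul_smul, smul_smul]
      congr 1
      rw [map_mul]; field_simp
    rw [this]
    exact L.smul_mem _ hs

theorem exists_pow_smul_mem (hR : Arch R) {π : R} (hπ : ¬ IsUnit π) (L : Submodule R V)
    (hL : L.IsLattice K) (v : V) : ∃ t : ℕ, π ^ t • v ∈ L := by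
  obtain ⟨a, ha0, ha⟩ := exists_smul_mem L hL v
  obtain ⟨k, b, hb⟩ := hR π hπ a ha0
  exact ⟨k, by rw [hb, mul_comm, mul_smul]; exact L.smul_mem _ ha⟩

theorem exists_pw_le (hR : Arch R) {π : R} (hπ : ¬ IsUnit π) (L L' : Submodule R V) (hL : L.FG)
    (hL' : L'.IsLattice K) : ∃ t : ℕ, pw π L t ≤ L' := by
  obtain ⟨s, rfl⟩ := hL
  have : ∀ v : V, ∃ t : ℕ, π ^ t • v ∈ L' := exists_pow_smul_mem (K := K) hR hπ L' hL'
  choose t ht using this
  refine ⟨s.sup t, ?_⟩
  rw [pw, Submodule.map_span, Submodule.span_le]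
  rintro _ ⟨v, hv, rfl⟩
  obtain ⟨k, hk⟩ := Nat.exists_eq_add_of_le (Finset.le_sup (f := t) hv)
  change π ^ (s.sup t) • v ∈ L'
  rw [hk, add_comm, pow_add, mul_smul]
  exact L'.smul_mem _ (ht v)

/-- topological nilpotence does not depend on the lattice -/
theorem TNil.change (hR : Arch R) {π : R} (hπ : ¬ IsUnit π) {L L' : Submodule R V} (hL : L.FG)
    (hL' : L'.IsLattice K) {T : AddMonoid.End V} {v : V} (hv : TNil π L T v) : TNil π L' T v := by
  obtain ⟨t, ht⟩ := exists_pw_le (K := K) hR hπ L L' hL hL'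
  exact hv.of_le ht

omit [IsDomain R] in
theorem pw_le_pw_of_dvd {π ϖ : R} {i j : ℕ} (h : π ^ i ∣ ϖ ^ j) (L : Submodule R V) :
    pw ϖ L j ≤ pw π L i := by
  intro v hv
  obtain ⟨w, hw, rfl⟩ := mem_pw.1 hv
  obtain ⟨c, hc⟩ := h
  rw [hc, mul_smul]
  exact smul_mem_pw i (L.smul_mem _ hw)

omit [IsDomain R] in
/-- topological nilpotence does not depend on the pseudo-uniformiser -/
theorem TNil.change_pi (hR : Arch R) {π ϖ : R} (hπ : π ≠ 0) (hϖ : ¬ IsUnit ϖ)
    [NoZeroDivisors R] {L : Submodule R V} {T : AddMonoid.End V} {v : V} (hv : TNil ϖ L T v) :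
    TNil π L T v := by
  intro j
  obtain ⟨k, hk⟩ := hR ϖ hϖ (π ^ j) (pow_ne_zero j hπ)
  obtain ⟨k₀, h⟩ := hv k
  exact ⟨k₀, fun k' hk' => pw_le_pw_of_dvd hk L (h k' hk')⟩

/-- Krull: the intersection of the `π ^ j L` is zero. -/
theorem eq_zero_of_mem_pw (hR : Arch R) {π : R} (hπ : ¬ IsUnit π) (b : Basis ι K V) {v : V}
    (hv : ∀ j, v ∈ pw π (lat R b) j) : v = 0 := by
  obtain ⟨c, rfl⟩ := mem_lat.1 (pw_le π _ 0 (hv 0))
  have : c = 0 := by
    ext i
    by_contra hi
    obtain ⟨n, u, hu⟩ := hR π hπ (c i) hi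
    obtain ⟨c', hc'⟩ := mem_pw_lat.1 (hv (n + 1))
    have := congrFun (vec_injective b hc') i
    simp only [Pi.smul_apply, smul_eq_mul] at this
    rw [pow_succ, hu] at this
    have h2 : π * (u * c' i) = 1 := by
      apply mul_left_cancel₀ hi
      linear_combination this
    exact hπ (IsUnit.of_mul_eq_one _ h2)
  rw [this, map_zero]

variable [ValuationRing R]

/-- every lattice over a valuation ring has a basis indexed by any type of the right size -/
theorem exists_basis [FiniteDimensional K V] (L : Submodule R V)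
    (hL : L.IsLattice K) (hι : Fintype.card ι = finrank K V) :
    ∃ b : Basis ι K V, lat R b = L := by
  have htf : Module.IsTorsionFree R V := by
    have : Module.IsTorsionFree R K := inferInstance
    exact Module.IsTorsionFree.trans_faithfulSMul R K V
  have hflat : Module.Flat R L := by
    rw [Module.Flat.flat_iff_torsion_eq_bot_of_isBezout,
      ← Submodule.isTorsionFree_iff_torsion_eq_bot]
    infer_instance
  have hfree : Module.Free R L := Module.free_of_flat_of_isLocalRing
  let b0 := Module.Free.chooseBasis R L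
  let b1 := b0.extendOfIsLattice K
  have hc : Fintype.card (Module.Free.ChooseBasisIndex R L) = Fintype.card ι := by
    rw [hι, finrank_eq_card_basis b1]
  let e := Fintype.equivOfCardEq hc
  refine ⟨b1.reindex e, ?_⟩
  have : Set.range (b1.reindex e) = L.subtype '' Set.range b0 := by
    rw [Basis.range_reindex, ← Set.range_comp]
    congr 1
    ext k; simp [b1]
  rw [lat, this, ← Submodule.map_span, b0.span_eq, Submodule.map_top, Submodule.range_subtype]

theorem eq_zero_of_mem_pw' [FiniteDimensional K V] (hR : Arch R) {π : R} (hπ : ¬ IsUnit π)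
    (L : Submodule R V) (hL : L.IsLattice K) {v : V} (hv : ∀ j, v ∈ pw π L j) : v = 0 := by
  obtain ⟨b, rfl⟩ := exists_basis (ι := Fin (finrank K V)) (K := K) L hL (by simp)
  exact eq_zero_of_mem_pw hR hπ b hv

omit [Fintype ι] in
/-- among finitely many non-units of a valuation ring there is a non-unit common divisor -/
theorem exists_common_dvd {α : Type*} (s : Finset α) (f : α → R) (hf : ∀ i ∈ s, ¬ IsUnit (f i))
    {π : R} (hπ : ¬ IsUnit π) : ∃ ϖ : R, ¬ IsUnit ϖ ∧ ϖ ∣ π ∧ ∀ i ∈ s, ϖ ∣ f i := by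
  classical
  induction s using Finset.induction_on with
  | empty => exact ⟨π, hπ, dvd_rfl, by simp⟩
  | insert a s ha ih =>
    obtain ⟨ϖ, h1, h2, h3⟩ := ih fun i hi => hf i (Finset.mem_insert_of_mem hi)
    rcases ValuationRing.dvd_total ϖ (f a) with h | h
    · exact ⟨ϖ, h1, h2, fun i hi => by
        rcases Finset.mem_insert.1 hi with rfl | hi
        exacts [h, h3 i hi]⟩
    · exact ⟨f a, hf a (Finset.mem_insert_self _ _), h.trans h2, fun i hi => by
        rcases Finset.mem_insert.1 hi with rfl | hi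
        exacts [dvd_rfl, h.trans (h3 i hi)]⟩

end Lattices

end Crest.Agent.T170.DM
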