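import Crest.Agent.T170.EllB_61

/-!
# Row 170, leaf K1 (helper37), generic part: the Gauss valuation on a Weierstrass function field

* `gn v f` : the Gauss norm of `f : K[X]`; `Gauss K v x` : `v (f x) = gn v f` for all `f`;
* `gauss_of_isAlgClosed`, `Gauss.of_tower` : criteria;
* `Gauss.val_basis` : `v (f x + g x * y) = max (v (f x)) (v (g x))`;
* `Gauss.exists_eq_div`, `Gauss.exists_val_eq`, `Gauss.ext`, `Gauss.val_der`.
-/

set_option autoImplicit false

namespace Crest.Agent.T170.K1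

open scoped NNReal
open Polynomial WeierstrassCurve WeierstrassCurve.Affine

section gauss

variable {K E : Type*} [Field K] [Field E] [Algebra K E] (v : Valuation E ℝ≥0)

/-- the Gauss norm -/
noncomputable def gn (f : K[X]) : ℝ≥0 := f.support.sup fun i => v (algebraMap K E (f.coeff i))

variable (K) in
/-- `v` is the Gauss valuation on `K[x]` -/
def Gauss (x : E) : Prop := ∀ f : K[X], v (aeval x f) = gn v f

theorem coeff_le_gn (f : K[X]) (i : ℕ) : v (algebraMap K E (f.coeff i)) ≤ gn v f := by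
  by_cases h : i ∈ f.support
  · exact Finset.le_sup (f := fun i => v (algebraMap K E (f.coeff i))) h
  · rw [notMem_support_iff.1 h]; simp

theorem gn_le_iff {f : K[X]} {m : ℝ≥0} :
    gn v f ≤ m ↔ ∀ i, v (algebraMap K E (f.coeff i)) ≤ m :=
  ⟨fun h i => (coeff_le_gn v f i).trans h, fun h => Finset.sup_le fun i _ => h i⟩

theorem gn_lt_iff {f : K[X]} {m : ℝ≥0} (hm : 0 < m) :
    gn v f < m ↔ ∀ i, v (algebraMap K E (f.coeff i)) < m :=
  ⟨fun h i => (coeff_le_gn v f i).trans_lt h, fun h => (Finset.sup_lt_iff hm).2 fun i _ => h i⟩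

@[simp] theorem gn_zero : gn v (0 : K[X]) = 0 := by simp [gn]

theorem exists_coeff_eq_gn (f : K[X]) : ∃ i, v (algebraMap K E (f.coeff i)) = gn v f := by
  by_cases hf : f = 0
  · exact ⟨0, by simp [hf]⟩
  · obtain ⟨i, -, hi⟩ := Finset.exists_mem_eq_sup f.support (support_nonempty.2 hf)
      fun i => v (algebraMap K E (f.coeff i))
    exact ⟨i, hi.symm⟩

theorem gn_eq_zero_iff {f : K[X]} : gn v f = 0 ↔ f = 0 := by
  refine ⟨fun h => ?_, fun h => by simp [h]⟩
  ext i
  have := coeff_le_gn v f i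
  rw [h] at this
  simpa using this

theorem gn_C (c : K) : gn v (C c) = v (algebraMap K E c) := by
  refine le_antisymm ((gn_le_iff v).2 fun i => ?_) (by simpa using coeff_le_gn v (C c) 0)
  rw [coeff_C]; split_ifs <;> simp

theorem gn_X : gn v (X : K[X]) = 1 := by
  refine le_antisymm ((gn_le_iff v).2 fun i => ?_) (by simpa using coeff_le_gn v (X : K[X]) 1)
  rw [coeff_X]; split_ifs <;> simp

theorem gn_add_le (f g : K[X]) : gn v (f + g) ≤ max (gn v f) (gn v g) :=
  (gn_le_iff v).2 fun i => by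
    rw [coeff_add, map_add]
    exact (v.map_add _ _).trans (max_le_max (coeff_le_gn v f i) (coeff_le_gn v g i))

theorem gn_sub_le (f g : K[X]) : gn v (f - g) ≤ max (gn v f) (gn v g) :=
  (gn_le_iff v).2 fun i => by
    rw [coeff_sub, map_sub]
    exact (v.map_sub _ _).trans (max_le_max (coeff_le_gn v f i) (coeff_le_gn v g i))

theorem gn_mul_le (f g : K[X]) : gn v (f * g) ≤ gn v f * gn v g :=
  (gn_le_iff v).2 fun i => by
    rw [coeff_mul, map_sum]
    refine v.map_sum_le fun p _ => ?_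
    rw [map_mul, map_mul]
    exact mul_le_mul' (coeff_le_gn v f _) (coeff_le_gn v g _)

theorem gn_C_mul (c : K) (f : K[X]) : gn v (C c * f) = v (algebraMap K E c) * gn v f := by
  refine le_antisymm ((gn_mul_le v _ _).trans (by rw [gn_C])) ?_
  obtain ⟨i, hi⟩ := exists_coeff_eq_gn v f
  rw [← hi, ← map_mul, ← map_mul, ← coeff_C_mul]
  exact coeff_le_gn v _ i

theorem val_aeval_le {x : E} (hx : v x ≤ 1) (f : K[X]) : v (aeval x f) ≤ gn v f := by
  rw [aeval_eq_sum_range]
  refine v.map_sum_le fun i _ => ?_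
  rw [Algebra.smul_def, map_mul, map_pow]
  exact (mul_le_mul' (coeff_le_gn v f i) (pow_le_one₀ zero_le hx)).trans (by simp)

theorem gn_map {L : Type*} [Field L] [Algebra K L] [Algebra L E] [IsScalarTower K L E]
    (f : K[X]) : gn v (f.map (algebraMap K L)) = gn v f := by
  refine le_antisymm ((gn_le_iff v).2 fun i => ?_) ((gn_le_iff v).2 fun i => ?_)
  · rw [coeff_map, ← IsScalarTower.algebraMap_apply]; exact coeff_le_gn v f i
  · rw [IsScalarTower.algebraMap_apply K L E, ← coeff_map]; exact coeff_le_gn v _ i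

variable {v}

/-- restriction to a subfield of constants -/
theorem Gauss.of_tower {L : Type*} [Field L] [Algebra K L] [Algebra L E] [IsScalarTower K L E]
    {x : E} (h : Gauss L v x) : Gauss K v x := fun f => by
  rw [← gn_map v (L := L), ← h, aeval_map_algebraMap]

/-- over an algebraically closed field it suffices to look at linear polynomials -/
theorem gauss_of_isAlgClosed [IsAlgClosed K] {x : E} (hx : v x ≤ 1)
    (h : ∀ c : K, 1 ≤ v (x - algebraMap K E c)) : Gauss K v x := by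
  intro f
  refine le_antisymm (val_aeval_le v hx f) ?_
  induction hn : f.natDegree using Nat.strong_induction_on generalizing f with
  | _ n ih =>
    by_cases h0 : f.degree = 0
    · rw [eq_C_of_degree_eq_zero h0, gn_C, aeval_C]
    by_cases hf : f = 0
    · simp [hf]
    obtain ⟨c, hc⟩ := IsAlgClosed.exists_root f h0
    obtain ⟨g, rfl⟩ := dvd_iff_isRoot.2 hc
    have hg : g ≠ 0 := right_ne_zero_of_mul hf
    have h1 := ih g.natDegree (by
      rw [← hn, natDegree_mul (X_sub_C_ne_zero c) hg, natDegree_X_sub_C]; omega) g rfl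
    refine (gn_mul_le v _ _).trans ?_
    rw [map_mul, map_mul]
    refine mul_le_mul' ((gn_sub_le v _ _).trans ?_) h1
    rw [gn_X, gn_C, map_sub, aeval_X, aeval_C]
    refine max_le (h c) ?_
    rcases le_or_gt (v (algebraMap K E c)) 1 with h2 | h2
    · exact h2.trans (h c)
    · rw [Valuation.map_sub_eq_of_lt_right _ (hx.trans_lt h2)]

namespace Gauss

variable {x : E} (h : Gauss K v x)
include h

theorem val_x : v x = 1 := by simpa [gn_X] using h X

theorem ne_zero : x ≠ 0 := fun h0 => by simpa [h0] using h.val_x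

theorem aeval_ne_zero {f : K[X]} (hf : f ≠ 0) : aeval x f ≠ 0 := fun h0 => by
  have := h f
  rw [h0, map_zero] at this
  exact hf ((gn_eq_zero_iff v).1 this.symm)

theorem transcendental : Transcendental K x := fun ⟨_, hf, h0⟩ => h.aeval_ne_zero hf h0

theorem gn_mul (f g : K[X]) : gn v (f * g) = gn v f * gn v g := by
  rw [← h, ← h, ← h, map_mul, map_mul]

theorem val_sub (c : K) : v (x - algebraMap K E c) = max 1 (v (algebraMap K E c)) := by
  have h1 := h (X - C c)
  rw [map_sub, aeval_X, aeval_C] at h1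
  rw [h1]
  refine le_antisymm ((gn_sub_le v _ _).trans (by rw [gn_X, gn_C])) (max_le ?_ ?_)
  · have := coeff_le_gn v (X - C c) 1
    rwa [coeff_sub, coeff_X_one, coeff_C_of_ne_zero one_ne_zero, sub_zero, map_one, map_one] at this
  · have := coeff_le_gn v (X - C c) 0
    rwa [coeff_sub, coeff_X_zero, coeff_C_zero, zero_sub, map_neg, Valuation.map_neg] at this

/-- the Gauss valuation at `x` is the Gauss valuation at `1 / x` -/
theorem inv : Gauss K v x⁻¹ := fun f => by
  have hx := h.ne_zero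
  let : Invertible x⁻¹ := invertibleOfNonzero (inv_ne_zero hx)
  have h1 := eval₂_reverse_mul_pow (algebraMap K E) x⁻¹ f
  rw [invOf_eq_inv, inv_inv, ← aeval_def, ← aeval_def] at h1
  rw [← h1, map_mul, map_pow, map_inv₀, h.val_x, inv_one, one_pow, mul_one, h]
  refine le_antisymm ((gn_le_iff v).2 fun i => ?_) ((gn_le_iff v).2 fun i => ?_)
  · rw [coeff_reverse]; exact coeff_le_gn v f _
  · by_cases hi : i ≤ f.natDegree
    · have := coeff_le_gn v f.reverse (revAt f.natDegree i)
      rwa [coeff_reverse, revAt_invol] at this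
    · rw [coeff_eq_zero_of_natDegree_lt (not_le.1 hi)]; simp

end Gauss

variable (v)

/-- polynomials of Gauss norm at most one come from the valuation ring -/
theorem exists_lift {f : K[X]} (hf : gn v f ≤ 1) :
    ∃ f₀ : (v.comap (algebraMap K E)).valuationSubring[X], f₀.map (algebraMap _ K) = f := by
  rw [← mem_lifts, lifts_iff_coeff_lifts]
  exact fun i => ⟨⟨f.coeff i, (coeff_le_gn v f i).trans hf⟩, rfl⟩

theorem gn_lift_le (f₀ : (v.comap (algebraMap K E)).valuationSubring[X]) :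
    gn v (f₀.map (algebraMap _ K)) ≤ 1 :=
  (gn_le_iff v).2 fun i => by rw [coeff_map]; exact (f₀.coeff i).2

theorem residue_eq_zero_iff (c : (v.comap (algebraMap K E)).valuationSubring) :
    IsLocalRing.residue _ c = 0 ↔ v (algebraMap K E c) < 1 := by
  rw [IsLocalRing.residue_eq_zero_iff, Valuation.mem_maximalIdeal_iff]; rfl

theorem gn_lift_lt_iff (f₀ : (v.comap (algebraMap K E)).valuationSubring[X]) :
    gn v (f₀.map (algebraMap _ K)) < 1 ↔ f₀.map (IsLocalRing.residue _) = 0 := by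
  rw [gn_lt_iff v one_pos, Polynomial.ext_iff]
  refine forall_congr' fun i => ?_
  rw [coeff_map, coeff_map, coeff_zero, residue_eq_zero_iff]; rfl

/-- the norm form of a Weierstrass equation is anisotropic for the Gauss norm -/
theorem gn_norm_eq_one (W : Affine K) (h₁ : v (algebraMap K E W.a₁) ≤ 1)
    (h₂ : v (algebraMap K E W.a₂) ≤ 1) (h₃ : v (algebraMap K E W.a₃) ≤ 1)
    (h₄ : v (algebraMap K E W.a₄) ≤ 1) (h₆ : v (algebraMap K E W.a₆) ≤ 1) {f g : K[X]}
    (hm : max (gn v f) (gn v g) = 1) :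
    gn v (f ^ 2 - f * g * (C W.a₁ * X + C W.a₃) -
      g ^ 2 * (X ^ 3 + C W.a₂ * X ^ 2 + C W.a₄ * X + C W.a₆)) = 1 := by
  obtain ⟨f₀, rfl⟩ := exists_lift v ((le_max_left _ _).trans hm.le)
  obtain ⟨g₀, rfl⟩ := exists_lift v ((le_max_right _ _).trans hm.le)
  let O := (v.comap (algebraMap K E)).valuationSubring
  let W₀ : Affine O := ⟨⟨_, h₁⟩, ⟨_, h₂⟩, ⟨_, h₃⟩, ⟨_, h₄⟩, ⟨_, h₆⟩⟩
  set N₀ : O[X] := f₀ ^ 2 - f₀ * g₀ * (C W₀.a₁ * X + C W₀.a₃) -
      g₀ ^ 2 * (X ^ 3 + C W₀.a₂ * X ^ 2 + C W₀.a₄ * X + C W₀.a₆) with hN₀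
  have e : (f₀.map (algebraMap O K)) ^ 2 - f₀.map (algebraMap O K) * g₀.map (algebraMap O K) *
      (C W.a₁ * X + C W.a₃) - (g₀.map (algebraMap O K)) ^ 2 *
        (X ^ 3 + C W.a₂ * X ^ 2 + C W.a₄ * X + C W.a₆) = N₀.map (algebraMap O K) := by
    simp [hN₀, W₀, Polynomial.map_sub, Polynomial.map_mul, Polynomial.map_add, Polynomial.map_pow]
  rw [e]
  refine le_antisymm (gn_lift_le v _) (not_lt.1 fun hlt => ?_)
  rw [gn_lift_lt_iff] at hlt
  have h1 := CoordinateRing.degree_norm_smul_basis (W' := W₀.map (IsLocalRing.residue O))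
    (f₀.map (IsLocalRing.residue O)) (g₀.map (IsLocalRing.residue O))
  rw [CoordinateRing.norm_smul_basis] at h1
  have e2 : (f₀.map (IsLocalRing.residue O)) ^ 2 -
      f₀.map (IsLocalRing.residue O) * g₀.map (IsLocalRing.residue O) *
      (C (W₀.map (IsLocalRing.residue O)).a₁ * X + C (W₀.map (IsLocalRing.residue O)).a₃) -
      (g₀.map (IsLocalRing.residue O)) ^ 2 * (X ^ 3 + C (W₀.map (IsLocalRing.residue O)).a₂ * X ^ 2 +
        C (W₀.map (IsLocalRing.residue O)).a₄ * X + C (W₀.map (IsLocalRing.residue O)).a₆) =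
      N₀.map (IsLocalRing.residue O) := by
    simp [hN₀, Polynomial.map_sub, Polynomial.map_mul, Polynomial.map_add, Polynomial.map_pow]
  rw [e2, hlt, degree_zero, eq_comm, max_eq_bot] at h1
  have hf : f₀.map (IsLocalRing.residue O) = 0 := by
    by_contra hne
    rw [degree_eq_natDegree hne, two_nsmul] at h1
    exact absurd h1.1 (by norm_cast; exact WithBot.natCast_ne_bot _)
  have hg : g₀.map (IsLocalRing.residue O) = 0 := by
    by_contra hne
    rw [degree_eq_natDegree hne, two_nsmul] at h1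
    exact absurd h1.2 (by norm_cast; exact WithBot.natCast_ne_bot _)
  rw [← gn_lift_lt_iff] at hf hg
  exact absurd hm (max_lt hf hg).ne

end gauss

section weierstrass

variable {E : Type*} [Field E] (v : Valuation E ℝ≥0)

/-- the ordinate of an integral abscissa is integral -/
theorem val_y_le (W : Affine E) (h₁ : v W.a₁ ≤ 1) (h₂ : v W.a₂ ≤ 1) (h₃ : v W.a₃ ≤ 1)
    (h₄ : v W.a₄ ≤ 1) (h₆ : v W.a₆ ≤ 1) {x y : E} (he : W.Equation x y) (hx : v x ≤ 1) :
    v y ≤ 1 := by
  by_contra hy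
  rw [not_le] at hy
  rw [equation_iff] at he
  have e : y * (y + (W.a₁ * x + W.a₃)) = x ^ 3 + W.a₂ * x ^ 2 + W.a₄ * x + W.a₆ := by
    rw [← he]; ring
  have hm : ∀ {a b : E}, v a ≤ 1 → v b ≤ 1 → v (a * b) ≤ 1 := fun ha hb => by
    rw [map_mul]; exact mul_le_one' ha hb
  have hp : ∀ k : ℕ, v (x ^ k) ≤ 1 := fun k => by rw [map_pow]; exact pow_le_one₀ zero_le hx
  have h1 : v (W.a₁ * x + W.a₃) ≤ 1 := v.map_add_le (hm h₁ hx) h₃
  have h2 : v (x ^ 3 + W.a₂ * x ^ 2 + W.a₄ * x + W.a₆) ≤ 1 :=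
    v.map_add_le (v.map_add_le (v.map_add_le (hp 3) (hm h₂ (hp 2))) (hm h₄ hx)) h₆
  rw [← e, map_mul, v.map_add_eq_of_lt_left (h1.trans_lt hy)] at h2
  exact absurd h2 (not_le.2 (one_lt_mul'' hy hy))

variable {K : Type*} [Field K] [Algebra K E]

theorem isIntegral_y (W : Affine K) {x y : E} (he : (W⁄E).Equation x y) :
    _root_.IsIntegral (Algebra.adjoin K {x}) y := by
  let t : Algebra.adjoin K {x} := ⟨x, Algebra.self_mem_adjoin_singleton K x⟩
  let a : K → Algebra.adjoin K {x} := algebraMap K _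
  refine ⟨X ^ 2 + (C (a W.a₁ * t + a W.a₃) * X -
    C (t ^ 3 + a W.a₂ * t ^ 2 + a W.a₄ * t + a W.a₆)), ?_, ?_⟩
  · refine monic_X_pow_add ?_
    rw [sub_eq_add_neg, ← C_neg]
    exact degree_linear_lt
  · rw [equation_iff] at he
    simp only [eval₂_add, eval₂_sub, eval₂_mul, eval₂_pow, eval₂_X, eval₂_C, map_add, map_mul,
      map_pow]
    simp only [Affine.baseChange, WeierstrassCurve.baseChange, map_a₁, map_a₂, map_a₃, map_a₄,
      map_a₆] at he
    have ha : ∀ c, algebraMap (Algebra.adjoin K {x}) E (a c) = algebraMap K E c := fun _ => rfl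
    have ht : algebraMap (Algebra.adjoin K {x}) E t = x := rfl
    simp only [ha, ht]
    linear_combination he

theorem isIntegral_y_div (W : Affine K) {x y : E} (he : (W⁄E).Equation x y) (hx : x ≠ 0) :
    _root_.IsIntegral (Algebra.adjoin K {x⁻¹}) (y / x ^ 2) := by
  let t : Algebra.adjoin K {x⁻¹} := ⟨x⁻¹, Algebra.self_mem_adjoin_singleton K x⁻¹⟩
  let a : K → Algebra.adjoin K {x⁻¹} := algebraMap K _
  refine ⟨X ^ 2 + (C (a W.a₁ * t + a W.a₃ * t ^ 2) * X -
    C (t + a W.a₂ * t ^ 2 + a W.a₄ * t ^ 3 + a W.a₆ * t ^ 4)), ?_, ?_⟩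
  · refine monic_X_pow_add ?_
    rw [sub_eq_add_neg, ← C_neg]
    exact degree_linear_lt
  · rw [equation_iff] at he
    simp only [eval₂_add, eval₂_sub, eval₂_mul, eval₂_pow, eval₂_X, eval₂_C, map_add, map_mul,
      map_pow]
    simp only [Affine.baseChange, WeierstrassCurve.baseChange, map_a₁, map_a₂, map_a₃, map_a₄,
      map_a₆] at he
    have ha : ∀ c, algebraMap (Algebra.adjoin K {x⁻¹}) E (a c) = algebraMap K E c := fun _ => rfl
    have ht : algebraMap (Algebra.adjoin K {x⁻¹}) E t = x⁻¹ := rfl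
    simp only [ha, ht]
    field_simp
    linear_combination he

variable {v} {R : Type*} [CommRing R] [Algebra R K] [Algebra R E] [IsScalarTower R K E]
  {W : Affine R} {x y : E}

omit [Algebra R K] [IsScalarTower R K E] in
theorem Gauss.val_y (h : Gauss K v x) (vR : ∀ r : R, v (algebraMap R E r) ≤ 1)
    (he : (W⁄E).Equation x y) : v y ≤ 1 :=
  val_y_le v (W⁄E) (vR _) (vR _) (vR _) (vR _) (vR _) he h.val_x.le

/-- **(a)** `1, y` is an orthonormal basis -/
theorem Gauss.val_basis (h : Gauss K v x) (vR : ∀ r : R, v (algebraMap R E r) ≤ 1)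
    (he : (W⁄E).Equation x y) (f g : K[X]) :
    v (aeval x f + aeval x g * y) = max (v (aeval x f)) (v (aeval x g)) := by
  have hy := h.val_y vR he
  have key : ∀ f g : K[X], max (gn v f) (gn v g) = 1 → v (aeval x f + aeval x g * y) = 1 := by
    intro f g hm
    have hR : ∀ r : R, v (algebraMap K E (algebraMap R K r)) ≤ 1 := fun r => by
      rw [← IsScalarTower.algebraMap_apply]; exact vR r
    have h1 := gn_norm_eq_one v (W⁄K) (hR _) (hR _) (hR _) (hR _) (hR _) hm
    rw [← h] at h1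
    have hy' : v ((W⁄E).negY x y) ≤ 1 := h.val_y vR ((equation_neg ..).2 he)
    have e : aeval x (f ^ 2 - f * g * (C (W⁄K).a₁ * X + C (W⁄K).a₃) -
        g ^ 2 * (X ^ 3 + C (W⁄K).a₂ * X ^ 2 + C (W⁄K).a₄ * X + C (W⁄K).a₆)) =
        (aeval x f + aeval x g * y) * (aeval x f + aeval x g * (W⁄E).negY x y) := by
      rw [equation_iff] at he
      simp only [Affine.baseChange, WeierstrassCurve.baseChange, map_a₁, map_a₂, map_a₃, map_a₄,
        map_a₆, negY, map_sub, map_add, map_mul, map_pow, aeval_C, aeval_X,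
        ← IsScalarTower.algebraMap_apply] at he ⊢
      linear_combination (aeval x g) ^ 2 * he
    have hf : v (aeval x f) ≤ 1 := by rw [h]; exact (le_max_left _ _).trans hm.le
    have hg : v (aeval x g) ≤ 1 := by rw [h]; exact (le_max_right _ _).trans hm.le
    have b1 : v (aeval x f + aeval x g * y) ≤ 1 :=
      v.map_add_le hf (by rw [map_mul]; exact mul_le_one' hg hy)
    have b2 : v (aeval x f + aeval x g * (W⁄E).negY x y) ≤ 1 :=
      v.map_add_le hf (by rw [map_mul]; exact mul_le_one' hg hy')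
    rw [e, map_mul] at h1
    refine le_antisymm b1 ?_
    calc 1 = _ := h1.symm
      _ ≤ v (aeval x f + aeval x g * y) * 1 := mul_le_mul' le_rfl b2
      _ = _ := mul_one _
  rw [h f, h g]
  obtain ⟨c, hc⟩ : ∃ c : K, v (algebraMap K E c) = max (gn v f) (gn v g) := by
    rcases max_choice (gn v f) (gn v g) with e | e <;> rw [e]
    · obtain ⟨i, hi⟩ := exists_coeff_eq_gn v f; exact ⟨_, hi⟩
    · obtain ⟨i, hi⟩ := exists_coeff_eq_gn v g; exact ⟨_, hi⟩
  by_cases hc0 : c = 0
  · rw [hc0, map_zero, map_zero, eq_comm] at hc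
    have hf : f = 0 := (gn_eq_zero_iff v).1 (le_zero_iff.1 ((le_max_left _ _).trans hc.le))
    have hg : g = 0 := (gn_eq_zero_iff v).1 (le_zero_iff.1 ((le_max_right _ _).trans hc.le))
    simp [hf, hg]
  have hvc : v (algebraMap K E c) ≠ 0 := by simpa using hc0
  have h1 := key (C c⁻¹ * f) (C c⁻¹ * g) (by
    rw [gn_C_mul, gn_C_mul, ← mul_max_of_nonneg _ _ zero_le, ← hc, map_inv₀, map_inv₀,
      inv_mul_cancel₀ hvc])
  have e : aeval x (C c⁻¹ * f) + aeval x (C c⁻¹ * g) * y =
      (algebraMap K E c)⁻¹ * (aeval x f + aeval x g * y) := by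
    simp only [map_mul, aeval_C, map_inv₀]; ring
  rw [e, map_mul, map_inv₀, inv_mul_eq_one₀ hvc] at h1
  rw [← h1, hc]

omit [Algebra R K] [IsScalarTower R K E] in
theorem Gauss.isGen (h : Gauss K v x) (he : (W⁄E).Equation x y)
    (hgen : IntermediateField.adjoin K {x, y} = ⊤) : Ell.IsGen W K x y :=
  ⟨he, h.transcendental, hgen⟩

/-- **(b)** normalised fractions -/
theorem Gauss.exists_eq_div (h : Gauss K v x) (vR : ∀ r : R, v (algebraMap R E r) ≤ 1)
    (he : (W⁄E).Equation x y) (hgen : IntermediateField.adjoin K {x, y} = ⊤) (z : E) :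
    ∃ f g r : K[X], gn v r = 1 ∧ max (gn v f) (gn v g) = v z ∧
      z = (aeval x f + aeval x g * y) / aeval x r := by
  obtain ⟨f, g, r, hr, rfl⟩ := (h.isGen he hgen).exists_eq_div z
  obtain ⟨i, hi⟩ := exists_coeff_eq_gn v r
  set c := r.coeff i
  have hvc : v (algebraMap K E c) ≠ 0 := by rw [hi]; exact fun h0 => hr ((gn_eq_zero_iff v).1 h0)
  have hc : algebraMap K E c ≠ 0 := by simpa using hvc
  refine ⟨C c⁻¹ * f, C c⁻¹ * g, C c⁻¹ * r, ?_, ?_, ?_⟩
  · rw [gn_C_mul, map_inv₀, map_inv₀, ← hi, inv_mul_cancel₀ hvc]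
  · rw [gn_C_mul, gn_C_mul, ← mul_max_of_nonneg _ _ zero_le, map_div₀, h.val_basis vR he, h, h, h,
      ← hi, map_inv₀, map_inv₀, div_eq_inv_mul]
  · have := h.aeval_ne_zero hr
    simp only [map_mul, aeval_C, map_inv₀]; field_simp

/-- **(c)** the value group does not grow -/
theorem Gauss.exists_val_eq (h : Gauss K v x) (vR : ∀ r : R, v (algebraMap R E r) ≤ 1)
    (he : (W⁄E).Equation x y) (hgen : IntermediateField.adjoin K {x, y} = ⊤) (z : E) :
    ∃ c : K, v (algebraMap K E c) = v z := by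
  obtain ⟨f, g, r, -, hm, -⟩ := h.exists_eq_div vR he hgen z
  rw [← hm]
  rcases max_choice (gn v f) (gn v g) with e | e <;> rw [e]
  · obtain ⟨i, hi⟩ := exists_coeff_eq_gn v f; exact ⟨_, hi⟩
  · obtain ⟨i, hi⟩ := exists_coeff_eq_gn v g; exact ⟨_, hi⟩

/-- uniqueness of the Gauss extension -/
theorem Gauss.ext {v' : Valuation E ℝ≥0} (h : Gauss K v x) (h' : Gauss K v' x)
    (vR : ∀ r : R, v (algebraMap R E r) ≤ 1) (he : (W⁄E).Equation x y)
    (hgen : IntermediateField.adjoin K {x, y} = ⊤)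
    (hK : ∀ c : K, v (algebraMap K E c) = v' (algebraMap K E c)) : v = v' := by
  have vR' : ∀ r : R, v' (algebraMap R E r) ≤ 1 := fun r => by
    rw [IsScalarTower.algebraMap_apply R K E, ← hK, ← IsScalarTower.algebraMap_apply]; exact vR r
  have hg : ∀ f : K[X], gn v f = gn v' f := fun f => by simp only [gn, hK]
  ext z
  obtain ⟨f, g, r, -, -, rfl⟩ := h.exists_eq_div vR he hgen z
  rw [map_div₀, map_div₀, h.val_basis vR he, h'.val_basis vR' he, h, h, h, h', h', h', hg, hg, hg]

section der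

variable {O : Type*} [CommRing O] [Algebra O E] (δ : Derivation O E E)

theorem Gauss.val_der_aeval (h : Gauss K v x) (hx : δ x = 0)
    (hK : ∀ c : K, v (δ (algebraMap K E c)) ≤ v (algebraMap K E c)) (f : K[X]) :
    v (δ (aeval x f)) ≤ gn v f := by
  rw [aeval_eq_sum_range, map_sum]
  refine v.map_sum_le fun i _ => ?_
  rw [Algebra.smul_def, Derivation.leibniz, Derivation.leibniz_pow, hx, smul_zero, smul_zero,
    smul_zero, zero_add, smul_eq_mul, map_mul, map_pow, h.val_x, one_pow, one_mul]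
  exact (hK _).trans (coeff_le_gn v f i)

/-- **(d)** a derivation killing `x, y` and bounded on `K` is bounded -/
theorem Gauss.val_der (h : Gauss K v x) (vR : ∀ r : R, v (algebraMap R E r) ≤ 1)
    (he : (W⁄E).Equation x y) (hgen : IntermediateField.adjoin K {x, y} = ⊤)
    (hx : δ x = 0) (hy : δ y = 0)
    (hK : ∀ c : K, v (δ (algebraMap K E c)) ≤ v (algebraMap K E c)) (z : E) :
    v (δ z) ≤ v z := by
  obtain ⟨f, g, r, hr, hm, hz⟩ := h.exists_eq_div vR he hgen z
  have hr1 : v (aeval x r) = 1 := by rw [h, hr]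
  have hr0 : aeval x r ≠ 0 := fun h0 => by simp [h0] at hr1
  have e : aeval x r * z = aeval x f + aeval x g * y := by rw [hz]; field_simp
  have e2 := congrArg δ e
  rw [Derivation.leibniz, map_add, Derivation.leibniz, hy, smul_zero, zero_add, smul_eq_mul,
    smul_eq_mul, smul_eq_mul] at e2
  have e3 : aeval x r * δ z = δ (aeval x f) + y * δ (aeval x g) - z * δ (aeval x r) := by
    rw [← e2]; ring
  have e4 := congrArg v e3
  rw [map_mul, hr1, one_mul] at e4
  rw [e4]
  refine v.map_sub_le (v.map_add_le ?_ ?_) ?_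
  · exact (h.val_der_aeval δ hx hK f).trans ((le_max_left _ _).trans hm.le)
  · rw [map_mul]
    exact (mul_le_mul' (h.val_y vR he) ((h.val_der_aeval δ hx hK g).trans
      ((le_max_right _ _).trans hm.le))).trans (one_mul _).le
  · rw [map_mul]
    exact (mul_le_mul' le_rfl ((h.val_der_aeval δ hx hK r).trans hr.le)).trans (mul_one _).le

end der

end weierstrass

end Crest.Agent.T170.K1
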