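import Crest.Agent.T170.Fr_20
import Crest.Agent.T170.Gauss_37
import Crest.Agent.T170.BaseA_64
import Crest.Agent.T170.DM_38

/-!
# Row 170, leaf K1 (helper37): the Gauss valuation of a `CoreData`
-/

set_option autoImplicit false
set_option linter.unusedSectionVars false

namespace Crest.Agent.T170

open scoped NNReal
open Polynomial WeierstrassCurve WeierstrassCurve.Affine

/-- **(g)** a valuation with values in `ℝ≥0` has rank at most one -/
theorem K1.arch {E : Type*} [Field E] (v : Valuation E ℝ≥0) : DM.Arch v.valuationSubring := by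
  intro a ha b hb
  have ha' : v (a : E) < 1 := by
    rw [← Valuation.mem_maximalIdeal_iff, IsLocalRing.mem_maximalIdeal]; exact ha
  have hb0 : (b : E) ≠ 0 := fun h => hb (Subtype.ext h)
  have hb' : 0 < v (b : E) := by simpa [pos_iff_ne_zero] using hb0
  obtain ⟨k, hk⟩ := NNReal.exists_pow_lt_of_lt_one hb' ha'
  refine ⟨k, ⟨(a : E) ^ k / b, ?_⟩, Subtype.ext ?_⟩
  · rw [Valuation.mem_valuationSubring_iff, map_div₀, map_pow]
    exact div_le_one_of_le₀ hk.le zero_le
  · push_cast; field_simp

theorem K1.isUnit_iff {E : Type*} [Field E] (v : Valuation E ℝ≥0) (a : v.valuationSubring) :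
    IsUnit a ↔ v (a : E) = 1 := by
  rw [← not_iff_not, ← mem_nonunits_iff, ← IsLocalRing.mem_maximalIdeal,
    Valuation.mem_maximalIdeal_iff]
  exact ⟨fun h => h.ne, fun h => lt_of_le_of_ne a.2 h⟩

theorem K1.dvd_iff {E : Type*} [Field E] (v : Valuation E ℝ≥0) (a b : v.valuationSubring) :
    a ∣ b ↔ v (b : E) ≤ v (a : E) := by
  constructor
  · rintro ⟨c, rfl⟩
    push_cast; rw [map_mul]; exact mul_le_of_le_one_right' c.2
  · intro h
    by_cases ha : (a : E) = 0
    · have : b = 0 := Subtype.ext (by simpa [ha] using h)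
      rw [this]; exact dvd_zero a
    · refine ⟨⟨(b : E) / a, ?_⟩, Subtype.ext ?_⟩
      · rw [Valuation.mem_valuationSubring_iff, map_div₀]
        exact div_le_one_of_le₀ h zero_le
      · push_cast; field_simp

namespace Fr.CoreData

open K1

variable {p n : ℕ} [NeZero n] {R C K E N : Type} [CommRing R] [Field C] [Field K]
  [Field E] [Field N] [Algebra C K] [Algebra K E] [Algebra E N] [Algebra C E] [Algebra C N]
  [Algebra K N] [Algebra R C] [Algebra R E] [IsScalarTower R C E] [IsScalarTower C K E]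
  [IsScalarTower K E N] [IsScalarTower C E N] [IsScalarTower C K N]
  (X : CoreData p n R C K E N)

theorem isGauss : Gauss K X.v X.x := X.gauss

theorem eqn : (X.W⁄E).Equation X.x X.y := X.ns.1

/-- the `R`-algebra structure on `K` -/
@[reducible] def algRK (R C K : Type) [CommRing R] [Field C] [Field K] [Algebra R C]
    [Algebra C K] : Algebra R K := ((algebraMap C K).comp (algebraMap R C)).toAlgebra

theorem towerRK (R C K E : Type) [CommRing R] [Field C] [Field K] [Field E] [Algebra R C]
    [Algebra C K] [Algebra K E] [Algebra C E] [Algebra R E] [IsScalarTower R C E]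
    [IsScalarTower C K E] :
    letI := algRK R C K
    IsScalarTower R K E :=
  letI := algRK R C K
  IsScalarTower.of_algebraMap_eq fun r => by
    rw [IsScalarTower.algebraMap_apply R C E, IsScalarTower.algebraMap_apply C K E]; rfl

theorem isGen : Ell.IsGen X.W K X.x X.y := X.isGauss.isGen X.eqn X.gen

/-! ### (f) -/

theorem transcendental_x : Transcendental K X.x := X.isGauss.transcendental
theorem v_x : X.v X.x = 1 := X.isGauss.val_x
theorem x_ne_zero : X.x ≠ 0 := X.isGauss.ne_zero
theorem v_y : X.v X.y ≤ 1 := X.isGauss.val_y X.vR X.eqn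
theorem isGauss_inv : Gauss K X.v X.x⁻¹ := X.isGauss.inv
theorem aeval_ne_zero {f : K[X]} (hf : f ≠ 0) : aeval X.x f ≠ 0 := X.isGauss.aeval_ne_zero hf

theorem v_x_sub (c : K) : X.v (X.x - algebraMap K E c) = max 1 (X.v (algebraMap K E c)) :=
  X.isGauss.val_sub c

theorem v_CK (c : C) : X.v (algebraMap K E (algebraMap C K c)) = X.v (algebraMap C E c) := by
  rw [← IsScalarTower.algebraMap_apply]

theorem v_a (i : Fin n) : X.v (algebraMap K E (X.a i)) ≤ 1 := by
  have := X.v.map_add_le (X.vaa' i).le (X.va' i)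
  rwa [sub_add_cancel] at this

theorem v_b' (i : Fin n) : X.v (algebraMap C E (X.b' i)) ≤ 1 := by
  have h := (X.ns' i).1.map (algebraMap C E)
  refine val_y_le X.v _ ?_ ?_ ?_ ?_ ?_ h (X.va' i) <;>
  · simp only [Affine.baseChange, WeierstrassCurve.baseChange, map_a₁, map_a₂, map_a₃, map_a₄,
      map_a₆, ← IsScalarTower.algebraMap_apply]
    exact X.vR _

theorem v_b (i : Fin n) : X.v (algebraMap K E (X.b i)) ≤ 1 := by
  have := X.v.map_add_le (X.vbb' i).le (X.v_b' i)
  rwa [sub_add_cancel] at this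

theorem v_x_sub_a (i : Fin n) : X.v (X.x - algebraMap K E (X.a i)) = 1 := by
  rw [X.v_x_sub, max_eq_left (X.v_a i)]

/-- the curve over `K` -/
noncomputable def WK : Affine K := X.W.map ((algebraMap C K).comp (algebraMap R C))

theorem WK_baseChange : X.WK⁄E = X.W⁄E := by
  simp only [WK, Affine.baseChange, WeierstrassCurve.baseChange, WeierstrassCurve.map_map]
  congr 1
  ext r
  rw [IsScalarTower.algebraMap_apply R C E, IsScalarTower.algebraMap_apply C K E]; rfl

theorem eqnK : (X.WK⁄E).Equation X.x X.y := by rw [WK_baseChange]; exact X.eqn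

theorem eqnN : (X.WK⁄N).Equation (algebraMap E N X.x) (algebraMap E N X.y) :=
  X.eqnK.baseChange (IsScalarTower.toAlgHom K E N)

theorem isIntegral_y : _root_.IsIntegral (Algebra.adjoin K {X.x}) X.y :=
  K1.isIntegral_y X.WK X.eqnK

theorem isIntegral_y_div : _root_.IsIntegral (Algebra.adjoin K {X.x⁻¹}) (X.y / X.x ^ 2) :=
  K1.isIntegral_y_div X.WK X.eqnK X.x_ne_zero

theorem isIntegral_yN :
    _root_.IsIntegral (Algebra.adjoin K {algebraMap E N X.x}) (algebraMap E N X.y) :=
  K1.isIntegral_y X.WK X.eqnN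

theorem isIntegral_y_divN : _root_.IsIntegral (Algebra.adjoin K {(algebraMap E N X.x)⁻¹})
    (algebraMap E N X.y / algebraMap E N X.x ^ 2) :=
  K1.isIntegral_y_div X.WK X.eqnN ((_root_.map_ne_zero _).2 X.x_ne_zero)

/-! ### (a), (b), (c), (g) -/

theorem val_basis (f g : K[X]) : X.v (aeval X.x f + aeval X.x g * X.y) =
    max (X.v (aeval X.x f)) (X.v (aeval X.x g)) :=
  letI := algRK R C K
  haveI := towerRK R C K E
  X.isGauss.val_basis X.vR X.eqn f g

theorem exists_eq_div' (z : E) : ∃ f g r : K[X], gn X.v r = 1 ∧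
    max (gn X.v f) (gn X.v g) = X.v z ∧ z = (aeval X.x f + aeval X.x g * X.y) / aeval X.x r :=
  letI := algRK R C K
  haveI := towerRK R C K E
  X.isGauss.exists_eq_div X.vR X.eqn X.gen z

theorem exists_eq_div {z : E} (hz : X.v z ≤ 1) : ∃ f g r : K[X],
    (∀ i, X.v (algebraMap K E (f.coeff i)) ≤ 1) ∧ (∀ i, X.v (algebraMap K E (g.coeff i)) ≤ 1) ∧
    (∀ i, X.v (algebraMap K E (r.coeff i)) ≤ 1) ∧ X.v (aeval X.x r) = 1 ∧
    z = (aeval X.x f + aeval X.x g * X.y) / aeval X.x r := by
  obtain ⟨f, g, r, hr, hm, e⟩ := X.exists_eq_div' z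
  exact ⟨f, g, r, (gn_le_iff _).1 ((le_max_left _ _).trans (hm.le.trans hz)),
    (gn_le_iff _).1 ((le_max_right _ _).trans (hm.le.trans hz)), (gn_le_iff _).1 hr.le,
    (X.isGauss r).trans hr, e⟩

theorem exists_val_eq (z : E) : ∃ c : C, X.v (algebraMap C E c) = X.v z := by
  let := algRK R C K
  have := towerRK R C K E
  obtain ⟨c, hc⟩ := X.isGauss.exists_val_eq X.vR X.eqn X.gen z
  obtain ⟨c', hc'⟩ := X.vgrp c
  exact ⟨c', hc'.trans hc⟩

theorem arch : DM.Arch X.v.valuationSubring := K1.arch X.v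

/-! ### (d), (e) -/

theorem exists_D_eq (i : Fin n) (z : E) :
    ∃ w : E, X.D i (algebraMap E N z) = algebraMap E N w := by
  have hz : z ∈ IntermediateField.adjoin K {X.x, X.y} := by rw [X.gen]; trivial
  induction hz using IntermediateField.adjoin_induction with
  | mem t ht =>
    rcases ht with rfl | rfl
    · exact ⟨0, by rw [X.Dx, map_zero]⟩
    · exact ⟨0, by rw [X.Dy, map_zero]⟩
  | algebraMap c =>
    exact ⟨algebraMap K E (X.d i c), by
      rw [← IsScalarTower.algebraMap_apply, ← IsScalarTower.algebraMap_apply, X.Dd]⟩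
  | add s t _ _ hs ht =>
    obtain ⟨s', hs⟩ := hs
    obtain ⟨t', ht⟩ := ht
    exact ⟨s' + t', by rw [map_add, map_add, hs, ht, map_add]⟩
  | inv s _ hs =>
    obtain ⟨s', hs⟩ := hs
    exact ⟨-s⁻¹ ^ 2 * s', by
      rw [map_inv₀, Derivation.leibniz_inv, hs, smul_eq_mul, map_mul, map_neg, map_pow, map_inv₀]⟩
  | mul s t _ _ hs ht =>
    obtain ⟨s', hs⟩ := hs
    obtain ⟨t', ht⟩ := ht
    exact ⟨s * t' + t * s', by
      rw [map_mul, Derivation.leibniz, hs, ht, smul_eq_mul, smul_eq_mul, map_add, map_mul, map_mul]⟩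

/-- the restriction of `D i` to `E`, as a function -/
noncomputable def dE₀ (i : Fin n) (z : E) : E := (X.exists_D_eq i z).choose

theorem dE₀_spec (i : Fin n) (z : E) :
    algebraMap E N (X.dE₀ i z) = X.D i (algebraMap E N z) := (X.exists_D_eq i z).choose_spec.symm

/-- the restriction of `D i` to `E` -/
noncomputable def dE (i : Fin n) : Derivation C E E :=
  Derivation.mk'
    { toFun := X.dE₀ i
      map_add' := fun s t => (algebraMap E N).injective (by
        rw [map_add, dE₀_spec, dE₀_spec, dE₀_spec, map_add, map_add])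
      map_smul' := fun c s => (algebraMap E N).injective (by
        have e : ∀ z : E, algebraMap E N (c • z) = c • algebraMap E N z := fun z => by
          rw [Algebra.smul_def, Algebra.smul_def, map_mul, ← IsScalarTower.algebraMap_apply]
        rw [RingHom.id_apply, e, dE₀_spec, dE₀_spec, e, Derivation.map_smul]) }
    fun s t => (algebraMap E N).injective (by
      simp only [LinearMap.coe_mk, AddHom.coe_mk, smul_eq_mul]
      rw [map_add, map_mul, map_mul, dE₀_spec, dE₀_spec, dE₀_spec, map_mul,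
        Derivation.leibniz, smul_eq_mul, smul_eq_mul])

theorem D_algebraMap (i : Fin n) (z : E) :
    X.D i (algebraMap E N z) = algebraMap E N (X.dE i z) := (X.dE₀_spec i z).symm

theorem dE_x (i : Fin n) : X.dE i X.x = 0 :=
  (algebraMap E N).injective (by rw [← D_algebraMap, X.Dx, map_zero])

theorem dE_y (i : Fin n) : X.dE i X.y = 0 :=
  (algebraMap E N).injective (by rw [← D_algebraMap, X.Dy, map_zero])

theorem dE_algebraMap (i : Fin n) (c : K) :
    X.dE i (algebraMap K E c) = algebraMap K E (X.d i c) :=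
  (algebraMap E N).injective (by
    rw [← D_algebraMap, ← IsScalarTower.algebraMap_apply, ← IsScalarTower.algebraMap_apply, X.Dd])

theorem v_dE (i : Fin n) (z : E) : X.v (X.dE i z) ≤ X.v z :=
  letI := algRK R C K
  haveI := towerRK R C K E
  X.isGauss.val_der (X.dE i) X.vR X.eqn X.gen (X.dE_x i) (X.dE_y i)
    (fun c => by rw [dE_algebraMap]; exact X.vd i c) z

theorem D_smul (i : Fin n) (z : E) (w : N) : X.D i (z • w) = z • X.D i w + X.dE i z • w := by
  rw [Algebra.smul_def, Derivation.leibniz, D_algebraMap, smul_eq_mul, smul_eq_mul,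
    Algebra.smul_def, Algebra.smul_def]; ring

theorem dE_comm (i j : Fin n) (z : E) : X.dE i (X.dE j z) = X.dE j (X.dE i z) :=
  (algebraMap E N).injective (by simp only [← D_algebraMap]; exact X.Dcomm i j _)

theorem γE_dE (i : Fin n) (z : E) : X.γE (X.dE i z) = X.dE (i + 1) (X.γE z) :=
  (algebraMap E N).injective (by rw [← X.γγE, ← D_algebraMap, ← D_algebraMap, ← X.γγE, X.γD])

theorem D_comm_aut [Algebra.IsSeparable E N] (i : Fin n) (h : N ≃ₐ[E] N) (z : N) :
    h (X.D i z) = X.D i (h z) :=
  haveI : Algebra.FormallyUnramified E N := .of_isSeparable E N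
  Base.der_conj (R := E) (h : N →+* N) (X.D i) (X.D i) (fun r => by
    simp only [RingHom.coe_coe, D_algebraMap, AlgEquiv.commutes]) z

end Fr.CoreData

end Crest.Agent.T170
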