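import Crest.Agent.T170.Gaga3_13
import Crest.Agent.T170.CoreK1_37
import Crest.Agent.T170.CoreDefs_20

/-!
# Row 170 (helper93): the eigenvalue at the wildly ramified puncture (`EigStmt`)
-/

set_option autoImplicit false
open scoped BigOperators NNReal IntermediateField
open Polynomial

namespace Crest.Agent.T170.Eig93

open Crest.Agent.T170.Ret Crest.Agent.T170.Gaga13

theorem val_natCast_le {K : Type*} [Field K] (v : Valuation K ℝ≥0) (m : ℕ) : v (m : K) ≤ 1 := by
  induction m with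
  | zero => simp
  | succ m ih => rw [Nat.cast_succ]; exact v.map_add_le ih (by simp)

theorem val_intCast_le {K : Type*} [Field K] (v : Valuation K ℝ≥0) (m : ℤ) : v (m : K) ≤ 1 := by
  obtain ⟨k, rfl | rfl⟩ := m.eq_nat_or_neg
  · rw [Int.cast_natCast]; exact val_natCast_le v k
  · rw [Int.cast_neg, Int.cast_natCast, v.map_neg]; exact val_natCast_le v k

theorem val_intCast_eq_one {K : Type*} [Field K] (v : Valuation K ℝ≥0) {p : ℕ}
    (hp : v (p : K) < 1) {m : ℤ} (h : IsCoprime m (p : ℤ)) : v (m : K) = 1 := by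
  obtain ⟨a, b, hab⟩ := h
  refine le_antisymm (val_intCast_le v m) (not_lt.1 fun hm => ?_)
  have h1 : v (((a * m + b * p : ℤ)) : K) < 1 := by
    push_cast
    refine v.map_add_lt ?_ ?_
    · rw [map_mul]
      exact mul_lt_one_of_nonneg_of_lt_one_right (val_intCast_le v a) zero_le hm
    · rw [map_mul]
      exact mul_lt_one_of_nonneg_of_lt_one_right (val_intCast_le v b) zero_le hp
  rw [hab, Int.cast_one, map_one] at h1
  exact lt_irrefl _ h1

theorem coeff_taylor_le {K : Type*} [Field K] (v : Valuation K ℝ≥0) {a : K} (ha : v a ≤ 1)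
    (f : K[X]) {c : ℝ≥0} (hf : ∀ i, v (f.coeff i) ≤ c) (l : ℕ) :
    v ((f.comp (X + C a)).coeff l) ≤ c := by
  rw [comp_eq_sum_left, Polynomial.sum, finsetSum_coeff]
  refine v.map_sum_le fun i _ => ?_
  rw [coeff_C_mul, coeff_X_add_C_pow, map_mul, map_mul, map_pow]
  exact (mul_le_of_le_one_right' (mul_le_one' (pow_le_one' ha _) (val_natCast_le v _))).trans
    (hf i)

section Place

variable {K N : Type*} [Field K] [Field N] [Algebra K N] (u : AV N)
  (uK : ∀ z : K, z ≠ 0 → u (algebraMap K N z) = 0)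

include uK

theorem u_const_nonneg (z : K) : 0 ≤ u (algebraMap K N z) := by
  by_cases hz : z = 0
  · rw [hz, map_zero, u.map_zero]; exact le_top
  · rw [uK z hz]

theorem u_aeval_nonneg {ξ : N} (hξ : 0 ≤ u ξ) (g : K[X]) : 0 ≤ u (aeval ξ g) := by
  rw [aeval_eq_sum_range]
  refine u.map_le_sum fun i _ => ?_
  rw [Algebra.smul_def, u.map_mul, u.map_pow]
  exact add_nonneg (u_const_nonneg u uK _) (nsmul_nonneg hξ _)

/-- the value of a polynomial is a multiple of the value of the uniformiser -/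
theorem u_aeval {ξ : N} {a : K} {n₀ : ℕ} (hn : 0 < n₀)
    (ht : u (ξ - algebraMap K N a) = ((n₀ : ℤ) : WithTop ℤ)) {g : K[X]} (hg : g ≠ 0) :
    ∃ m : ℕ, u (aeval ξ g) = (((m : ℤ) * n₀ : ℤ) : WithTop ℤ) := by
  have hpos : (0 : WithTop ℤ) < u (ξ - algebraMap K N a) := by
    rw [ht]; exact_mod_cast hn
  have hξ : 0 ≤ u ξ := by
    have := u.map_le_add hpos.le (u_const_nonneg u uK a)
    rwa [sub_add_cancel] at this
  obtain ⟨h, hh, hnd⟩ := exists_eq_pow_rootMultiplicity_mul_and_not_dvd g hg a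
  refine ⟨g.rootMultiplicity a, ?_⟩
  have hev : h.eval a ≠ 0 := fun h0 => hnd (dvd_iff_isRoot.2 h0)
  have e1 : h = C (h.eval a) + (X - C a) * (h /ₘ (X - C a)) := by
    conv_lhs => rw [← modByMonic_add_div h (X - C a)]
    rw [modByMonic_X_sub_C_eq_C_eval]
  have h2 : u (aeval ξ h) = 0 := by
    rw [e1, map_add, map_mul, map_sub, aeval_X, aeval_C, aeval_C, u.map_add_eq_of_lt_left,
      uK _ hev]
    rw [uK _ hev, u.map_mul]
    exact add_pos_of_pos_of_nonneg hpos (u_aeval_nonneg u uK hξ _)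
  conv_lhs => rw [hh]
  rw [map_mul, map_pow, map_sub, aeval_X, aeval_C, u.map_mul, u.map_pow, h2, ht, add_zero]
  rw [← WithTop.coe_nsmul, nsmul_eq_mul]

/-- the elements of value `> k` -/
def Mgt (k : ℤ) : Submodule K N where
  carrier := {y | (k : WithTop ℤ) < u y}
  add_mem' ha hb := u.map_lt_add ha hb
  zero_mem' := by
    change (k : WithTop ℤ) < u 0
    rw [u.map_zero]; exact WithTop.coe_lt_top k
  smul_mem' c y hy := by
    change (k : WithTop ℤ) < u (c • y)
    rw [Algebra.smul_def, u.map_mul]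
    exact lt_of_lt_of_le hy (le_add_of_nonneg_left (u_const_nonneg u uK c))

omit uK in
theorem exists_lt_pow_mul {t : N} {n₀ : ℕ} (hn : 0 < n₀) (ht : u t = ((n₀ : ℤ) : WithTop ℤ))
    (k : ℤ) (b : N) : ∃ l₀ : ℕ, ∀ l, l₀ ≤ l → (k : WithTop ℤ) < u (t ^ l * b) := by
  induction hb : u b using WithTop.recTopCoe with
  | top =>
    refine ⟨0, fun l _ => ?_⟩
    rw [u.map_mul, hb, add_top]
    exact WithTop.coe_lt_top k
  | coe s =>
    refine ⟨(k - s).toNat + 1, fun l hl => ?_⟩
    rw [u.map_mul, u.map_pow, hb, ht, ← WithTop.coe_nsmul, ← WithTop.coe_add, WithTop.coe_lt_coe,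
      nsmul_eq_mul]
    have h1 : (l : ℤ) ≤ l * n₀ := le_mul_of_one_le_right (by positivity) (by exact_mod_cast hn)
    omega

end Place

section Main

variable {K F N : Type*} [Field K] [Field F] [Field N] [Algebra K F] [Algebra F N] [Algebra K N]
  [IsScalarTower K F N] [FiniteDimensional F N] [Algebra.IsSeparable F N]
  {v : Valuation K ℝ≥0} {w : Valuation F ℝ≥0} {x : F}

/-- a `K`-linear form which kills `M_{>k}` is bounded on bounded sets of integral elements -/
theorem bdd_form (hg : Gauss v w x) (hx : IntermediateField.adjoin K {x} = ⊤) (u : AV N)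
    {a : K} (ha : v a ≤ 1) {n₀ : ℕ} (hn : 0 < n₀)
    (ht : u (algebraMap F N (x - algebraMap K F a)) = ((n₀ : ℤ) : WithTop ℤ)) (k : ℤ)
    (ℓ : N →ₗ[K] K) (hℓ : ∀ y, (k : WithTop ℤ) < u y → ℓ y = 0) {S : Set N} (hS : Bdd w S) :
    ∃ c : ℝ≥0, ∀ z ∈ S, IsInt K x z → v (ℓ z) ≤ c := by
  classical
  obtain ⟨b, hb⟩ := exists_basis (K := K) (N := N) hg.transcendental hx
  set t : N := algebraMap F N (x - algebraMap K F a) with htdef
  choose c hc using fun j => hS (b j)
  choose l₀ hl₀ using fun j => exists_lt_pow_mul u hn ht k (b.traceDual j)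
  let d : Fin (Module.finrank F N) → ℝ≥0 := fun j =>
    (Finset.range (l₀ j)).sup fun l => v (ℓ (t ^ l * b.traceDual j))
  have hd : ∀ j l, v (ℓ (t ^ l * b.traceDual j)) ≤ d j := by
    intro j l
    by_cases hl : l < l₀ j
    · exact Finset.le_sup (f := fun l => v (ℓ (t ^ l * b.traceDual j))) (Finset.mem_range.2 hl)
    · rw [hℓ _ (hl₀ j l (not_lt.1 hl)), map_zero]; exact zero_le
  refine ⟨∑ j, c j * d j, fun z hz hi => ?_⟩
  conv_lhs => rw [← b.traceDual.sum_repr z]
  rw [map_sum]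
  refine v.map_sum_le fun j _ => ?_
  refine le_trans ?_ (Finset.single_le_sum (f := fun j => c j * d j) (fun _ _ => zero_le)
    (Finset.mem_univ j))
  obtain ⟨f, hf⟩ := ((hb j).mul hi).trace hg.transcendental hx
  have hfc : ∀ i, v (f.coeff i) ≤ c j := fun i => (hg.2.2 f i).trans (hf ▸ hc j z hz)
  have e1 : b.traceDual.repr z j = aeval x f := by
    rw [Module.Basis.traceDual_repr_apply, Algebra.traceForm_apply, mul_comm, hf]
  have e2 : algebraMap F N (aeval x f) = aeval t (f.comp (X + C a)) := by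
    rw [aeval_comp, map_add, aeval_X, aeval_C, htdef, IsScalarTower.algebraMap_apply K F N,
      ← map_add, sub_add_cancel, aeval_algebraMap_apply]
  rw [e1, Algebra.smul_def, e2, aeval_eq_sum_range, Finset.sum_mul, map_sum]
  refine v.map_sum_le fun l _ => ?_
  rw [smul_mul_assoc, map_smul, smul_eq_mul, map_mul]
  exact mul_le_mul' (coeff_taylor_le v ha f hfc l) (hd j l)

/-- an approximate eigenvalue on a bounded set of integral elements is integral -/
theorem eig_le_one (hg : Gauss v w x) (hx : IntermediateField.adjoin K {x} = ⊤) (u : AV N)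
    (uK : ∀ z : K, z ≠ 0 → u (algebraMap K N z) = 0)
    {a : K} (ha : v a ≤ 1) {n₀ : ℕ} (hn : 0 < n₀)
    (ht : u (algebraMap F N (x - algebraMap K F a)) = ((n₀ : ℤ) : WithTop ℤ)) {k : ℤ}
    {S : Set N} (hS : Bdd w S) {z : N} (hz : u z = (k : WithTop ℤ)) (lam : K) (y : ℕ → N)
    (hy : ∀ m, y m ∈ S) (hi : ∀ m, IsInt K x (y m))
    (he : ∀ m, (k : WithTop ℤ) < u (y m - algebraMap K N lam ^ m * z)) : v lam ≤ 1 := by
  have hzM : z ∉ Mgt u uK k := fun h => by
    have h' : (k : WithTop ℤ) < u z := h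
    rw [hz] at h'
    exact lt_irrefl _ h'
  obtain ⟨ℓ, hℓz, hℓ⟩ := (Mgt u uK k).exists_dual_map_eq_bot_of_notMem hzM inferInstance
  have hℓ' : ∀ y, (k : WithTop ℤ) < u y → ℓ y = 0 := fun y hy => by
    have : ℓ y ∈ (Mgt u uK k).map ℓ := ⟨y, hy, rfl⟩
    rwa [hℓ, Submodule.mem_bot] at this
  obtain ⟨c, hc⟩ := bdd_form hg hx u ha hn ht k ℓ hℓ' hS
  have hm : ∀ m : ℕ, v lam ^ m * v (ℓ z) ≤ c := fun m => by
    have h1 := hℓ' _ (he m)
    rw [map_sub, sub_eq_zero, ← map_pow, ← Algebra.smul_def, map_smul, smul_eq_mul] at h1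
    rw [← map_pow, ← map_mul, ← h1]
    exact hc _ (hy m) (hi m)
  by_contra hlt
  have hpos : 0 < v (ℓ z) := pos_iff_ne_zero.2 ((map_ne_zero v).2 hℓz)
  obtain ⟨m, hm'⟩ := pow_unbounded_of_one_lt (c / v (ℓ z)) (not_le.1 hlt)
  rw [div_lt_iff₀ hpos] at hm'
  exact absurd (hm m) (not_le.2 hm')

end Main

open Crest.Agent.T170.Fr Crest.Agent.T170.DM in
/-- **(EIG)** -/
theorem eigStmt {p : ℕ} (hp : p.Prime) : Fr.EigStmt p := by
  intro n _ R C K E N _ _ _ _ _ _ _ _ _ _ _ _ _ _ _ _ _ _ _ _ _ _ X c hst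
  classical
  obtain ⟨L, hL, hLs⟩ := hst
  have : CharZero K := charZero_of_injective_algebraMap (algebraMap C K).injective
  have : CharZero E := charZero_of_injective_algebraMap (algebraMap C E).injective
  set a : K := X.a X.i₀ with hadef
  set da : K := X.d X.i₀ a with hda
  set t : E := X.x - algebraMap K E a with htdef
  set cK : K := algebraMap C K c with hcK
  have hcE : algebraMap K E cK = algebraMap C E c := (IsScalarTower.algebraMap_apply C K E c).symm
  by_cases hc0 : cK = 0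
  · rw [← hcE, hc0, map_zero, map_zero, zero_mul]; exact zero_le
  by_cases hd0 : da = 0
  · rw [hd0, map_zero, map_zero, mul_zero]; exact zero_le
  have hO : X.v.Integers X.v.integer := Valuation.integer.integers X.v
  have hg := core_gauss X
  have he := span_of_div (K := K) (η := X.v) (x := X.x) (y := X.y) (fun z hz => by
    obtain ⟨f, g, r, hf, hg', -, hr, e⟩ := X.exists_eq_div hz
    exact ⟨f, g, r, hg.aeval_le f 1 hf, hg.aeval_le g 1 hg', hr, e⟩)
  have hpK : (p : K) ≠ 0 := Nat.cast_ne_zero.2 hp.ne_zero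
  have hpE : X.v (algebraMap K E p) < 1 := by rw [map_natCast]; exact X.vp
  have hfin := finite_of_span ![1, X.y] he (p : K) hpK hpE
  have : FiniteDimensional K⟮X.x⟯ N := Module.Finite.trans E N
  have : CharZero K⟮X.x⟯ := charZero_of_injective_algebraMap (algebraMap K K⟮X.x⟯).injective
  have : IsScalarTower K K⟮X.x⟯ N := IsScalarTower.of_algebraMap_eq fun z => by
    rw [IsScalarTower.algebraMap_apply K⟮X.x⟯ E N, ← IsScalarTower.algebraMap_apply K K⟮X.x⟯ E,
      ← IsScalarTower.algebraMap_apply]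
  -- the lattice is bounded
  have hsm : ∀ (r : X.v.integer) (z : N), r • z = algebraMap E N r * z := fun r z => by
    rw [← Algebra.smul_def]; rfl
  have hB : Bdd (X.v.comap (algebraMap K⟮X.x⟯ E))
      {z : N | ∃ a : E, X.v a ≤ 1 ∧ z = algebraMap E N a} := by
    refine bdd_of_coord (fun i => algebraMap E N (![1, X.y] i)) ?_
    rintro _ ⟨a, ha, rfl⟩
    obtain ⟨c, hc1, rfl⟩ := he a ha
    refine ⟨fun i => ⟨c i, (hc1 i).1⟩, fun i => (hc1 i).2, ?_⟩
    rw [map_sum]
    refine Finset.sum_congr rfl (fun i _ => ?_)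
    rw [map_mul, Algebra.smul_def]
    rfl
  obtain ⟨s, hs⟩ := hL.fg
  have hbdd : Bdd (X.v.comap (algebraMap K⟮X.x⟯ E)) (L : Set N) := by
    refine hB.span (fun i : s => (i : N)) (fun z hz => ?_)
    rw [← hs] at hz
    obtain ⟨c, rfl⟩ := (Submodule.mem_span_finset').1 hz
    exact ⟨fun i => algebraMap E N (c i), fun i => ⟨_, (c i).2, rfl⟩,
      Finset.sum_congr rfl (fun i _ => hsm _ _)⟩
  have hint : ∀ z : N, IsInt K (IntermediateField.AdjoinSimple.gen K X.x) z ↔
      IsIntegral (Algebra.adjoin K {algebraMap E N X.x}) z := fun z => by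
    rw [← isInt_iff]
    unfold IsInt
    rw [ev_gen]
  -- a wild element in `B ∩ L`
  obtain ⟨z, k, hzk, hden, hzB, hzL⟩ : ∃ (z : N) (k : ℤ), X.u z = (k : WithTop ℤ) ∧
      p ∣ ((k : ℚ) / X.n₀).den ∧ IsIntegral (Algebra.adjoin K {algebraMap E N X.x}) z ∧ z ∈ L := by
    obtain ⟨z₀, k₀, h0, hden⟩ := X.wild
    obtain ⟨g, hg0, hgi⟩ := exists_isInt_mul (K := K) (N := N) hg.gen.transcendental
      (adjoin_gen X.x) z₀
    have eg : algebraMap K⟮X.x⟯ N (aeval (IntermediateField.AdjoinSimple.gen K X.x) g) =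
        aeval (algebraMap E N X.x) g := by
      rw [← ev_apply, ev_gen, ev_apply, aeval_algebraMap_apply]
    rw [eg, hint] at hgi
    have hu := X.uh
    rw [map_sub, ← IsScalarTower.algebraMap_apply] at hu
    obtain ⟨m, hm⟩ := u_aeval X.u X.uK X.n₀pos hu hg0
    let ϖ : X.v.integer := ⟨p, X.vp.le⟩
    have hϖ : ¬ IsUnit ϖ := (int_nonunit_iff X.v ϖ).2 X.vp
    obtain ⟨j, hj⟩ := exists_pow_smul_mem (K := E) (arch_of_integers hO) hϖ L hL
      (aeval (algebraMap E N X.x) g * z₀)
    have ej : ϖ ^ j • (aeval (algebraMap E N X.x) g * z₀) =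
        algebraMap K N ((p : K) ^ j) * (aeval (algebraMap E N X.x) g * z₀) := by
      rw [hsm, map_pow, map_natCast]
      congr 1
      change algebraMap E N ((p : E) ^ j) = _
      rw [map_pow, map_natCast]
    refine ⟨_, m * X.n₀ + k₀, ?_, ?_, ?_, hj⟩
    · rw [ej, X.u.map_mul, X.u.map_mul, X.uK _ (pow_ne_zero j hpK), hm, h0, zero_add,
        WithTop.coe_add]
    · have hn : (X.n₀ : ℚ) ≠ 0 := Nat.cast_ne_zero.2 X.n₀pos.ne'
      have : ((m * X.n₀ + k₀ : ℤ) : ℚ) / X.n₀ = (k₀ : ℚ) / X.n₀ + (m : ℕ) := by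
        push_cast; field_simp; ring
      rw [this, Rat.add_natCast_den]
      exact hden
    · rw [ej]
      refine IsIntegral.mul ?_ hgi
      rw [IsScalarTower.algebraMap_apply K (Algebra.adjoin K {algebraMap E N X.x}) N]
      exact isIntegral_algebraMap
  set q : ℚ := (k : ℚ) / X.n₀ with hq
  have hq0 : q ≠ 0 := fun h => by
    rw [h, Rat.den_zero, Nat.dvd_one] at hden
    exact hp.ne_one hden
  set lam : K := -(cK * (q : K) * da) with hlam
  have hlam0 : lam ≠ 0 :=
    neg_ne_zero.2 (mul_ne_zero (mul_ne_zero hc0 (Rat.cast_ne_zero.2 hq0)) hd0)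
  -- the operator
  let T : N → N := fun y => algebraMap K N cK * (t • X.D X.i₀ y)
  have hTL : ∀ y ∈ L, T y ∈ L := fun y hy => by
    have h1 := L.smul_mem (⟨t, (X.v_x_sub_a X.i₀).le⟩ : X.v.integer) (hLs y hy)
    rw [hsm, CoreData.δ_apply, ← hcE, Algebra.smul_def, ← IsScalarTower.algebraMap_apply] at h1
    have e : T y = algebraMap E N t * (algebraMap K N cK * X.D X.i₀ y) := by
      simp only [T, Algebra.smul_def]; ring
    rw [e]; exact h1
  have hTB : ∀ y, IsIntegral (Algebra.adjoin K {algebraMap E N X.x}) y →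
      IsIntegral (Algebra.adjoin K {algebraMap E N X.x}) (T y) := fun y hy => by
    refine IsIntegral.mul ?_ (X.pres₀ X.i₀ t (Or.inl rfl) y hy)
    rw [IsScalarTower.algebraMap_apply K (Algebra.adjoin K {algebraMap E N X.x}) N]
    exact isIntegral_algebraMap
  have hTu : ∀ y, X.u y = (k : WithTop ℤ) →
      (k : WithTop ℤ) < X.u (T y - algebraMap K N lam * y) := fun y hy => by
    have h1 := X.logd y k hy
    have e : T y - algebraMap K N lam * y = algebraMap K N cK *
        (t • X.D X.i₀ y + (q : N) * algebraMap K N da * y) := by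
      simp only [T, hlam, map_neg, map_mul, map_ratCast]; ring
    rw [e, X.u.map_mul, X.uK _ hc0, zero_add]
    exact h1
  have hul : ∀ y, X.u (algebraMap K N lam * y) = X.u y := fun y => by
    rw [X.u.map_mul, X.uK _ hlam0, zero_add]
  have hit : ∀ m : ℕ, T^[m] z ∈ L ∧ IsIntegral (Algebra.adjoin K {algebraMap E N X.x}) (T^[m] z) ∧
      X.u (T^[m] z) = (k : WithTop ℤ) ∧
      (k : WithTop ℤ) < X.u (T^[m] z - algebraMap K N lam ^ m * z) := by
    intro m
    induction m with
    | zero =>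
      refine ⟨hzL, hzB, hzk, ?_⟩
      rw [Function.iterate_zero_apply, pow_zero, one_mul, sub_self, X.u.map_zero]
      exact WithTop.coe_lt_top k
    | succ m ih =>
      obtain ⟨h1, h2, h3, h4⟩ := ih
      rw [Function.iterate_succ_apply']
      have h5 := hTu _ h3
      refine ⟨hTL _ h1, hTB _ h2, ?_, ?_⟩
      · have h6 := X.u.map_add_eq_of_lt_right (x := T (T^[m] z) - algebraMap K N lam * T^[m] z)
          (y := algebraMap K N lam * T^[m] z) (by rw [hul, h3]; exact h5)
        rw [sub_add_cancel, hul, h3] at h6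
        exact h6
      · have e : T (T^[m] z) - algebraMap K N lam ^ (m + 1) * z =
            (T (T^[m] z) - algebraMap K N lam * T^[m] z) +
              algebraMap K N lam * (T^[m] z - algebraMap K N lam ^ m * z) := by ring
        rw [e]
        exact X.u.map_lt_add h5 (by rw [hul]; exact h4)
  have hle : (X.v.comap (algebraMap K E)) lam ≤ 1 := by
    refine eig_le_one (F := K⟮X.x⟯) hg.gen (adjoin_gen X.x) X.u X.uK (a := a) (X.v_a X.i₀)
      X.n₀pos ?_ hbdd hzk lam (fun m => T^[m] z) (fun m => (hit m).1)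
      (fun m => (hint _).2 (hit m).2.1) (fun m => (hit m).2.2.2)
    rw [← X.uh, IsScalarTower.algebraMap_apply K⟮X.x⟯ E N, map_sub,
      IntermediateField.AdjoinSimple.algebraMap_gen, ← IsScalarTower.algebraMap_apply K K⟮X.x⟯ E]
  rw [Valuation.comap_apply] at hle
  -- the numerator is a unit, the denominator is divisible by `p`
  have hnum : X.v ((q.num : ℤ) : E) = 1 := by
    refine val_intCast_eq_one X.v X.vp ?_
    rw [Int.isCoprime_iff_gcd_eq_one]
    exact Nat.Coprime.coprime_dvd_right hden q.reduced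
  have hdenle : X.v ((q.den : ℕ) : E) ≤ X.v (p : E) := by
    obtain ⟨r, hr⟩ := hden
    rw [hr, Nat.cast_mul, map_mul]
    exact mul_le_of_le_one_right' (val_natCast_le X.v r)
  have e : algebraMap C E c * algebraMap K E da * ((q.num : ℤ) : E) =
      -(algebraMap K E lam * ((q.den : ℕ) : E)) := by
    have h1 : ((q.num : ℤ) : E) = (q : E) * ((q.den : ℕ) : E) := by
      rw [← Rat.cast_natCast, ← Rat.cast_mul, Rat.mul_den_eq_num, Rat.cast_intCast]
    rw [h1, hlam, map_neg, map_mul, map_mul, map_ratCast, hcE]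
    ring
  have h2 := congrArg X.v e
  rw [map_mul, map_mul, hnum, mul_one, X.v.map_neg, map_mul] at h2
  rw [h2]
  exact (mul_le_of_le_one_left' hle).trans hdenle

end Crest.Agent.T170.Eig93
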