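import Crest.Agent.T170.Gaga3_13
import Crest.Agent.T170.CoreDefs_20
import Crest.Agent.T170.EllC_61

/-!
# Row 170 (T170): integrality of the reduced operators; `GagaStmt`, `IntStmt` (helper13)
-/

set_option autoImplicit false
open scoped BigOperators NNReal Topology IntermediateField
open Polynomial Filter

namespace Crest.Agent.T170.Gaga13

/-- Cayley–Hamilton for an operator preserving a spanning finitely generated `A`-module -/
theorem exists_monic_of_stable {Fb V : Type*} [Field Fb] [AddCommGroup V] [Module Fb V]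
    (A : Subring Fb) (T : Module.End Fb V) (M : Submodule A V) (hfg : M.FG)
    (hT : ∀ u ∈ M, T u ∈ M) (hsp : Submodule.span Fb (M : Set V) = ⊤) :
    ∃ P : Fb[X], P.Monic ∧ (∀ j, P.coeff j ∈ A) ∧ aeval T P = 0 := by
  have : Module.Finite A M := Module.Finite.iff_fg.2 hfg
  let f : Module.End A M := (T.restrictScalars A).restrict hT
  obtain ⟨q, hq, h0⟩ := LinearMap.exists_monic_and_aeval_eq_zero A f
  have hpow : ∀ (k : ℕ) (u : M), (((f ^ k) u : M) : V) = (T ^ k) (u : V) := by
    intro k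
    induction k with
    | zero => intro u; rfl
    | succ k ih =>
      intro u
      rw [pow_succ, pow_succ, Module.End.mul_apply, Module.End.mul_apply, ih]
      rfl
  refine ⟨q.map A.subtype, hq.map _, fun j => by rw [coeff_map]; exact (q.coeff j).2, ?_⟩
  refine LinearMap.ext_on hsp (fun u hu => ?_)
  have h1 := congrArg (fun g : Module.End A M => ((g ⟨u, hu⟩ : M) : V)) h0
  simp only [aeval_eq_sum_range, LinearMap.sum_apply, LinearMap.smul_apply, Submodule.coe_sum,
    Submodule.coe_smul, hpow, LinearMap.zero_apply, Submodule.coe_zero] at h1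
  rw [aeval_eq_sum_range, hq.natDegree_map, LinearMap.sum_apply, LinearMap.zero_apply, ← h1]
  refine Finset.sum_congr rfl (fun i _ => ?_)
  rw [LinearMap.smul_apply, coeff_map]
  rfl

theorem Gauss.exists_normalise {K F : Type*} [Field K] [Field F] [Algebra K F]
    {v : Valuation K ℝ≥0} {w : Valuation F ℝ≥0} {x : F} (hg : Gauss v w x) {g : K[X]}
    (h0 : g ≠ 0) : ∃ c : K, w (aeval x (C c * g)) = 1 := by
  obtain ⟨i, hi, hmax⟩ := g.support.exists_max_image (fun i => v (g.coeff i))
    (support_nonempty.2 h0)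
  have hne : g.coeff i ≠ 0 := mem_support_iff.1 hi
  have hpos : 0 < v (g.coeff i) := pos_iff_ne_zero.2 ((_root_.map_ne_zero v).2 hne)
  refine ⟨(g.coeff i)⁻¹, le_antisymm (hg.aeval_le _ _ (fun j => ?_)) ?_⟩
  · rw [coeff_C_mul, map_mul, map_inv₀, inv_mul_le_iff₀ hpos, mul_one]
    by_cases hj : j ∈ g.support
    · exact hmax j hj
    · rw [notMem_support_iff.1 hj, map_zero]; exact zero_le
  · have := hg.2.2 (C (g.coeff i)⁻¹ * g) i
    rwa [coeff_C_mul, inv_mul_cancel₀ hne, map_one] at this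

section Tower
variable {K F E N O Fb : Type*} [Field K] [Field F] [Field E] [Field N] [CommRing O] [Field Fb]
  [Algebra K F] [Algebra F E] [Algebra F N] [Algebra E N] [IsScalarTower F E N]
  [Algebra O E] [Module O N] [IsScalarTower O E N]
  [FiniteDimensional F N] [Algebra.IsSeparable F N]

omit [Algebra.IsSeparable F N] in
theorem exists_common_mul {v : Valuation K ℝ≥0} {w : Valuation F ℝ≥0} {x : F} (hg : Gauss v w x)
    (hx : IntermediateField.adjoin K {x} = ⊤) {α : Type*} [Fintype α] (z : α → N) :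
    ∃ g : K[X], w (aeval x g) = 1 ∧ ∀ i, IsInt K x (algebraMap F N (aeval x g) * z i) := by
  classical
  choose g hg0 hgi using fun i => exists_isInt_mul (K := K) hg.transcendental hx (z i)
  obtain ⟨c, hc⟩ := hg.exists_normalise (g := ∏ i, g i) (Finset.prod_ne_zero_iff.2 fun i _ => hg0 i)
  refine ⟨C c * ∏ i, g i, hc, fun i => ?_⟩
  have h := (isInt_aeval (K := K) (N := N) x (C c * ∏ j ∈ Finset.univ.erase i, g j)).mul (hgi i)
  rw [← mul_assoc, ← map_mul, ← map_mul, mul_assoc, Finset.prod_erase_mul _ _ (Finset.mem_univ i)]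
    at h
  exact h

/-- **Integrality** -/
theorem integ {v : Valuation K ℝ≥0} {η : Valuation E ℝ≥0} {x : F}
    (hg : Gauss v (η.comap (algebraMap F E)) x) (hx : IntermediateField.adjoin K {x} = ⊤)
    (hO : η.Integers O) {ι' : Type*} [Fintype ι'] (e : Module.Basis ι' F E)
    (he : ∀ a, η a ≤ 1 → ∀ i, η (algebraMap F E (e.repr a i)) ≤ 1) (he1 : ∀ i, η (e i) ≤ 1)
    (res : O →+* Fb) (A : Subring Fb) [IsNoetherianRing A]
    (hA : ∀ (r : O) (f : K[X]), algebraMap O E r = algebraMap F E (aeval x f) → res r ∈ A)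
    {ι : Type*} [Fintype ι] (b : Module.Basis ι E N) (T : AddMonoid.End N)
    (Tb : Module.End Fb (ι → Fb)) (hred : DM.Red res b T Tb)
    (hT : ∀ z, IsInt K x z → IsInt K x (T z)) :
    ∃ P : Fb[X], P.Monic ∧ (∀ j, P.coeff j ∈ A) ∧ aeval Tb P = 0 := by
  classical
  let S : Set (ι → Fb) := {u | ∃ c : ι → O, IsInt K x (DM.vec b c) ∧ u = fun i => res (c i)}
  have hsm : ∀ (r : O) (z : N), r • z = algebraMap O E r • z := fun r z =>
    (algebraMap_smul E r z).symm
  have hunit : ∀ (r : O), η (algebraMap O E r) = 1 → res r ≠ 0 := fun r hr =>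
    ((hO.isUnit_of_one' hr).map res).ne_zero
  refine exists_monic_of_stable A Tb (Submodule.span A S) ?_ ?_ ?_
  · let β := e.smulTower b
    obtain ⟨g, hg1, hgi⟩ := exists_common_mul (N := N) hg hx (fun ij => β.traceDual ij)
    obtain ⟨gO, hgO⟩ := hO.exists_of_le_one (r := algebraMap F E (aeval x g)) hg1.le
    have hg0 : res gO ≠ 0 := hunit gO (by rw [hgO]; exact hg1)
    choose eO heO using fun i => hO.exists_of_le_one (he1 i)
    let G : ι' × ι → (ι → Fb) := fun ij => Pi.single ij.2 ((res gO)⁻¹ * res (eO ij.1))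
    refine Submodule.FG.of_le (Submodule.fg_span (R := A) (Set.finite_range G)) ?_
    rw [Submodule.span_le]
    rintro _ ⟨c, hc, rfl⟩
    have hcoord : ∀ j, b.repr (DM.vec b c) j = algebraMap O E (c j) := by
      intro j
      rw [DM.vec_apply]
      simp only [hsm]
      rw [b.repr_sum_self]
    choose r hr using fun (ij : ι' × ι) => hO.exists_of_le_one
      (he _ (hO.map_le_one (c ij.2)) ij.1)
    have hrA : ∀ ij, res (gO * r ij) ∈ A := by
      intro ij
      obtain ⟨f, hf⟩ := ((hgi ij).mul hc).trace hg.transcendental hx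
      refine hA _ f ?_
      have h1 := β.traceDual.traceDual_repr_apply (DM.vec b c) ij
      rw [Module.Basis.traceDual_traceDual, Algebra.traceForm_apply, mul_comm,
        Module.Basis.smulTower_repr, hcoord] at h1
      rw [map_mul, hgO, hr, ← map_mul, h1, ← hf, mul_assoc, ← Algebra.smul_def, map_smul,
        smul_eq_mul]
    have hc2 : ∀ j, c j = ∑ i, r (i, j) * eO i := by
      intro j
      apply hO.hom_inj
      rw [map_sum]
      conv_lhs => rw [← e.sum_repr (algebraMap O E (c j))]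
      refine Finset.sum_congr rfl (fun i _ => ?_)
      rw [map_mul, hr, heO, Algebra.smul_def]
    have e1 : (fun j => res (c j)) =
        ∑ ij : ι' × ι, (⟨res (gO * r ij), hrA ij⟩ : A) • G ij := by
      funext j
      rw [Finset.sum_apply, Fintype.sum_prod_type, hc2, map_sum]
      refine Finset.sum_congr rfl (fun i _ => ?_)
      rw [Finset.sum_eq_single j]
      · simp only [G, Pi.smul_apply, Pi.single_eq_same, Subring.smul_def, smul_eq_mul, map_mul]
        field_simp
      · intro j' _ hj'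
        simp only [G, Pi.smul_apply, Pi.single_eq_of_ne hj'.symm, smul_zero]
      · intro h; exact absurd (Finset.mem_univ j) h
    rw [SetLike.mem_coe, e1]
    exact Submodule.sum_mem _ (fun ij _ =>
      Submodule.smul_mem _ _ (Submodule.subset_span ⟨ij, rfl⟩))
  · intro u hu
    induction hu using Submodule.span_induction with
    | mem u hu =>
      obtain ⟨c, hc, rfl⟩ := hu
      obtain ⟨c', h1, h2⟩ := hred c
      exact Submodule.subset_span ⟨c', h1 ▸ hT _ hc, h2.symm⟩
    | zero => rw [map_zero]; exact Submodule.zero_mem _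
    | add u u' _ _ h h' => rw [map_add]; exact Submodule.add_mem _ h h'
    | smul a u _ h =>
      rw [Subring.smul_def, map_smul, ← Subring.smul_def]
      exact Submodule.smul_mem _ _ h
  · obtain ⟨g, hg1, hgi⟩ := exists_common_mul (N := N) hg hx (fun j => b j)
    obtain ⟨gO, hgO⟩ := hO.exists_of_le_one (r := algebraMap F E (aeval x g)) hg1.le
    have hg0 : res gO ≠ 0 := hunit gO (by rw [hgO]; exact hg1)
    rw [eq_top_iff, ← (Pi.basisFun Fb ι).span_eq, Submodule.span_le]
    rintro _ ⟨j, rfl⟩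
    have h1 : (fun i => res ((gO • Pi.single j (1 : O) : ι → O) i)) ∈ S := by
      refine ⟨_, ?_, rfl⟩
      rw [map_smul, DM.vec_single, hsm, hgO, Algebra.smul_def, ← IsScalarTower.algebraMap_apply]
      exact hgi j
    have h2 : Pi.basisFun Fb ι j =
        (res gO)⁻¹ • (fun i => res ((gO • Pi.single j (1 : O) : ι → O) i)) := by
      funext i
      by_cases hi : i = j
      · subst hi; simp [hg0]
      · simp [hi]
    rw [h2]
    exact Submodule.smul_mem _ _ (Submodule.subset_span (Submodule.subset_span h1))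

end Tower

section Core
open Fr WeierstrassCurve

variable {p n : ℕ} [NeZero n] {R C K E N : Type} [CommRing R] [Field C] [Field K]
  [Field E] [Field N] [Algebra C K] [Algebra K E] [Algebra E N] [Algebra C E] [Algebra C N]
  [Algebra K N] [Algebra R C] [Algebra R E] [IsScalarTower R C E] [IsScalarTower C K E]

theorem core_div (X : CoreData p n R C K E N) (z : E) (hz : X.v z ≤ 1) :
    ∃ f g r : K[X], X.v (aeval X.x f) ≤ 1 ∧ X.v (aeval X.x g) ≤ 1 ∧
      X.v (aeval X.x r) = 1 ∧ z = (aeval X.x f + aeval X.x g * X.y) / aeval X.x r := by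
  let _ : Algebra R K := ((algebraMap C K).comp (algebraMap R C)).toAlgebra
  have : IsScalarTower R K E := IsScalarTower.of_algebraMap_eq (fun r => by
    rw [IsScalarTower.algebraMap_apply R C E, IsScalarTower.algebraMap_apply C K E]; rfl)
  have hg : Ell.GaussX X.v K X.x := Ell.gaussX_iff_sup.2 X.gauss
  obtain ⟨f, g, r, hf, hg', -, hr, e⟩ :=
    hg.exists_int_div X.vR (W := X.W) ⟨X.ns.1, hg.transcendental, X.gen⟩ hz
  exact ⟨f, g, r, (hg f 1).2 hf, (hg g 1).2 hg', hr, e⟩

theorem core_indep (X : CoreData p n R C K E N) {f g : K[X]}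
    (h : aeval X.x f + aeval X.x g * X.y = 0) : f = 0 ∧ g = 0 := by
  let _ : Algebra R K := ((algebraMap C K).comp (algebraMap R C)).toAlgebra
  have : IsScalarTower R K E := IsScalarTower.of_algebraMap_eq (fun r => by
    rw [IsScalarTower.algebraMap_apply R C E, IsScalarTower.algebraMap_apply C K E]; rfl)
  have hg : Ell.GaussX X.v K X.x := Ell.gaussX_iff_sup.2 X.gauss
  exact Ell.IsGen.basis_eq_zero (W := X.W) ⟨X.ns.1, hg.transcendental, X.gen⟩ h

omit [IsScalarTower C K E] in
theorem core_vy (X : CoreData p n R C K E N) : X.v X.y ≤ 1 :=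
  Ell.val_y_le_one X.vR X.ns.1 (core_gauss X).2.1.le

/-- the basis `1, y` of `E` over `K(x)` -/
theorem core_basis [CharZero C] (hp : p ≠ 0) (X : CoreData p n R C K E N) :
    ∃ e : Module.Basis (Fin 2) K⟮X.x⟯ E, (∀ i, e i = ![1, X.y] i) ∧
      ∀ a, X.v a ≤ 1 → ∀ i, X.v (algebraMap K⟮X.x⟯ E (e.repr a i)) ≤ 1 := by
  have : CharZero K := charZero_of_injective_algebraMap (algebraMap C K).injective
  have : CharZero E := charZero_of_injective_algebraMap (algebraMap C E).injective
  have ht := (core_gauss X).transcendental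
  have hli : LinearIndependent K⟮X.x⟯ ![1, X.y] := by
    rw [LinearIndependent.pair_iff]
    rintro ⟨a, ha⟩ ⟨b, hb⟩ h
    obtain ⟨f, r, rfl⟩ := (IntermediateField.mem_adjoin_simple_iff K _).1 ha
    obtain ⟨g, s, rfl⟩ := (IntermediateField.mem_adjoin_simple_iff K _).1 hb
    have h' : aeval X.x f / aeval X.x r * 1 + aeval X.x g / aeval X.x s * X.y = 0 := h
    have hinj := transcendental_iff_injective.1 ht
    by_cases hr : aeval X.x r = 0
    · have h2 : aeval X.x g / aeval X.x s = 0 := by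
        by_cases hs : aeval X.x s = 0
        · rw [hs, div_zero]
        · rw [hr, div_zero, zero_mul, zero_add, div_mul_eq_mul_div, div_eq_zero_iff] at h'
          have := core_indep X (f := 0) (g := g) (by rw [map_zero, zero_add]; exact h'.resolve_right hs)
          rw [this.2, map_zero, zero_div]
      exact ⟨Subtype.ext (by simp [hr]), Subtype.ext h2⟩
    · by_cases hs : aeval X.x s = 0
      · rw [hs, div_zero, zero_mul, add_zero, mul_one] at h'
        exact ⟨Subtype.ext h', Subtype.ext (by simp [hs])⟩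
      · have := core_indep X (f := f * s) (g := g * r) (by
          rw [map_mul, map_mul]
          field_simp at h'
          linear_combination h')
        have hs0 : s ≠ 0 := fun h => hs (by rw [h, map_zero])
        have hr0 : r ≠ 0 := fun h => hr (by rw [h, map_zero])
        have hf : f = 0 := (mul_eq_zero.1 this.1).resolve_right hs0
        have hg : g = 0 := (mul_eq_zero.1 this.2).resolve_right hr0
        exact ⟨Subtype.ext (by simp [hf]), Subtype.ext (by simp [hg])⟩
  have hrep : ∀ a, X.v a ≤ 1 → ∃ c : Fin 2 → K⟮X.x⟯, (∀ i, X.v (c i : E) ≤ 1) ∧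
      a = ∑ i, c i • ![1, X.y] i := by
    intro a ha
    obtain ⟨c, hc, e⟩ := span_of_div (core_div X) a ha
    exact ⟨fun i => ⟨c i, (hc i).1⟩, fun i => (hc i).2, e⟩
  have hsp : ⊤ ≤ Submodule.span K⟮X.x⟯ (Set.range ![1, X.y]) := by
    intro z _
    obtain ⟨j, hj⟩ := exists_pow_mul_le X.v X.vp z
    obtain ⟨c, -, hz⟩ := hrep _ hj
    have hp' : ((p : E)) ^ j ≠ 0 := pow_ne_zero _ (Nat.cast_ne_zero.2 hp)
    have e1 : z = (((p : K⟮X.x⟯)) ^ j)⁻¹ • ∑ i, c i • ![1, X.y] i := by
      rw [← hz, Algebra.smul_def, map_inv₀, map_pow, map_natCast, inv_mul_cancel_left₀ hp']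
    rw [e1]
    exact Submodule.smul_mem _ _ (Submodule.sum_mem _ (fun i _ =>
      Submodule.smul_mem _ _ (Submodule.subset_span ⟨i, rfl⟩)))
  refine ⟨Module.Basis.mk hli hsp, fun i => Module.Basis.mk_apply _ _ i, fun a ha i => ?_⟩
  obtain ⟨c, hc, e⟩ := hrep a ha
  have : (Module.Basis.mk hli hsp).repr a i = c i := by
    have e2 : a = ∑ i, c i • Module.Basis.mk hli hsp i := by
      rw [e]
      exact Finset.sum_congr rfl (fun i _ => by rw [Module.Basis.mk_apply])
    rw [e2, Module.Basis.repr_sum_self]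
  rw [this]
  exact hc i

end Core

/-- **GAGA** for the core -/
theorem gagaStmt {p : ℕ} (hp : p.Prime) : Fr.GagaStmt p := by
  intro n _ R C K E N _ _ _ _ _ _ _ _ _ _ _ _ _ _ _ _ _ _ _ _ _ _ X ι _ b ϖ h0 hu
  have h := core_gaga hp.ne_zero X (core_div X) (Valuation.integer.integers X.v)
    (DM.lat X.v.integer b) (DM.isLattice_lat b) ϖ h0 hu
  rw [← map_inv₀] at h
  exact h

/-- the residue field of `K` inside `F` -/
def resK {K E F : Type*} [Field K] [Field E] [Field F] [Algebra K E] {η : Valuation E ℝ≥0}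
    (res : η.integer →+* F) (hker : ∀ a, res a = 0 ↔ ¬ IsUnit a) : Subfield F where
  carrier := res '' {a | (a : E) ∈ Set.range (algebraMap K E)}
  mul_mem' := by
    rintro _ _ ⟨a, ⟨c, hc⟩, rfl⟩ ⟨b, ⟨d, hd⟩, rfl⟩
    exact ⟨a * b, ⟨c * d, by rw [map_mul, hc, hd]; rfl⟩, map_mul _ _ _⟩
  one_mem' := ⟨1, ⟨1, by rw [map_one]; rfl⟩, map_one _⟩
  add_mem' := by
    rintro _ _ ⟨a, ⟨c, hc⟩, rfl⟩ ⟨b, ⟨d, hd⟩, rfl⟩
    exact ⟨a + b, ⟨c + d, by rw [map_add, hc, hd]; rfl⟩, map_add _ _ _⟩
  zero_mem' := ⟨0, ⟨0, by rw [map_zero]; rfl⟩, map_zero _⟩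
  neg_mem' := by
    rintro _ ⟨a, ⟨c, hc⟩, rfl⟩
    exact ⟨-a, ⟨-c, by rw [map_neg, hc]; rfl⟩, map_neg _ _⟩
  inv_mem' := by
    rintro _ ⟨a, ⟨c, hc⟩, rfl⟩
    by_cases h : res a = 0
    · rw [h, inv_zero]
      exact ⟨0, ⟨0, by rw [map_zero]; rfl⟩, map_zero _⟩
    · obtain ⟨u, rfl⟩ := not_not.1 (mt (hker a).2 h)
      refine ⟨(u⁻¹ : η.integerˣ), ⟨c⁻¹, ?_⟩, ?_⟩
      · rw [map_inv₀, hc]
        refine inv_eq_of_mul_eq_one_right ?_
        exact congrArg Subtype.val u.mul_inv
      · exact (inv_eq_of_mul_eq_one_right (by rw [← map_mul, u.mul_inv, map_one])).symm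

/-- **Integrality** for the core -/
theorem intStmt {p : ℕ} (hp : p.Prime) : Fr.IntStmt p := by
  intro n _ R C K E N _ _ _ _ _ _ _ _ _ _ _ _ _ _ _ _ _ _ _ _ _ _ X F ι _ _ res _ hker b t ht T Tb
    hred hT
  have : CharZero K := charZero_of_injective_algebraMap (algebraMap C K).injective
  have : CharZero K⟮X.x⟯ := charZero_of_injective_algebraMap (algebraMap K K⟮X.x⟯).injective
  obtain ⟨e, he1, he⟩ := core_basis hp.ne_zero X
  have : FiniteDimensional K⟮X.x⟯ E := Module.Finite.of_basis e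
  have : FiniteDimensional K⟮X.x⟯ N := Module.Finite.trans E N
  have hgx := (core_gauss X).gen
  obtain ⟨t', ht', hg, hx⟩ : ∃ t' : K⟮X.x⟯, algebraMap K⟮X.x⟯ E t' = t ∧
      Gauss (X.v.comap (algebraMap K E)) (X.v.comap (algebraMap K⟮X.x⟯ E)) t' ∧
      IntermediateField.adjoin K {t'} = ⊤ := by
    rcases ht with rfl | rfl
    · exact ⟨_, rfl, hgx, adjoin_gen _⟩
    · exact ⟨_, by rw [map_inv₀]; rfl, hgx.inv, adjoin_inv (adjoin_gen _)⟩
  have hvt : X.v t ≤ 1 := by rw [← ht']; exact hg.2.1.le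
  let tO : X.v.integer := ⟨t, hvt⟩
  let κ := resK (K := K) res hker
  let A : Subalgebra κ F := Algebra.adjoin κ {res tO}
  have hN : IsNoetherianRing A := by
    have : Algebra.FiniteType κ A :=
      (Subalgebra.fg_iff_finiteType _).1 ⟨{res tO}, by rw [Finset.coe_singleton]⟩
    exact Algebra.FiniteType.isNoetherianRing κ A
  have : IsNoetherianRing A.toSubring := hN
  have hint : ∀ z : N, IsInt K t' z ↔ z ∈ Fr.CoreData.Bt K N t := by
    intro z
    rw [isInt_iff, IsScalarTower.algebraMap_apply K⟮X.x⟯ E N, ht']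
    rfl
  obtain ⟨P, h1, h2, h3⟩ := integ (N := N) hg hx (Valuation.integer.integers X.v) e he (fun i => by
      rw [he1]
      fin_cases i
      · simp
      · exact core_vy X) res A.toSubring (by
      intro r f hr
      have hc : ∀ i, X.v (algebraMap K E (f.coeff i)) ≤ 1 := fun i =>
        (hg.2.2 f i).trans (by
          rw [Valuation.comap_apply, ← hr]; exact r.2)
      have e1 : r = ∑ i ∈ Finset.range (f.natDegree + 1),
          (⟨algebraMap K E (f.coeff i), hc i⟩ : X.v.integer) * tO ^ i := by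
        apply Subtype.ext
        have hr' : (r : E) = algebraMap K⟮X.x⟯ E (aeval t' f) := hr
        rw [hr', ← aeval_algebraMap_apply, ht', aeval_eq_sum_range]
        push_cast
        exact Finset.sum_congr rfl (fun i _ => Algebra.smul_def _ _)
      rw [e1, map_sum]
      refine A.sum_mem (fun i _ => ?_)
      rw [map_mul, map_pow]
      refine A.mul_mem ?_ (A.pow_mem (Algebra.subset_adjoin rfl) i)
      exact A.algebraMap_mem (⟨_, ⟨_, ⟨f.coeff i, rfl⟩, rfl⟩⟩ : κ))
    b T Tb hred (fun z hz => (hint _).2 (hT ((hint z).1 hz)))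
  refine ⟨P, h1, fun j => ?_, h3⟩
  have hle : A.toSubring ≤ X.kt res t := by
    rw [Algebra.adjoin_eq_ring_closure, Subring.closure_le]
    rintro _ (⟨⟨_, a, ha, rfl⟩, rfl⟩ | rfl)
    · exact Subring.subset_closure ⟨a, Or.inl ha, rfl⟩
    · exact Subring.subset_closure ⟨tO, Or.inr rfl, rfl⟩
  exact hle (h2 j)

end Crest.Agent.T170.Gaga13
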