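import Crest.Agent.T170.CoreDefs_20
import Crest.Agent.T170.BadB_10

/-!
# Row 170, task K4 (helper28): `RotStmt` and the rotation of `Theta`
-/

set_option autoImplicit false

namespace Crest.Agent.T170.Fr

open Module Crest.Agent.T170.DM

/-- the reduction of a semilinear additive map that preserves the lattice -/
theorem exists_semired {O E N F ι : Type} [CommRing O] [Field E] [Algebra O E]
    [IsFractionRing O E] [AddCommGroup N] [Module E N] [Module O N] [IsScalarTower O E N] [Field F]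
    [Fintype ι] (res : O →+* F) (τ : O →+* O) (τb : F →+* F) (hτ : ∀ a, res (τ a) = τb (res a))
    (b : Basis ι E N) (γ : N →+ N) (hγ : ∀ (a : O) z, γ (a • z) = τ a • γ z)
    (hL : ∀ z, z ∈ lat O b → γ z ∈ lat O b) :
    ∃ S : (ι → F) →+ (ι → F), (∀ (a : F) u, S (a • u) = τb a • S u) ∧
      ∀ c c' : ι → O, γ (vec b c) = vec b c' →
        S (fun i => res (c i)) = fun i => res (c' i) := by
  obtain ⟨M, hM⟩ := exists_isMat (R := O) (b := b) (T := γ) hL
  have key : ∀ c : ι → O, γ (vec b c) = vec b (M.mulVec fun i => τ (c i)) := by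
    intro c
    have hM' : ∀ j, γ (b j) = ∑ i, M i j • b i := hM
    rw [vec_apply, vec_apply, map_sum]
    simp only [hγ, hM', Finset.smul_sum, Matrix.mulVec, dotProduct, Finset.sum_smul]
    rw [Finset.sum_comm]
    refine Finset.sum_congr rfl fun j _ => Finset.sum_congr rfl fun i _ => ?_
    rw [mul_comm, mul_smul]
  refine ⟨{ toFun := fun u => (M.map res).mulVec fun i => τb (u i)
            map_zero' := by ext i; simp [Matrix.mulVec, dotProduct]
            map_add' := fun u v => by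
              ext i; simp [Matrix.mulVec, dotProduct, mul_add, Finset.sum_add_distrib] },
    fun a u => ?_, fun c c' h => ?_⟩
  · ext i
    simp only [AddMonoidHom.coe_mk, ZeroHom.coe_mk, Matrix.mulVec, dotProduct, Pi.smul_apply,
      smul_eq_mul, map_mul, Finset.mul_sum]
    exact Finset.sum_congr rfl fun j _ => by ring
  · have : c' = M.mulVec fun i => τ (c i) := vec_injective (K := E) b (by rw [← h, key])
    subst this
    ext i
    simp [Matrix.mulVec, dotProduct, hτ]

theorem rotStmt : RotStmt := by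
  intro O E N F ι n _ _ _ _ _ _ _ _ _ _ _ _ res hres τ τb hτ b γ hγ hL δ δb hδ hrot
  have lift : ∀ u : ι → F, ∃ c : ι → O, (fun i => res (c i)) = u := fun u =>
    ⟨fun i => (hres (u i)).choose, funext fun i => (hres (u i)).choose_spec⟩
  obtain ⟨S, hS, hS'⟩ := exists_semired res (τ : O →+* O) (τb : F →+* F) hτ b
    (γ : N →+ N) hγ fun z hz => (hL z).2 hz
  obtain ⟨T, -, hT'⟩ := exists_semired res (τ.symm : O →+* O) (τb.symm : F →+* F)
    (fun a => by
      apply τb.injective
      simp [← hτ]) b (γ.symm : N →+ N)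
    (fun a z => by
      apply γ.injective
      simp [hγ])
    fun z hz => (hL _).1 (by simpa using hz)
  refine ⟨{ toFun := S, invFun := T, left_inv := fun u => ?_, right_inv := fun u => ?_
            map_add' := S.map_add }, hS, fun i u => ?_⟩
  · obtain ⟨c, rfl⟩ := lift u
    obtain ⟨c', hc'⟩ := mem_lat.1 ((hL _).2 (vec_mem_lat b c))
    rw [hS' c c' hc'.symm]
    exact hT' c' c (by rw [hc']; simp)
  · obtain ⟨c, rfl⟩ := lift u
    obtain ⟨c', hc'⟩ := mem_lat.1 ((hL (γ.symm (vec b c))).1 (by simpa using vec_mem_lat b c))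
    rw [hT' c c' hc'.symm]
    exact hS' c' c (by rw [hc']; simp)
  · obtain ⟨c, rfl⟩ := lift u
    obtain ⟨c₁, h₁, h₁'⟩ := hδ i c
    obtain ⟨c₂, h₂⟩ := mem_lat.1 ((hL _).2 (vec_mem_lat b c₁))
    obtain ⟨c₃, h₃⟩ := mem_lat.1 ((hL _).2 (vec_mem_lat b c))
    obtain ⟨c₄, h₄, h₄'⟩ := hδ (i + 1) c₃
    have e : c₂ = c₄ := vec_injective (K := E) b (by rw [h₂, ← h₄, h₃, ← hrot, h₁])
    change S (δb i _) = δb (i + 1) (S _)
    rw [← h₁', hS' c₁ c₂ h₂.symm, hS' c c₃ h₃.symm, ← h₄', e]

/-- `Theta` is stable under the rotation `θ ↦ (g (θ (i - 1)))_i`. -/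
theorem theta_rot {n : ℕ} [NeZero n] {F Ψ V : Type*} [Field F] [Field Ψ] [Algebra F Ψ]
    [AddCommGroup V] [Module F V] (τb : F ≃+* F) (g : Ψ →+* Ψ)
    (hg : ∀ f, g (algebraMap F Ψ f) = algebraMap F Ψ (τb f))
    {δb : Fin n → Module.End F V} (hc : ∀ i j, δb i * δb j = δb j * δb i)
    (S : V ≃+ V) (hS : ∀ (a : F) u, S (a • u) = τb a • S u)
    (hrot : ∀ i u, S (δb i u) = δb (i + 1) (S u)) {θ : Fin n → Ψ}
    (hθ : θ ∈ Bad.Theta F Ψ δb) : (fun i => g (θ (i - 1))) ∈ Bad.Theta F Ψ δb := by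
  rw [Bad.mem_Theta hc] at hθ ⊢
  let ρ : MvPolynomial (Fin n) F →+* MvPolynomial (Fin n) F :=
    (MvPolynomial.rename fun i : Fin n => i - 1).toRingHom.comp
      (MvPolynomial.map (τb.symm : F →+* F))
  have ρC : ∀ a, ρ (MvPolynomial.C a) = MvPolynomial.C (τb.symm a) := fun a => by simp [ρ]
  have ρX : ∀ i, ρ (MvPolynomial.X i) = MvPolynomial.X (i - 1) := fun i => by simp [ρ]
  have h1 : ∀ G u, S (Bad.ev F δb hc (ρ G) u) = Bad.ev F δb hc G (S u) := by
    intro G
    induction G using MvPolynomial.induction_on with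
    | C a =>
      intro u
      rw [ρC, MvPolynomial.algHom_C, MvPolynomial.algHom_C, Module.algebraMap_end_apply,
        Module.algebraMap_end_apply, hS, RingEquiv.apply_symm_apply]
    | add G G' ih ih' =>
      intro u
      rw [map_add, map_add, map_add, LinearMap.add_apply, LinearMap.add_apply, map_add, ih, ih']
    | mul_X G i ih =>
      intro u
      rw [map_mul, map_mul, map_mul, ρX, Bad.ev_X, Bad.ev_X, Module.End.mul_apply,
        Module.End.mul_apply, ih, hrot, sub_add_cancel]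
  have h2 : ∀ G, MvPolynomial.aeval (fun i => g (θ (i - 1))) G =
      g (MvPolynomial.aeval θ (ρ G)) := by
    intro G
    induction G using MvPolynomial.induction_on with
    | C a =>
      rw [ρC, MvPolynomial.algHom_C, MvPolynomial.algHom_C, hg, RingEquiv.apply_symm_apply]
    | add G G' ih ih' => rw [map_add, map_add, map_add, map_add, ih, ih']
    | mul_X G i ih =>
      rw [map_mul, map_mul, map_mul, map_mul, ρX, MvPolynomial.aeval_X, MvPolynomial.aeval_X, ih]
  intro G hG
  have : Bad.ev F δb hc (ρ G) = 0 := by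
    ext u
    apply S.injective
    rw [h1, hG]
    simp
  rw [h2, hθ _ this, map_zero]

/-- the same for a ring automorphism `g` -/
theorem theta_rot' {n : ℕ} [NeZero n] {F Ψ V : Type*} [Field F] [Field Ψ] [Algebra F Ψ]
    [AddCommGroup V] [Module F V] (τb : F ≃+* F) (g : Ψ ≃+* Ψ)
    (hg : ∀ f, g (algebraMap F Ψ f) = algebraMap F Ψ (τb f))
    {δb : Fin n → Module.End F V} (hc : ∀ i j, δb i * δb j = δb j * δb i)
    (S : V ≃+ V) (hS : ∀ (a : F) u, S (a • u) = τb a • S u)
    (hrot : ∀ i u, S (δb i u) = δb (i + 1) (S u)) {θ : Fin n → Ψ}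
    (hθ : θ ∈ Bad.Theta F Ψ δb) : (fun i => g (θ (i - 1))) ∈ Bad.Theta F Ψ δb :=
  theta_rot τb (g : Ψ →+* Ψ) hg hc S hS hrot hθ

end Crest.Agent.T170.Fr
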