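import Crest.Agent.T170.DMStm_38

/-!
Row 170, differential modules: the optimal scalar (`SlopeStmt`).
-/

set_option autoImplicit false

namespace Crest.Agent.T170.DM

open Module Polynomial
open scoped NNReal

namespace Slope85

theorem charpoly_smul_coeff {K V : Type*} [Field K] [AddCommGroup V] [Module K V]
    [FiniteDimensional K V] (T : Module.End K V) (a : K) {k : ℕ} (hk : k ≤ finrank K V) :
    (a • T).charpoly.coeff (finrank K V - k) = a ^ k * T.charpoly.coeff (finrank K V - k) := by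
  classical
  let b := Module.finBasis K V
  rw [← LinearMap.charpoly_toMatrix _ b, ← LinearMap.charpoly_toMatrix _ b, map_smul]
  have hc : Fintype.card (Fin (finrank K V)) = finrank K V := Fintype.card_fin _
  have h1 := Matrix.charpoly_coeff_eq_sum_minors (a • LinearMap.toMatrix b b T) k (by rwa [hc])
  have h2 := Matrix.charpoly_coeff_eq_sum_minors (LinearMap.toMatrix b b T) k (by rwa [hc])
  rw [hc] at h1 h2
  rw [h1, h2, mul_left_comm, Finset.mul_sum _ _ (a ^ k)]
  congr 1
  refine Finset.sum_congr rfl fun s hs => ?_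
  have hs' : s.card = k := (Finset.mem_powersetCard.1 hs).2
  rw [Matrix.submatrix_smul]
  simp only [Pi.smul_apply]
  rw [Matrix.det_smul, Fintype.card_coe, hs']

section Lin

variable {R K : Type*} [CommRing R] [IsDomain R] [Field K] [Algebra R K] [IsFractionRing R K]
variable {V : Type*} [AddCommGroup V] [Module K V] [Module R V] [IsScalarTower R K V]
variable {ι : Type*} [Fintype ι] [DecidableEq ι]

omit [IsDomain R] [IsFractionRing R K] in
theorem map_rsmul (T : Module.End K V) (r : R) (x : V) : T (r • x) = r • T x := by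
  rw [← algebraMap_smul K r x, map_smul, algebraMap_smul]

omit [IsDomain R] [IsFractionRing R K] in
/-- the matrix of a linear map preserving a lattice -/
theorem exists_mat [FiniteDimensional K V] (b : Basis ι K V) (T : Module.End K V)
    (hT : ∀ j, T (b j) ∈ lat R b) :
    ∃ A : Matrix ι ι R, T.charpoly = A.charpoly.map (algebraMap R K) ∧
      ∀ c : ι → R, T (vec b c) = vec b (A.mulVec c) := by
  have : ∀ j, ∃ c : ι → R, vec b c = T (b j) := fun j => mem_lat.1 (hT j)
  choose c hc using this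
  refine ⟨Matrix.of fun i j => c j i, ?_, fun x => ?_⟩
  · rw [← Matrix.charpoly_map, ← LinearMap.charpoly_toMatrix _ b]
    congr 1
    ext i j
    rw [LinearMap.toMatrix_apply, ← hc j, vec_apply]
    simp only [← algebraMap_smul K (c j _), map_sum, map_smul, Basis.repr_self]
    simp [Finsupp.single_apply, Algebra.algebraMap_eq_smul_one]
  · rw [vec_apply, vec_apply, map_sum]
    simp only [map_rsmul, ← hc, vec_apply, Finset.smul_sum, Matrix.mulVec, dotProduct,
      Finset.sum_smul]
    rw [Finset.sum_comm]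
    refine Finset.sum_congr rfl fun j _ => Finset.sum_congr rfl fun i _ => ?_
    rw [mul_comm, mul_smul]; rfl

omit [IsDomain R] in
/-- a linear map with a power in `π End L` has a characteristic polynomial `X ^ h` modulo the
maximal ideal -/
theorem nonunit_coeff [IsLocalRing R] [FiniteDimensional K V] (b : Basis ι K V)
    (T : Module.End K V) (hT : ∀ j, T (b j) ∈ lat R b) {π : R} (hπ : ¬ IsUnit π) {m : ℕ}
    (hm : ∀ j, (T ^ m) (b j) ∈ pw π (lat R b) 1) {k : ℕ} (hk : k < finrank K V) :
    ∃ r : R, ¬ IsUnit r ∧ algebraMap R K r = T.charpoly.coeff k := by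
  obtain ⟨A, hA, hv⟩ := exists_mat b T hT
  refine ⟨A.charpoly.coeff k, ?_, by rw [hA, coeff_map]⟩
  have hpow : ∀ (l : ℕ) (c : ι → R), (T ^ l) (vec b c) = vec b ((A ^ l).mulVec c) := by
    intro l
    induction l with
    | zero => intro c; simp
    | succ l ih =>
      intro c
      rw [pow_succ', pow_succ', Module.End.mul_apply, ih, hv, Matrix.mulVec_mulVec]
  let φ := IsLocalRing.residue R
  have hφ : φ π = 0 := (IsLocalRing.residue_eq_zero_iff _).2 hπ
  have hnil : IsNilpotent (A.map φ) := by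
    refine ⟨m, ?_⟩
    have : (A.map φ) ^ m = (A ^ m).map φ := by
      simpa using (map_pow φ.mapMatrix A m).symm
    rw [this]
    ext i j
    obtain ⟨c', hc'⟩ := mem_pw_lat.1 (hm j)
    rw [← vec_single (R := R) b j, hpow] at hc'
    have := congrFun (vec_injective b hc') i
    simp only [Matrix.mulVec_single_one, Pi.smul_apply, smul_eq_mul, pow_one] at this
    have e : (A ^ m) i j = π * c' i := this.symm
    simp [Matrix.map_apply, e, hφ]
  have h0 := (Matrix.isNilpotent_charpoly_sub_pow_of_isNilpotent hnil).eq_zero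
  rw [sub_eq_zero, Matrix.charpoly_map] at h0
  have h1 := congrArg (fun p => Polynomial.coeff p k) h0
  have hc : Fintype.card ι = finrank K V := (finrank_eq_card_basis b).symm
  simp only [coeff_map, coeff_X_pow, hc, if_neg hk.ne] at h1
  exact (IsLocalRing.residue_eq_zero_iff _).1 h1

/-- the lattice generated by the iterates -/
def iter (R : Type*) [CommRing R] [Module R V] (b : ι → V) (T : Module.End K V) (h : ℕ) :
    Submodule R V :=
  lat R fun q : Fin (h + 1) × ι => (T ^ (q.1 : ℕ)) (b q.2)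

omit [IsDomain R] [IsFractionRing R K] [DecidableEq ι] [Fintype ι] [Algebra R K]
  [IsScalarTower R K V] in
theorem gen_mem_iter (b : ι → V) (T : Module.End K V) {h j : ℕ} (hj : j ≤ h) (k : ι) :
    (T ^ j) (b k) ∈ iter R b T h :=
  self_mem_lat (R := R) (fun q : Fin (h + 1) × ι => (T ^ (q.1 : ℕ)) (b q.2))
    (⟨j, Nat.lt_succ_of_le hj⟩, k)

omit [IsDomain R] [IsFractionRing R K] [DecidableEq ι] [Fintype ι] [Algebra R K]
  [IsScalarTower R K V] in
theorem le_iter (b : ι → V) (T : Module.End K V) (h : ℕ) : lat R b ≤ iter R b T h := by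
  refine Submodule.span_le.2 ?_
  rintro _ ⟨k, rfl⟩
  simpa using gen_mem_iter (R := R) b T (Nat.zero_le h) k

omit [IsDomain R] [IsFractionRing R K] [DecidableEq ι] [Fintype ι] in
theorem map_mem_of_gen {κ : Type*} (f : κ → V) (T : Module.End K V) (L : Submodule R V)
    (h : ∀ q, T (f q) ∈ L) : ∀ x ∈ lat R f, T x ∈ L := by
  intro x hx
  induction hx using Submodule.span_induction with
  | mem x hx => obtain ⟨q, rfl⟩ := hx; exact h q
  | zero => rw [map_zero]; exact L.zero_mem
  | add x y _ _ hx hy => rw [map_add]; exact L.add_mem hx hy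
  | smul a x _ hx => rw [map_rsmul]; exact L.smul_mem _ hx

omit [IsDomain R] [IsFractionRing R K] [DecidableEq ι] [Fintype ι] in
theorem iter_stab [FiniteDimensional K V] (b : ι → V) (T : Module.End K V)
    (hT : ∀ k, k < finrank K V → ∃ r : R, algebraMap R K r = T.charpoly.coeff k) :
    ∀ x ∈ iter R b T (finrank K V), T x ∈ iter R b T (finrank K V) := by
  refine map_mem_of_gen _ T _ ?_
  rintro ⟨j, k⟩
  have e : ∀ l : ℕ, T ((T ^ l) (b k)) = (T ^ (l + 1)) (b k) := fun l => by
    rw [pow_succ', Module.End.mul_apply]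
  rcases Nat.lt_succ_iff_lt_or_eq.1 j.2 with hj | hj
  · simp only [e]; exact gen_mem_iter b T hj k
  · have h0 := T.aeval_self_charpoly
    rw [aeval_eq_sum_range, T.charpoly_natDegree, Finset.sum_range_succ] at h0
    have hl : T.charpoly.coeff (finrank K V) = 1 := by
      rw [← T.charpoly_natDegree]; exact T.charpoly_monic
    rw [hl, one_smul, add_comm, add_eq_zero_iff_eq_neg] at h0
    simp only [hj, h0, LinearMap.neg_apply, LinearMap.sum_apply, map_neg, map_sum,
      LinearMap.smul_apply, map_smul, e]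
    refine Submodule.neg_mem _ (Submodule.sum_mem _ fun l hl => ?_)
    have hl' := Finset.mem_range.1 hl
    obtain ⟨r, hr⟩ := hT l hl'
    rw [← hr, algebraMap_smul]
    exact Submodule.smul_mem _ _ (gen_mem_iter b T hl' k)

omit [IsDomain R] [IsFractionRing R K] [DecidableEq ι] [Fintype ι] in
theorem smul_iter (b : ι → V) (T : Module.End K V) (a : R) (h : ℕ)
    (hT : ∀ x ∈ lat R b, a • T x ∈ lat R b) : ∀ x ∈ iter R b T h, a ^ h • x ∈ lat R b := by
  have key : ∀ (j : ℕ) (k : ι), a ^ j • (T ^ j) (b k) ∈ lat R b := by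
    intro j k
    induction j with
    | zero => simpa using self_mem_lat (R := R) b k
    | succ j ih =>
      have := hT _ ih
      rw [map_rsmul, smul_smul, ← pow_succ'] at this
      rwa [pow_succ' T, Module.End.mul_apply]
  intro x hx
  have := map_mem_of_gen (R := R) (fun q : Fin (h + 1) × ι => (T ^ (q.1 : ℕ)) (b q.2))
    (algebraMap R K a ^ h • (1 : Module.End K V)) (lat R b) ?_ x hx
  · rwa [LinearMap.smul_apply, Module.End.one_apply, ← map_pow, algebraMap_smul] at this
  · rintro ⟨j, k⟩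
    obtain ⟨l, hl⟩ := Nat.exists_eq_add_of_le' (Nat.lt_succ_iff.1 j.2)
    rw [LinearMap.smul_apply, Module.End.one_apply, ← map_pow, algebraMap_smul]
    have : a ^ h • (T ^ (j : ℕ)) (b k) = a ^ l • a ^ (j : ℕ) • (T ^ (j : ℕ)) (b k) := by
      rw [smul_smul, ← pow_add, ← hl]
    change a ^ h • (T ^ (j : ℕ)) (b k) ∈ lat R b
    rw [this]
    exact Submodule.smul_mem _ _ (key j k)

omit [IsDomain R] [IsFractionRing R K] [DecidableEq ι] [Fintype ι] in
/-- iterates of an operator which is congruent to a linear map -/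
theorem pow_sub_pow {L : Submodule R V} {π : R} (δ : AddMonoid.End V) (T : Module.End K V)
    (hT : ∀ x ∈ L, T x ∈ L) (h : ∀ x ∈ L, δ x - T x ∈ pw π L 1) (k : ℕ) :
    ∀ x ∈ L, (δ ^ k) x ∈ L ∧ (δ ^ k) x - (T ^ k) x ∈ pw π L 1 := by
  have hδ : ∀ x ∈ L, δ x ∈ L := fun x hx => by
    have := L.add_mem (pw_le π L 1 (h x hx)) (hT x hx)
    rwa [sub_add_cancel] at this
  intro x hx
  induction k with
  | zero => exact ⟨hx, by simp [End_one_apply]⟩
  | succ k ih =>
    rw [End_pow_succ_apply, pow_succ' T, Module.End.mul_apply]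
    refine ⟨hδ _ ih.1, ?_⟩
    obtain ⟨w, hw, e⟩ := mem_pw.1 ih.2
    have : δ ((δ ^ k) x) - T ((T ^ k) x) =
        (δ ((δ ^ k) x) - T ((δ ^ k) x)) + π ^ 1 • T w := by
      rw [← map_rsmul, e, map_sub]; abel
    rw [this]
    exact Submodule.add_mem _ (h _ ih.1) (smul_mem_pw 1 (hT w hw))

end Lin

section Val

variable {K : Type*} [Field K] (v : Valuation K ℝ≥0)
variable {V : Type*} [AddCommGroup V] [Module K V]

/-- a connection differs from its linear part by an operator preserving the lattice -/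
theorem sub_lin_mem {ι : Type*} {D : AddMonoid.End V} (hD : VConn v D) (b : Basis ι K V) :
    ∀ x ∈ lat v.integer b, D x - b.constr K (fun j => D (b j)) x ∈ lat v.integer b := by
  intro x hx
  have key : x ∈ lat v.integer b ∧
      D x - b.constr K (fun j => D (b j)) x ∈ lat v.integer b := by
    induction hx using Submodule.span_induction with
    | mem x hx =>
      obtain ⟨j, rfl⟩ := hx
      exact ⟨self_mem_lat _ j, by simp⟩
    | zero => simp
    | add x y _ _ hx hy =>
      refine ⟨Submodule.add_mem _ hx.1 hy.1, ?_⟩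
      have := Submodule.add_mem _ hx.2 hy.2
      rw [map_add, map_add]
      convert this using 1
      abel
    | smul a x _ hx =>
      refine ⟨Submodule.smul_mem _ _ hx.1, ?_⟩
      obtain ⟨a', ha', h⟩ := hD a
      have := Submodule.add_mem _ (Submodule.smul_mem _ a hx.2)
        (Submodule.smul_mem _ (⟨a', ha'.trans a.2⟩ : v.integer) hx.1)
      rw [int_smul, h, map_smul]
      convert this using 1
      rw [int_smul, int_smul, smul_sub]
      abel
  exact key.2

theorem hasStab_mul {D : AddMonoid.End V} {c c' : K} (h : HasStab v.integer K (scK c D))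
    (hc : v c' ≤ 1) : HasStab v.integer K (scK (c' * c) D) := by
  obtain ⟨L, hL, hs⟩ := h
  refine ⟨L, hL, fun x hx => ?_⟩
  have := L.smul_mem (⟨c', hc⟩ : v.integer) (hs x hx)
  rwa [int_smul, scK_apply, smul_smul] at this

variable [FiniteDimensional K V]

/-- the key step: divide by the spectral radius of the matrix -/
theorem key {D : AddMonoid.End V} (C : Subfield K) (hD : VConn v D)
    (hC : ∀ c ∈ C, ∀ z, D (c • z) = c • D z)
    (hdiv : ∀ (a : K) (j : ℕ), 0 < j → ∃ c ∈ C, v c ^ j = v a)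
    {c e : K} (hs : HasStab v.integer K (scK c D)) (he : e ∈ C) (he0 : 0 < v e) (he1 : v e ≤ 1)
    (hce : v c < v e ^ (finrank K V + 1)) :
    ∃ a ∈ C, v e ≤ v a ∧ HasStab v.integer K (scK (c / a) D) ∧
      (v e < v a → ∀ (π : v.integer) (L : Submodule v.integer V), ¬ IsUnit π → L.IsLattice K →
        ∃ z, ¬ TNil π L (scK (c / a) D) z) := by
  classical
  set h := finrank K V with hh
  obtain ⟨L0, hL0, hs⟩ := hs
  obtain ⟨b, rfl⟩ := exists_basis (ι := Fin h) (K := K) L0 hL0 (by simp [hh])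
  set TD : Module.End K V := b.constr K fun j => D (b j) with hTD
  have hT0 : ∀ j, (c • TD) (b j) ∈ lat v.integer b := fun j => by
    have := hs _ (self_mem_lat _ j)
    simpa [hTD] using this
  obtain ⟨A, hA, -⟩ := exists_mat b (c • TD) hT0
  have hχ : ∀ k, v ((c • TD).charpoly.coeff k) ≤ 1 := fun k => by
    rw [hA, coeff_map]; exact (A.charpoly.coeff k).2
  -- the choice of `a`
  have hex : ∀ k : ℕ, ∃ t ∈ C, v t ≤ 1 ∧
      (if k = 0 then t = e else v t ^ k = v ((c • TD).charpoly.coeff (h - k))) := by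
    intro k
    by_cases hk : k = 0
    · exact ⟨e, he, he1, by simp [hk]⟩
    · obtain ⟨t, ht, e1⟩ := hdiv ((c • TD).charpoly.coeff (h - k)) k (Nat.pos_of_ne_zero hk)
      exact ⟨t, ht, (pow_le_one_iff_of_nonneg zero_le hk).1 (e1 ▸ hχ _), by simp [hk, e1]⟩
  choose t htC ht1 ht using hex
  obtain ⟨k0, hk0, hmax⟩ := Finset.exists_max_image (Finset.range (h + 1)) (fun k => v (t k))
    ⟨0, by simp⟩
  have ht0 : t 0 = e := by simpa using ht 0
  set a := t k0 with ha
  have hea : v e ≤ v a := ht0 ▸ hmax 0 (by simp)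
  have ha0 : 0 < v a := he0.trans_le hea
  have hane : a ≠ 0 := fun h0 => by simp [h0] at ha0
  set T : Module.End K V := a⁻¹ • c • TD with hT
  have hcoef : ∀ k, k ≤ h → v (T.charpoly.coeff (h - k)) =
      v ((c • TD).charpoly.coeff (h - k)) / v a ^ k := fun k hk => by
    rw [hT, charpoly_smul_coeff _ _ hk, map_mul, map_pow, map_inv₀, inv_pow, mul_comm,
      div_eq_mul_inv]
  have hint : ∀ k, k < finrank K V →
      ∃ r : v.integer, algebraMap v.integer K r = T.charpoly.coeff k := fun k hk => by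
    refine ⟨⟨T.charpoly.coeff k, ?_⟩, rfl⟩
    have hk' : h - k ≠ 0 := by omega
    have e1 := hcoef (h - k) (Nat.sub_le _ _)
    have e2 := ht (h - k)
    rw [if_neg hk'] at e2
    rw [← e2, show h - (h - k) = k by omega] at e1
    change v _ ≤ 1
    rw [e1, div_le_one (pow_pos ha0 _)]
    exact pow_le_pow_left₀ zero_le (hmax _ (Finset.mem_range.2 (by omega))) _
  set L := iter v.integer b T h with hL
  have hLT : ∀ x ∈ L, T x ∈ L := iter_stab b T hint
  have hle : lat v.integer b ≤ L := le_iter b T h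
  have hLl : L.IsLattice K :=
    isLattice_of_le hL0 hle (Submodule.fg_span (Set.finite_range _))
  have hback : ∀ x ∈ L, a ^ h • x ∈ lat v.integer b := by
    have := smul_iter (R := v.integer) b T ⟨a, ht1 k0⟩ h (fun x hx => by
      rw [int_smul, hT, LinearMap.smul_apply, smul_smul, mul_inv_cancel₀ hane, one_smul]
      exact map_mem_of_gen b (c • TD) _ hT0 x hx)
    exact this
  have hπ1 : v (c / a ^ (h + 1)) < 1 := by
    rw [map_div₀, map_pow, div_lt_one (pow_pos ha0 _)]
    exact hce.trans_le (pow_le_pow_left₀ zero_le hea _)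
  set π₀ : v.integer := ⟨c / a ^ (h + 1), hπ1.le⟩ with hπ₀
  have hcong : ∀ x ∈ L, scK (c / a) D x - T x ∈ pw π₀ L 1 := fun x hx => by
    refine mem_pw.2 ⟨_, hle (sub_lin_mem v hD b _ (hback x hx)), ?_⟩
    rw [pow_one, int_smul, hC _ (C.pow_mem (htC k0) h), map_smul, ← smul_sub, smul_smul,
      scK_apply, hT, LinearMap.smul_apply, LinearMap.smul_apply, smul_smul, smul_sub]
    have e1 : ((π₀ : v.integer) : K) * a ^ h = c / a := by
      rw [hπ₀]; field_simp; ring
    rw [e1, div_eq_inv_mul]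
  refine ⟨a, htC k0, hea, ⟨L, hLl, fun x hx => ?_⟩, fun hlt π L' hπ hL' => ?_⟩
  · simpa using (pow_sub_pow _ T hLT hcong 1 x hx).1
  · by_contra hcon
    push Not at hcon
    -- a non-zero non-unit dividing `π₀`
    obtain ⟨ϖ, hϖ0, hϖ1, hϖ⟩ : ∃ ϖ : v.integer, ϖ ≠ 0 ∧ ¬ IsUnit ϖ ∧ ϖ ∣ π₀ := by
      by_cases h0 : π₀ = 0
      · refine ⟨⟨e, he1⟩, fun h1 => ?_, (int_nonunit_iff v _).2 (hlt.trans_le (ht1 k0)), ?_⟩
        · have : e = 0 := congrArg Subtype.val h1
          simp [this] at he0
        · rw [h0]; exact dvd_zero _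
      · exact ⟨π₀, h0, (int_nonunit_iff v _).2 hπ1, dvd_rfl⟩
    have hnil : ∀ z, TNil ϖ L (scK (c / a) D) z := fun z =>
      ((hcon z).change_pi (int_arch v) hϖ0 hπ).change (K := K) (int_arch v) hϖ1 hL'.fg hLl
    obtain ⟨b', hb'⟩ := exists_basis (ι := Fin h) (K := K) L hLl (by simp [hh])
    have hex : ∀ j, ∃ m₀ : ℕ, ∀ m, m₀ ≤ m → (scK (c / a) D ^ m) (b' j) ∈ pw ϖ L 1 :=
      fun j => hnil (b' j) 1
    choose m hm using hex
    have hb'L : ∀ j, b' j ∈ L := fun j => hb' ▸ self_mem_lat _ j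
    have hk0ne : k0 ≠ 0 := fun h0 => by
      rw [ha, h0, ht0] at hlt; exact lt_irrefl _ hlt
    have hk0h : k0 ≤ h := Nat.lt_succ_iff.1 (Finset.mem_range.1 hk0)
    obtain ⟨r, hr, e1⟩ := nonunit_coeff (R := v.integer) b' T
      (fun j => hb' ▸ hLT _ (hb'L j)) hϖ1 (m := Finset.univ.sup m) (fun j => by
        rw [hb']
        have h1 := hm j _ (Finset.le_sup (f := m) (Finset.mem_univ j))
        have h2 := pw_le_pw_of_dvd (i := 1) (j := 1) (by simpa using hϖ) L
          (pow_sub_pow _ T hLT hcong (Finset.univ.sup m) _ (hb'L j)).2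
        have := Submodule.sub_mem _ h1 h2
        rwa [sub_sub_cancel] at this) (k := h - k0) (by omega)
    have e2 := ht k0
    rw [if_neg hk0ne] at e2
    have e3 := hcoef k0 hk0h
    rw [← e2, ← ha, div_self (pow_pos ha0 _).ne', ← e1] at e3
    exact hr ((int_isUnit_iff v r).2 e3)

/-- a small constant makes finitely many connections bounded -/
theorem exists_small {n : Type*} [Fintype n] {D : n → AddMonoid.End V} (C : Subfield K)
    (hD : ∀ i, VConn v (D i)) (hC : ∀ c ∈ C, ∀ i z, D i (c • z) = c • D i z)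
    {e : K} (he : e ∈ C) (he1 : v e < 1) :
    ∃ t : ℕ, ∀ i, HasStab v.integer K (scK (e ^ t) (D i)) := by
  classical
  let b := Module.finBasis K V
  let π : v.integer := ⟨e, he1.le⟩
  have hπ : ¬ IsUnit π := (int_nonunit_iff v _).2 he1
  have hex : ∀ q : n × Fin (finrank K V), ∃ t : ℕ, π ^ t • D q.1 (b q.2) ∈ lat v.integer b :=
    fun q => exists_pow_smul_mem (K := K) (int_arch v) hπ _ (isLattice_lat b) _
  choose t ht using hex
  refine ⟨Finset.univ.sup t, fun i => ⟨lat v.integer b, isLattice_lat b, ?_⟩⟩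
  have hc := VConn.isConn v (hD i) (π ^ Finset.univ.sup t) (hC _ (C.pow_mem he _) i)
  refine hc.map_span (L := lat v.integer b) Submodule.subset_span ?_
  rintro _ ⟨j, rfl⟩
  obtain ⟨l, hl⟩ := Nat.exists_eq_add_of_le' (Finset.le_sup (f := t) (Finset.mem_univ (i, j)))
  rw [scK_apply, ← int_smul, hl, pow_add, mul_smul]
  exact Submodule.smul_mem _ _ (ht (i, j))

end Val

end Slope85

open Slope85 in
theorem slopeStmt : SlopeStmt := by
  intro K V n _ v _ _ _ _ D C hD hC hdiv ⟨a₀, ha0, ha1⟩ ⟨r, hr1, hr⟩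
  classical
  set h := finrank K V with hh
  obtain ⟨j, hj⟩ := exists_pow_lt_of_lt_one ha0 hr1
  have hj0 : j ≠ 0 := fun h0 => by
    rw [h0, pow_zero] at hj; exact lt_asymm hj ha1
  obtain ⟨e, he, hev⟩ := hdiv a₀ ((h + 1) * j) (Nat.mul_pos h.succ_pos (Nat.pos_of_ne_zero hj0))
  have he0 : 0 < v e := by
    rw [pos_iff_ne_zero]
    intro h0
    rw [h0, zero_pow (by positivity)] at hev
    exact ha0.ne hev
  have he1 : v e < 1 := by
    by_contra h1
    exact absurd (hev ▸ one_le_pow₀ (not_lt.1 h1)) (not_le.2 ha1)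
  have hre : r < v e ^ (h + 1) := by
    rw [← hev, pow_mul] at hj
    exact lt_of_pow_lt_pow_left₀ j zero_le hj
  let S : Set ℝ≥0 := {s | ∃ c ∈ C, (∀ i, HasStab v.integer K (scK c (D i))) ∧ v c = s}
  have hbdd : BddAbove S := ⟨r, by rintro _ ⟨c, hc, hs, rfl⟩; exact hr c hc hs⟩
  obtain ⟨t, ht⟩ := exists_small v C hD hC he he1
  have hmem : v (e ^ t) ∈ S := ⟨e ^ t, C.pow_mem he t, ht, rfl⟩
  have hs0 : 0 < sSup S := lt_of_lt_of_le (by rw [map_pow]; exact pow_pos he0 t)
    (le_csSup hbdd hmem)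
  obtain ⟨_, ⟨c, hc, hcs, rfl⟩, hlt⟩ :=
    exists_lt_of_lt_csSup ⟨_, hmem⟩ (mul_lt_of_lt_one_left hs0 he1)
  have hne : Nonempty n := by
    by_contra hn
    have := hr 1 C.one_mem fun i => (hn ⟨i⟩).elim
    rw [map_one] at this
    exact absurd this (not_le.2 hr1)
  have hex := fun i => key v C (hD i) (fun c hc => hC c hc i) hdiv (hcs i) he he0 he1.le
    ((hr c hc hcs).trans_lt hre)
  choose a haC hea hst hnil using hex
  obtain ⟨i₀, -, hmax⟩ := Finset.exists_max_image Finset.univ (fun i => v (a i))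
    Finset.univ_nonempty
  have hpos : ∀ i, 0 < v (a i) := fun i => he0.trans_le (hea i)
  have hall : ∀ i, HasStab v.integer K (scK (c / a i₀) (D i)) := fun i => by
    have hi : a i ≠ 0 := fun h0 => by simpa [h0] using hpos i
    have := hasStab_mul v (hst i) (c' := a i / a i₀) (by
      rw [map_div₀, div_le_one (hpos i₀)]; exact hmax i (Finset.mem_univ i))
    rwa [show a i / a i₀ * (c / a i) = c / a i₀ by field_simp] at this
  have hcC : c / a i₀ ∈ C := C.div_mem hc (haC i₀)
  have hc0 : 0 < v c := lt_of_le_of_lt zero_le hlt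
  have hle : v (c / a i₀) ≤ sSup S := le_csSup hbdd ⟨_, hcC, hall, rfl⟩
  have hgt : v e < v (a i₀) := by
    rw [map_div₀, div_le_iff₀ (hpos i₀), mul_comm] at hle
    exact lt_of_mul_lt_mul_right (hlt.trans_le hle) zero_le
  refine ⟨c / a i₀, hcC, ?_, (hr _ hcC hall).trans_lt hr1, hall, fun π L hπ hL => ?_⟩
  · rw [map_div₀]; exact div_pos hc0 (hpos i₀)
  · obtain ⟨z, hz⟩ := hnil i₀ hgt π L hπ hL
    exact ⟨i₀, z, hz⟩

end Crest.Agent.T170.DM
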