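import Crest.Agent.T170.Idem2_38

/-!
Row 170: the normal `p`-subgroup, from the dimension count and the spectral identity.
-/

namespace Crest.Agent.T170.DM

open Module

section

variable {N : Type*} [Field N]

theorem leib_pow_mem {δ : AddMonoid.End N} (hl : ∀ x y, δ (x * y) = δ x * y + x * δ y)
    (M : AddSubgroup N) (k : ℕ) : ∀ x y : N,
    (∀ i j, i + j = k → (δ ^ i) x * (δ ^ j) y ∈ M) → (δ ^ k) (x * y) ∈ M := by
  induction k with
  | zero => intro x y h; simpa using h 0 0 rfl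
  | succ k ih =>
    intro x y h
    rw [End_pow_succ_apply', hl, map_add]
    refine M.add_mem (ih _ _ fun i j hij => ?_) (ih _ _ fun i j hij => ?_)
    · rw [← End_pow_succ_apply']; exact h _ _ (by omega)
    · rw [← End_pow_succ_apply']; exact h _ _ (by omega)

variable {R K : Type*} [CommRing R] [IsDomain R] [Field K] [Algebra R K] [IsFractionRing R K]
variable [Algebra K N] [Module R N] [IsScalarTower R K N] {ι : Type*} [Fintype ι]

omit [IsDomain R] [IsFractionRing R K] in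
include K in
theorem smul_mul' (a : R) (x y : N) : a • x * y = a • (x * y) := by
  rw [← algebraMap_smul K a x, ← algebraMap_smul K a (x * y), smul_mul_assoc]

omit [IsDomain R] [IsFractionRing R K] in
include K in
theorem mul_smul' (a : R) (x y : N) : x * a • y = a • (x * y) := by
  rw [mul_comm, smul_mul' (K := K), mul_comm]

theorem exists_mul_bound (hR : Arch R) {π : R} (hπ : ¬ IsUnit π) (b : Basis ι K N) :
    ∃ t : ℕ, ∀ x ∈ lat R b, ∀ y ∈ lat R b, π ^ t • (x * y) ∈ lat R b := by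
  obtain ⟨t, ht⟩ := exists_pw_le (K := K) hR hπ (lat R fun ij : ι × ι => b ij.1 * b ij.2)
    (lat R b) (Submodule.fg_span (Set.finite_range _)) (isLattice_lat b)
  refine ⟨t, fun x hx y hy => ht (smul_mem_pw t ?_)⟩
  obtain ⟨c, rfl⟩ := mem_lat.1 hx
  obtain ⟨d, rfl⟩ := mem_lat.1 hy
  rw [vec_apply, vec_apply, Finset.sum_mul_sum]
  refine Submodule.sum_mem _ fun i _ => Submodule.sum_mem _ fun j _ => ?_
  rw [smul_mul' (K := K), mul_smul' (K := K)]
  exact Submodule.smul_mem _ _ (Submodule.smul_mem _ _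
    (self_mem_lat (fun ij : ι × ι => b ij.1 * b ij.2) (i, j)))

theorem TNil.mul (hR : Arch R) {π : R} (hπ0 : π ≠ 0) (hπ : ¬ IsUnit π) (b : Basis ι K N)
    {δ : AddMonoid.End N} (hl : ∀ x y, δ (x * y) = δ x * y + x * δ y) (hc : Comm π δ)
    (hL : Stab (lat R b) δ) {x y : N} (hx : TNil π (lat R b) δ x) (hy : TNil π (lat R b) δ y) :
    TNil π (lat R b) δ (x * y) := by
  obtain ⟨t, ht⟩ := exists_mul_bound hR hπ b
  obtain ⟨s, hs⟩ := exists_pow_smul_mem (K := K) hR hπ (lat R b) (isLattice_lat b) x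
  obtain ⟨s', hs'⟩ := exists_pow_smul_mem (K := K) hR hπ (lat R b) (isLattice_lat b) y
  have hx' := hx.smul_cst (hc.pow_left s)
  have hy' := hy.smul_cst (hc.pow_left s')
  refine TNil.cancel hR hπ (pow_ne_zero s hπ0) (hc.pow_left s) K ?_
  refine TNil.cancel hR hπ (pow_ne_zero s' hπ0) (hc.pow_left s') K ?_
  rw [← smul_mul' (K := K), ← mul_smul' (K := K)]
  intro j
  obtain ⟨k₁, h₁⟩ := hx' (j + t)
  obtain ⟨k₂, h₂⟩ := hy' (j + t)
  refine ⟨k₁ + k₂, fun k hk => ?_⟩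
  refine leib_pow_mem hl (pw π (lat R b) j).toAddSubgroup k _ _ fun i i' hi => ?_
  change _ ∈ pw π (lat R b) j
  by_cases h : k₁ ≤ i
  · obtain ⟨w, hw, e⟩ := mem_pw.1 (h₁ i h)
    rw [← e, smul_mul' (K := K), pow_add, mul_smul]
    exact smul_mem_pw j (ht _ hw _ (hL.pow i' _ hs'))
  · obtain ⟨w, hw, e⟩ := mem_pw.1 (h₂ i' (by omega))
    rw [← e, mul_smul' (K := K), pow_add, mul_smul]
    exact smul_mem_pw j (ht _ (hL.pow i _ hs) _ hw)

omit [IsDomain R] [Algebra K N] in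
theorem TNil.one {π : R} {L : Submodule R N} {δ : AddMonoid.End N}
    (hl : ∀ x y, δ (x * y) = δ x * y + x * δ y) : TNil π L δ 1 := by
  have h1 : δ 1 = 0 := by
    have := hl 1 1
    simpa using this
  intro j
  refine ⟨1, fun k hk => ?_⟩
  obtain ⟨k, rfl⟩ := Nat.exists_eq_add_of_le' hk
  rw [End_pow_succ_apply', h1, map_zero]
  exact Submodule.zero_mem _

theorem TNil.map (hR : Arch R) {π : R} (hπ : ¬ IsUnit π) (b : Basis ι K N)
    {δ : AddMonoid.End N} (g : N ≃ₐ[K] N) (hg : ∀ z, δ (g z) = g (δ z)) {z : N}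
    (hz : TNil π (lat R b) δ z) : TNil π (lat R b) δ (g z) := by
  have hgs : ∀ (a : R) (w : N), g (a • w) = a • g w := fun a w => by
    rw [← algebraMap_smul K a w, map_smul, algebraMap_smul]
  have hgk : ∀ k w, (δ ^ k) (g w) = g ((δ ^ k) w) := by
    intro k
    induction k with
    | zero => intro w; rfl
    | succ k ih => intro w; rw [End_pow_succ_apply, End_pow_succ_apply, ih, hg]
  refine TNil.change (K := K) hR hπ (L := lat R fun i => g (b i))
    (Submodule.fg_span (Set.finite_range _)) (isLattice_lat b) ?_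
  intro j
  obtain ⟨k₀, hk⟩ := hz j
  refine ⟨k₀, fun k hk' => ?_⟩
  obtain ⟨w, hw, e⟩ := mem_pw.1 (hk k hk')
  obtain ⟨c, rfl⟩ := mem_lat.1 hw
  rw [hgk, ← e, hgs]
  refine smul_mem_pw j ?_
  rw [vec_apply, map_sum]
  exact Submodule.sum_mem _ fun i _ => by
    rw [hgs]; exact Submodule.smul_mem _ _ (self_mem_lat (fun i => g (b i)) i)

end

theorem finalStmt_of (hspec : SpecStmt) : FinalStmt := by
  intro p _ R K N F ι n _ _ _ _ _ _ _ _ _ _ _ _ _ _ _ _ res π δ S hl hg b δb hred hnot B₀ B₁ hG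
    E₀ E₁ Eb₀ Eb₁ m₀ m₁ p₀ p₁ r₀ r₁ i₀ i₁
  obtain ⟨N₀, hN₀, hdim⟩ := idemStmt p R K N F ι n res π δ S b δb hred B₀ B₁ hG E₀ E₁ Eb₀ Eb₁
    m₀ m₁ p₀ p₁ r₀ r₁ i₀ i₁
  obtain ⟨c, hc⟩ := hspec p R K N F ι n res π δ S hl hg b δb hred
  have h1 : (1 : N) ∈ N₀ := (hN₀ 1).2 fun i => TNil.one (hl i)
  have hmul : ∀ x y, x ∈ N₀ → y ∈ N₀ → x * y ∈ N₀ := fun x y hx hy => (hN₀ _).2 fun i =>
    TNil.mul S.arch S.pi_ne S.pi_nonunit b (hl i) (S.conn i).1 (hred i).stab
      ((hN₀ x).1 hx i) ((hN₀ y).1 hy i)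
  have hmap : ∀ (g : N ≃ₐ[K] N) x, x ∈ N₀ → g x ∈ N₀ := fun g x hx => (hN₀ _).2 fun i =>
    TNil.map S.arch S.pi_nonunit b g (hg i g) ((hN₀ x).1 hx i)
  let A : Subalgebra K N := N₀.toSubalgebra h1 hmul
  let M : IntermediateField K N := A.toIntermediateField fun x hx =>
    A.inv_mem_of_algebraic (x := ⟨x, hx⟩) (Algebra.IsAlgebraic.isAlgebraic x)
  have hM : ∀ x, x ∈ M ↔ x ∈ N₀ := fun x => Iff.rfl
  have hfin : finrank K M = finrank K N₀ := rfl
  refine ⟨M.fixingSubgroup, ⟨fun g hg h => ?_⟩, ?_, fun hbot => ?_⟩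
  · rw [IntermediateField.mem_fixingSubgroup_iff] at hg ⊢
    intro x hx
    have := hg (h.symm x) (hmap h.symm x hx)
    change h (g (h.symm x)) = x
    rw [this, AlgEquiv.apply_symm_apply]
  · refine IsPGroup.of_card (n := c) ?_
    rw [IsGalois.card_fixingSubgroup_eq_finrank]
    have h2 := Module.finrank_mul_finrank K M N
    rw [← hc, ← hdim, hfin] at h2
    exact Nat.eq_of_mul_eq_mul_left (hfin ▸ Module.finrank_pos) h2
  · have := IsGalois.fixedField_fixingSubgroup M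
    rw [hbot, IntermediateField.fixedField_bot] at this
    obtain ⟨i, z, hz⟩ := hnot
    exact hz ((hN₀ z).1 ((hM z).1 (this ▸ IntermediateField.mem_top)) i)

end Crest.Agent.T170.DM
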