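import Crest.Agent.T170.SpecA_38
import Crest.Agent.T170.Final_38

/-!
Row 170, (SPEC): lattice independence of the reduced characteristic polynomial and the spectral
identity for a Galois extension.
-/

namespace Crest.Agent.T170.DM

open Module Polynomial

section LatInd

variable {R K : Type*} [CommRing R] [IsDomain R] [Field K] [Algebra R K] [IsFractionRing R K]
variable {V : Type*} [AddCommGroup V] [Module K V] [Module R V] [IsScalarTower R K V]
variable {F : Type*} [Field F] {res : R →+* F}
variable {ι ι' : Type*} [Fintype ι] [DecidableEq ι] [Fintype ι'] [DecidableEq ι']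

omit [IsDomain R] [IsFractionRing R K] in
theorem toMatrix_eq_map (b : Basis ι K V) (φ : V →ₗ[K] V) (G : Matrix ι ι R)
    (hG : ∀ j, φ (b j) = ∑ i, G i j • b i) :
    LinearMap.toMatrix b b φ = G.map (algebraMap R K) := by
  ext i j
  rw [LinearMap.toMatrix_apply, hG, map_sum]
  simp only [← algebraMap_smul K (G _ j), map_smul, Basis.repr_self, Matrix.map_apply]
  rw [Finsupp.finsetSum_apply, Finset.sum_eq_single i]
  · simp [Algebra.smul_def]
  · intro k _ hk; simp [Finsupp.single_eq_of_ne hk.symm]
  · simp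

omit [IsDomain R] in
theorem charpoly_step {π a a' : R} (hπ : π = a * a') (ha' : res a' = 0) {δ : AddMonoid.End V}
    (hδ : IsConn π 1 δ) (b : Basis ι K V) (b' : Basis ι' K V) {A : Matrix ι ι R}
    {A' : Matrix ι' ι' R} (hA : IsMat b δ A) (hA' : IsMat b' δ A') (h1 : lat R b' ≤ lat R b)
    (h2 : pw a (lat R b) 1 ≤ lat R b') : A.charpoly.map res = A'.charpoly.map res := by
  have : FiniteDimensional K V := Module.Finite.of_basis b
  let φ : V →ₗ[K] V := b.constr K fun j => δ (b j)
  have hφ : ∀ j, φ (b j) = ∑ i, A i j • b i := fun j => by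
    rw [← hA j]; exact b.constr_basis K _ j
  have hφv : ∀ c : ι → R, φ (vec b c) = vec b (A.mulVec c) := by
    intro c
    rw [vec_apply, vec_apply, map_sum]
    simp only [← algebraMap_smul K (c _), map_smul, hφ]
    simp only [algebraMap_smul, Finset.smul_sum, Matrix.mulVec, dotProduct, Finset.sum_smul]
    rw [Finset.sum_comm]
    refine Finset.sum_congr rfl fun j _ => Finset.sum_congr rfl fun i _ => ?_
    rw [mul_comm, mul_smul]
  have key : ∀ j, ∃ c : ι' → R, δ (b' j) - φ (b' j) = a' • vec b' c := by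
    intro j
    obtain ⟨c, hc⟩ := mem_lat.1 (h1 (self_mem_lat b' j))
    obtain ⟨w, hw, e⟩ := mem_pw.1 (hA.vec_sub hδ c)
    obtain ⟨c', hc'⟩ := mem_lat.1 (h2 (smul_mem_pw 1 hw))
    refine ⟨c', ?_⟩
    rw [← hc, hφv, ← e, hc', pow_one, pow_one, hπ, mul_comm, mul_smul]
  choose c hc using key
  let G : Matrix ι' ι' R := fun i j => A' i j - a' * c j i
  have hG : ∀ j, φ (b' j) = ∑ i, G i j • b' i := by
    intro j
    have : φ (b' j) = δ (b' j) - a' • vec b' (c j) := by rw [← hc]; abel
    rw [this, hA' j, vec_apply, Finset.smul_sum, ← Finset.sum_sub_distrib]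
    refine Finset.sum_congr rfl fun i _ => ?_
    rw [sub_smul, mul_smul]
  have e1 : A.charpoly = G.charpoly := by
    apply Polynomial.map_injective _ (IsFractionRing.injective R K)
    rw [← Matrix.charpoly_map, ← Matrix.charpoly_map, ← toMatrix_eq_map b φ A hφ,
      ← toMatrix_eq_map b' φ G hG, LinearMap.charpoly_toMatrix, LinearMap.charpoly_toMatrix]
  rw [e1, ← Matrix.charpoly_map, ← Matrix.charpoly_map]
  congr 1
  ext i j
  simp [G, ha']

variable [ValuationRing R]

/-- the reduced characteristic polynomial does not depend on the stable lattice -/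
theorem charpoly_indep (hR : Arch R) {π a a' : R} (hπ : π = a * a') (ha0 : a ≠ 0)
    (ha : ¬ IsUnit a) (ha' : res a' = 0) {δ : AddMonoid.End V} (hδ : IsConn π 1 δ)
    (hc : Comm a δ) (b : Basis ι K V) (b' : Basis ι' K V) {A : Matrix ι ι R}
    {A' : Matrix ι' ι' R} (hA : IsMat b δ A) (hA' : IsMat b' δ A') :
    A.charpoly.map res = A'.charpoly.map res := by
  have : FiniteDimensional K V := Module.Finite.of_basis b
  obtain ⟨t, ht⟩ := exists_pw_le (K := K) hR ha (lat R b') (lat R b) (isLattice_lat (K := K) b').fg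
    (isLattice_lat b)
  -- rescale `b'`
  have hat : algebraMap R K (a ^ t) ≠ 0 :=
    (map_ne_zero_iff _ (IsFractionRing.injective R K)).2 (pow_ne_zero t ha0)
  let b'' : Basis ι' K V := b'.unitsSMul fun _ => Units.mk0 _ hat
  have hb'' : ∀ i, b'' i = a ^ t • b' i := fun i => by
    simp only [b'', Basis.unitsSMul_apply, Units.smul_mk0, algebraMap_smul]
  have hA'' : IsMat b'' δ A' := fun j => by
    rw [hb'', hc.pow_left t, hA' j, Finset.smul_sum]
    exact Finset.sum_congr rfl fun i _ => by rw [hb'', smul_comm]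
  have hle : lat R b'' ≤ lat R b := by
    refine Submodule.span_le.2 ?_
    rintro _ ⟨i, rfl⟩
    rw [hb'']
    exact ht (smul_mem_pw t (self_mem_lat b' i))
  obtain ⟨T, hT⟩ := exists_pw_le (K := K) hR ha (lat R b) (lat R b'') (isLattice_lat (K := K) b).fg
    (isLattice_lat b'')
  have hfg : ∀ k, (pw a (lat R b) k).FG := fun k => (isLattice_lat (K := K) b).fg.map _
  have hlat : ∀ k, (lat R b'' ⊔ pw a (lat R b) k).IsLattice K := fun k =>
    isLattice_of_le (isLattice_lat b'') le_sup_left ((isLattice_lat (K := K) b'').fg.sup (hfg k))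
  have hst : ∀ k, Stab (lat R b'' ⊔ pw a (lat R b) k) δ := by
    intro k z hz
    obtain ⟨u, hu, w, hw, rfl⟩ := Submodule.mem_sup.1 hz
    rw [map_add]
    exact Submodule.add_mem_sup (hA''.stab hδ u hu) ((hA.stab hδ).pw hc k w hw)
  have main : ∀ k, ∀ (e : Basis ι K V) (B : Matrix ι ι R), lat R e = lat R b'' ⊔ pw a (lat R b) k →
      IsMat e δ B → A.charpoly.map res = B.charpoly.map res := by
    intro k
    induction k with
    | zero =>
      intro e B he hB
      rw [pw_zero, sup_eq_right.2 hle] at he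
      exact charpoly_step hπ ha' hδ b e hA hB he.le (he ▸ pw_le _ _ _)
    | succ k ih =>
      intro e B he hB
      obtain ⟨e', he'⟩ := exists_basis (ι := ι) _ (hlat k) (finrank_eq_card_basis b).symm
      obtain ⟨B', hB'⟩ := exists_isMat (R := R) (b := e') (T := δ) (he' ▸ hst k)
      rw [ih e' B' he' hB']
      refine charpoly_step hπ ha' hδ e' e hB' hB ?_ ?_
      · rw [he, he']
        exact sup_le_sup_left (pw_anti _ _ (Nat.le_succ k)) _
      · rw [he, he']
        intro z hz
        obtain ⟨y, hy, rfl⟩ := mem_pw.1 hz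
        obtain ⟨u, hu, w, hw, rfl⟩ := Submodule.mem_sup.1 hy
        rw [smul_add]
        refine Submodule.add_mem_sup (Submodule.smul_mem _ _ hu) ?_
        rw [add_comm k 1]
        exact pow_smul_mem_pw 1 hw
  obtain ⟨e, he⟩ := exists_basis (ι := ι) _ (hlat T) (finrank_eq_card_basis b).symm
  obtain ⟨B, hB⟩ := exists_isMat (R := R) (b := e) (T := δ) (he ▸ hst T)
  rw [main T e B he hB]
  rw [sup_eq_left.2 hT] at he
  exact charpoly_step hπ ha' hδ e b'' hB hA'' he.ge (he ▸ pw_le _ _ _)

end LatInd

section Galois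

variable {K N : Type*} [Field K] [Field N] [Algebra K N] [FiniteDimensional K N] [IsGalois K N]
variable {ι : Type*} [Fintype ι] [DecidableEq ι]

theorem linearIndependent_mul_gal (b : Basis ι K N) :
    LinearIndependent K fun ik : ι × ι => fun h : N ≃ₐ[K] N => b ik.1 * h (b ik.2) := by
  rw [Fintype.linearIndependent_iff]
  intro c hc ⟨i, l⟩
  let b' := (Algebra.traceForm K N).dualBasis (traceForm_nondegenerate K N) b
  have h1 : ∀ h : N ≃ₐ[K] N, ∑ k, (∑ j, c (j, k) • b j) * h (b k) = 0 := by
    intro h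
    have := congrFun hc h
    rw [Finset.sum_apply, Fintype.sum_prod_type_right] at this
    simp only [Pi.smul_apply, Pi.zero_apply] at this
    rw [← this]
    refine Finset.sum_congr rfl fun k _ => ?_
    rw [Finset.sum_mul]
    exact Finset.sum_congr rfl fun j _ => smul_mul_assoc _ _ _
  have h2 : ∀ k, ∑ h : N ≃ₐ[K] N, h (b' l) * h (b k) = if k = l then 1 else 0 := by
    intro k
    simp only [← map_mul]
    rw [← trace_eq_sum_automorphisms, ← Algebra.traceForm_apply,
      LinearMap.BilinForm.apply_dualBasis_left]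
    split_ifs <;> simp
  have h3 : ∑ j, c (j, l) • b j = 0 := by
    have : ∑ h : N ≃ₐ[K] N, ∑ k, h (b' l) * ((∑ j, c (j, k) • b j) * h (b k)) = 0 :=
      Finset.sum_eq_zero fun h _ => by rw [← Finset.mul_sum, h1, mul_zero]
    rw [Finset.sum_comm] at this
    have e : ∀ k, ∑ h : N ≃ₐ[K] N, h (b' l) * ((∑ j, c (j, k) • b j) * h (b k)) =
        if k = l then ∑ j, c (j, k) • b j else 0 := by
      intro k
      simp only [mul_left_comm (_ : N) (∑ j, c (j, k) • b j)]
      rw [← Finset.mul_sum, h2]
      split_ifs <;> simp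
    simpa [e] using this
  exact Fintype.linearIndependent_iff.1 b.linearIndependent _ h3 i

omit [FiniteDimensional K N] [IsGalois K N] [DecidableEq ι] in
theorem linearIndependent_single {H : Type*} [Fintype H] [DecidableEq H] (b : Basis ι K N) :
    LinearIndependent K fun ih : ι × H => (Pi.single ih.2 (b ih.1) : H → N) := by
  rw [Fintype.linearIndependent_iff]
  intro c hc ⟨i, h⟩
  have := congrFun hc h
  rw [Finset.sum_apply, Fintype.sum_prod_type] at this
  have e : ∀ j, ∑ h' : H, (c (j, h') • (Pi.single h' (b j) : H → N)) h = c (j, h) • b j := by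
    intro j
    rw [Finset.sum_eq_single h]
    · simp
    · intro h' _ hh; simp [Pi.single_eq_of_ne hh.symm]
    · simp
  simp only [e, Pi.zero_apply] at this
  exact Fintype.linearIndependent_iff.1 b.linearIndependent _ this i

end Galois

theorem specStmt : SpecStmt := by
  intro p _ R K N F ι n _ _ _ _ _ _ _ _ _ _ _ _ _ _ _ _ res π δ S hl hg b δb hred
  classical
  have := S.char
  have hπ : res π = 0 := (S.ker π).2 S.pi_nonunit
  have hL : ∀ i, Stab (lat R b) (δ i) := fun i => (hred i).stab
  obtain ⟨l, hl'⟩ := exists_generic_comb δb fun i j =>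
    red_comm S.surj (vec_injective b) hπ S.conn S.comm hL (self_mem_opRing δ i)
      (self_mem_opRing δ j) (hred i) (hred j)
  choose lam hlam using fun i => S.surj (l i)
  let D : AddMonoid.End N := ∑ i, sc N (lam i) * δ i
  have hDapp : ∀ z, D z = ∑ i, lam i • δ i z := fun z => End_sum_apply _ _ z
  have hD : IsConn π 1 D := IsConn.sum _ fun i _ => (S.conn i).sc_mul _
  have hDred : Red res b D (∑ i, l i • δb i) := by
    have := Red.sum (res := res) (b := b) Finset.univ fun i _ => (Red.sc res b (lam i)).mul (hred i)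
    simpa only [hlam, ← Algebra.smul_def] using this
  obtain ⟨A, hA⟩ := exists_isMat hDred.stab
  have hAred := hDred.unique S.surj (vec_injective b) (hA.red hD hπ)
  obtain ⟨a₀, a₀', h₀, h₀', hsplit⟩ := S.pi_split
  obtain ⟨a, hac, u, hu⟩ := S.cst a₀
  have hπa : π = a * (↑u⁻¹ * a₀') := by
    rw [hsplit, ← hu, mul_assoc, ← mul_assoc (u : R), Units.mul_inv, one_mul]
  have ha0 : a ≠ 0 := fun h => S.pi_ne (by rw [hπa, h, zero_mul])
  have ha : ¬ IsUnit a := fun h => h₀ (isUnit_of_mul_isUnit_left (hu ▸ h))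
  have ha' : res (↑u⁻¹ * a₀') = 0 := by rw [map_mul, (S.ker _).2 h₀', mul_zero]
  have hDc : Comm a D := fun z => by
    rw [hDapp, hDapp, Finset.smul_sum]
    exact Finset.sum_congr rfl fun i _ => by rw [hac i, smul_comm]
  have hgs : ∀ (g : N ≃ₐ[K] N) (r : R) (w : N), g (r • w) = r • g w := fun g r w => by
    rw [← algebraMap_smul K r w, map_smul, algebraMap_smul]
  have hDl : ∀ x y, D (x * y) = D x * y + x * D y := fun x y => by
    rw [hDapp, hDapp, hDapp, Finset.sum_mul, Finset.mul_sum, ← Finset.sum_add_distrib]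
    exact Finset.sum_congr rfl fun i _ => by
      rw [hl, smul_add, smul_mul' (K := K), mul_smul' (K := K)]
  have hDg : ∀ (g : N ≃ₐ[K] N) z, D (g z) = g (D z) := fun g z => by
    rw [hDapp, hDapp, map_sum]
    exact Finset.sum_congr rfl fun i _ => by rw [hg, hgs]
  -- the space of functions on the Galois group
  let DW : AddMonoid.End ((N ≃ₐ[K] N) → N) := AddMonoidHom.compLeft D (N ≃ₐ[K] N)
  have hDW : ∀ z h, DW z h = D (z h) := fun _ _ => rfl
  have hW : IsConn π 1 DW := ⟨fun z => funext fun h => hD.1 _, fun r => by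
    obtain ⟨r', hr'⟩ := hD.2 r
    exact ⟨r', fun z => funext fun h => hr' _⟩⟩
  have hWc : Comm a DW := fun z => funext fun h => hDc _
  have hcardι : Fintype.card ι = finrank K N := (finrank_eq_card_basis b).symm
  have hcardH : Fintype.card (N ≃ₐ[K] N) = Fintype.card ι := by
    rw [hcardι, ← IsGalois.card_aut_eq_finrank, Nat.card_eq_fintype_card]
  have : Nonempty ι := Fintype.card_pos_iff.1 (hcardι ▸ Module.finrank_pos)
  have hfr : finrank K ((N ≃ₐ[K] N) → N) = Fintype.card ι * Fintype.card ι := by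
    rw [Module.finrank_pi_fintype]
    simp [← hcardι, hcardH]
  let b₁ := basisOfLinearIndependentOfCardEqFinrank (linearIndependent_mul_gal b)
    (by rw [hfr, Fintype.card_prod])
  let b₂ := basisOfLinearIndependentOfCardEqFinrank
    (linearIndependent_single (H := N ≃ₐ[K] N) b) (by rw [hfr, Fintype.card_prod, hcardH])
  have hb₁ : ∀ ik h, b₁ ik h = b ik.1 * h (b ik.2) := fun ik h => by
    simp [b₁]
  have hb₂ : ∀ ih, b₂ ih = Pi.single ih.2 (b ih.1) := fun ih => by
    simp [b₂]
  have m₁ : IsMat b₁ DW (kronSum A) := by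
    rintro ⟨j, k⟩
    funext h
    rw [hDW, hb₁, hDl, hDg, hA, hA, Finset.sum_apply, Fintype.sum_prod_type]
    simp only [Pi.smul_apply, hb₁, kronSum, add_smul, Finset.sum_add_distrib, ite_smul, zero_smul,
      Finset.sum_ite_eq', Finset.mem_univ, if_true]
    rw [Finset.sum_mul, map_sum, Finset.mul_sum]
    congr 1
    · exact Finset.sum_congr rfl fun i _ => smul_mul' (K := K) _ _ _
    · rw [Finset.sum_comm]
      simp only [Finset.sum_ite_eq', Finset.mem_univ, if_true]
      exact Finset.sum_congr rfl fun i _ => by rw [hgs, mul_smul' (K := K)]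
  have m₂ : IsMat b₂ DW (Matrix.blockDiagonal fun _ => A) := by
    rintro ⟨j, g⟩
    funext h
    rw [hDW, hb₂, Finset.sum_apply, Fintype.sum_prod_type]
    simp only [Pi.smul_apply, hb₂, Matrix.blockDiagonal_apply, ite_smul, zero_smul,
      Finset.sum_ite_eq', Finset.mem_univ, if_true]
    by_cases hh : h = g
    · subst hh
      simp only [Pi.single_eq_same]
      exact hA j
    · simp [Pi.single_eq_of_ne hh]
  have hind := charpoly_indep (res := res) S.arch hπa ha0 ha ha' hW hWc b₁ b₂ m₁ m₂
  rw [← Matrix.charpoly_map, ← Matrix.charpoly_map, kronSum_map, Matrix.blockDiagonal_map _ _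
    (map_zero res)] at hind
  obtain ⟨c, hc⟩ := finrank_mul_pow_of_kron (p := p) hcardH (A.map res) hind
  exact ⟨c, by rw [V0, ← hl', hAred, hc, hcardι]⟩

theorem finalStmt : FinalStmt := finalStmt_of specStmt

end Crest.Agent.T170.DM
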