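import Crest.Agent.T170.CoreK2c_62
import Crest.Agent.T170.Eig_93
import Crest.Agent.T170.Spec_38
import Crest.Agent.T170.Slope_85
import Crest.Agent.T170.Common_83
import Crest.Agent.T170.Integ_13
import Crest.Agent.T170.Rot_28
import Crest.Agent.T170.BadZ_10

/-!
# Row 170 (helper20): the core statement, unconditionally
-/

set_option autoImplicit false

namespace Crest.Agent.T170.Fr

theorem thetaRot20 : ThetaRot := by
  intro F Ψ V n _ _ _ _ _ _ τb g hg δb hc S hS hrot θ hθ
  exact theta_rot' τb g hg hc S hS hrot hθ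

theorem coreStmt20 {p : ℕ} (hp : p.Prime) : CoreStmt p :=
  coreStmt_of hp DM.slopeStmt DM.commonStmt (Eig93.eigStmt hp) (Gaga13.gagaStmt hp)
    (Gaga13.intStmt hp) rotStmt thetaRot20 sfStmt degStmt Bad.zStmt DM.finalStmt

end Crest.Agent.T170.Fr
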