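import Mathlib

/-!
# Row 170, module C (RET), uniqueness of the local datum (helper81)

`N / K` finite Galois, `C ⊆ K` a field of constants of characteristic `0`.
* `exists_conj_val` : two `ℤ`-valuations of `N`, trivial on `C`, with the same non-trivial
  restriction to `K`, are conjugate;
* `eq_one_of_val`, `eq_of_canon` : the element `g` with `g f ≡ ζ ^ v(f) f` is unique;
* `conj_of_canon` : two data over the same place of `K` give conjugate elements.
-/

set_option autoImplicit false
set_option linter.unusedSectionVars false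

namespace Crest.Agent.T170.RetU

variable {C K N : Type*} [Field C] [Field K] [Field N] [Algebra C K] [Algebra K N] [Algebra C N]
  [IsScalarTower C K N]

theorem exists_int (v : AddValuation N (WithTop ℤ)) {y : N} (hy : y ≠ 0) :
    ∃ k : ℤ, v y = k := by
  have h := (v.ne_top_iff).2 hy
  obtain ⟨k, hk⟩ := WithTop.ne_top_iff_exists.1 h
  exact ⟨k, hk.symm⟩

theorem val_inv (v : AddValuation N (WithTop ℤ)) {y : N} {k : ℤ} (h : v y = k) :
    v y⁻¹ = ((-k : ℤ) : WithTop ℤ) := by
  have hy : y ≠ 0 := by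
    rintro rfl
    rw [v.map_zero] at h
    exact WithTop.top_ne_coe h
  obtain ⟨l, hl⟩ := exists_int v (inv_ne_zero hy)
  have h1 := v.map_mul y y⁻¹
  rw [mul_inv_cancel₀ hy, v.map_one, h, hl, ← WithTop.coe_add] at h1
  have h2 : (0 : ℤ) = k + l := by exact_mod_cast h1
  rw [hl]
  congr 1
  omega

theorem val_pow (v : AddValuation N (WithTop ℤ)) {y : N} {k : ℤ} (h : v y = k) (m : ℕ) :
    v (y ^ m) = ((m * k : ℤ) : WithTop ℤ) := by
  induction m with
  | zero => simp
  | succ m ih =>
    rw [pow_succ, v.map_mul, ih, h, ← WithTop.coe_add]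
    congr 1
    push_cast
    ring

theorem val_zpow (v : AddValuation N (WithTop ℤ)) {y : N} {k : ℤ} (h : v y = k) (m : ℤ) :
    v (y ^ m) = ((m * k : ℤ) : WithTop ℤ) := by
  obtain ⟨m, rfl | rfl⟩ := m.eq_nat_or_neg
  · rw [zpow_natCast, val_pow v h]
  · rw [zpow_neg, zpow_natCast, val_inv v (val_pow v h m)]
    congr 1
    ring

/-- the valuation ring -/
def ring (v : AddValuation N (WithTop ℤ)) : Subring N where
  carrier := {y | 0 ≤ v y}
  mul_mem' {a b} ha hb := by
    change 0 ≤ v (a * b)
    rw [v.map_mul]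
    exact add_nonneg ha hb
  one_mem' := by
    change 0 ≤ v 1
    rw [v.map_one]
  add_mem' {a b} ha hb := v.map_le_add ha hb
  zero_mem' := by
    change 0 ≤ v 0
    rw [v.map_zero]
    exact le_top
  neg_mem' {a} ha := by
    change 0 ≤ v (-a)
    rw [v.map_neg]
    exact ha

theorem mem_ring {v : AddValuation N (WithTop ℤ)} {y : N} : y ∈ ring v ↔ 0 ≤ v y := Iff.rfl

/-- a root of a monic polynomial with integral coefficients is integral -/
theorem nonneg_of_monic (w : AddValuation N (WithTop ℤ)) {P : Polynomial N} (hP : P.Monic)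
    (hc : ∀ i, 0 ≤ w (P.coeff i)) {y : N} (hy : P.eval y = 0) : 0 ≤ w y := by
  by_contra hneg
  have hy0 : y ≠ 0 := by
    rintro rfl
    rw [w.map_zero] at hneg
    exact hneg le_top
  obtain ⟨k, hk⟩ := exists_int w hy0
  have hk0 : k < 0 := by
    rw [hk] at hneg
    have : ¬ (0 : ℤ) ≤ k := fun h => hneg (by exact_mod_cast h)
    omega
  rw [Polynomial.eval_eq_sum_range, Finset.sum_range_succ, hP.coeff_natDegree, one_mul] at hy
  have h1 : y ^ P.natDegree = -∑ i ∈ Finset.range P.natDegree, P.coeff i * y ^ i := by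
    linear_combination hy
  have h2 : ((P.natDegree * k : ℤ) : WithTop ℤ) <
      w (∑ i ∈ Finset.range P.natDegree, P.coeff i * y ^ i) := by
    refine w.map_lt_sum WithTop.coe_ne_top fun i hi => ?_
    rw [w.map_mul, val_pow w hk]
    have hi' : i < P.natDegree := Finset.mem_range.1 hi
    have h3 : ((P.natDegree * k : ℤ) : WithTop ℤ) < ((i * k : ℤ) : WithTop ℤ) := by
      have : (P.natDegree * k : ℤ) < i * k := by
        have : (i : ℤ) < P.natDegree := by exact_mod_cast hi'
        nlinarith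
      exact_mod_cast this
    exact h3.trans_le (le_add_of_nonneg_left (hc i))
  rw [← w.map_neg, ← h1, val_pow w hk] at h2
  exact lt_irrefl _ h2

section conj

variable [FiniteDimensional K N] [IsGalois K N]

/-- if all conjugates are `v`-integral the element is `w`-integral -/
theorem nonneg_of_conj (v w : AddValuation N (WithTop ℤ))
    (hK : ∀ x : K, v (algebraMap K N x) = w (algebraMap K N x)) {y : N}
    (hy : ∀ h : N ≃ₐ[K] N, 0 ≤ v (h y)) : 0 ≤ w y := by
  classical
  set P : Polynomial N := ∏ h : N ≃ₐ[K] N, (Polynomial.X - Polynomial.C (h y)) with hPdef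
  have hP : P.Monic := Polynomial.monic_prod_of_monic _ _ fun h _ => Polynomial.monic_X_sub_C _
  have hev : P.eval y = 0 := by
    rw [hPdef, Polynomial.eval_prod]
    exact Finset.prod_eq_zero (Finset.mem_univ 1) (by simp)
  refine nonneg_of_monic w hP (fun i => ?_) hev
  have h1 : 0 ≤ v (P.coeff i) := by
    have h2 : P = (∏ h : N ≃ₐ[K] N, (Polynomial.X -
        Polynomial.C (⟨h y, hy h⟩ : ring v))).map (ring v).subtype := by
      rw [hPdef, Polynomial.map_prod]
      refine Finset.prod_congr rfl fun h _ => ?_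
      simp
    rw [h2, Polynomial.coeff_map]
    exact mem_ring.1 (Subtype.property _)
  have h3 : P.coeff i ∈ Set.range (algebraMap K N) := by
    rw [IsGalois.mem_range_algebraMap_iff_fixed]
    intro f
    have h4 : P.map (f : N →+* N) = P := by
      rw [hPdef, Polynomial.map_prod]
      refine Fintype.prod_equiv (Equiv.mulLeft f) _ _ fun h => ?_
      simp
    have h5 := congrArg (fun Q => Polynomial.coeff Q i) h4
    simpa [Polynomial.coeff_map] using h5
  obtain ⟨x, hx⟩ := h3
  rw [← hx, ← hK, hx]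
  exact h1

theorem exists_nonneg_conj (v w : AddValuation N (WithTop ℤ))
    (hK : ∀ x : K, v (algebraMap K N x) = w (algebraMap K N x)) {t : K} {n : ℕ} (hn : 0 < n)
    (ht : v (algebraMap K N t) = ((n : ℤ) : WithTop ℤ)) {y : N} (hy : 0 ≤ w y) :
    ∃ h : N ≃ₐ[K] N, 0 ≤ v (h y) := by
  by_contra hcon
  push Not at hcon
  have hy0 : y ≠ 0 := by
    rintro rfl
    have := hcon 1
    rw [map_zero, v.map_zero] at this
    exact not_top_lt this
  obtain ⟨k, hk⟩ := exists_int w hy0
  have hk0 : 0 ≤ k := by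
    rw [hk] at hy
    exact_mod_cast hy
  have h1 : 0 ≤ w ((y⁻¹) ^ n * (algebraMap K N t)⁻¹) := by
    refine nonneg_of_conj v w hK fun h => ?_
    obtain ⟨l, hl⟩ := exists_int v ((map_ne_zero h).2 hy0)
    have hl0 : l < 0 := by
      have := hcon h
      rw [hl] at this
      exact_mod_cast this
    rw [map_mul, map_pow, map_inv₀, map_inv₀, h.commutes, v.map_mul, val_pow v (val_inv v hl),
      val_inv v ht, ← WithTop.coe_add]
    have : (0 : ℤ) ≤ n * -l + -n := by
      have : (0 : ℤ) < n := by exact_mod_cast hn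
      nlinarith
    exact_mod_cast this
  rw [w.map_mul, val_pow w (val_inv w hk), val_inv w ((hK t).symm.trans ht),
    ← WithTop.coe_add] at h1
  have h2 : (0 : ℤ) ≤ n * -k + -n := by exact_mod_cast h1
  have : (0 : ℤ) < n := by exact_mod_cast hn
  nlinarith

/-- comparable valuations with the same normalisation are equal -/
theorem eq_of_le (v w : AddValuation N (WithTop ℤ)) {t : N} {n : ℕ} (hn : 0 < n)
    (hv : v t = ((n : ℤ) : WithTop ℤ)) (hw : w t = ((n : ℤ) : WithTop ℤ))
    (h : ∀ y, 0 ≤ w y → 0 ≤ v y) (y : N) : w y = v y := by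
  by_cases hy0 : y = 0
  · rw [hy0, v.map_zero, w.map_zero]
  obtain ⟨k, hk⟩ := exists_int w hy0
  obtain ⟨l, hl⟩ := exists_int v hy0
  have hn' : (0 : ℤ) < n := by exact_mod_cast hn
  have h1 : w (y ^ n * t ^ (-k)) = ((0 : ℤ) : WithTop ℤ) := by
    rw [w.map_mul, val_pow w hk, val_zpow w hw, ← WithTop.coe_add]
    congr 1
    ring
  have h2 : v (y ^ n * t ^ (-k)) = ((n * l + -k * n : ℤ) : WithTop ℤ) := by
    rw [v.map_mul, val_pow v hl, val_zpow v hv, ← WithTop.coe_add]
  have h3 := h _ (by rw [h1]; exact le_rfl)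
  have h4 := h _ (by rw [val_inv w h1]; exact le_rfl)
  rw [h2] at h3
  rw [val_inv v h2] at h4
  have h5 : (0 : ℤ) ≤ n * l + -k * n := by exact_mod_cast h3
  have h6 : (0 : ℤ) ≤ -(n * l + -k * n) := by exact_mod_cast h4
  have h7 : k = l := by
    have : (n : ℤ) * (l - k) = 0 := by linarith
    rcases mul_eq_zero.1 this with h | h <;> omega
  rw [hk, hl, h7]

/-- **conjugacy of valuations** -/
theorem exists_conj_val [Infinite C] (v w : AddValuation N (WithTop ℤ))
    (hv : ∀ c : C, c ≠ 0 → v (algebraMap C N c) = 0)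
    (hK : ∀ x : K, v (algebraMap K N x) = w (algebraMap K N x)) {t : K} {n : ℕ} (hn : 0 < n)
    (ht : v (algebraMap K N t) = ((n : ℤ) : WithTop ℤ)) :
    ∃ h : N ≃ₐ[K] N, ∀ y, w y = v (h y) := by
  have hv' : ∀ c : C, 0 ≤ v (algebraMap C N c) := fun c => by
    by_cases hc : c = 0
    · rw [hc, map_zero, v.map_zero]
      exact le_top
    · rw [hv c hc]
  have hw' : ∀ c : C, 0 ≤ w (algebraMap C N c) := fun c => by
    rw [IsScalarTower.algebraMap_apply C K N, ← hK, ← IsScalarTower.algebraMap_apply]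
    exact hv' c
  let O : Submodule C N :=
    { carrier := {y | 0 ≤ w y}
      add_mem' := fun ha hb => w.map_le_add ha hb
      zero_mem' := (ring w).zero_mem
      smul_mem' := fun c y hy => by
        change 0 ≤ w (c • y)
        rw [Algebra.smul_def, w.map_mul]
        exact add_nonneg (hw' c) hy }
  let p : (N ≃ₐ[K] N) → Submodule C O := fun h =>
    { carrier := {y | 0 ≤ v (h y.1)}
      add_mem' := fun {a b} ha hb => by
        change 0 ≤ v (h (a.1 + b.1))
        rw [map_add]
        exact v.map_le_add ha hb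
      zero_mem' := by
        change 0 ≤ v (h 0)
        rw [map_zero]
        exact (ring v).zero_mem
      smul_mem' := fun c y hy => by
        change 0 ≤ v (h (c • y.1))
        rw [Algebra.smul_def, map_mul, IsScalarTower.algebraMap_apply C K N, h.commutes,
          ← IsScalarTower.algebraMap_apply, v.map_mul]
        exact add_nonneg (hv' c) hy }
  have h1 : ∃ h, p h = ⊤ := by
    by_contra hcon
    push Not at hcon
    obtain ⟨y, hy⟩ := Submodule.exists_forall_notMem_of_forall_ne_top p hcon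
    obtain ⟨h, hh⟩ := exists_nonneg_conj v w hK hn ht (y := y.1) y.2
    exact hy h hh
  obtain ⟨h, hh⟩ := h1
  refine ⟨h, fun y => ?_⟩
  refine eq_of_le (v.comap (h : N →+* N)) w (t := algebraMap K N t) hn ?_
    ((hK t).symm.trans ht) (fun z hz => ?_) y
  · change v (h (algebraMap K N t)) = _
    rw [h.commutes, ht]
  · have : (⟨z, hz⟩ : O) ∈ p h := by rw [hh]; trivial
    exact this

end conj

/-- an automorphism of finite order acting trivially on the graded ring is trivial -/
theorem eq_one_of_val (v : AddValuation N (WithTop ℤ))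
    (hv : ∀ r : ℕ, r ≠ 0 → v (r : N) = 0) {h : N ≃ₐ[K] N} (hfin : IsOfFinOrder h)
    (hh : ∀ f (k : ℤ), v f = k → (k : WithTop ℤ) < v (h f - f)) : h = 1 := by
  ext f
  by_contra hne
  have hd : h f - f ≠ 0 := sub_ne_zero.2 hne
  obtain ⟨k, hk⟩ := exists_int v hd
  set d := h f - f with hdef
  have h1 : ∀ i : ℕ, (k : WithTop ℤ) < v ((h ^ i) d - d) := by
    intro i
    induction i with
    | zero => simp
    | succ i ih =>
      have h2 : v ((h ^ i) d) = k := by
        rw [← hk]
        exact v.map_eq_of_lt_sub (by rwa [hk])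
      have h3 := hh _ k h2
      have h4 : (h ^ (i + 1)) d - d = (h ((h ^ i) d) - (h ^ i) d) + ((h ^ i) d - d) := by
        rw [pow_succ', AlgEquiv.mul_apply]
        ring
      rw [h4]
      exact v.map_lt_add h3 ih
  have h2 : ∀ m : ℕ, ∑ i ∈ Finset.range m, (h ^ i) d = (h ^ m) f - f := by
    intro m
    induction m with
    | zero => simp
    | succ m ih =>
      rw [Finset.sum_range_succ, ih, hdef, map_sub, pow_succ, AlgEquiv.mul_apply]
      ring
  obtain ⟨m, hm, hm1⟩ := isOfFinOrder_iff_pow_eq_one.1 hfin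
  have h3 : (k : WithTop ℤ) < v (∑ i ∈ Finset.range m, ((h ^ i) d - d)) :=
    v.map_lt_sum WithTop.coe_ne_top fun i _ => h1 i
  rw [Finset.sum_sub_distrib, h2, hm1, AlgEquiv.one_apply, sub_self, zero_sub, v.map_neg,
    Finset.sum_const, Finset.card_range, nsmul_eq_mul, v.map_mul, hk, hv _ hm.ne', zero_add] at h3
  exact lt_irrefl _ h3

theorem val_zpow_unit (v : AddValuation N (WithTop ℤ)) {z : N} (hz : v z = 0) (k : ℤ) :
    v (z ^ k) = 0 := by
  have h := val_zpow v (y := z) (k := 0) hz k
  rw [mul_zero] at h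
  exact h

/-- the datum forces `g` to preserve `v` -/
theorem val_map_of_canon (v : AddValuation N (WithTop ℤ)) {z : N} (hz : v z = 0) {g : N → N}
    (h0 : g 0 = 0)
    (hg : ∀ f (k : ℤ), v f = k → (k : WithTop ℤ) < v (g f - z ^ k * f)) (f : N) :
    v (g f) = v f := by
  by_cases hf : f = 0
  · rw [hf, h0]
  obtain ⟨k, hk⟩ := exists_int v hf
  have h1 : v (z ^ k * f) = k := by
    rw [v.map_mul, val_zpow_unit v hz, zero_add, hk]
  rw [hk, ← h1]
  exact v.map_eq_of_lt_sub (by rw [h1]; exact hg f k hk)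

/-- uniqueness for one valuation -/
theorem eq_of_canon [FiniteDimensional K N] (v : AddValuation N (WithTop ℤ))
    (hv : ∀ r : ℕ, r ≠ 0 → v (r : N) = 0) {z : N} (hz : v z = 0) {g g' : N ≃ₐ[K] N}
    (hg : ∀ f (k : ℤ), v f = k → (k : WithTop ℤ) < v (g f - z ^ k * f))
    (hg' : ∀ f (k : ℤ), v f = k → (k : WithTop ℤ) < v (g' f - z ^ k * f)) :
    g = g' := by
  have h1 : g⁻¹ * g' = 1 := by
    refine eq_one_of_val v hv (isOfFinOrder_of_finite _) fun f k hk => ?_
    rw [← val_map_of_canon v hz (map_zero g) hg, map_sub]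
    have h2 : g ((g⁻¹ * g') f) = g' f := by
      rw [← AlgEquiv.mul_apply, mul_inv_cancel_left]
    have h3 : g' f - g f = (g' f - z ^ k * f) - (g f - z ^ k * f) := by
      ring
    rw [h2, h3, sub_eq_add_neg]
    refine v.map_lt_add (hg' f k hk) ?_
    rw [v.map_neg]
    exact hg f k hk
  exact inv_mul_eq_one.1 h1

/-- conjugacy of valuations in residue characteristic `0`, no field of constants -/
theorem exists_conj_val' [FiniteDimensional K N] [IsGalois K N]
    (v w : AddValuation N (WithTop ℤ)) (hv : ∀ r : ℕ, r ≠ 0 → v (r : N) = 0)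
    (hK : ∀ x : K, v (algebraMap K N x) = w (algebraMap K N x)) {t : K} {n : ℕ} (hn : 0 < n)
    (ht : v (algebraMap K N t) = ((n : ℤ) : WithTop ℤ)) :
    ∃ h : N ≃ₐ[K] N, ∀ y, w y = v (h y) := by
  have hN : CharZero N := charZero_of_inj_zero fun r hr => by
    by_contra h
    have h1 := hv r h
    rw [hr, v.map_zero] at h1
    exact WithTop.top_ne_zero h1
  have hKc : CharZero K := (algebraMap K N).charZero
  have hZ : ∀ r : ℤ, r ≠ 0 → v (r : N) = ((0 : ℤ) : WithTop ℤ) := by
    intro r hr
    obtain ⟨m, rfl | rfl⟩ := r.eq_nat_or_neg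
    · rw [Int.cast_natCast]
      exact hv m (by omega)
    · rw [Int.cast_neg, v.map_neg, Int.cast_natCast]
      exact hv m (by omega)
  refine exists_conj_val (C := ℚ) v w (fun c hc => ?_) hK hn ht
  have h1 : algebraMap ℚ N c = (c.num : N) * ((c.den : ℤ) : N)⁻¹ := by
    rw [eq_ratCast, Rat.cast_def, div_eq_mul_inv, Int.cast_natCast]
  rw [h1, v.map_mul, hZ _ (Rat.num_ne_zero.2 hc),
    val_inv v (hZ _ (by exact_mod_cast c.den_ne_zero))]
  rfl

/-- **uniqueness**: two data over the same place of `K` give conjugate elements -/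
theorem conj_of_canon [FiniteDimensional K N] [IsGalois K N]
    (v w : AddValuation N (WithTop ℤ)) (hv : ∀ r : ℕ, r ≠ 0 → v (r : N) = 0)
    (hK : ∀ x : K, v (algebraMap K N x) = w (algebraMap K N x)) {t : K} {n : ℕ} (hn : 0 < n)
    (ht : v (algebraMap K N t) = ((n : ℤ) : WithTop ℤ)) {ζ : K} (hζ : v (algebraMap K N ζ) = 0)
    {g g' : N ≃ₐ[K] N}
    (hg : ∀ f (k : ℤ), v f = k → (k : WithTop ℤ) < v (g f - algebraMap K N ζ ^ k * f))
    (hg' : ∀ f (k : ℤ), w f = k → (k : WithTop ℤ) < w (g' f - algebraMap K N ζ ^ k * f)) :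
    IsConj g' g := by
  obtain ⟨h, hh⟩ := exists_conj_val' v w hv hK hn ht
  have h1 : h * g' * h⁻¹ = g := by
    refine eq_of_canon v hv hζ (fun f k hk => ?_) hg
    have h2 : w (h⁻¹ f) = k := by
      rw [hh, ← AlgEquiv.mul_apply, mul_inv_cancel, AlgEquiv.one_apply, hk]
    have h3 := hg' _ k h2
    rw [hh, map_sub, map_mul, map_zpow₀, h.commutes, ← AlgEquiv.mul_apply h h⁻¹, mul_inv_cancel,
      AlgEquiv.one_apply] at h3
    exact h3
  exact isConj_iff.2 ⟨h, h1⟩

end Crest.Agent.T170.RetU
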