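import Crest.Agent.T170.RetDefs_90
import Crest.Agent.T170.RetU_81

/-!
# Row 170, module C (RET), API for the local data (helper81)

`uniq : UniqStmt`; `GenOver.conj`, `GenOver.restrict`, `GenOver.map`; `AV.mul`, `AV.div`;
`Unr.isGen_one`, `IsGen.unr`; `IsRat.sub`, `IsRat.inv`, `IsRat.mul`; `Ctr.unique`;
`IsGen.isConj`, `IsGen.eq_one`.
-/

set_option autoImplicit false
set_option linter.unusedSectionVars false

namespace Crest.Agent.T170.Ret

open Crest.Agent.T170.RetU

theorem uniq' {K N : Type*} [Field K] [Field N] [Algebra K N] [FiniteDimensional K N]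
    [IsGalois K N] {u : AV K} {ζ : K} (hr : ∀ r : ℕ, r ≠ 0 → u (r : K) = 0) (hζ : u ζ = 0)
    (ht : ∃ t : K, t ≠ 0 ∧ 0 < u t) {g g' : N ≃ₐ[K] N} (hg : GenOver u ζ g)
    (hg' : GenOver u ζ g') : IsConj g g' := by
  obtain ⟨t, ht0, ht⟩ := ht
  obtain ⟨v, hv, hvg⟩ := hg
  obtain ⟨w, hw, hwg⟩ := hg'
  obtain ⟨k, hk⟩ := exists_int u ht0
  have hk0 : 0 < k := by
    rw [hk] at ht
    exact_mod_cast ht
  obtain ⟨n, rfl⟩ := Int.eq_ofNat_of_zero_le hk0.le
  refine conj_of_canon w v (fun r h => ?_) (fun x => (hw x).trans (hv x).symm) (t := t) (n := n)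
    (by exact_mod_cast hk0) ((hw t).trans hk) ((hw ζ).trans hζ) hwg hvg
  rw [← map_natCast (algebraMap K N), hw, hr r h]

/-- **uniqueness** -/
theorem uniq : UniqStmt := fun _ _ _ _ _ _ _ _ _ hr hζ ht _ _ hg hg' => uniq' hr hζ ht hg hg'

section basic

variable {C K N : Type*} [Field C] [Field K] [Field N] [Algebra C K] [Algebra K N]

theorem Rot.val_map {v : AV N} {z : N} {g : N → N} (h : Rot v z g) (hz : v z = 0)
    (h0 : g 0 = 0) (f : N) : v (g f) = v f := val_map_of_canon v hz h0 h f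

theorem GenOver.conj {u : AV K} {ζ : K} {g : N ≃ₐ[K] N} (h : GenOver u ζ g) (k : N ≃ₐ[K] N) :
    GenOver u ζ (k * g * k⁻¹) := by
  obtain ⟨v, hv, hg⟩ := h
  refine ⟨v.comap (k⁻¹ : N ≃ₐ[K] N), fun f => ?_, fun f j hj => ?_⟩
  · change v (k⁻¹ (algebraMap K N f)) = _
    rw [AlgEquiv.commutes, hv]
  · change _ < v (k⁻¹ ((k * g * k⁻¹) f - algebraMap K N ζ ^ j * f))
    rw [map_sub, map_mul, map_zpow₀, AlgEquiv.commutes, ← AlgEquiv.mul_apply, ← mul_assoc,
      ← mul_assoc, inv_mul_cancel, one_mul, AlgEquiv.mul_apply]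
    exact hg _ j hj

theorem GenOver.of_isConj {u : AV K} {ζ : K} {g g' : N ≃ₐ[K] N} (h : GenOver u ζ g)
    (hc : IsConj g g') : GenOver u ζ g' := by
  obtain ⟨k, rfl⟩ := isConj_iff.1 hc
  exact h.conj k

/-- pull back along a `K`-embedding -/
theorem GenOver.comap {M : Type*} [Field M] [Algebra K M] {u : AV K} {ζ : K} {g : N ≃ₐ[K] N}
    (h : GenOver u ζ g) (j : M →ₐ[K] N) {g' : M ≃ₐ[K] M} (hg : ∀ y, j (g' y) = g (j y)) :
    GenOver u ζ g' := by
  obtain ⟨v, hv, hr⟩ := h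
  refine ⟨v.comap (j : M →+* N), fun f => ?_, fun f k hk => ?_⟩
  · change v (j (algebraMap K M f)) = _
    rw [j.commutes, hv]
  · change _ < v (j (g' f - algebraMap K M ζ ^ k * f))
    rw [map_sub, map_mul, map_zpow₀, j.commutes, hg]
    exact hr _ k hk

theorem GenOver.restrictNormal (M : Type*) [Field M] [Algebra K M] [Algebra M N]
    [IsScalarTower K M N] [Normal K M] {u : AV K} {ζ : K} {g : N ≃ₐ[K] N} (h : GenOver u ζ g) :
    GenOver u ζ (g.restrictNormal M) :=
  h.comap (IsScalarTower.toAlgHom K M N) fun y => g.restrictNormal_commutes M y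

theorem IsGen.conj {t : K} {ζ : C} {n : ℕ} {g : N ≃ₐ[K] N} (h : IsGen C t ζ n g)
    (k : N ≃ₐ[K] N) : IsGen C t ζ n (k * g * k⁻¹) := by
  obtain ⟨u, hu, hg⟩ := h
  exact ⟨u, hu, hg.conj k⟩

theorem IsGen.of_isConj {t : K} {ζ : C} {n : ℕ} {g g' : N ≃ₐ[K] N} (h : IsGen C t ζ n g)
    (hc : IsConj g g') : IsGen C t ζ n g' := by
  obtain ⟨u, hu, hg⟩ := h
  exact ⟨u, hu, hg.of_isConj hc⟩

theorem IsGen.comap {M : Type*} [Field M] [Algebra K M] {t : K} {ζ : C} {n : ℕ}
    {g : N ≃ₐ[K] N} (h : IsGen C t ζ n g) (j : M →ₐ[K] N) {g' : M ≃ₐ[K] M}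
    (hg : ∀ y, j (g' y) = g (j y)) : IsGen C t ζ n g' := by
  obtain ⟨u, hu, hr⟩ := h
  exact ⟨u, hu, hr.comap j hg⟩

theorem IsGen.restrictNormal (M : Type*) [Field M] [Algebra K M] [Algebra M N]
    [IsScalarTower K M N] [Normal K M] {t : K} {ζ : C} {n : ℕ} {g : N ≃ₐ[K] N}
    (h : IsGen C t ζ n g) : IsGen C t ζ n (g.restrictNormal M) :=
  h.comap (IsScalarTower.toAlgHom K M N) fun y => g.restrictNormal_commutes M y

/-- subfields of unramified fields are unramified -/
theorem Unr.comap {M : Type*} [Field M] [Algebra K M] {t : K} (h : Unr C N t) (j : M →ₐ[K] N) :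
    Unr C M t := by
  obtain ⟨v, h1, h2⟩ := h
  refine ⟨v.comap (j : M →+* N), fun c hc => ?_, ?_⟩
  · change v (j (algebraMap K M _)) = _
    rw [j.commutes]
    exact h1 c hc
  · change v (j (algebraMap K M _)) = _
    rw [j.commutes]
    exact h2

theorem Ctr.nat [CharZero C] {u : AV K} {t : K} {n : ℕ} (h : Ctr C u t n) (r : ℕ) (hr : r ≠ 0) :
    u (r : K) = 0 := by
  rw [← map_natCast (algebraMap C K)]
  exact h.1 _ (Nat.cast_ne_zero.2 hr)

theorem Ctr.ne_zero {u : AV K} {t : K} {n : ℕ} (h : Ctr C u t n) : t ≠ 0 := by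
  rintro rfl
  have h1 := h.2
  rw [u.map_zero] at h1
  exact WithTop.top_ne_coe h1

theorem Ctr.const_mul {u : AV K} {t : K} {n : ℕ} (h : Ctr C u t n) {c : C} (hc : c ≠ 0) :
    Ctr C u (algebraMap C K c * t) n :=
  ⟨h.1, by rw [u.map_mul, h.1 c hc, zero_add, h.2]⟩

theorem IsGen.const_mul {t : K} {ζ : C} {n : ℕ} {g : N ≃ₐ[K] N} (h : IsGen C t ζ n g) {c : C}
    (hc : c ≠ 0) : IsGen C (algebraMap C K c * t) ζ n g := by
  obtain ⟨u, hu, hr⟩ := h
  exact ⟨u, hu.const_mul hc, hr⟩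

theorem Unr.const_mul {t : K} (h : Unr C N t) {c : C} (hc : c ≠ 0) :
    Unr C N (algebraMap C K c * t) := by
  obtain ⟨v, hv⟩ := h
  exact ⟨v, hv.const_mul hc⟩

/-! ### rescaling -/

/-- the valuation `n v` -/
noncomputable def AV.mul (v : AV N) (n : ℕ) (hn : 0 < n) : AV N :=
  AddValuation.of (fun y => v (y ^ n)) (by simp [hn.ne']) (by simp)
    (fun x y => by
      by_cases hx : x = 0
      · simp [hx, hn.ne']
      by_cases hy : y = 0
      · simp [hy, hn.ne']
      by_cases hxy : x + y = 0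
      · simp [hxy, hn.ne']
      obtain ⟨a, ha⟩ := exists_int v hx
      obtain ⟨b, hb⟩ := exists_int v hy
      obtain ⟨c, hc⟩ := exists_int v hxy
      have h1 := v.map_add x y
      rw [ha, hb, hc, ← WithTop.coe_min, WithTop.coe_le_coe] at h1
      rw [val_pow v ha, val_pow v hb, val_pow v hc, ← WithTop.coe_min, WithTop.coe_le_coe]
      have hn' : (0 : ℤ) ≤ n := by positivity
      rcases min_le_iff.1 h1 with h | h
      · exact min_le_of_left_le (mul_le_mul_of_nonneg_left h hn')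
      · exact min_le_of_right_le (mul_le_mul_of_nonneg_left h hn'))
    (fun x y => by rw [mul_pow, v.map_mul])

theorem AV.mul_apply (v : AV N) (n : ℕ) (hn : 0 < n) (y : N) : v.mul n hn y = v (y ^ n) := rfl

theorem AV.mul_of_eq {v : AV N} (n : ℕ) (hn : 0 < n) {y : N} {k : ℤ} (h : v y = k) :
    v.mul n hn y = ((n * k : ℤ) : WithTop ℤ) := val_pow v h n

/-- the valuation `v / n` -/
noncomputable def AV.div (v : AV N) (n : ℕ) (hn : 0 < n)
    (hd : ∀ y (k : ℤ), v y = k → (n : ℤ) ∣ k) : AV N :=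
  AddValuation.of (fun y => WithTop.map (fun k : ℤ => k / n) (v y)) (by simp)
    (by
      rw [v.map_one, ← WithTop.coe_zero, WithTop.map_coe, Int.zero_ediv])
    (fun x y => by
      by_cases hx : x = 0
      · simp [hx]
      by_cases hy : y = 0
      · simp [hy]
      by_cases hxy : x + y = 0
      · simp [hxy]
      obtain ⟨a, ha⟩ := exists_int v hx
      obtain ⟨b, hb⟩ := exists_int v hy
      obtain ⟨c, hc⟩ := exists_int v hxy
      have h1 := v.map_add x y
      rw [ha, hb, hc, ← WithTop.coe_min, WithTop.coe_le_coe] at h1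
      rw [ha, hb, hc, WithTop.map_coe, WithTop.map_coe, WithTop.map_coe, ← WithTop.coe_min,
        WithTop.coe_le_coe]
      have hn' : (0 : ℤ) < n := by exact_mod_cast hn
      rcases min_le_iff.1 h1 with h | h
      · exact min_le_of_left_le (Int.ediv_le_ediv hn' h)
      · exact min_le_of_right_le (Int.ediv_le_ediv hn' h))
    (fun x y => by
      by_cases hx : x = 0
      · simp [hx]
      by_cases hy : y = 0
      · simp [hy]
      obtain ⟨a, ha⟩ := exists_int v hx
      obtain ⟨b, hb⟩ := exists_int v hy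
      rw [v.map_mul, ha, hb, ← WithTop.coe_add, WithTop.map_coe, WithTop.map_coe, WithTop.map_coe,
        ← WithTop.coe_add, Int.add_ediv_of_dvd_left (hd x a ha)])

theorem AV.div_of_eq {v : AV N} {n : ℕ} (hn : 0 < n)
    (hd : ∀ y (k : ℤ), v y = k → (n : ℤ) ∣ k) {y : N} {k : ℤ} (h : v y = k) :
    v.div n hn hd y = ((k / n : ℤ) : WithTop ℤ) := by
  change WithTop.map (fun k : ℤ => k / n) (v y) = _
  rw [h, WithTop.map_coe]

theorem AV.mul_div {v : AV N} {n : ℕ} (hn : 0 < n)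
    (hd : ∀ y (k : ℤ), v y = k → (n : ℤ) ∣ k) : (v.div n hn hd).mul n hn = v := by
  refine AddValuation.ext fun y => ?_
  by_cases hy : y = 0
  · rw [hy, AddValuation.map_zero, AddValuation.map_zero]
  obtain ⟨k, hk⟩ := exists_int v hy
  rw [AV.mul_of_eq n hn (AV.div_of_eq hn hd hk), hk, Int.mul_ediv_cancel' (hd y k hk)]

theorem Ctr.mul {u : AV K} {t : K} {m : ℕ} (h : Ctr C u t m) (n : ℕ) (hn : 0 < n) :
    Ctr C (u.mul n hn) t (n * m) := by
  refine ⟨fun c hc => ?_, ?_⟩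
  · rw [AV.mul_apply, ← map_pow]
    exact h.1 _ (pow_ne_zero _ hc)
  · rw [AV.mul_of_eq n hn h.2]
    push_cast
    rfl

theorem rot_mul_one (v : AV N) {n : ℕ} (hn : 0 < n) {z : N} (hz : z ^ n = 1) :
    Rot (v.mul n hn) z (fun y => y) := by
  intro f k hk
  have hf : f ≠ 0 := by
    rintro rfl
    rw [AddValuation.map_zero] at hk
    exact WithTop.top_ne_coe hk
  obtain ⟨l, hl⟩ := exists_int v hf
  rw [AV.mul_of_eq n hn hl, WithTop.coe_inj] at hk
  rw [← hk, zpow_mul, zpow_natCast, hz, one_zpow, one_mul, sub_self, AddValuation.map_zero]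
  exact WithTop.coe_lt_top _

/-- at an unramified place `1` is a canonical generator -/
theorem Unr.isGen_one {t : K} (h : Unr C N t) {ζ : C} {n : ℕ} (hn : 0 < n) (hζ : ζ ^ n = 1) :
    IsGen C t ζ n (1 : N ≃ₐ[K] N) := by
  obtain ⟨v, hv⟩ := h
  have h1 := hv.mul n hn
  rw [mul_one] at h1
  refine ⟨_, h1, v.mul n hn, fun f => ?_, rot_mul_one v hn ?_⟩
  · rw [AV.mul_apply, AV.mul_apply, ← map_pow]
    rfl
  · rw [← map_pow, ← map_pow, hζ, map_one, map_one]

/-- the value of an element fixed by the generator is divisible by `n` -/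
theorem Rot.dvd [Algebra C N] {v : AV N} (hv : ∀ c : C, c ≠ 0 → v (algebraMap C N c) = 0) {ζ : C}
    {n : ℕ} (hζ : IsPrimitiveRoot ζ n) {g : N → N} (h : Rot v (algebraMap C N ζ) g) {f : N}
    (hf : g f = f) {k : ℤ} (hk : v f = k) : (n : ℤ) ∣ k := by
  rw [← hζ.zpow_eq_one_iff_dvd]
  by_contra hne
  have h1 := h f k hk
  have h2 : g f - algebraMap C N ζ ^ k * f = algebraMap C N (1 - ζ ^ k) * f := by
    rw [hf, map_sub, map_one, map_zpow₀]
    ring
  rw [h2, v.map_mul, hv _ (sub_ne_zero.2 (Ne.symm hne)), zero_add, hk] at h1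
  exact lt_irrefl _ h1

/-- if `1` is a canonical generator the place is unramified -/
theorem IsGen.unr {t : K} {ζ : C} {n : ℕ} (hn : 0 < n) (hζ : IsPrimitiveRoot ζ n)
    (h : IsGen C t ζ n (1 : N ≃ₐ[K] N)) : Unr C N t := by
  obtain ⟨u, hu, v, hv, hr⟩ := h
  let _ : Algebra C N := ((algebraMap K N).comp (algebraMap C K)).toAlgebra
  have hv' : ∀ c : C, c ≠ 0 → v (algebraMap C N c) = 0 := fun c hc => (hv _).trans (hu.1 c hc)
  have hd : ∀ y (k : ℤ), v y = k → (n : ℤ) ∣ k := fun y k hk =>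
    Rot.dvd (C := C) hv' hζ (g := (1 : N ≃ₐ[K] N)) hr rfl hk
  refine ⟨v.div n hn hd, fun c hc => ?_, ?_⟩
  · have h1 := AV.div_of_eq hn hd (k := 0) (hv' c hc)
    rw [Int.zero_ediv] at h1
    exact h1
  · change v.div n hn hd (algebraMap K N t) = _
    rw [AV.div_of_eq hn hd ((hv t).trans hu.2), Int.ediv_self (by exact_mod_cast hn.ne')]
    rfl

/-! ### the rational function field -/

theorem IsRat.of_mem {x y : K} (h : IsRat C K x) (hy : x ∈ IntermediateField.adjoin C {y}) :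
    IsRat C K y := by
  have h1 : IntermediateField.adjoin C {y} = ⊤ := by
    rw [eq_top_iff, ← h.2, IntermediateField.adjoin_simple_le_iff]
    exact hy
  refine ⟨fun ha => h.1 ?_, h1⟩
  have h2 := IntermediateField.isAlgebraic_adjoin_simple ha.isIntegral
  exact IntermediateField.isAlgebraic_iff.1 (h2.isAlgebraic ⟨x, hy⟩)

theorem IsRat.sub {x : K} (h : IsRat C K x) (a : C) : IsRat C K (x - algebraMap C K a) := by
  refine h.of_mem ?_
  have h1 : x = (x - algebraMap C K a) + algebraMap C K a := by ring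
  nth_rewrite 2 [h1]
  exact add_mem (IntermediateField.mem_adjoin_simple_self C _) (IntermediateField.algebraMap_mem _ a)

theorem IsRat.inv {x : K} (h : IsRat C K x) : IsRat C K x⁻¹ := by
  refine h.of_mem ?_
  nth_rewrite 2 [← inv_inv x]
  exact inv_mem (IntermediateField.mem_adjoin_simple_self C _)

theorem IsRat.const_mul {x : K} (h : IsRat C K x) {c : C} (hc : c ≠ 0) :
    IsRat C K (algebraMap C K c * x) := by
  refine h.of_mem ?_
  have h1 : x = algebraMap C K c⁻¹ * (algebraMap C K c * x) := by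
    rw [← mul_assoc, ← map_mul, inv_mul_cancel₀ hc, map_one, one_mul]
  nth_rewrite 2 [h1]
  exact mul_mem (IntermediateField.algebraMap_mem _ _) (IntermediateField.mem_adjoin_simple_self C _)

theorem IsRat.ne_zero {x : K} (h : IsRat C K x) : x ≠ 0 := by
  rintro rfl
  exact h.1 isAlgebraic_zero

theorem Ctr.aeval {u u' : AV K} {t : K} {n : ℕ} (hn : 0 < n) (h : Ctr C u t n)
    (h' : Ctr C u' t n) (p : Polynomial C) :
    u (Polynomial.aeval t p) = u' (Polynomial.aeval t p) ∧ 0 ≤ u (Polynomial.aeval t p) ∧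
      (p.coeff 0 = 0 → 0 < u (Polynomial.aeval t p)) := by
  induction p using Polynomial.recOnHorner with
  | M0 => simp
  | MC p a hp ha ih =>
    obtain ⟨h1, -, h3⟩ := ih
    have h4 := h3 hp
    rw [map_add, Polynomial.aeval_C]
    have h5 : u (Polynomial.aeval t p + algebraMap C K a) = 0 := by
      rw [u.map_add_eq_of_lt_right (by rw [h.1 a ha]; exact h4), h.1 a ha]
    have h6 : u' (Polynomial.aeval t p + algebraMap C K a) = 0 := by
      rw [u'.map_add_eq_of_lt_right (by rw [h'.1 a ha, ← h1]; exact h4), h'.1 a ha]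
    refine ⟨h5.trans h6.symm, h5.ge, fun h7 => ?_⟩
    rw [Polynomial.coeff_add, hp, zero_add, Polynomial.coeff_C_zero] at h7
    exact absurd h7 ha
  | MX p hp ih =>
    obtain ⟨h1, h2, -⟩ := ih
    have h4 : (0 : WithTop ℤ) < ((n : ℤ) : WithTop ℤ) := by exact_mod_cast hn
    rw [map_mul, Polynomial.aeval_X, u.map_mul, u'.map_mul, h.2, h'.2, h1]
    rw [h1] at h2
    have h5 : (0 : WithTop ℤ) < u' (Polynomial.aeval t p) + ((n : ℤ) : WithTop ℤ) :=
      h4.trans_le (le_add_of_nonneg_left h2)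
    exact ⟨rfl, h5.le, fun _ => h5⟩

/-- a place of `C(t)` with `u t = n > 0` is unique -/
theorem Ctr.unique {u u' : AV K} {t : K} {n : ℕ} (ht : IsRat C K t) (hn : 0 < n)
    (h : Ctr C u t n) (h' : Ctr C u' t n) : u = u' := by
  refine AddValuation.ext fun y => ?_
  have hy : y ∈ IntermediateField.adjoin C {t} := by rw [ht.2]; trivial
  obtain ⟨r, s, rfl⟩ := (IntermediateField.mem_adjoin_simple_iff C y).1 hy
  rw [u.map_div, u'.map_div, (h.aeval hn h' r).1, (h.aeval hn h' s).1]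

/-- canonical generators at a place of the line are conjugate -/
theorem IsGen.isConj [CharZero C] [FiniteDimensional K N] [IsGalois K N] {t : K}
    (ht : IsRat C K t) {ζ : C} (hζ : ζ ≠ 0) {n : ℕ} (hn : 0 < n) {g g' : N ≃ₐ[K] N}
    (h : IsGen C t ζ n g) (h' : IsGen C t ζ n g') : IsConj g g' := by
  obtain ⟨u, hu, hg⟩ := h
  obtain ⟨u', hu', hg'⟩ := h'
  obtain rfl := hu.unique ht hn hu'
  refine uniq' hu.nat (hu.1 ζ hζ) ⟨t, hu.ne_zero, ?_⟩ hg hg'
  rw [hu.2]
  exact_mod_cast hn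

/-- at an unramified place of the line canonical generators are trivial -/
theorem IsGen.eq_one [CharZero C] [FiniteDimensional K N] [IsGalois K N] {t : K}
    (ht : IsRat C K t) {ζ : C} {n : ℕ} (hn : 0 < n) (hζ : ζ ^ n = 1) {g : N ≃ₐ[K] N}
    (h : IsGen C t ζ n g) (hu : Unr C N t) : g = 1 := by
  have hζ0 : ζ ≠ 0 := by
    rintro rfl
    rw [zero_pow hn.ne'] at hζ
    exact zero_ne_one hζ
  exact isConj_one_left.1 (h.isConj ht hζ0 hn (hu.isGen_one hn hζ))

end basic

end Crest.Agent.T170.Ret
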