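import Crest.Agent.T170.RetApi_81

/-!
# Row 170, module C (RET), the count (helper81)

`retP1_of : GStmt → EStmt → RetP1`.
-/

set_option autoImplicit false
set_option linter.unusedSectionVars false

namespace Crest.Agent.T170.Ret

open Crest.Agent.T170.RetU Function

/-! ### dropping the apparent singularities -/

theorem prod_filter_map {α Γ : Type*} [Monoid Γ] (P : α → Bool) (g : α → Γ)
    (h : ∀ x, P x = false → g x = 1) (l : List α) :
    ((l.filter P).map g).prod = (l.map g).prod := by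
  induction l with
  | nil => rfl
  | cons x l ih =>
    cases hx : P x
    · rw [List.filter_cons_of_neg (by simp [hx]), ih, List.map_cons, List.prod_cons, h x hx,
        one_mul]
    · rw [List.filter_cons_of_pos (by simp [hx]), List.map_cons, List.prod_cons, ih, List.map_cons,
        List.prod_cons]

theorem exists_sub {β Γ : Type*} [Group Γ] {m m' : ℕ} {a : Fin m → β} {a' : Fin m' → β}
    (ha : Injective a) (ha' : Injective a') (hsub : ∀ i, a i ∈ Set.range a') (g : Fin m' → Γ)
    (hg : ∀ j, a' j ∉ Set.range a → g j = 1) :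
    ∃ (σ : Equiv.Perm (Fin m)) (e : Fin m → Fin m'), (∀ i, a' (e i) = a (σ i)) ∧
      (List.ofFn fun i => g (e i)).prod = (List.ofFn g).prod ∧
      Subgroup.closure (Set.range fun i => g (e i)) = Subgroup.closure (Set.range g) := by
  classical
  set l : List (Fin m') := (List.finRange m').filter fun j => decide (a' j ∈ Set.range a) with hl
  have hmem : ∀ j, j ∈ l ↔ a' j ∈ Set.range a := fun j => by simp [hl]
  have hnd : l.Nodup := (List.nodup_finRange m').filter _
  have hlen : m = l.length := by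
    have h1 : (l.map a').toFinset = Finset.univ.image a := by
      ext b
      simp only [List.mem_toFinset, List.mem_map, Finset.mem_image, Finset.mem_univ, true_and]
      constructor
      · rintro ⟨j, hj, rfl⟩
        exact (hmem j).1 hj
      · rintro ⟨i, rfl⟩
        obtain ⟨j, hj⟩ := hsub i
        exact ⟨j, (hmem j).2 ⟨i, hj.symm⟩, hj⟩
    have h2 := congrArg Finset.card h1
    rw [List.toFinset_card_of_nodup (hnd.map ha'), Finset.card_image_of_injective _ ha,
      List.length_map, Finset.card_univ, Fintype.card_fin] at h2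
    exact h2.symm
  let e : Fin m → Fin m' := fun i => l.get (i.cast hlen)
  have he : Injective e := fun i i' h =>
    Fin.cast_injective hlen (List.nodup_iff_injective_get.1 hnd h)
  have hel : List.ofFn e = l := List.ext_get (by simp [hlen]) (by simp [e])
  have h1 : ∀ i, ∃ k, a k = a' (e i) := fun i => (hmem _).1 (List.get_mem _ _)
  choose s hs using h1
  have hsi : Injective s := fun i i' h => he (ha' (by rw [← hs, ← hs, h]))
  refine ⟨Equiv.ofBijective s hsi.bijective_of_finite, e, fun i => (hs i).symm, ?_, ?_⟩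
  · have h2 : (List.ofFn fun i => g (e i)) = l.map g := by
      rw [← hel, List.map_ofFn]
      rfl
    rw [h2, hl, prod_filter_map _ g fun j hj => hg j (by simpa using hj), List.ofFn_eq_map]
  · refine le_antisymm (Subgroup.closure_mono ?_) ?_
    · rintro _ ⟨i, rfl⟩
      exact ⟨_, rfl⟩
    · rw [Subgroup.closure_le]
      rintro _ ⟨j, rfl⟩
      by_cases hj : a' j ∈ Set.range a
      · have h3 : j ∈ List.ofFn e := by rw [hel]; exact (hmem j).2 hj
        obtain ⟨i, hi⟩ := (List.mem_ofFn' _ _).1 h3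
        exact Subgroup.subset_closure ⟨i, by simp only [hi]⟩
      · rw [hg j hj]
        exact one_mem _

theorem zt_prim {n : ℕ} (hn : 0 < n) : IsPrimitiveRoot (zt n) n :=
  Complex.isPrimitiveRoot_exp n hn.ne'

/-- (G) without the apparent singularities -/
theorem gen_of (hG : GStmt) {K N : Type} [Field K] [Field N] [Algebra ℂ K] [Algebra K N]
    [FiniteDimensional K N] [IsGalois K N] {x : K} (hx : IsRat ℂ K x) {n : ℕ} (hn : 0 < n)
    (hexp : ∀ g : N ≃ₐ[K] N, g ^ n = 1) {m : ℕ} {a : Fin m → ℂ} (ha : Injective a)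
    (hun : ∀ b, b ∉ Set.range a → ∀ g : N ≃ₐ[K] N,
      IsGen ℂ (x - algebraMap ℂ K b) (zt n) n g → g = 1) :
    ∃ (σ : Equiv.Perm (Fin m)) (g : Fin m → (N ≃ₐ[K] N)),
      (∀ i, IsGen ℂ (x - algebraMap ℂ K (a (σ i))) (zt n) n (g i)) ∧
      IsGen ℂ x⁻¹ (zt n) n (List.ofFn g).prod⁻¹ ∧ Subgroup.closure (Set.range g) = ⊤ := by
  classical
  obtain ⟨m', a', g, ha', hS, h1, h2, h3⟩ := hG K N x hx n hn hexp (Finset.univ.image a)
  obtain ⟨σ, e, h4, h5, h6⟩ := exists_sub ha ha'
    (fun i => hS _ (Finset.mem_image_of_mem a (Finset.mem_univ i))) g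
    (fun j hj => hun _ hj _ (h1 j))
  refine ⟨σ, fun i => g (e i), fun i => ?_, ?_, h6.trans h3⟩
  · rw [← h4]
    exact h1 _
  · rw [h5]
    exact h2

/-! ### the universal group -/

/-- the relatively free group on `m` generators for the group `W` -/
def UG (m : ℕ) (W : Type) [Group W] : Subgroup ((Fin m → W) → W) :=
  Subgroup.closure (Set.range fun (i : Fin m) (w : Fin m → W) => w i)

/-- its generators -/
def UG.gen {m : ℕ} (W : Type) [Group W] (i : Fin m) : UG m W :=
  ⟨fun w => w i, Subgroup.subset_closure ⟨i, rfl⟩⟩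

theorem UG.closure_gen (m : ℕ) (W : Type) [Group W] :
    Subgroup.closure (Set.range (UG.gen (m := m) W)) = ⊤ := by
  apply Subgroup.map_injective (UG m W).subtype_injective
  rw [MonoidHom.map_closure, ← Set.range_comp, ← MonoidHom.range_eq_map, Subgroup.range_subtype]
  rfl

/-- evaluation -/
def UG.ev {m : ℕ} {W : Type} [Group W] (w : Fin m → W) : UG m W →* W :=
  (Pi.evalMonoidHom (fun _ : Fin m → W => W) w).comp (UG m W).subtype

theorem UG.ev_injective (m : ℕ) (W : Type) [Group W] : Injective (UG.ev (m := m) (W := W)) :=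
  fun _ _ h => funext fun i => DFunLike.congr_fun h (UG.gen W i)

theorem UG.resW (m : ℕ) (W : Type) [Group W] : ResW (UG m W) W :=
  fun _ h => Subtype.ext (funext fun w => h (UG.ev w))

theorem ResW.of_equiv {Γ Γ' W : Type*} [Group Γ] [Group Γ'] [Group W] (h : ResW Γ' W)
    (e : Γ ≃* Γ') : ResW Γ W := fun γ hγ =>
  e.injective ((h (e γ) fun ρ => hγ (ρ.comp e.toMonoidHom)).trans (map_one e).symm)

theorem ResW.pow_eq_one {Γ W : Type*} [Group Γ] [Group W] (h : ResW Γ W) {n : ℕ}
    (hn : ∀ w : W, w ^ n = 1) (γ : Γ) : γ ^ n = 1 :=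
  h _ fun ρ => by rw [map_pow, hn]

theorem ev_injective_of_closure {Γ W ι : Type*} [Group Γ] [Group W] {g : ι → Γ}
    (h : Subgroup.closure (Set.range g) = ⊤) :
    Injective (fun (ρ : Γ →* W) (i : ι) => ρ (g i)) := fun _ _ hρ =>
  MonoidHom.eq_of_eqOn_dense h (by
    rintro _ ⟨i, rfl⟩
    exact congrFun hρ i)

/-! ### restriction -/

theorem exists_res {K M N : Type*} [Field K] [Field M] [Field N] [Algebra K M] [Algebra K N]
    [Normal K M] [Normal K N] (j : M →ₐ[K] N) :
    ∃ r : (N ≃ₐ[K] N) →* (M ≃ₐ[K] M), Surjective r ∧ ∀ g y, j (r g y) = g (j y) := by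
  let _ : Algebra M N := (j : M →+* N).toAlgebra
  have _ : IsScalarTower K M N := IsScalarTower.of_algebraMap_eq fun c => (j.commutes c).symm
  exact ⟨AlgEquiv.restrictNormalHom M, AlgEquiv.restrictNormalHom_surjective N,
    fun g y => g.restrictNormal_commutes M y⟩

theorem eq_one_of_sup {K Ω : Type*} [Field K] [Field Ω] [Algebra K Ω]
    (N M : IntermediateField K Ω) (g : ↥(N ⊔ M) ≃ₐ[K] ↥(N ⊔ M))
    (h1 : ∀ y : N, g (IntermediateField.inclusion le_sup_left y) =
      IntermediateField.inclusion le_sup_left y)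
    (h2 : ∀ y : M, g (IntermediateField.inclusion le_sup_right y) =
      IntermediateField.inclusion le_sup_right y) : g = 1 := by
  have h0 : ∀ y : ↥(N ⊔ M), g y = y → y ∈ IntermediateField.fixedField (Subgroup.zpowers g) := by
    intro y hy
    rw [IntermediateField.mem_fixedField_iff]
    intro f hf
    exact (Subgroup.zpowers_le (H := MulAction.stabilizer _ y)).2 hy hf
  have h3 : N ⊔ M ≤ IntermediateField.lift (IntermediateField.fixedField (Subgroup.zpowers g)) := by
    refine sup_le (fun y hy => ?_) (fun y hy => ?_)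
    · exact (IntermediateField.mem_lift
        (IntermediateField.inclusion le_sup_left (⟨y, hy⟩ : N))).2 (h0 _ (h1 _))
    · exact (IntermediateField.mem_lift
        (IntermediateField.inclusion le_sup_right (⟨y, hy⟩ : M))).2 (h0 _ (h2 _))
  ext y
  have h4 := (IntermediateField.mem_lift y).1 (h3 y.2)
  rw [IntermediateField.mem_fixedField_iff] at h4
  rw [h4 g (Subgroup.mem_zpowers g), AlgEquiv.one_apply]

/-! ### the complex case -/

theorem retP1_cx (hG : GStmt) (hE : EStmt) {K Ω : Type} [Field K] [Field Ω] [Algebra ℂ K]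
    [Algebra K Ω] [IsAlgClosure K Ω] {x : K} (hx : IsRat ℂ K x) {m : ℕ} {a : Fin m → ℂ}
    (ha : StrictMono fun i => (a i).re) (W : Type) [Group W] [Finite W] {n : ℕ} (hn : 0 < n)
    (hW : ∀ w : W, w ^ n = 1) :
    ∃ M : IntermediateField K Ω,
      FiniteDimensional K M ∧ IsGalois K M ∧ ResW (M ≃ₐ[K] M) W ∧
      (∀ b : ℂ, b ∉ Set.range a → Unr ℂ M (x - algebraMap ℂ K b)) ∧
      (∀ N : IntermediateField K Ω, FiniteDimensional K N → IsGalois K N →
        ResW (N ≃ₐ[K] N) W → (∀ b : ℂ, b ∉ Set.range a → Unr ℂ N (x - algebraMap ℂ K b)) →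
        N ≤ M) ∧
      ∃ (σ : Equiv.Perm (Fin m)) (g : Fin m → (M ≃ₐ[K] M)),
        (∀ i, IsGen ℂ (x - algebraMap ℂ K (a (σ i))) (zt n) n (g i)) ∧
        IsGen ℂ x⁻¹ (zt n) n (List.ofFn g).prod⁻¹ ∧ Subgroup.closure (Set.range g) = ⊤ ∧
        Bijective (fun (ρ : (M ≃ₐ[K] M) →* W) (i : Fin m) => ρ (g i)) := by
  have hai : Injective a := fun i j h => ha.injective (by simp only [h])
  have hz : zt n ^ n = 1 := (zt_prim hn).pow_eq_one
  obtain ⟨N₀, hf₀, hg₀, ⟨φ₀⟩, hu₀⟩ := hE K x hx m a ha (UG m W) (UG.gen W) (UG.closure_gen m W)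
  let e : AlgebraicClosure K ≃ₐ[K] Ω := IsAlgClosure.equiv K _ _
  let M : IntermediateField K Ω := N₀.map (e : AlgebraicClosure K →ₐ[K] Ω)
  let eM : N₀ ≃ₐ[K] M := N₀.equivMap (e : AlgebraicClosure K →ₐ[K] Ω)
  have hfM : FiniteDimensional K M := eM.toLinearEquiv.finiteDimensional
  have hgM : IsGalois K M := IsGalois.of_algEquiv eM
  let φ : (M ≃ₐ[K] M) ≃* UG m W := (AlgEquiv.autCongr eM).symm.trans φ₀
  have hrM : ResW (M ≃ₐ[K] M) W := (UG.resW m W).of_equiv φ
  have huM : ∀ b : ℂ, b ∉ Set.range a → Unr ℂ M (x - algebraMap ℂ K b) :=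
    fun b hb => (hu₀ b hb).comap (eM.symm : M →ₐ[K] N₀)
  have hfin : Finite ((M ≃ₐ[K] M) →* W) := DFunLike.finite _
  have hcard : Nat.card (Fin m → W) ≤ Nat.card ((M ≃ₐ[K] M) →* W) := by
    refine Nat.card_le_card_of_injective (fun w => (UG.ev w).comp φ.toMonoidHom) fun w w' h => ?_
    refine UG.ev_injective m W (MonoidHom.ext fun γ => ?_)
    obtain ⟨γ, rfl⟩ := φ.surjective γ
    exact DFunLike.congr_fun h γ
  refine ⟨M, hfM, hgM, hrM, huM, fun N hfN hgN hrN huN => ?_, ?_⟩
  · have hgL : IsGalois K ↥(N ⊔ M) := {}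
    obtain ⟨rN, -, hrN'⟩ := exists_res (K := K)
      (IntermediateField.inclusion (le_sup_left : N ≤ N ⊔ M))
    obtain ⟨rM, hrM1, hrM'⟩ := exists_res (K := K)
      (IntermediateField.inclusion (le_sup_right : M ≤ N ⊔ M))
    have hone : ∀ g, rN g = 1 → rM g = 1 → g = 1 := fun g h1 h2 =>
      eq_one_of_sup N M g (fun y => by rw [← hrN', h1, AlgEquiv.one_apply])
        (fun y => by rw [← hrM', h2, AlgEquiv.one_apply])
    obtain ⟨σ, g, -, -, h3⟩ := gen_of hG (N := ↥(N ⊔ M)) hx hn
      (fun g => hone _ (by rw [map_pow, hrN.pow_eq_one hW]) (by rw [map_pow, hrM.pow_eq_one hW]))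
      hai (fun b hb g hg => hone g
        ((hg.comap _ (hrN' g)).eq_one (hx.sub b) hn hz (huN b hb))
        ((hg.comap _ (hrM' g)).eq_one (hx.sub b) hn hz (huM b hb)))
    have hfinL : Finite ((↥(N ⊔ M) ≃ₐ[K] ↥(N ⊔ M)) →* W) := DFunLike.finite _
    have h4 : Nat.card ((↥(N ⊔ M) ≃ₐ[K] ↥(N ⊔ M)) →* W) ≤ Nat.card (Fin m → W) :=
      Nat.card_le_card_of_injective _ (ev_injective_of_closure h3)
    have h5 : Injective fun ρ : (M ≃ₐ[K] M) →* W => ρ.comp rM := fun ρ ρ' h =>
      MonoidHom.ext fun γ => by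
        obtain ⟨γ, rfl⟩ := hrM1 γ
        exact DFunLike.congr_fun h γ
    have h6 := (h5.bijective_of_nat_card_le (h4.trans hcard)).2
    intro y hy
    have h7 : IntermediateField.inclusion (le_sup_left : N ≤ N ⊔ M) ⟨y, hy⟩ ∈
        (IntermediateField.inclusion (le_sup_right : M ≤ N ⊔ M)).fieldRange := by
      rw [← IsGalois.fixedField_fixingSubgroup
        (IntermediateField.inclusion (le_sup_right : M ≤ N ⊔ M)).fieldRange,
        IntermediateField.mem_fixedField_iff]
      intro γ hγ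
      have h8 : rM γ = 1 := by
        ext z
        have h9 := (hrM' γ z).trans
          ((IntermediateField.mem_fixingSubgroup_iff _ _).1 hγ _ ⟨z, rfl⟩)
        exact congrArg Subtype.val ((IntermediateField.inclusion _).injective h9)
      have h10 : rN γ = 1 := hrN _ fun ρ => by
        obtain ⟨ρ', hρ'⟩ := h6 (ρ.comp rN)
        have h11 := DFunLike.congr_fun hρ' γ
        simp only [MonoidHom.comp_apply, h8, map_one] at h11
        exact h11.symm
      rw [← hrN', h10, AlgEquiv.one_apply]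
    obtain ⟨z, hz'⟩ := h7
    have h8 : (z : Ω) = y := congrArg Subtype.val hz'
    rw [← h8]
    exact z.2
  · obtain ⟨σ, g, h1, h2, h3⟩ := gen_of hG (N := M) hx hn (hrM.pow_eq_one hW) hai
      (fun b hb g hg => hg.eq_one (hx.sub b) hn hz (huM b hb))
    exact ⟨σ, g, h1, h2, h3, (ev_injective_of_closure h3).bijective_of_nat_card_le hcard⟩

/-! ### change of constants -/

theorem exists_rot81 {m : ℕ} {a : Fin m → ℂ} (ha : Injective a) :
    ∃ l : ℂ, l ≠ 0 ∧ Injective fun i => (l * a i).re := by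
  classical
  obtain ⟨s, hs⟩ := Infinite.exists_notMem_finset (Finset.univ.image
    fun p : Fin m × Fin m => (a p.1 - a p.2).re / (a p.1 - a p.2).im)
  refine ⟨1 + s * Complex.I, fun h => ?_, fun i j h => ?_⟩
  · have h1 := congrArg Complex.re h
    simp at h1
  · by_contra hij
    have h1 : (a i - a j).re = s * (a i - a j).im := by
      simp only [Complex.mul_re, Complex.add_re, Complex.one_re, Complex.ofReal_re, Complex.I_re,
        Complex.ofReal_im, Complex.I_im, Complex.add_im, Complex.one_im, Complex.mul_im] at h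
      simp only [Complex.sub_re, Complex.sub_im]
      linarith
    by_cases h2 : (a i - a j).im = 0
    · rw [h2, mul_zero] at h1
      exact hij (ha (sub_eq_zero.1 (Complex.ext h1 h2)))
    · refine hs (Finset.mem_image.2 ⟨(i, j), Finset.mem_univ _, ?_⟩)
      simp only
      rw [h1, mul_div_cancel_right₀ _ h2]

section change

variable {C C' K N : Type*} [Field C] [Field C'] [Field K] [Field N] [Algebra C K] [Algebra C' K]
  [Algebra K N] (φ : C ≃+* C') (hφ : ∀ c, algebraMap C' K (φ c) = algebraMap C K c)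

include hφ

theorem Ctr.change {u : AV K} {t : K} {n : ℕ} (h : Ctr C' u t n) : Ctr C u t n :=
  ⟨fun c hc => by rw [← hφ]; exact h.1 _ ((map_ne_zero φ).2 hc), h.2⟩

theorem Unr.change {t : K} (h : Unr C' N t) : Unr C N t := by
  obtain ⟨v, hv⟩ := h
  exact ⟨v, hv.change φ hφ⟩

theorem IsGen.change {t : K} {ζ : C} {n : ℕ} {g : N ≃ₐ[K] N} (h : IsGen C' t (φ ζ) n g) :
    IsGen C t ζ n g := by
  obtain ⟨u, hu, hg⟩ := h
  exact ⟨u, hu.change φ hφ, by rwa [hφ] at hg⟩

theorem IsRat.change {x : K} (h : IsRat C K x) : IsRat C' K x := by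
  constructor
  · rintro ⟨p, hp, hpx⟩
    refine h.1 ⟨p.map (φ.symm : C' →+* C), (Polynomial.map_ne_zero_iff φ.symm.injective).2 hp, ?_⟩
    rw [Polynomial.aeval_def, Polynomial.eval₂_map, ← hpx, Polynomial.aeval_def]
    congr 1
    ext c
    simp [← hφ]
  · rw [eq_top_iff]
    intro y _
    have hy : y ∈ IntermediateField.adjoin C {x} := by rw [h.2]; trivial
    induction hy using IntermediateField.adjoin_induction with
    | mem z hz => exact IntermediateField.subset_adjoin _ _ hz
    | algebraMap c => rw [← hφ]; exact IntermediateField.algebraMap_mem _ _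
    | add a b _ _ ha hb => exact add_mem (ha trivial) (hb trivial)
    | inv a _ ha => exact inv_mem (ha trivial)
    | mul a b _ _ ha hb => exact mul_mem (ha trivial) (hb trivial)

end change

/-- **Riemann existence on the line** from the monodromy half and the existence half -/
theorem retP1_of (hG : GStmt) (hE : EStmt) : RetP1 := by
  intro C K Ω _ _ _ _ _ _ _ _ hC x hx m a ha W _ _ n hn hW
  obtain ⟨φ⟩ : Nonempty (C ≃+* ℂ) :=
    IsAlgClosed.ringEquiv_of_equiv_of_charZero (by rw [hC]; exact Cardinal.aleph0_lt_continuum)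
      (Cardinal.eq.1 (hC.trans Cardinal.mk_complex.symm))
  let _ : Algebra ℂ K := ((algebraMap C K).comp (φ.symm : ℂ →+* C)).toAlgebra
  have hφ' : ∀ c, algebraMap C K (φ.symm c) = algebraMap ℂ K c := fun _ => rfl
  have hφ : ∀ c, algebraMap ℂ K (φ c) = algebraMap C K c := fun c => by
    rw [← hφ', φ.symm_apply_apply]
  obtain ⟨l, hl, hinj⟩ := exists_rot81 (a := fun i => φ (a i)) (φ.injective.comp ha)
  let s : Equiv.Perm (Fin m) := Tuple.sort fun i => (l * φ (a i)).re
  have hs : StrictMono fun i => (l * φ (a (s i))).re :=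
    (Tuple.monotone_sort fun i => (l * φ (a i)).re).strictMono_of_injective (hinj.comp s.injective)
  have hx' : IsRat ℂ K (algebraMap ℂ K l * x) := (hx.change φ hφ).const_mul hl
  obtain ⟨M, h1, h2, h3, h4, h5, σ, g, h6, h7, h8⟩ :=
    retP1_cx (Ω := Ω) hG hE hx' (a := fun i => l * φ (a (s i))) hs W hn hW
  have hl' : algebraMap ℂ K l ≠ 0 := (map_ne_zero _).2 hl
  have e1 : ∀ b : C, x - algebraMap C K b =
      algebraMap ℂ K l⁻¹ * (algebraMap ℂ K l * x - algebraMap ℂ K (l * φ b)) := fun b => by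
    rw [map_mul, hφ, map_inv₀]
    field_simp
  have e2 : ∀ b : ℂ, algebraMap ℂ K l * x - algebraMap ℂ K b =
      algebraMap ℂ K l * (x - algebraMap C K (φ.symm (l⁻¹ * b))) := fun b => by
    rw [hφ', map_mul, map_inv₀]
    field_simp
  have e3 : x⁻¹ = algebraMap ℂ K l * (algebraMap ℂ K l * x)⁻¹ := by
    have := hx.ne_zero
    field_simp
  refine ⟨φ.symm (zt n), M, (zt_prim hn).map_of_injective φ.symm.injective, h1, h2, h3,
    fun b hb => ?_, fun N hN1 hN2 hN3 hN4 => h5 N hN1 hN2 hN3 fun b hb => ?_,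
    σ.trans s, g, fun i => ?_, ?_, h8⟩
  · rw [e1]
    refine ((h4 _ ?_).const_mul (inv_ne_zero hl)).change φ hφ
    rintro ⟨i, hi⟩
    exact hb ⟨s i, φ.injective (mul_left_cancel₀ hl hi)⟩
  · rw [e2]
    refine ((hN4 _ ?_).change φ.symm hφ').const_mul hl
    rintro ⟨i, hi⟩
    refine hb ⟨s.symm i, ?_⟩
    simp only [Equiv.apply_symm_apply, hi, RingEquiv.apply_symm_apply]
    field_simp
  · rw [e1]
    refine IsGen.change φ hφ ?_
    rw [φ.apply_symm_apply]
    exact (h6 i).const_mul (inv_ne_zero hl)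
  · rw [e3]
    refine IsGen.change φ hφ ?_
    rw [φ.apply_symm_apply]
    exact h7.const_mul hl

end Crest.Agent.T170.Ret
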