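import Mathlib

/-!
# Row 170, RET, existence half (helper88), file 3: the topological covering

`exists_cover`  : principal `H`-covering glued from two charts;
`exists_cover_plane` : a connected principal `H`-covering of the plane minus `m` points, for every
finite group with `m` generators.
-/

set_option autoImplicit false

open Set Filter Topology

noncomputable section

namespace Crest.Agent.T170.RetE

/-- a connected principal covering with finite group -/
structure PCov (H B Y : Type) [Group H] [TopologicalSpace B] [TopologicalSpace Y]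
    [MulAction H Y] (p : Y → B) : Prop where
  cl : IsClosedMap p
  lh : IsLocalHomeomorph p
  fin : ∀ b, (p ⁻¹' {b}).Finite
  cont : ∀ g : H, Continuous fun y : Y => g • y
  ovr : ∀ (g : H) (y : Y), p (g • y) = p y
  trans : ∀ y y' : Y, p y = p y' → ∃ g : H, g • y = y'
  free : ∀ (g : H) (y : Y), g • y = y → g = 1
  surj : Function.Surjective p

section glue

variable {H B : Type} [Group H] [TopologicalSpace H] [DiscreteTopology H] [TopologicalSpace B]

/-- the gauge -/
def gauge (c : B → H) (i : Bool) (z : B) : H := if i then c z else 1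

open Classical in
/-- the bundle -/
def core (U : Bool → Set B) (hU : ∀ i, IsOpen (U i)) (hc : ∀ z, z ∈ U false ∨ z ∈ U true)
    (c : B → H) (hcc : ContinuousOn c (U false ∩ U true)) : FiberBundleCore Bool B H where
  baseSet := U
  isOpen_baseSet := hU
  indexAt z := if z ∈ U false then false else true
  mem_baseSet_at z := by
    split_ifs with h
    · exact h
    · exact (hc z).resolve_left h
  coordChange i j z h := gauge c j z * (gauge c i z)⁻¹ * h
  coordChange_self i z _ v := by simp
  continuousOn_coordChange i j := by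
    have hm : Continuous fun q : H × H => q.1 * q.2 := continuous_of_discreteTopology
    have hi : Continuous fun q : H => q⁻¹ := continuous_of_discreteTopology
    have h1 : ContinuousOn (fun p : B × H => gauge c j p.1 * (gauge c i p.1)⁻¹)
        ((U i ∩ U j) ×ˢ univ) := by
      cases i <;> cases j
      · simpa [gauge] using continuousOn_const
      · simp only [gauge, if_true, Bool.false_eq_true, if_false, inv_one, mul_one]
        exact hcc.comp continuousOn_fst fun p hp => hp.1
      · simp only [gauge, if_true, Bool.false_eq_true, if_false, one_mul]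
        exact hi.comp_continuousOn (hcc.comp continuousOn_fst fun p hp => ⟨hp.1.2, hp.1.1⟩)
      · simpa [gauge] using continuousOn_const
    exact hm.comp_continuousOn (h1.prodMk continuousOn_snd)
  coordChange_comp i j k z _ v := by group

theorem exists_cover [Finite H] [T2Space B] (U : Bool → Set B) (hU : ∀ i, IsOpen (U i))
    (hc : ∀ z, z ∈ U false ∨ z ∈ U true) (hp : ∀ i, IsPreconnected (U i))
    (c : B → H) (hcc : ContinuousOn c (U false ∩ U true)) {z₀ : B} (h₀ : z₀ ∈ U false ∩ U true)
    (h₁ : c z₀ = 1) (hgen : Subgroup.closure (c '' (U false ∩ U true)) = ⊤) :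
    ∃ (Y : Type) (_ : TopologicalSpace Y) (_ : T2Space Y) (_ : ConnectedSpace Y)
      (_ : MulAction H Y) (p : Y → B), PCov H B Y p := by
  classical
  set Z := core U hU hc c hcc with hZ
  have hcov : IsCoveringMap Z.proj :=
    IsFiberBundle.isCoveringMap (F := H) fun x => ⟨Z.localTrivAt x, Z.mem_localTrivAt_baseSet x⟩
  let mk : B → H → Z.TotalSpace := fun z h => ⟨z, h⟩
  let sn : Z.TotalSpace → H := fun y => y.2
  have hmk : ∀ y : Z.TotalSpace, mk y.1 (sn y) = y := fun _ => rfl
  -- the sections
  let s : Bool → H → B → Z.TotalSpace := fun i h z =>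
    (Z.localTriv i).toOpenPartialHomeomorph.symm (z, h)
  have hs : ∀ i h z, s i h z =
      mk z (gauge c (Z.indexAt z) z * (gauge c i z)⁻¹ * h) := fun _ _ _ => rfl
  have hsc : ∀ i h, ContinuousOn (s i h) (U i) := by
    intro i h
    refine (Z.localTriv i).toOpenPartialHomeomorph.continuousOn_symm.comp
      (continuous_id.prodMk continuous_const).continuousOn fun z hz => ?_
    exact ⟨hz, mem_univ _⟩
  have hsurj : ∀ (i) (y : Z.TotalSpace), ∃ h, s i h y.1 = y := by
    intro i y
    refine ⟨gauge c i y.1 * (gauge c (Z.indexAt y.1) y.1)⁻¹ * sn y, ?_⟩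
    rw [hs]
    exact (congrArg (mk y.1) (by group)).trans (hmk y)
  let act : MulAction H Z.TotalSpace :=
    { smul := fun g y => mk y.1 (sn y * g⁻¹)
      one_smul := fun y => by
        show mk y.1 (sn y * 1⁻¹) = y
        rw [inv_one, mul_one]
      mul_smul := fun g g' y => by
        show mk y.1 (sn y * (g * g')⁻¹) = mk y.1 (sn y * g'⁻¹ * g⁻¹)
        rw [mul_inv_rev, mul_assoc] }
  have hact : ∀ (g : H) (y : Z.TotalSpace), g • y = mk y.1 (sn y * g⁻¹) := fun _ _ => rfl
  have hT2 : T2Space Z.TotalSpace := by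
    refine ⟨fun y y' hne => ?_⟩
    by_cases h : Z.proj y = Z.proj y'
    · exact hcov.isSeparatedMap y y' h hne
    · obtain ⟨u, v, hu, hv, h1, h2, h3⟩ := t2_separation h
      exact ⟨_, _, hu.preimage hcov.continuous, hv.preimage hcov.continuous, h1, h2,
        h3.preimage _⟩
  have hconn : ConnectedSpace Z.TotalSpace := by
    let φ : Bool → H → ConnectedComponents Z.TotalSpace := fun i h =>
      ConnectedComponents.mk (s i h z₀)
    have hz₀ : ∀ i, z₀ ∈ U i := by
      intro i
      cases i
      · exact h₀.1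
      · exact h₀.2
    have hφ : ∀ i h, ∀ z ∈ U i, ConnectedComponents.mk (s i h z) = φ i h := by
      intro i h z hz
      refine ConnectedComponents.coe_eq_coe'.2 ?_
      exact ((hp i).image _ (hsc i h)).subset_connectedComponent ⟨z₀, hz₀ i, rfl⟩ ⟨z, hz, rfl⟩
    have hst : ∀ h z, s false h z = s true (c z * h) z := by
      intro h z
      rw [hs, hs]
      refine congrArg (mk z) ?_
      have e1 : gauge c false z = 1 := rfl
      have e2 : gauge c true z = c z := rfl
      rw [e1, e2]
      group
    have h01 : ∀ h, φ false h = φ true h := by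
      intro h
      show ConnectedComponents.mk (s false h z₀) = ConnectedComponents.mk (s true h z₀)
      rw [hst, h₁, one_mul]
    have hstep : ∀ g : H, ∀ h, φ false (g * h) = φ false h := by
      intro g
      have hg : g ∈ Subgroup.closure (c '' (U false ∩ U true)) := by rw [hgen]; trivial
      induction hg using Subgroup.closure_induction with
      | mem g hg =>
        obtain ⟨z, hz, rfl⟩ := hg
        intro h
        rw [h01, ← hφ true _ z hz.2, ← hst, hφ false _ z hz.1]
      | one => intro h; rw [one_mul]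
      | mul g g' _ _ e1 e2 => intro h; rw [mul_assoc, e1, e2]
      | inv g _ e => intro h; rw [← e (g⁻¹ * h), mul_inv_cancel_left]
    have hall : ∀ y : Z.TotalSpace, ConnectedComponents.mk y = φ false 1 := by
      intro y
      have e : ∀ h, φ false h = φ false 1 := fun h => by
        have := hstep h 1
        rwa [mul_one] at this
      rcases hc y.1 with hy | hy
      · obtain ⟨h, hh⟩ := hsurj false y
        rw [← hh, hφ false h _ hy, e]
      · obtain ⟨h, hh⟩ := hsurj true y
        rw [← hh, hφ true h _ hy, ← h01, e]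
    have hpre : PreconnectedSpace Z.TotalSpace := by
      refine ⟨?_⟩
      have : (univ : Set Z.TotalSpace) = connectedComponent (s false 1 z₀) := by
        refine (eq_univ_of_forall fun y => ?_).symm
        exact ConnectedComponents.coe_eq_coe'.1 (hall y)
      rw [this]
      exact isPreconnected_connectedComponent
    exact { toPreconnectedSpace := hpre, toNonempty := ⟨s false 1 z₀⟩ }
  refine ⟨Z.TotalSpace, inferInstance, hT2, hconn, act, Z.proj, ?_, hcov.isLocalHomeomorph,
    ?_, ?_, fun _ _ => rfl, ?_, ?_, fun z => ⟨mk z 1, rfl⟩⟩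
  · intro A hA
    rw [← isOpen_compl_iff, isOpen_iff_mem_nhds]
    intro b hb
    have hi : b ∈ U (Z.indexAt b) := Z.mem_baseSet_at b
    have h1 : ∀ᶠ z in 𝓝 b, ∀ h : H, s (Z.indexAt b) h z ∉ A := by
      rw [eventually_all]
      intro h
      have h2 : ContinuousAt (s (Z.indexAt b) h) b := (hsc _ h).continuousAt ((hU _).mem_nhds hi)
      refine h2.eventually (hA.isOpen_compl.mem_nhds fun h3 => hb ⟨_, h3, rfl⟩)
    filter_upwards [h1] with z hz
    rintro ⟨y, hy, rfl⟩
    obtain ⟨h, hh⟩ := hsurj (Z.indexAt b) y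
    exact hz h (by rw [show s (Z.indexAt b) h (Z.proj y) = y from hh]; exact hy)
  · intro b
    refine (Set.finite_range fun h : H => mk b h).subset ?_
    rintro ⟨z, h⟩ hz
    obtain rfl : z = b := hz
    exact ⟨h, rfl⟩
  · intro g
    rw [continuous_iff_continuousAt]
    intro y
    have hi : y.1 ∈ U (Z.indexAt y.1) := Z.mem_baseSet_at y.1
    set e := Z.localTriv (Z.indexAt y.1) with he
    have hy : y ∈ e.source := hi
    have h1 : ContinuousAt e y := e.continuousAt hy
    have hm : Continuous fun q : B × H => (q.1, q.2 * g⁻¹) :=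
      continuous_fst.prodMk ((continuous_of_discreteTopology (f := fun h : H => h * g⁻¹)).comp
        continuous_snd)
    have h2 : ContinuousAt e.toOpenPartialHomeomorph.symm ((e y).1, (e y).2 * g⁻¹) :=
      e.toOpenPartialHomeomorph.continuousAt_symm ⟨hi, mem_univ _⟩
    have h3 : ContinuousAt (fun y' => e.toOpenPartialHomeomorph.symm ((e y').1, (e y').2 * g⁻¹))
        y := ContinuousAt.comp (f := fun y' => ((e y').1, (e y').2 * g⁻¹)) h2
          (hm.continuousAt.comp h1)
    refine h3.congr (Eventually.of_forall fun y' => ?_)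
    show mk y'.1 (gauge c (Z.indexAt y'.1) y'.1 * (gauge c (Z.indexAt y.1) y'.1)⁻¹ *
      (gauge c (Z.indexAt y.1) y'.1 * (gauge c (Z.indexAt y'.1) y'.1)⁻¹ * sn y' * g⁻¹)) =
        mk y'.1 (sn y' * g⁻¹)
    exact congrArg (mk y'.1) (by group)
  · intro y y' hz
    have hz' : y.1 = y'.1 := hz
    refine ⟨(sn y')⁻¹ * sn y, ?_⟩
    rw [hact, hz']
    exact (congrArg (mk y'.1) (by group)).trans (hmk y')
  · intro g y hg
    rw [hact] at hg
    have h1 : sn y * g⁻¹ = sn y := congrArg sn hg
    simpa using h1

end glue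

section plane

variable {m : ℕ} (a : Fin m → ℂ)

/-- the plane minus the vertical half lines in the direction `ε` -/
def slit (ε : ℝ) : Set ℂ := {z | ∀ i, z.re = (a i).re → ε * z.im < ε * (a i).im}

theorem isOpen_slit (ε : ℝ) : IsOpen (slit a ε) := by
  have : slit a ε = ⋂ i, ({z : ℂ | z.re ≠ (a i).re} ∪ {z : ℂ | ε * z.im < ε * (a i).im}) := by
    ext z
    simp only [slit, mem_ofPred_eq, mem_iInter, mem_union]
    exact forall_congr' fun i => imp_iff_not_or
  rw [this]
  refine isOpen_iInter_of_finite fun i => IsOpen.union ?_ ?_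
  · exact isOpen_ne_fun Complex.continuous_re continuous_const
  · exact isOpen_lt (continuous_const.mul Complex.continuous_im) continuous_const

theorem isPreconnected_slit {ε : ℝ} (hε : ε * ε = 1) : IsPreconnected (slit a ε) := by
  obtain ⟨R, hR⟩ : ∃ R : ℝ, ∀ i, R ≤ ε * (a i).im := by
    obtain ⟨R, hR⟩ := (Set.finite_range fun i => ε * (a i).im).bddBelow
    exact ⟨R, fun i => hR ⟨i, rfl⟩⟩
  have hlin : IsLinearMap ℝ fun z : ℂ => ε * z.im :=
    ⟨fun x y => by simp [mul_add], fun c x => by simp; ring⟩
  have hlin' : IsLinearMap ℝ fun z : ℂ => z.re := ⟨fun x y => by simp, fun c x => by simp⟩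
  have hhalf : Convex ℝ {z : ℂ | ε * z.im < R} := convex_halfSpace_lt hlin R
  refine isPreconnected_of_forall (⟨0, ε * (R - 1)⟩ : ℂ) fun y hy => ?_
  have hray : Convex ℝ ({z : ℂ | z.re = y.re} ∩ {z : ℂ | ε * z.im ≤ ε * y.im}) :=
    (convex_hyperplane hlin' y.re).inter (convex_halfSpace_le hlin _)
  refine ⟨{z : ℂ | ε * z.im < R} ∪ ({z : ℂ | z.re = y.re} ∩ {z : ℂ | ε * z.im ≤ ε * y.im}),
    ?_, Or.inl ?_, Or.inr ⟨rfl, le_refl (ε * y.im)⟩, ?_⟩
  · rintro z (hz | ⟨h1, h2⟩) i hi
    · exact lt_of_lt_of_le hz (hR i)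
    · exact lt_of_le_of_lt h2 (hy i (h1.symm.trans hi))
  · show ε * (ε * (R - 1)) < R
    rw [← mul_assoc, hε]
    linarith
  · refine IsPreconnected.union (⟨y.re, ε * (min R (ε * y.im) - 1)⟩ : ℂ) ?_ ⟨rfl, ?_⟩
      hhalf.isPreconnected hray.isPreconnected
    · show ε * (ε * (min R (ε * y.im) - 1)) < R
      rw [← mul_assoc, hε]
      have := min_le_left R (ε * y.im)
      linarith
    · show ε * (ε * (min R (ε * y.im) - 1)) ≤ ε * y.im
      rw [← mul_assoc, hε]
      have := min_le_right R (ε * y.im)
      linarith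

theorem notMem_of_slit {ε : ℝ} {z : ℂ} (hz : z ∈ slit a ε) : z ∉ Set.range a := by
  rintro ⟨i, rfl⟩
  exact lt_irrefl _ (hz i rfl)

theorem ne_of_slit {z : ℂ} (h1 : z ∈ slit a 1) (h2 : z ∈ slit a (-1)) (i : Fin m) :
    z.re ≠ (a i).re := by
  intro h
  have e1 := h1 i h
  have e2 := h2 i h
  linarith

theorem mem_slit_of_ne {z : ℂ} (h : ∀ i, z.re ≠ (a i).re) (ε : ℝ) : z ∈ slit a ε :=
  fun i hi => absurd hi (h i)

theorem slit_cover (ha : StrictMono fun i => (a i).re) {z : ℂ} (hz : z ∉ Set.range a) :
    z ∈ slit a 1 ∨ z ∈ slit a (-1) := by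
  by_cases h : ∃ i, z.re = (a i).re
  · obtain ⟨i, hi⟩ := h
    have hu : ∀ j, z.re = (a j).re → j = i := fun j hj => ha.injective (hj.symm.trans hi)
    have hne : z.im ≠ (a i).im := fun h => hz ⟨i, (Complex.ext hi h).symm⟩
    rcases lt_or_gt_of_ne hne with h1 | h1
    · left
      intro j hj
      rw [hu j hj]
      linarith
    · right
      intro j hj
      rw [hu j hj]
      linarith
  · left
    exact mem_slit_of_ne a (fun i hi => h ⟨i, hi⟩) 1

open Classical in
/-- the cocycle as a function of the sign vector -/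
def coc {H : Type} [Group H] (w : Fin m → H) (s : Fin m → Prop) : H :=
  if h : ∃ i, s i ∧ ∀ j, i < j → ¬ s j then w h.choose else 1

/-- **the covering of the punctured plane** -/
theorem exists_cover_plane (ha : StrictMono fun i => (a i).re) (H : Type) [Group H] [Finite H]
    (w : Fin m → H) (hw : Subgroup.closure (Set.range w) = ⊤) (S : Set ℂ) (hS : S = Set.range a) :
    ∃ (Y : Type) (_ : TopologicalSpace Y) (_ : T2Space Y) (_ : ConnectedSpace Y)
      (_ : MulAction H Y) (p : Y → {z : ℂ // z ∉ S}), PCov H {z : ℂ // z ∉ S} Y p := by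
  classical
  subst hS
  let _ : TopologicalSpace H := ⊥
  have : DiscreteTopology H := ⟨rfl⟩
  let U : Bool → Set {z : ℂ // z ∉ Set.range a} := fun i =>
    Subtype.val ⁻¹' slit a (if i then -1 else 1)
  let c : {z : ℂ // z ∉ Set.range a} → H := fun z => coc w fun j => (a j).re < z.1.re
  -- points in the strips
  have hpt : ∀ t : ℝ, (∀ i, t ≠ (a i).re) →
      ∃ z : {z : ℂ // z ∉ Set.range a}, z ∈ U false ∩ U true ∧ z.1.re = t := by
    intro t ht
    have h1 : ∀ ε, (t : ℂ) ∈ slit a ε := mem_slit_of_ne a (by simpa using ht)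
    exact ⟨⟨t, notMem_of_slit a (h1 1)⟩, ⟨h1 _, h1 _⟩, by simp⟩
  obtain ⟨R, hR⟩ : ∃ R : ℝ, ∀ i, R < (a i).re := by
    obtain ⟨R, hR⟩ := (Set.finite_range fun i => (a i).re).bddBelow
    exact ⟨R - 1, fun i => by have := hR ⟨i, rfl⟩; simp only at this; linarith⟩
  obtain ⟨z₀, hz₀, hz₀'⟩ := hpt R fun i => (hR i).ne
  refine exists_cover U (fun i => (isOpen_slit a _).preimage continuous_subtype_val)
    (fun z => slit_cover a ha z.2) (fun i => ?_) c ?_ hz₀ ?_ ?_
  · refine (Topology.IsInducing.subtypeVal.isPreconnected_image).1 ?_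
    have e : Subtype.val '' U i = slit a (if i then -1 else 1) := by
      ext z
      exact ⟨fun ⟨z', h1, h2⟩ => h2 ▸ h1, fun hz => ⟨⟨z, notMem_of_slit a hz⟩, hz, rfl⟩⟩
    have h2 : IsPreconnected (slit a (if i then -1 else 1)) := by
      refine isPreconnected_slit a ?_
      cases i <;> simp
    exact e.symm ▸ h2
  · intro z hz
    have hne := ne_of_slit a hz.1 hz.2
    have h1 : ∀ᶠ z' in 𝓝 z, ∀ j, ((a j).re < z'.1.re ↔ (a j).re < z.1.re) := by
      rw [eventually_all]
      intro j
      have hc : ContinuousAt (fun z' : {z : ℂ // z ∉ Set.range a} => z'.1.re) z :=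
        (Complex.continuous_re.comp continuous_subtype_val).continuousAt
      rcases lt_or_gt_of_ne (hne j) with h | h
      · filter_upwards [hc.eventually (gt_mem_nhds h)] with z' hz'
        exact ⟨fun h' => absurd h' (not_lt.2 hz'.le), fun h' => absurd h' (not_lt.2 h.le)⟩
      · filter_upwards [hc.eventually (lt_mem_nhds h)] with z' hz'
        exact ⟨fun _ => h, fun _ => hz'⟩
    have h2 : c =ᶠ[𝓝 z] fun _ => c z := by
      filter_upwards [h1] with z' hz'
      exact congrArg (coc w) (funext fun j => propext (hz' j))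
    exact (continuousAt_const.congr h2.symm).continuousWithinAt
  · show coc w (fun j => (a j).re < z₀.1.re) = 1
    unfold coc
    rw [dif_neg]
    rintro ⟨i, hi, -⟩
    rw [hz₀'] at hi
    exact lt_asymm hi (hR i)
  · rw [eq_top_iff, ← hw]
    refine Subgroup.closure_mono ?_
    rintro _ ⟨i, rfl⟩
    have h1 : ∀ᶠ t in 𝓝[>] (a i).re, ∀ j, i < j → t < (a j).re := by
      rw [eventually_all]
      intro j
      by_cases hj : i < j
      · filter_upwards [nhdsWithin_le_nhds (gt_mem_nhds (ha hj))] with t ht _ using ht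
      · exact Eventually.of_forall fun t h => absurd h hj
    obtain ⟨t, ht1, ht2⟩ := (h1.and self_mem_nhdsWithin).exists
    have ht2' : (a i).re < t := ht2
    have hne : ∀ j, t ≠ (a j).re := by
      intro j
      rcases lt_or_ge i j with h | h
      · exact (ht1 j h).ne
      · exact (lt_of_le_of_lt (ha.monotone h) ht2').ne'
    obtain ⟨z, hz, hzt⟩ := hpt t hne
    refine ⟨z, hz, ?_⟩
    show coc w (fun j => (a j).re < z.1.re) = w i
    rw [hzt]
    have hex : ∃ i, (a i).re < t ∧ ∀ j, i < j → ¬ (a j).re < t :=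
      ⟨i, ht2', fun j hj => not_lt.2 (ht1 j hj).le⟩
    unfold coc
    rw [dif_pos hex]
    congr 1
    obtain ⟨e1, e2⟩ := hex.choose_spec
    rcases lt_trichotomy hex.choose i with h | h | h
    · exact absurd ht2' (e2 i h)
    · exact h
    · exact absurd e1 (not_lt.2 (ht1 _ h).le)

end plane

end Crest.Agent.T170.RetE
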