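import Crest.Agent.T170.RetDefs_90

/-!
# Row 170, RET, existence half (helper88), file 4: from a ring with a group action to a Galois
extension of `ℂ(x)`
-/

set_option autoImplicit false

open Polynomial

noncomputable section

namespace Crest.Agent.T170.RetE

open Crest.Agent.T170.Ret

theorem exists_emb {C K L : Type*} [Field C] [Field K] [Field L] [Algebra C K] [Algebra C L]
    {x : K} (hx : IsRat C K x) {z : L} (hz : Transcendental C z) :
    ∃ ι : K →ₐ[C] L, ι x = z := by
  let e1 : RatFunc C ≃ₐ[C] K := (RatFunc.algEquivOfTranscendental x hx.1).trans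
    ((IntermediateField.equivOfEq hx.2).trans IntermediateField.topEquiv)
  have h1 : e1 RatFunc.X = x := RatFunc.algEquivOfTranscendental_X x hx.1
  let e2 : RatFunc C →ₐ[C] L := (IntermediateField.val _).comp
    (RatFunc.algEquivOfTranscendental z hz).toAlgHom
  have h2 : e2 RatFunc.X = z := RatFunc.algEquivOfTranscendental_X z hz
  refine ⟨e2.comp e1.symm.toAlgHom, ?_⟩
  rw [← h2, ← h1]
  simp

theorem alg_step (K : Type) [Field K] [Algebra ℂ K] (x : K) (hx : IsRat ℂ K x)
    (H : Type) [Group H] [Finite H] (R : Type) [CommRing R] [IsDomain R] [Algebra ℂ R]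
    [MulSemiringAction H R] [FaithfulSMul H R]
    (hC : ∀ (g : H) (c : ℂ), g • algebraMap ℂ R c = algebraMap ℂ R c) (z : R)
    (hz : ∀ g : H, g • z = z) (hzt : Transcendental ℂ z)
    (hinv : ∀ f : R, (∀ g : H, g • f = f) →
      ∃ P Q : ℂ[X], Q ≠ 0 ∧ aeval z Q * f = aeval z P)
    (A : Set ℂ)
    (hval : ∀ b, b ∉ A → ∃ v : AddValuation R (WithTop ℤ), (∀ f, f ≠ 0 → v f ≠ ⊤) ∧
      (∀ c : ℂ, c ≠ 0 → v (algebraMap ℂ R c) = 0) ∧ v (z - algebraMap ℂ R b) = 1) :
    ∃ N : IntermediateField K (AlgebraicClosure K), FiniteDimensional K N ∧ IsGalois K N ∧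
      Nonempty ((N ≃ₐ[K] N) ≃* H) ∧ ∀ b : ℂ, b ∉ A → Unr ℂ N (x - algebraMap ℂ K b) := by
  classical
  let L := FractionRing R
  let _ : MulSemiringAction H L := IsFractionRing.mulSemiringAction H R L
  have hinj : Function.Injective (algebraMap R L) := IsFractionRing.injective R L
  have hsm : ∀ (g : H) (r : R), g • algebraMap R L r = algebraMap R L (g • r) := fun g r =>
    (algebraMap.coe_smul' g r L).symm
  let j : R →ₐ[ℂ] L := IsScalarTower.toAlgHom ℂ R L
  have hj : ∀ r, j r = algebraMap R L r := fun _ => rfl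
  have hzt' : Transcendental ℂ (algebraMap R L z) :=
    (transcendental_algebraMap_iff hinj).2 hzt
  obtain ⟨ι, hι⟩ := exists_emb hx hzt'
  have hιp : ∀ P : ℂ[X], ι (aeval x P) = algebraMap R L (aeval z P) := by
    intro P
    rw [← aeval_algHom_apply, hι, ← hj, ← hj, aeval_algHom_apply]
  have hfix : ∀ (g : H) (P : ℂ[X]), g • aeval z P = aeval z P := by
    intro g P
    induction P using Polynomial.induction_on' with
    | add p q e1 e2 => rw [map_add, smul_add, e1, e2]
    | monomial n c => rw [aeval_monomial, smul_mul', smul_pow', hC, hz]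
  let _ : Algebra K L := ι.toRingHom.toAlgebra
  have hKL : ∀ k, algebraMap K L k = ι k := fun _ => rfl
  have hιfix : ∀ (g : H) (k : K), g • ι k = ι k := by
    intro g k
    have hk : k ∈ IntermediateField.adjoin ℂ {x} := by rw [hx.2]; trivial
    obtain ⟨P, Q, rfl⟩ := (IntermediateField.mem_adjoin_simple_iff ℂ k).1 hk
    rw [map_div₀, hιp, hιp, smul_div₀', hsm, hsm, hfix, hfix]
  have hrange : ∀ f : R, (∀ g : H, g • f = f) → ∃ k, ι k = algebraMap R L f := by
    intro f hf
    obtain ⟨P, Q, hQ, e⟩ := hinv f hf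
    have h1 : algebraMap R L (aeval z Q) ≠ 0 := by
      intro h
      exact hzt ⟨Q, hQ, hinj (by rw [h, map_zero])⟩
    refine ⟨aeval x P / aeval x Q, ?_⟩
    rw [map_div₀, hιp, hιp, ← e, map_mul, mul_div_cancel_left₀ _ h1]
  have hG : IsGaloisGroup H K L := by
    refine ⟨IsFractionRing.faithfulSMul H R L, ⟨fun g k u => ?_⟩, ⟨fun u hu => ?_⟩⟩
    · rw [Algebra.smul_def, Algebra.smul_def, smul_mul', hKL, hιfix]
    · have := Fintype.ofFinite H
      obtain ⟨f, d, hd, rfl⟩ := IsFractionRing.div_surjective R u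
      have hd0 : d ≠ 0 := nonZeroDivisors.ne_zero hd
      have hN : ∀ g : H, g • ∏ h : H, h • d = ∏ h : H, h • d := fun g =>
        Finset.smul_prod_perm d g
      have hN0 : ∏ h : H, h • d ≠ 0 := Finset.prod_ne_zero_iff.2 fun h _ => by
        rwa [Ne, smul_eq_zero_iff_eq]
      obtain ⟨e, he⟩ : d ∣ ∏ h : H, h • d := by
        have := Finset.dvd_prod_of_mem (fun h : H => h • d) (Finset.mem_univ 1)
        rwa [one_smul] at this
      have hd1 : algebraMap R L d ≠ 0 := fun h => hd0 (hinj (by rw [h, map_zero]))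
      have hN1 : algebraMap R L (∏ h : H, h • d) ≠ 0 := fun h => hN0 (hinj (by rw [h, map_zero]))
      have e1 : algebraMap R L f / algebraMap R L d * algebraMap R L (∏ h : H, h • d) =
          algebraMap R L (f * e) := by
        rw [he, map_mul, map_mul, ← mul_assoc, div_mul_cancel₀ _ hd1]
      obtain ⟨k1, hk1⟩ := hrange (f * e) fun g => hinj (by
        rw [← hsm, ← e1, smul_mul', hu g, hsm, hN])
      obtain ⟨k2, hk2⟩ := hrange _ hN
      refine ⟨k1 / k2, ?_⟩
      rw [hKL, map_div₀, hk1, hk2, ← e1, mul_div_cancel_right₀ _ hN1]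
  have hfd : FiniteDimensional K L := IsGaloisGroup.finiteDimensional H K L
  have hgal : IsGalois K L := IsGaloisGroup.isGalois H K L
  let φ : L →ₐ[K] AlgebraicClosure K := IsAlgClosed.lift
  let e : L ≃ₐ[K] φ.fieldRange := AlgEquiv.ofInjectiveField φ
  refine ⟨φ.fieldRange, e.toLinearEquiv.finiteDimensional, IsGalois.of_algEquiv e,
    ⟨(AlgEquiv.autCongr e).symm.trans (IsGaloisGroup.mulEquivAlgEquiv H K L).symm⟩, ?_⟩
  intro b hb
  obtain ⟨v, h1, h2, h3⟩ := hval b hb
  have hS : nonZeroDivisors R ≤ (AddValuation.toValuation v).supp.primeCompl := by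
    intro f hf h
    exact h1 f (nonZeroDivisors.ne_zero hf) h
  let v' : AV L := AddValuation.ofValuation
    ((AddValuation.toValuation v).extendToLocalization hS L)
  have hv' : ∀ r, v' (algebraMap R L r) = v r := fun r =>
    congrArg (fun t => OrderDual.ofDual (Multiplicative.toAdd t))
      (Valuation.extendToLocalization_apply_map_apply (AddValuation.toValuation v) hS L r)
  have hcomp : ∀ k : K, ((v'.comap e.symm.toRingEquiv.toRingHom).comap
      (algebraMap K φ.fieldRange)) k = v' (ι k) := by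
    intro k
    show v' (e.symm (algebraMap K _ k)) = _
    rw [e.symm.commutes, hKL]
  refine ⟨v'.comap e.symm.toRingEquiv.toRingHom, fun c hc => ?_, ?_⟩
  · rw [hcomp, ι.commutes, IsScalarTower.algebraMap_apply ℂ R L, hv', h2 c hc]
  · rw [hcomp, map_sub, hι, ι.commutes, IsScalarTower.algebraMap_apply ℂ R L, ← map_sub, hv', h3]
    rfl

end Crest.Agent.T170.RetE
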