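import Crest.Agent.T170.RetE2_88
import Crest.Agent.T170.RetE3_88
import Crest.Agent.T170.RetE4_88
import Crest.Agent.R257.Cpt2_419

/-!
# Row 170, RET, existence half (helper88), file 5: **`EStmt`**
-/

set_option autoImplicit false

open Set Filter Topology Function Metric Asymptotics Polynomial

namespace Crest.Agent.T170.RetE

noncomputable section

open Crest.Agent.R257.RS_176 Crest.Agent.T170.Ret

theorem fl_le_cofinite (c : Option ℂ) : fl c ≤ cofinite := by
  cases c with
  | none => exact Bornology.le_cofinite ℂ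
  | some a => exact nhdsNE_le_cofinite a

theorem sub_isBigO (c : Option ℂ) (s : ℂ) : (fun z => z - s) =O[fl c] fun w => big c w := by
  have h1 : (fun _ : ℂ => (1 : ℂ)) =O[fl c] fun w => big c w := by
    refine IsBigO.of_bound' ?_
    filter_upwards [(tendsto_big c).eventually_ge_atTop 1] with x hx
    rwa [norm_one]
  cases c with
  | none => exact (isBigO_refl _ _).sub ((isBigO_const_one ℂ s _).trans h1)
  | some a =>
    have h2 : Tendsto (fun z : ℂ => z - s) (fl (some a)) (𝓝 (a - s)) :=
      ((continuous_id.sub continuous_const).continuousAt (x := a)).tendsto.mono_left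
        nhdsWithin_le_nhds
    exact (h2.isBigO_one ℂ).trans h1

/-- entire functions of polynomial growth -/
theorem poly_of_entire (k : ℕ) : ∀ F : ℂ → ℂ, Differentiable ℂ F →
    (F =O[Bornology.cobounded ℂ] fun z => z ^ k) → ∃ P : ℂ[X], ∀ z, F z = P.eval z := by
  induction k with
  | zero =>
    intro F hF h
    have h1 : Bornology.IsBounded (range F) := by
      rw [hF.continuous.isBounded_range_iff_isBigO, ← Metric.cobounded_eq_cocompact]
      refine h.trans (IsBigO.of_bound' (Eventually.of_forall fun z => ?_))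
      simp
    obtain ⟨c, hc⟩ := hF.exists_const_forall_eq_of_bounded h1
    exact ⟨C c, fun z => by rw [hc, eval_C]⟩
  | succ k ih =>
    intro F hF h
    have h1 : Differentiable ℂ (dslope F 0) := by
      rw [← differentiableOn_univ, Complex.differentiableOn_dslope univ_mem]
      exact hF.differentiableOn
    have hne : ∀ᶠ z : ℂ in Bornology.cobounded ℂ, z ≠ 0 :=
      Bornology.le_cofinite ℂ (eventually_cofinite_ne 0)
    have h2 : (fun _ : ℂ => F 0) =O[Bornology.cobounded ℂ] fun z => z ^ (k + 1) := by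
      refine (isBigO_const_one ℂ _ _).trans (IsBigO.of_bound' ?_)
      filter_upwards [(tendsto_norm_cobounded_atTop (E := ℂ)).eventually_ge_atTop 1] with x hx
      rw [norm_one, norm_pow]
      exact one_le_pow₀ hx
    have h3 := (isBigO_refl (fun z : ℂ => z⁻¹) (Bornology.cobounded ℂ)).mul (h.sub h2)
    have h4 : dslope F 0 =O[Bornology.cobounded ℂ] fun z => z ^ k := by
      refine h3.congr' ?_ ?_
      · filter_upwards [hne] with z hz
        rw [dslope_of_ne _ hz, slope_def_field, sub_zero, div_eq_inv_mul]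
      · filter_upwards [hne] with z hz
        rw [pow_succ', ← mul_assoc, inv_mul_cancel₀ hz, one_mul]
    obtain ⟨P, hP⟩ := ih _ h1 h4
    refine ⟨C (F 0) + X * P, fun z => ?_⟩
    have h5 := sub_smul_dslope F 0 z
    rw [eval_add, eval_C, eval_mul, eval_X, ← hP]
    rw [sub_zero, smul_eq_mul] at h5
    rw [h5]
    ring

/-- functions of moderate growth on the punctured plane are rational -/
theorem rational_of_mod (S : Finset ℂ) : ∀ q : ℂ → ℂ, (∀ z, z ∉ S → DifferentiableAt ℂ q z) →
    (∀ c : Option ℂ, (∀ a, c = some a → a ∈ S) → ∃ k : ℕ, q =O[fl c] fun w => big c w ^ k) →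
    ∃ P Q : ℂ[X], Q ≠ 0 ∧ ∀ z, z ∉ S → Q.eval z * q z = P.eval z := by
  classical
  induction S using Finset.induction_on with
  | empty =>
    intro q hd hm
    obtain ⟨k, hk⟩ := hm none (by simp)
    obtain ⟨P, hP⟩ := poly_of_entire k q (fun z => hd z (by simp)) hk
    exact ⟨P, 1, one_ne_zero, fun z _ => by rw [eval_one, one_mul, hP]⟩
  | insert s S hs ih =>
    intro q hd hm
    obtain ⟨k, hk⟩ := hm (some s) (by simp)
    let q' : ℂ → ℂ := fun z => (z - s) ^ (k + 1) * q z
    have hoff : ∀ z, z ∉ insert s S → DifferentiableAt ℂ q' z := fun z hz =>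
      ((differentiableAt_id.sub_const s).pow _).mul (hd z hz)
    refine (ih q' (fun z hz => ?_) fun c hc => ?_).elim fun P h => ?_
    rotate_left 2
    · obtain ⟨Q, hQ, e⟩ := h
      refine ⟨P, Q * (X - C s) ^ (k + 1), mul_ne_zero hQ (pow_ne_zero _ (X_sub_C_ne_zero s)),
        fun z hz => ?_⟩
      rw [← e z fun h => hz (Finset.mem_insert_of_mem h)]
      simp only [eval_mul, eval_pow, eval_sub, eval_X, eval_C, q']
      ring
    · by_cases hzs : z = s
      · subst hzs
        refine (Complex.analyticAt_of_differentiable_on_punctured_nhds_of_continuousAt ?_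
          ?_).differentiableAt
        · filter_upwards [fl_le_cofinite (some z) (insert z S).finite_toSet.compl_mem_cofinite]
            with y hy
          exact hoff y hy
        · rw [← continuousWithinAt_compl_self]
          have h0 : q' z = 0 := by simp [q']
          show Tendsto q' (𝓝[≠] z) (𝓝 (q' z))
          rw [h0]
          have h1 := (isBigO_refl (fun w : ℂ => (w - z) ^ (k + 1)) (fl (some z))).mul hk
          have h2 : q' =O[𝓝[≠] z] fun w => w - z := by
            refine h1.congr' (Eventually.of_forall fun _ => rfl) ?_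
            filter_upwards [self_mem_nhdsWithin] with w hw
            have h3 : w - z ≠ 0 := sub_ne_zero.2 hw
            show (w - z) ^ (k + 1) * (w - z)⁻¹ ^ k = w - z
            rw [pow_succ', mul_assoc, ← mul_pow, mul_inv_cancel₀ h3, one_pow, mul_one]
          refine h2.trans_tendsto ?_
          have : Tendsto (fun w : ℂ => w - z) (𝓝 z) (𝓝 (z - z)) :=
            (continuous_id.sub continuous_const).continuousAt
          rw [sub_self] at this
          exact this.mono_left nhdsWithin_le_nhds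
      · exact hoff z (by simp [hzs, hz])
    · obtain ⟨l, hl⟩ := hm c fun a ha => Finset.mem_insert_of_mem (hc a ha)
      exact ⟨k + 1 + l, (((sub_isBigO c s).pow (k + 1)).mul hl).congr_right fun w =>
        (pow_add _ _ _).symm⟩

variable {X : Type} [TopologicalSpace X] (T : Srf X)

/-- the ring of holomorphic functions of moderate growth -/
def MR : Subalgebra ℂ (X → ℂ) where
  carrier := {f | T.Hol f ∧ Mod T f}
  mul_mem' hf hg := ⟨hf.1.mul hg.1, hf.2.mul hg.2⟩
  add_mem' hf hg := ⟨hf.1.add hg.1, hf.2.add hg.2⟩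
  algebraMap_mem' c := ⟨Srf.Hol.const T c, Mod.const c⟩

/-- the coordinate -/
def zR : MR T := ⟨T.pr, Srf.Hol.comp_pr (q := id) fun _ _ => differentiableAt_id, Mod.pr⟩

theorem aeval_zR (P : ℂ[X]) (x : X) : (aeval (zR T) P : MR T).1 x = P.eval (T.pr x) := by
  have h := aeval_algHom_apply ((Pi.evalAlgHom ℂ (fun _ : X => ℂ) x).comp (MR T).val) (zR T) P
  rw [← coe_aeval_eq_eval]
  exact h.symm

variable {T}

theorem analyticAt_sec {f : X → ℂ} (hf : T.Hol f) (s : T.SecD) {z : ℂ} (hz : z ∈ ball s.w s.r) :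
    AnalyticAt ℂ (fun z => f (s.s z)) z :=
  (hf _ _ _ s.cont s.sec).analyticAt (isOpen_ball.mem_nhds hz)

theorem eq_zero_of_sec [T2Space X] [PreconnectedSpace X] {f : X → ℂ} (hf : T.Hol f) (s : T.SecD)
    {z : ℂ} (hz : z ∈ ball s.w s.r) (h : ∀ᶠ y in 𝓝[≠] z, f (s.s y) = 0) : f = 0 := by
  have h1 : ∀ᶠ y in 𝓝 z, f (s.s y) = 0 :=
    (analyticAt_sec hf s hz).frequently_zero_iff_eventually_zero.1 h.frequently
  have h2 : ∀ᶠ y in 𝓝 (s.s z), f y = 0 := by
    rw [← T.map_nhds_sec s hz]
    exact h1
  exact funext (hf.eq_zero h2)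

/-- the order at a point -/
def ordV (s : T.SecD) {z : ℂ} (hz : z ∈ ball s.w s.r) : AddValuation (MR T) (WithTop ℤ) :=
  AddValuation.of (fun f => meromorphicOrderAt (fun y => f.1 (s.s y)) z)
    (meromorphicOrderAt_eq_top_iff.2 (Eventually.of_forall fun _ => rfl))
    (by
      classical
      exact (meromorphicOrderAt_const z (1 : ℂ)).trans (if_neg one_ne_zero))
    (fun f g => meromorphicOrderAt_add (analyticAt_sec f.2.1 s hz).meromorphicAt
      (analyticAt_sec g.2.1 s hz).meromorphicAt)
    (fun f g => meromorphicOrderAt_mul (analyticAt_sec f.2.1 s hz).meromorphicAt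
      (analyticAt_sec g.2.1 s hz).meromorphicAt)

theorem ordV_apply (s : T.SecD) {z : ℂ} (hz : z ∈ ball s.w s.r) (f : MR T) :
    ordV s hz f = meromorphicOrderAt (fun y => f.1 (s.s y)) z := rfl

theorem ordV_ne_top [T2Space X] [PreconnectedSpace X] (s : T.SecD) {z : ℂ}
    (hz : z ∈ ball s.w s.r) {f : MR T} (hf : f ≠ 0) : ordV s hz f ≠ ⊤ := fun h =>
  hf (Subtype.ext (eq_zero_of_sec f.2.1 s hz (meromorphicOrderAt_eq_top_iff.1 h)))

theorem isDomain_MR [T2Space X] [ConnectedSpace X] : IsDomain (MR T) := by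
  obtain ⟨x⟩ : Nonempty X := inferInstance
  obtain ⟨s, hr, -, -⟩ := T.exists_secD x
  have hz : s.w ∈ ball s.w s.r := mem_ball_self hr
  have h1 : NoZeroDivisors (MR T) := by
    refine ⟨fun {f g} h => ?_⟩
    by_contra hne
    rw [not_or] at hne
    have h2 := (ordV s hz).map_mul f g
    rw [h, AddValuation.map_zero] at h2
    exact WithTop.add_ne_top.2 ⟨ordV_ne_top s hz hne.1, ordV_ne_top s hz hne.2⟩ h2.symm
  have h2 : Nontrivial (MR T) := ⟨0, 1, fun h => by
    have := congrFun (congrArg Subtype.val h) x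
    simp at this⟩
  exact NoZeroDivisors.to_isDomain _

/-- the action of the deck group -/
@[reducible] def actR {H : Type} [Group H] [MulAction H X]
    (hc : ∀ g : H, Continuous fun y : X => g • y) (ho : ∀ (g : H) (y : X), T.pr (g • y) = T.pr y) :
    MulSemiringAction H (MR T) where
  smul g f := ⟨fun x => f.1 (g⁻¹ • x), fun w r s h1 h2 =>
    f.2.1 w r (fun z => g⁻¹ • s z) ((hc g⁻¹).comp_continuousOn h1)
      (fun z hz => (ho _ _).trans (h2 z hz)), f.2.2.comp (ho g⁻¹)⟩
  one_smul f := Subtype.ext (funext fun x => by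
    show f.1 ((1 : H)⁻¹ • x) = f.1 x
    rw [inv_one, one_smul])
  mul_smul g g' f := Subtype.ext (funext fun x => by
    show f.1 ((g * g')⁻¹ • x) = f.1 (g'⁻¹ • g⁻¹ • x)
    rw [mul_inv_rev, mul_smul])
  smul_zero _ := rfl
  smul_add _ _ _ := rfl
  smul_one _ := rfl
  smul_mul _ _ _ := rfl

/-- **existence half of the Riemann existence theorem** -/
theorem eStmt : EStmt := by
  classical
  intro K _ _ x hx m a ha H _ _ w hw
  obtain ⟨Y, _, _, _, _, p, hp⟩ := exists_cover_plane a ha H w hw
    ((Finset.univ.image a : Finset ℂ) : Set ℂ) (by simp)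
  obtain ⟨T, hT, hS⟩ := Crest.Agent.R257.Cpt1_419.exists_srf
    (S := Finset.univ.image a) (X := Y) ⟨p, hp.cl, hp.lh, hp.fin⟩
  have hT' : ∀ y, T.pr y = (p y).1 := congrFun hT
  have ho : ∀ (g : H) (y : Y), T.pr (g • y) = T.pr y := fun g y => by rw [hT', hT', hp.ovr]
  have htr : ∀ y y', T.pr y = T.pr y' → ∃ g : H, g • y = y' := fun y y' h =>
    hp.trans y y' (Subtype.ext (by rwa [hT', hT'] at h))
  have hsurj : ∀ z, z ∉ T.S → ∃ y, T.pr y = z := by
    intro z hz
    rw [hS] at hz
    obtain ⟨y, hy⟩ := hp.surj ⟨z, hz⟩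
    exact ⟨y, by rw [hT', hy]⟩
  let _ : MulSemiringAction H (MR T) := actR hp.cont ho
  have hsm : ∀ (g : H) (f : MR T) (y : Y), (g • f).1 y = f.1 (g⁻¹ • y) := fun _ _ _ => rfl
  have : IsDomain (MR T) := isDomain_MR
  obtain ⟨y₀⟩ : Nonempty Y := inferInstance
  have : FaithfulSMul H (MR T) := by
    refine ⟨fun {g g'} h => ?_⟩
    obtain ⟨G, h1, h2, h3, h4⟩ := exists_sep (T := T) y₀
    have h5 := congrFun (congrArg Subtype.val (h ⟨G, h1, h2⟩)) (g • y₀)
    rw [hsm, hsm, inv_smul_smul] at h5
    have h6 : g'⁻¹ • g • y₀ = y₀ := by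
      by_contra hne
      exact h3 (h5.trans (h4 _ hne (by rw [ho, ho])))
    rw [← mul_smul] at h6
    exact (inv_mul_eq_one.1 (hp.free _ _ h6)).symm
  refine alg_step K x hx H (MR T) (fun _ _ => rfl) (zR T)
    (fun g => Subtype.ext (funext fun y => ho g⁻¹ y)) ?_ ?_ (range a) ?_
  · rintro ⟨P, hP, h⟩
    refine hP (P.eq_zero_of_infinite_isRoot (T.S.finite_toSet.infinite_compl.mono ?_))
    intro z hz
    obtain ⟨y, rfl⟩ := hsurj z hz
    show P.eval (T.pr y) = 0
    rw [← aeval_zR, h]
    rfl
  · intro f hf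
    choose! sec hsec using hsurj
    have hq : ∀ y, f.1 (sec (T.pr y)) = f.1 y := by
      intro y
      obtain ⟨g, hg⟩ := htr (sec (T.pr y)) y (hsec _ (T.pr_notMem y))
      have h1 := hsm g f y
      rw [hf g, ← hg, inv_smul_smul, hg] at h1
      exact h1.symm
    refine (rational_of_mod T.S (fun z => f.1 (sec z)) (fun z hz => ?_)
      fun c hc => ?_).elim fun P h => ?_
    rotate_left 2
    · obtain ⟨Q, hQ, e⟩ := h
      refine ⟨P, Q, hQ, Subtype.ext (funext fun y => ?_)⟩
      show (aeval (zR T) Q : MR T).1 y * f.1 y = _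
      rw [aeval_zR, aeval_zR, ← e _ (T.pr_notMem y), hq]
    · obtain ⟨s, hr, hw, -⟩ := T.exists_secD (sec z)
      rw [hsec z hz] at hw
      have hz' : z ∈ ball s.w s.r := by rw [hw]; exact mem_ball_self hr
      refine (analyticAt_sec f.2.1 s hz').differentiableAt.congr_of_eventuallyEq ?_
      filter_upwards [isOpen_ball.mem_nhds hz'] with y hy
      rw [← hq (s.s y), s.sec y hy]
    · obtain ⟨k, hk⟩ := f.2.2 c hc
      have h1 : ∀ᶠ z in fl c, T.pr (sec z) = z := by
        filter_upwards [fl_le_cofinite c T.S.finite_toSet.compl_mem_cofinite] with z hz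
        exact hsec z hz
      have h2 : Tendsto sec (fl c) (comap T.pr (fl c)) :=
        tendsto_comap_iff.2 (tendsto_id.congr' (h1.mono fun z hz => hz.symm))
      refine ⟨k, (hk.comp_tendsto h2).congr' (Eventually.of_forall fun _ => rfl) ?_⟩
      filter_upwards [h1] with z hz
      show big c (T.pr (sec z)) ^ k = _
      rw [hz]
  · intro b hb
    obtain ⟨y, hy⟩ := hsurj b (by rw [hS]; simpa using hb)
    obtain ⟨s, hr, hw, -⟩ := T.exists_secD y
    rw [hy] at hw
    have hz : b ∈ ball s.w s.r := by rw [hw]; exact mem_ball_self hr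
    refine ⟨ordV s hz, fun f hf => ordV_ne_top s hz hf, fun c hc => ?_, ?_⟩
    · exact (meromorphicOrderAt_const b c).trans (if_neg hc)
    · rw [ordV_apply]
      refine (meromorphicOrderAt_congr (f₂ := fun y => y - b) ?_).trans
        meromorphicOrderAt_id_sub_const
      filter_upwards [nhdsWithin_le_nhds (isOpen_ball.mem_nhds hz)] with y hy
      show T.pr (s.s y) - b = y - b
      rw [s.sec y hy]

end

end Crest.Agent.T170.RetE
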