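import Crest.Agent.T170.RetGFin_83
import Crest.Agent.T170.RetC_81
import Crest.Agent.T170.RetE5_88

/-!
# Row 170: **Riemann existence on the line**, unconditional (assembly, helper88)
-/

set_option autoImplicit false

namespace Crest.Agent.T170.Ret

/-- **Riemann existence on the line** -/
theorem retP1 : RetP1 := retP1_of gStmt RetE.eStmt

end Crest.Agent.T170.Ret
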