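import Mathlib

/-!
# Row 170, module E (helper49), part 1: the Gauss valuation on `C[s_i]` and on `C(s_i)`
-/

set_option autoImplicit false

namespace Crest.Agent.T170.Base

open scoped NNReal
open MvPolynomial

variable {C : Type*} [Field C] (v : Valuation C ℝ≥0) {ι : Type*}

/-- the Gauss norm -/
noncomputable def gn (f : MvPolynomial ι C) : ℝ≥0 := f.support.sup fun m => v (coeff m f)

theorem le_gn (f : MvPolynomial ι C) (m : ι →₀ ℕ) : v (coeff m f) ≤ gn v f := by
  by_cases h : m ∈ f.support
  · exact Finset.le_sup (f := fun m => v (coeff m f)) h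
  · rw [notMem_support_iff.1 h]; simp

theorem gn_le_iff {f : MvPolynomial ι C} {r : ℝ≥0} : gn v f ≤ r ↔ ∀ m, v (coeff m f) ≤ r :=
  ⟨fun h m => (le_gn v f m).trans h, fun h => Finset.sup_le fun m _ => h m⟩

theorem exists_gn (f : MvPolynomial ι C) : ∃ m, v (coeff m f) = gn v f := by
  rcases f.support.eq_empty_or_nonempty with h | h
  · refine ⟨0, ?_⟩
    rw [support_eq_empty.1 h]; simp [gn]
  · obtain ⟨m, -, hm⟩ := Finset.exists_mem_eq_sup f.support h fun m => v (coeff m f)
    exact ⟨m, hm.symm⟩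

theorem gn_lt_iff {f : MvPolynomial ι C} {r : ℝ≥0} : gn v f < r ↔ ∀ m, v (coeff m f) < r := by
  refine ⟨fun h m => (le_gn v f m).trans_lt h, fun h => ?_⟩
  obtain ⟨m, hm⟩ := exists_gn v f
  exact hm ▸ h m

@[simp] theorem gn_zero : gn v (0 : MvPolynomial ι C) = 0 := by simp [gn]

theorem gn_eq_zero {f : MvPolynomial ι C} (h : gn v f = 0) : f = 0 := by
  ext m
  have := le_gn v f m
  rw [h] at this
  simpa using this

theorem gn_C_mul (c : C) (f : MvPolynomial ι C) : gn v (MvPolynomial.C c * f) = v c * gn v f := by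
  apply le_antisymm
  · rw [gn_le_iff]
    intro m
    rw [coeff_C_mul, map_mul]
    exact mul_le_mul_right (le_gn v f m) _
  · obtain ⟨m, hm⟩ := exists_gn v f
    rw [← hm, ← map_mul, ← coeff_C_mul]
    exact le_gn v _ m

theorem gn_monomial (m : ι →₀ ℕ) (c : C) : gn v (monomial m c) = v c := by
  classical
  apply le_antisymm
  · rw [gn_le_iff]
    intro m'
    rw [coeff_monomial]
    split_ifs <;> simp
  · simpa using le_gn v (monomial m c) m

theorem gn_C (c : C) : gn v (MvPolynomial.C c : MvPolynomial ι C) = v c := gn_monomial v 0 c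

theorem gn_X (i : ι) : gn v (X i : MvPolynomial ι C) = 1 := by
  rw [X, gn_monomial, map_one]

theorem gn_add (f g : MvPolynomial ι C) : gn v (f + g) ≤ max (gn v f) (gn v g) := by
  rw [gn_le_iff]
  intro m
  rw [coeff_add]
  exact (v.map_add _ _).trans (max_le_max (le_gn v f m) (le_gn v g m))

/-- the polynomial with integral coefficients, seen over `C` -/
noncomputable abbrev up (f : MvPolynomial ι v.valuationSubring) : MvPolynomial ι C :=
  MvPolynomial.map v.valuationSubring.subtype f

/-- the reduction -/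
noncomputable abbrev rd (f : MvPolynomial ι v.valuationSubring) :
    MvPolynomial ι (IsLocalRing.ResidueField v.valuationSubring) :=
  MvPolynomial.map (IsLocalRing.residue v.valuationSubring) f

theorem residue_eq_zero_iff' (c : v.valuationSubring) :
    IsLocalRing.residue v.valuationSubring c = 0 ↔ v (c : C) < 1 := by
  rw [IsLocalRing.residue_eq_zero_iff, Valuation.mem_maximalIdeal_iff]

theorem gn_up_le (f : MvPolynomial ι v.valuationSubring) : gn v (up v f) ≤ 1 := by
  rw [gn_le_iff]
  intro m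
  rw [coeff_map]
  exact (coeff m f).2

theorem gn_up_lt (f : MvPolynomial ι v.valuationSubring) : gn v (up v f) < 1 ↔ rd v f = 0 := by
  rw [gn_lt_iff, MvPolynomial.ext_iff]
  refine forall_congr' fun m => ?_
  rw [coeff_map, coeff_map, coeff_zero, residue_eq_zero_iff']
  rfl

theorem gn_up_eq_one {f : MvPolynomial ι v.valuationSubring} : gn v (up v f) = 1 ↔ rd v f ≠ 0 := by
  rw [Ne, ← gn_up_lt, not_lt]
  exact ⟨fun h => h.ge, fun h => le_antisymm (gn_up_le v f) h⟩

theorem exists_up {f : MvPolynomial ι C} (h : gn v f ≤ 1) : ∃ g, up v g = f := by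
  classical
  refine ⟨∑ m ∈ f.support, monomial m ⟨coeff m f, (le_gn v f m).trans h⟩, ?_⟩
  rw [up, map_sum]
  conv_rhs => rw [f.as_sum]
  refine Finset.sum_congr rfl fun m _ => ?_
  rw [map_monomial]
  rfl

/-- normal form: a constant times a primitive polynomial -/
theorem exists_prim {f : MvPolynomial ι C} (hf : f ≠ 0) :
    ∃ (c : C) (g : MvPolynomial ι v.valuationSubring), c ≠ 0 ∧ rd v g ≠ 0 ∧
      f = MvPolynomial.C c * up v g := by
  obtain ⟨m, hm⟩ := exists_gn v f
  have h0 : gn v f ≠ 0 := fun h => hf (gn_eq_zero v h)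
  have hc : coeff m f ≠ 0 := fun h => h0 (by rw [← hm, h, map_zero])
  have h1 : gn v (MvPolynomial.C (coeff m f)⁻¹ * f) = 1 := by
    rw [gn_C_mul, map_inv₀, hm, inv_mul_cancel₀ h0]
  obtain ⟨g, hg⟩ := exists_up v h1.le
  refine ⟨coeff m f, g, hc, (gn_up_eq_one v).1 (hg ▸ h1), ?_⟩
  rw [hg, ← mul_assoc, ← map_mul, mul_inv_cancel₀ hc, map_one, one_mul]

theorem gn_mul (f g : MvPolynomial ι C) : gn v (f * g) = gn v f * gn v g := by
  rcases eq_or_ne f 0 with rfl | hf
  · simp
  rcases eq_or_ne g 0 with rfl | hg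
  · simp
  obtain ⟨c, f', -, hf', rfl⟩ := exists_prim v hf
  obtain ⟨d, g', -, hg', rfl⟩ := exists_prim v hg
  have h : rd v (f' * g') ≠ 0 := by rw [rd, map_mul]; exact mul_ne_zero hf' hg'
  have h2 : MvPolynomial.C c * up v f' * (MvPolynomial.C d * up v g') =
      MvPolynomial.C (c * d) * up v (f' * g') := by
    simp only [up, map_mul]; ring
  rw [h2, gn_C_mul, gn_C_mul, gn_C_mul, (gn_up_eq_one v).2 h, (gn_up_eq_one v).2 hf',
    (gn_up_eq_one v).2 hg', map_mul]
  ring

variable (ι) in
/-- the Gauss valuation on the polynomial ring -/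
noncomputable def gv : Valuation (MvPolynomial ι C) ℝ≥0 where
  toFun := gn v
  map_zero' := gn_zero v
  map_one' := by rw [← C_1, gn_C, map_one]
  map_mul' := gn_mul v
  map_add_le_max' := gn_add v

theorem gv_apply (f : MvPolynomial ι C) : gv v ι f = gn v f := rfl

theorem gn_rename (e : ι ≃ ι) (f : MvPolynomial ι C) : gn v (rename e f) = gn v f := by
  have key : ∀ (e : ι ≃ ι) (f : MvPolynomial ι C), gn v f ≤ gn v (rename e f) := by
    intro e f
    rw [gn_le_iff]
    intro m
    rw [← coeff_rename_mapDomain e e.injective f m]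
    exact le_gn v _ _
  refine le_antisymm ?_ (key e f)
  have := key e.symm (rename e f)
  rwa [rename_rename, e.symm_comp_self, rename_id, AlgHom.id_apply] at this

theorem gn_pderiv (i : ι) (f : MvPolynomial ι C) : gn v (pderiv i f) ≤ gn v f := by
  classical
  conv_lhs => rw [f.as_sum, map_sum]
  refine (gv v ι).map_sum_le fun m _ => ?_
  rw [pderiv_monomial, gv_apply, gn_monomial, map_mul]
  have h1 : v ((m i : ℕ) : C) ≤ 1 := by
    induction m i with
    | zero => simp
    | succ j ih =>
      rw [Nat.cast_succ]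
      exact (v.map_add _ _).trans (max_le ih (by simp))
  calc v (coeff m f) * v ((m i : ℕ) : C) ≤ gn v f * 1 := mul_le_mul' (le_gn v f m) h1
    _ = gn v f := mul_one _

theorem gn_X_sub_X {i j : ι} (h : i ≠ j) : gn v (X i - X j : MvPolynomial ι C) = 1 := by
  have h1 : (X i - X j : MvPolynomial ι C) = up v (X i - X j) := by simp
  rw [h1, gn_up_eq_one]
  simp only [rd, map_sub, map_X]
  exact sub_ne_zero.2 fun h' => h (X_injective h')

section Frac

variable (K : Type*) [Field K] [Algebra (MvPolynomial ι C) K] [IsFractionRing (MvPolynomial ι C) K]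

variable (ι) in
/-- the Gauss valuation on the field of rational functions -/
noncomputable def gK : Valuation K ℝ≥0 :=
  (gv v ι).extendToLocalization (S := nonZeroDivisors (MvPolynomial ι C)) (by
    intro f hf h
    exact nonZeroDivisors.ne_zero hf (gn_eq_zero v h)) K

theorem gK_algebraMap (f : MvPolynomial ι C) : gK v ι K (algebraMap _ K f) = gn v f :=
  Valuation.extendToLocalization_apply_map_apply _ _ _ f

variable {K}

/-- normal form of a rational function -/
theorem exists_frac (z : K) :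
    ∃ (c : C) (f g : MvPolynomial ι v.valuationSubring), rd v f ≠ 0 ∧ rd v g ≠ 0 ∧
      z = algebraMap _ K (MvPolynomial.C c * up v f) / algebraMap _ K (up v g) := by
  obtain ⟨f, g, hg, rfl⟩ := IsFractionRing.div_surjective (A := MvPolynomial ι C) z
  obtain ⟨d, g', hd, hg', rfl⟩ := exists_prim v (nonZeroDivisors.ne_zero hg)
  have hd' : algebraMap (MvPolynomial ι C) K (MvPolynomial.C d) ≠ 0 := by
    rw [Ne, IsFractionRing.to_map_eq_zero_iff, C_eq_zero]; exact hd
  rcases eq_or_ne f 0 with rfl | hf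
  · exact ⟨0, 1, 1, by simp, by simp, by simp⟩
  obtain ⟨c, f', -, hf', rfl⟩ := exists_prim v hf
  refine ⟨c / d, f', g', hf', hg', ?_⟩
  have h1 : (MvPolynomial.C c : MvPolynomial ι C) = MvPolynomial.C d * MvPolynomial.C (c / d) := by
    rw [← map_mul, mul_div_cancel₀ _ hd]
  rw [h1, mul_assoc, map_mul, map_mul _ (MvPolynomial.C d), mul_div_mul_left _ _ hd']

theorem gK_frac (c : C) {f g : MvPolynomial ι v.valuationSubring} (hf : rd v f ≠ 0)
    (hg : rd v g ≠ 0) :
    gK v ι K (algebraMap _ K (MvPolynomial.C c * up v f) / algebraMap _ K (up v g)) = v c := by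
  rw [map_div₀, gK_algebraMap, gK_algebraMap, gn_C_mul, (gn_up_eq_one v).2 hf,
    (gn_up_eq_one v).2 hg]
  simp

/-- integral rational functions -/
theorem exists_frac_of_le {z : K} (hz : gK v ι K z ≤ 1) :
    ∃ f g : MvPolynomial ι v.valuationSubring, rd v g ≠ 0 ∧
      z = algebraMap _ K (up v f) / algebraMap _ K (up v g) := by
  obtain ⟨c, f, g, hf, hg, rfl⟩ := exists_frac v (ι := ι) z
  rw [gK_frac v c hf hg] at hz
  refine ⟨MvPolynomial.C ⟨c, hz⟩ * f, g, hg, ?_⟩
  simp [up]

end Frac

end Crest.Agent.T170.Base
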