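import Mathlib
import Crest.Agent.T170.Fr_20

/-!
# Row 170, module E (helper49): the base field before completion (definitions and joints)

* `PreBase`  : `Fr.Base` without completeness;
* `LexStmt`  : a rotation invariant valuation ring of `k(s₀, …, s_{n-1})` with residue field `k`;
* `CplStmt`  : completion of a `PreBase`;
-/

set_option autoImplicit false

namespace Crest.Agent.T170.Base

open scoped NNReal

/-- `Fr.Base` without completeness -/
structure PreBase (p n : ℕ) [NeZero n] (C F : Type) [Field C] [Field F] [Algebra C F] where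
  v : Valuation F ℝ≥0
  vp : v (p : F) < 1
  vgrp : ∀ z : F, ∃ c : C, v (algebraMap C F c) = v z
  s : Fin n → F
  vs : ∀ i, v (s i) ≤ 1
  vss : ∀ i j, i ≠ j → v (s i - s j) = 1
  σ : F ≃ₐ[C] F
  σn : σ ^ n = 1
  σs : ∀ i, σ (s i) = s (i + 1)
  vσ : ∀ z, v (σ z) = v z
  D : Fin n → Derivation C F F
  Ds : ∀ i j, D i (s j) = if i = j then 1 else 0
  vD : ∀ i z, v (D i z) ≤ v z
  Dcomm : ∀ i j z, D i (D j z) = D j (D i z)
  σD : ∀ i z, σ (D i z) = D (i + 1) (σ z)
  V : ValuationSubring F
  fine : Fr.Fine (C := C) v V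
  σV : ∀ z, σ z ∈ V ↔ z ∈ V

/-- a rotation invariant valuation ring of the rational function field with residue field `k` -/
def LexStmt (p : ℕ) : Prop :=
  ∀ (a : ℕ) [NeZero (p ^ a)] (k κ : Type) [Field k] [CharP k p] [Field κ]
    [Algebra (MvPolynomial (Fin (p ^ a)) k) κ] [IsFractionRing (MvPolynomial (Fin (p ^ a)) k) κ],
    ∃ W : ValuationSubring κ,
      (∀ c : k, algebraMap (MvPolynomial (Fin (p ^ a)) k) κ (MvPolynomial.C c) ∈ W) ∧
      (∀ z ∈ W, ∃ c : k,
        W.valuation (z - algebraMap (MvPolynomial (Fin (p ^ a)) k) κ (MvPolynomial.C c)) < 1) ∧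
      ∀ f g : MvPolynomial (Fin (p ^ a)) k,
        algebraMap _ κ (MvPolynomial.rename (· + 1) f) /
            algebraMap _ κ (MvPolynomial.rename (· + 1) g) ∈ W ↔
          algebraMap _ κ f / algebraMap _ κ g ∈ W

/-- completion of the base field -/
def CplStmt (p : ℕ) : Prop :=
  ∀ (n : ℕ) [NeZero n] (C K : Type) [Field C] [CharZero C] [Field K] [Algebra C K],
    PreBase p n C K → Cardinal.mk K ≤ Cardinal.continuum →
    ∃ (F : Type) (_ : Field F) (_ : Algebra C F),
      Cardinal.mk F = Cardinal.continuum ∧ Nonempty (Fr.Base p n C F)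

end Crest.Agent.T170.Base
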