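import Mathlib
import Crest.Agent.T170.Base1_49
import Crest.Agent.T170.BaseA_64
import Crest.Agent.T170.BaseDef_49

/-!
# Row 170, module E (helper49), part 2: the refined valuation ring and `PreBase`
-/

set_option autoImplicit false
set_option linter.unusedSectionVars false

namespace Crest.Agent.T170.Base

open scoped NNReal
open MvPolynomial IsLocalRing

section Sp

variable {C : Type*} [Field C] (v : Valuation C ℝ≥0) (ι : Type*)
  {K : Type*} [Field K] [Algebra (MvPolynomial ι C) K] [IsFractionRing (MvPolynomial ι C) K]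
  {κ : Type*} [Field κ] [Algebra (MvPolynomial ι (ResidueField v.valuationSubring)) κ]
  [IsFractionRing (MvPolynomial ι (ResidueField v.valuationSubring)) κ]

/-- `a` is the residue of `z` -/
def Sp (z : K) (a : κ) : Prop :=
  ∃ f g : MvPolynomial ι v.valuationSubring, rd v g ≠ 0 ∧
    z = algebraMap _ K (up v f) / algebraMap _ K (up v g) ∧
    a = algebraMap _ κ (rd v f) / algebraMap _ κ (rd v g)

variable {v ι}

theorem up_ne_zero {g : MvPolynomial ι v.valuationSubring} (hg : rd v g ≠ 0) :
    algebraMap _ K (up v g) ≠ 0 := by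
  rw [Ne, IsFractionRing.to_map_eq_zero_iff]
  intro h
  have := (gn_up_eq_one v).2 hg
  rw [h, gn_zero] at this
  exact zero_ne_one this

theorem rd_ne_zero {g : MvPolynomial ι v.valuationSubring} (hg : rd v g ≠ 0) :
    algebraMap _ κ (rd v g) ≠ 0 := by
  rwa [Ne, IsFractionRing.to_map_eq_zero_iff]

theorem Sp.mul {z w : K} {a b : κ} (h : Sp v ι z a) (h' : Sp v ι w b) : Sp v ι (z * w) (a * b) := by
  obtain ⟨f, g, hg, rfl, rfl⟩ := h
  obtain ⟨f', g', hg', rfl, rfl⟩ := h'
  refine ⟨f * f', g * g', by rw [rd, map_mul]; exact mul_ne_zero hg hg', ?_, ?_⟩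
  · simp only [up, map_mul, div_mul_div_comm]
  · simp only [rd, map_mul, div_mul_div_comm]

theorem Sp.add {z w : K} {a b : κ} (h : Sp v ι z a) (h' : Sp v ι w b) : Sp v ι (z + w) (a + b) := by
  obtain ⟨f, g, hg, rfl, rfl⟩ := h
  obtain ⟨f', g', hg', rfl, rfl⟩ := h'
  refine ⟨f * g' + g * f', g * g', by rw [rd, map_mul]; exact mul_ne_zero hg hg', ?_, ?_⟩
  · rw [div_add_div _ _ (up_ne_zero hg) (up_ne_zero hg')]
    simp only [up, map_mul, map_add]
  · rw [div_add_div _ _ (rd_ne_zero hg) (rd_ne_zero hg')]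
    simp only [rd, map_mul, map_add]

omit [IsFractionRing (MvPolynomial ι C) K]
  [IsFractionRing (MvPolynomial ι (ResidueField v.valuationSubring)) κ] in
theorem sp_poly (f : MvPolynomial ι v.valuationSubring) :
    Sp v ι (algebraMap _ K (up v f)) (algebraMap _ κ (rd v f)) :=
  ⟨f, 1, by simp, by simp, by simp⟩

omit [IsFractionRing (MvPolynomial ι C) K]
  [IsFractionRing (MvPolynomial ι (ResidueField v.valuationSubring)) κ] in
theorem Sp.neg {z : K} {a : κ} (h : Sp v ι z a) : Sp v ι (-z) (-a) := by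
  obtain ⟨f, g, hg, rfl, rfl⟩ := h
  exact ⟨-f, g, hg, by simp [neg_div], by simp [neg_div]⟩

theorem Sp.le {z : K} {a : κ} (h : Sp v ι z a) : gK v ι K z ≤ 1 := by
  obtain ⟨f, g, hg, rfl, rfl⟩ := h
  rw [map_div₀, gK_algebraMap, gK_algebraMap, (gn_up_eq_one v).2 hg, div_one]
  exact gn_up_le v f

theorem Sp.eq_zero_iff {z : K} {a : κ} (h : Sp v ι z a) : a = 0 ↔ gK v ι K z < 1 := by
  obtain ⟨f, g, hg, rfl, rfl⟩ := h
  rw [map_div₀, gK_algebraMap, gK_algebraMap, (gn_up_eq_one v).2 hg, div_one, gn_up_lt,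
    div_eq_zero_iff, or_iff_left (rd_ne_zero hg), IsFractionRing.to_map_eq_zero_iff]

theorem Sp.unique {z : K} {a b : κ} (h : Sp v ι z a) (h' : Sp v ι z b) : a = b := by
  have h1 := h.add h'.neg
  rw [add_neg_cancel] at h1
  have := h1.eq_zero_iff.2 (by simp)
  rwa [add_neg_eq_zero] at this

theorem Sp.inv {z : K} {a : κ} (h : Sp v ι z a) (ha : a ≠ 0) : Sp v ι z⁻¹ a⁻¹ := by
  obtain ⟨f, g, hg, rfl, rfl⟩ := h
  refine ⟨g, f, fun h => ha (by rw [h]; simp), by rw [inv_div], by rw [inv_div]⟩

omit [IsFractionRing (MvPolynomial ι (ResidueField v.valuationSubring)) κ] in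
variable (κ) in
theorem exists_sp {z : K} (hz : gK v ι K z ≤ 1) : ∃ a : κ, Sp v ι z a := by
  obtain ⟨f, g, hg, rfl⟩ := exists_frac_of_le v hz
  exact ⟨_, f, g, hg, rfl, rfl⟩

variable (v ι K) in
/-- the composite valuation ring -/
def compVS (W : ValuationSubring κ) : ValuationSubring K where
  carrier := {z | ∃ a ∈ W, Sp v ι z a}
  mul_mem' := by
    rintro z w ⟨a, ha, h⟩ ⟨b, hb, h'⟩
    exact ⟨a * b, mul_mem ha hb, h.mul h'⟩
  one_mem' := ⟨1, one_mem _, by simpa using sp_poly (K := K) (κ := κ) (v := v) (ι := ι) 1⟩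
  add_mem' := by
    rintro z w ⟨a, ha, h⟩ ⟨b, hb, h'⟩
    exact ⟨a + b, add_mem ha hb, h.add h'⟩
  zero_mem' := ⟨0, zero_mem _, by simpa using sp_poly (K := K) (κ := κ) (v := v) (ι := ι) 0⟩
  neg_mem' := by
    rintro z ⟨a, ha, h⟩
    exact ⟨-a, neg_mem ha, h.neg⟩
  mem_or_inv_mem' := by
    intro z
    rcases le_or_gt (gK v ι K z) 1 with hz | hz
    · obtain ⟨a, ha⟩ := exists_sp κ hz
      by_cases h : a ∈ W
      · exact Or.inl ⟨a, h, ha⟩
      · refine Or.inr ⟨a⁻¹, (W.mem_or_inv_mem a).resolve_left h, ha.inv ?_⟩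
        rintro rfl
        exact h (zero_mem _)
    · have h1 : gK v ι K z⁻¹ < 1 := by
        rw [map_inv₀]; exact inv_lt_one_of_one_lt₀ hz
      obtain ⟨a, ha⟩ := exists_sp κ h1.le
      refine Or.inr ⟨a, ?_, ha⟩
      rw [ha.eq_zero_iff.2 h1]
      exact zero_mem _

theorem mem_compVS {W : ValuationSubring κ} {z : K} :
    z ∈ compVS v ι K W ↔ ∃ a ∈ W, Sp v ι z a := Iff.rfl

theorem compVS_lt {W : ValuationSubring κ} {z : K} {a : κ} (h : Sp v ι z a)
    (ha : W.valuation a < 1) : (compVS v ι K W).valuation z < 1 := by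
  by_contra hz
  rw [not_lt] at hz
  have hz0 : z ≠ 0 := by
    rintro rfl
    simp at hz
  have h1 : z⁻¹ ∈ compVS v ι K W := by
    rw [← ValuationSubring.valuation_le_one_iff, map_inv₀]
    exact inv_le_one_of_one_le₀ hz
  obtain ⟨b, hb, h'⟩ := h1
  have h2 := h.mul h'
  rw [mul_inv_cancel₀ hz0] at h2
  have h3 : a * b = 1 := h2.unique (by simpa using sp_poly (K := K) (κ := κ) (v := v) (ι := ι) 1)
  have h4 : W.valuation (a * b) < 1 := by
    rw [map_mul]
    exact mul_lt_one_of_lt_of_le ha ((W.valuation_le_one_iff b).2 hb)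
  rw [h3, map_one] at h4
  exact lt_irrefl _ h4

end Sp

section Rot

variable {C : Type*} [Field C] {ι : Type*}
  (K : Type*) [Field K] [Algebra (MvPolynomial ι C) K] [IsFractionRing (MvPolynomial ι C) K]
  [Algebra C K] [IsScalarTower C (MvPolynomial ι C) K]

/-- permutation of the variables -/
noncomputable def perm (e : ι ≃ ι) : K ≃ₐ[C] K :=
  IsFractionRing.algEquivOfAlgEquiv (renameEquiv C e)

theorem perm_algebraMap (e : ι ≃ ι) (f : MvPolynomial ι C) :
    perm (C := C) K e (algebraMap _ K f) = algebraMap _ K (rename e f) :=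
  IsFractionRing.algEquivOfAlgEquiv_algebraMap _ f

/-- the partial derivatives -/
noncomputable def pd (i : ι) : Derivation C K K :=
  haveI : Algebra.FormallyEtale (MvPolynomial ι C) K :=
    Algebra.FormallyEtale.of_isLocalization (nonZeroDivisors _)
  derUp K (pderiv i)

theorem pd_algebraMap (i : ι) (f : MvPolynomial ι C) :
    pd (C := C) K i (algebraMap _ K f) = algebraMap _ K (pderiv i f) :=
  haveI : Algebra.FormallyEtale (MvPolynomial ι C) K :=
    Algebra.FormallyEtale.of_isLocalization (nonZeroDivisors _)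
  derUp_algebraMap _ f

theorem pderiv_comm' (i j : ι) (f : MvPolynomial ι C) :
    pderiv i (pderiv j f) = pderiv j (pderiv i f) := by
  classical
  have h1 : ⁅(pderiv i : Derivation C (MvPolynomial ι C) (MvPolynomial ι C)),
      (pderiv j : Derivation C (MvPolynomial ι C) (MvPolynomial ι C))⁆ = 0 := by
    apply MvPolynomial.derivation_ext
    intro l
    simp only [Derivation.commutator_apply, pderiv_X, Pi.single_apply]
    split_ifs <;> simp
  have h2 := congrArg (fun E : Derivation C (MvPolynomial ι C) (MvPolynomial ι C) => E f) h1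
  simpa [Derivation.commutator_apply, sub_eq_zero] using h2

theorem pd_comm (i j : ι) (z : K) :
    pd (C := C) K i (pd (C := C) K j z) = pd (C := C) K j (pd (C := C) K i z) :=
  haveI : Algebra.FormallyEtale (MvPolynomial ι C) K :=
    Algebra.FormallyEtale.of_isLocalization (nonZeroDivisors _)
  derUp_comm _ _ (pderiv_comm' i j) z

theorem perm_pd (e : ι ≃ ι) (i : ι) (z : K) :
    perm (C := C) K e (pd (C := C) K i z) = pd (C := C) K (e i) (perm (C := C) K e z) :=
  haveI : Algebra.FormallyEtale (MvPolynomial ι C) K :=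
    Algebra.FormallyEtale.of_isLocalization (nonZeroDivisors _)
  der_conj (R := MvPolynomial ι C) (perm (C := C) K e : K →+* K) _ _ (fun r => by
    simp only [RingHom.coe_coe, pd_algebraMap, perm_algebraMap, pderiv_rename e.injective]) z

variable (v : Valuation C ℝ≥0)

theorem gK_perm (e : ι ≃ ι) (z : K) : gK v ι K (perm (C := C) K e z) = gK v ι K z := by
  obtain ⟨f, g, -, rfl⟩ := IsFractionRing.div_surjective (A := MvPolynomial ι C) z
  simp only [map_div₀, perm_algebraMap, gK_algebraMap, gn_rename]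

theorem gK_pd (i : ι) (z : K) : gK v ι K (pd (C := C) K i z) ≤ gK v ι K z := by
  obtain ⟨f, g, hg, rfl⟩ := IsFractionRing.div_surjective (A := MvPolynomial ι C) z
  have h0 : gn v g ≠ 0 := fun h => nonZeroDivisors.ne_zero hg (gn_eq_zero v h)
  rw [Derivation.leibniz_div, pd_algebraMap, pd_algebraMap]
  simp only [smul_eq_mul, map_mul, map_pow, map_inv₀, map_div₀, gK_algebraMap]
  have h1 : gK v ι K (algebraMap _ K g * algebraMap _ K (pderiv i f) -
      algebraMap _ K f * algebraMap _ K (pderiv i g)) ≤ gn v g * gn v f := by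
    refine (Valuation.map_sub _ _ _).trans (max_le ?_ ?_)
    · rw [map_mul, gK_algebraMap, gK_algebraMap]
      exact mul_le_mul_right (gn_pderiv v i f) _
    · rw [map_mul, gK_algebraMap, gK_algebraMap, mul_comm]
      exact mul_le_mul_left (gn_pderiv v i g) _
  refine (mul_le_mul_right h1 _).trans (le_of_eq ?_)
  field_simp

theorem gK_const (c : C) : gK v ι K (algebraMap C K c) = v c := by
  rw [IsScalarTower.algebraMap_apply C (MvPolynomial ι C) K, gK_algebraMap, algebraMap_eq, gn_C]

theorem algEquiv_ext {σ τ : K ≃ₐ[C] K}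
    (h : ∀ i : ι, σ (algebraMap _ K (X i : MvPolynomial ι C)) =
      τ (algebraMap _ K (X i : MvPolynomial ι C))) : σ = τ := by
  have h1 : (σ : K →ₐ[C] K).comp (IsScalarTower.toAlgHom C (MvPolynomial ι C) K) =
      (τ : K →ₐ[C] K).comp (IsScalarTower.toAlgHom C (MvPolynomial ι C) K) :=
    MvPolynomial.algHom_ext h
  ext z
  obtain ⟨f, g, -, rfl⟩ := IsFractionRing.div_surjective (A := MvPolynomial ι C) z
  have h2 : ∀ f, σ (algebraMap (MvPolynomial ι C) K f) = τ (algebraMap (MvPolynomial ι C) K f) :=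
    fun f => congrArg (fun φ => φ f) h1
  rw [map_div₀, map_div₀, h2, h2]

end Rot

theorem preBase_of_lex {p : ℕ} (hp : p.Prime) (hL : LexStmt p) (a : ℕ) [NeZero (p ^ a)] (C : Type)
    [Field C] (v : Valuation C ℝ≥0) (hv : v (p : C) < 1) :
    Nonempty (PreBase p (p ^ a) C (FractionRing (MvPolynomial (Fin (p ^ a)) C))) := by
  classical
  set ι := Fin (p ^ a)
  set K := FractionRing (MvPolynomial ι C)
  set k := ResidueField v.valuationSubring
  have hk : CharP k p := by
    rw [CharP.charP_iff_prime_eq_zero hp, ← map_natCast (residue v.valuationSubring),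
      residue_eq_zero_iff']
    simpa using hv
  obtain ⟨W, hW1, hW2, hW3⟩ := hL a k (FractionRing (MvPolynomial ι k))
  let e : ι ≃ ι := Equiv.addRight 1
  have hconst : ∀ c : v.valuationSubring, Sp v ι (algebraMap C K c)
      (algebraMap (MvPolynomial ι k) (FractionRing (MvPolynomial ι k))
        (MvPolynomial.C (residue _ c))) := by
    intro c
    have := sp_poly (K := K) (κ := FractionRing (MvPolynomial ι k)) (v := v) (ι := ι)
      (MvPolynomial.C c)
    rw [IsScalarTower.algebraMap_apply C (MvPolynomial ι C) K]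
    simpa using this
  have hrot : ∀ f g : MvPolynomial ι v.valuationSubring, rd v g ≠ 0 →
      Sp v ι (perm (C := C) K e (algebraMap _ K (up v f) / algebraMap _ K (up v g)))
        (algebraMap _ (FractionRing (MvPolynomial ι k)) (rename (· + 1) (rd v f)) /
          algebraMap _ (FractionRing (MvPolynomial ι k)) (rename (· + 1) (rd v g))) := by
    intro f g hg
    refine ⟨rename e f, rename e g, ?_, ?_, ?_⟩
    · rw [rd, map_rename]
      exact fun h => hg (rename_injective _ e.injective (by rw [h, map_zero]))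
    · rw [map_div₀, perm_algebraMap, perm_algebraMap, up, up, up, up, map_rename, map_rename]
    · rw [rd, rd, rd, rd, map_rename, map_rename]
      rfl
  refine ⟨{ v := gK v ι K
            vp := ?_
            vgrp := ?_
            s := fun i => algebraMap (MvPolynomial ι C) K (X i)
            vs := fun i => by rw [gK_algebraMap, gn_X]
            vss := fun i j h => by rw [← map_sub, gK_algebraMap, gn_X_sub_X v h]
            σ := perm K e
            σn := ?_
            σs := fun i => by rw [perm_algebraMap, rename_X]; rfl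
            vσ := gK_perm K v e
            D := pd K
            Ds := fun i j => ?_
            vD := gK_pd K v
            Dcomm := pd_comm K
            σD := perm_pd K e
            V := compVS v ι K W
            fine := ⟨?_, ?_, ?_⟩
            σV := ?_ }⟩
  · rw [← map_natCast (algebraMap C K), gK_const]; exact hv
  · intro z
    obtain ⟨c, f, g, hf, hg, rfl⟩ := exists_frac v (ι := ι) z
    exact ⟨c, by rw [gK_const, gK_frac v c hf hg]⟩
  · have key : ∀ (j : ℕ) (i : ι), (perm (C := C) K e ^ j) (algebraMap (MvPolynomial ι C) K (X i)) =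
        algebraMap (MvPolynomial ι C) K (X (i + j • (1 : ι))) := by
      intro j
      induction j with
      | zero => intro i; simp
      | succ j ih =>
        intro i
        rw [pow_succ', AlgEquiv.mul_apply, ih, perm_algebraMap, rename_X, succ_nsmul, ← add_assoc]
        rfl
    apply algEquiv_ext K (ι := ι)
    intro i
    have h0 : (p ^ a) • (1 : ι) = 0 := by
      have := card_nsmul_eq_zero (G := ι) (x := 1)
      rwa [Fintype.card_fin] at this
    rw [key, h0, add_zero, AlgEquiv.one_apply]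
  · rw [pd_algebraMap, pderiv_X, Pi.single_apply]
    by_cases h : i = j
    · simp [h]
    · simp [h, Ne.symm h]
  · rintro z ⟨b, -, hb⟩
    exact hb.le
  · intro c hc
    rw [gK_const] at hc
    exact ⟨_, hW1 _, hconst ⟨c, hc⟩⟩
  · rintro z ⟨b, hb, hz⟩
    obtain ⟨c, hc⟩ := hW2 b hb
    obtain ⟨c, rfl⟩ := residue_surjective c
    refine ⟨c, by rw [gK_const]; exact c.2, ?_⟩
    rw [sub_eq_add_neg] at hc ⊢
    exact compVS_lt (hz.add (hconst c).neg) hc
  · intro z
    rcases le_or_gt (gK v ι K z) 1 with hz | hz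
    · obtain ⟨f, g, hg, rfl⟩ := exists_frac_of_le v hz
      have h1 := hrot f g hg
      have h2 : Sp v ι (algebraMap _ K (up v f) / algebraMap _ K (up v g))
        (algebraMap _ (FractionRing (MvPolynomial ι k)) (rd v f) /
          algebraMap _ (FractionRing (MvPolynomial ι k)) (rd v g)) := ⟨f, g, hg, rfl, rfl⟩
      constructor
      · rintro ⟨b, hb, h⟩
        rw [h.unique h1, hW3] at hb
        exact ⟨_, hb, h2⟩
      · rintro ⟨b, hb, h⟩
        rw [h.unique h2, ← hW3] at hb
        exact ⟨_, hb, h1⟩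
    · constructor
      · rintro ⟨b, -, h⟩
        exact absurd (gK_perm K v e z ▸ h.le) (not_le.2 hz)
      · rintro ⟨b, -, h⟩
        exact absurd h.le (not_le.2 hz)

end Crest.Agent.T170.Base
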