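import Mathlib
import Crest.Agent.T170.GalVal_6

/-!
# Row 170, module E (helper64): the completion of an `ℝ≥0`-valued field

* `exists_cpl` : completion `ι : K →+* F`, dense, complete, bounded additive maps extend;
* `Dns ι w` : density; `Dns.eq_zero`, `Dns.val`, `Dns.card_le`, `continuum_le`.
-/

set_option autoImplicit false

namespace Crest.Agent.T170.Base

open scoped NNReal Cardinal
open Crest.Agent.T170.Gal

/-- the image of `ι` is dense -/
def Dns {K F : Type*} [Field K] [Field F] (ι : K →+* F) (w : Valuation F ℝ≥0) : Prop :=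
  ∀ (z : F) (ε : ℝ≥0), 0 < ε → ∃ x : K, w (z - ι x) < ε

theorem exists_cpl_aux (K : Type) [NormedField K] [IsUltrametricDist K] :
    ∃ (F : Type) (_ : Field F) (ι : K →+* F) (w : Valuation F ℝ≥0),
      (∀ x, w (ι x) = ‖x‖₊) ∧ Cpl w ∧ Dns ι w ∧
      ∀ f : K →+ F, (∀ x, w (f x) ≤ ‖x‖₊) →
        ∃ g : F →+ F, (∀ x, g (ι x) = f x) ∧ ∀ z, w (g z) ≤ w z := by
  let F := UniformSpace.Completion K
  have hU : IsUltrametricDist F := by
    refine IsUltrametricDist.isUltrametricDist_of_isNonarchimedean_norm fun x y => ?_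
    refine UniformSpace.Completion.induction_on₂ x y (isClosed_le (by fun_prop) (by fun_prop)) ?_
    intro a b
    rw [← UniformSpace.Completion.coe_add, UniformSpace.Completion.norm_coe,
      UniformSpace.Completion.norm_coe, UniformSpace.Completion.norm_coe]
    exact IsUltrametricDist.norm_add_le_max a b
  refine ⟨F, inferInstance, UniformSpace.Completion.coeRingHom, NormedField.valuation,
    fun x => UniformSpace.Completion.nnnorm_coe x, ?_, ?_, ?_⟩
  · exact (cpl_iff_aux (NormedField.valuation (K := F)) fun _ => rfl).2 inferInstance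
  · intro z ε hε
    obtain ⟨x, hx⟩ := Metric.denseRange_iff.1 (UniformSpace.Completion.denseRange_coe (α := K)) z
      ε (by exact_mod_cast hε)
    refine ⟨x, ?_⟩
    rw [dist_eq_norm] at hx
    exact_mod_cast hx
  · intro f hf
    have hc : Continuous f := by
      refine AddMonoidHomClass.continuous_of_bound f 1 fun x => ?_
      rw [one_mul]
      exact_mod_cast hf x
    refine ⟨f.extension hc, fun x => f.extension_coe hc x, fun z => ?_⟩
    have hc' := f.continuous_extension hc
    change ‖f.extension hc z‖ ≤ ‖z‖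
    refine UniformSpace.Completion.induction_on z (isClosed_le (by fun_prop) (by fun_prop)) ?_
    intro a
    rw [f.extension_coe hc a, UniformSpace.Completion.norm_coe]
    exact_mod_cast hf a

/-- **The completion** of a valued field. -/
theorem exists_cpl (K : Type) [Field K] (v : Valuation K ℝ≥0) :
    ∃ (F : Type) (_ : Field F) (ι : K →+* F) (w : Valuation F ℝ≥0),
      (∀ x, w (ι x) = v x) ∧ Cpl w ∧ Dns ι w ∧
      ∀ f : K →+ F, (∀ x, w (f x) ≤ v x) →
        ∃ g : F →+ F, (∀ x, g (ι x) = f x) ∧ ∀ z, w (g z) ≤ w z := by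
  let : NormedField K := (av v).toNormedField
  have : IsUltrametricDist K := by
    refine IsUltrametricDist.isUltrametricDist_of_isNonarchimedean_norm ?_
    intro x y
    change (v (x + y) : ℝ) ≤ max (v x : ℝ) (v y : ℝ)
    exact_mod_cast v.map_add x y
  exact exists_cpl_aux K

section Dense

variable {K F : Type*} [Field K] [Field F] {ι : K →+* F} {w : Valuation F ℝ≥0}

/-- a bounded additive map which kills a dense subfield vanishes -/
theorem Dns.eq_zero (h : Dns ι w) {F' : Type*} [Field F'] (w' : Valuation F' ℝ≥0) (g : F →+ F')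
    (c : ℝ≥0) (hg : ∀ z, w' (g z) ≤ c * w z) (h0 : ∀ x, g (ι x) = 0) (z : F) : g z = 0 := by
  rw [← w'.zero_iff]
  by_contra hne
  have hpos : 0 < w' (g z) := pos_iff_ne_zero.2 hne
  obtain ⟨x, hx⟩ := h z (w' (g z) / (c + 1)) (by positivity)
  have h1 : g z = g (z - ι x) := by rw [map_sub, h0, sub_zero]
  have h2 : w' (g z) ≤ c * w (z - ι x) := h1 ▸ hg _
  have h3 : w (z - ι x) * (c + 1) < w' (g z) := by
    rwa [lt_div_iff₀ (by positivity)] at hx
  have h4 : c * w (z - ι x) ≤ w (z - ι x) * (c + 1) := by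
    rw [mul_comm]; gcongr; exact le_self_add
  exact absurd (h2.trans h4) (not_le.2 h3)

/-- two bounded additive maps which agree on a dense subfield are equal -/
theorem Dns.ext (h : Dns ι w) {F' : Type*} [Field F'] (w' : Valuation F' ℝ≥0) (g g' : F →+ F')
    (c : ℝ≥0) (hg : ∀ z, w' (g z) ≤ c * w z) (hg' : ∀ z, w' (g' z) ≤ c * w z)
    (h0 : ∀ x, g (ι x) = g' (ι x)) (z : F) : g z = g' z := by
  have := h.eq_zero w' (g - g') c (fun z => by
    rw [AddMonoidHom.sub_apply]
    exact (w'.map_sub _ _).trans (max_le (hg z) (hg' z))) (fun x => by simp [h0]) z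
  simpa [sub_eq_zero] using this

/-- the same for biadditive maps -/
theorem Dns.ext₂ (h : Dns ι w) {F' : Type*} [Field F'] (w' : Valuation F' ℝ≥0)
    (g g' : F →+ F →+ F') (hg : ∀ y z, w' (g y z) ≤ w y * w z)
    (hg' : ∀ y z, w' (g' y z) ≤ w y * w z)
    (h0 : ∀ x x', g (ι x) (ι x') = g' (ι x) (ι x')) (y z : F) : g y z = g' y z := by
  have h1 : ∀ x z, g (ι x) z = g' (ι x) z := fun x z =>
    h.ext w' (g (ι x)) (g' (ι x)) (w (ι x)) (hg _) (hg' _) (h0 x) z
  exact h.ext w' (g.flip z) (g'.flip z) (w z) (fun y => by simpa [mul_comm] using hg y z)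
    (fun y => by simpa [mul_comm] using hg' y z) (fun x => h1 x z) y

/-- the value group does not grow -/
theorem Dns.val (h : Dns ι w) (z : F) : ∃ x : K, w (ι x) = w z := by
  by_cases hz : z = 0
  · exact ⟨0, by simp [hz]⟩
  obtain ⟨x, hx⟩ := h z (w z) (pos_iff_ne_zero.2 (by simpa using hz))
  exact ⟨x, by simpa using w.map_sub_eq_of_lt_left hx⟩

theorem Dns.card_le {K F : Type} [Field K] [Field F] {ι : K →+* F} {w : Valuation F ℝ≥0}
    (h : Dns ι w) (hK : #K ≤ 𝔠) : #F ≤ 𝔠 := by
  choose s hs using fun (z : F) (m : ℕ) => h z (1 / ((m : ℝ≥0) + 1)) (by positivity)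
  have hinj : Function.Injective s := by
    intro z z' he
    rw [← sub_eq_zero, ← w.zero_iff]
    by_contra hne
    obtain ⟨m, hm⟩ := exists_nat_one_div_lt (pos_iff_ne_zero.2 hne)
    have h1 : z - z' = (z - ι (s z m)) - (z' - ι (s z' m)) := by rw [he]; ring
    have h2 : w (z - z') < 1 / ((m : ℝ≥0) + 1) := by
      rw [h1]
      exact (w.map_sub _ _).trans_lt (max_lt (hs z m) (hs z' m))
    exact lt_asymm hm h2
  calc #F ≤ #(ℕ → K) := Cardinal.mk_le_of_injective hinj
    _ = #K ^ ℵ₀ := by simp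
    _ ≤ 𝔠 ^ ℵ₀ := Cardinal.power_le_power_right hK
    _ = 𝔠 := Cardinal.continuum_power_aleph0

theorem continuum_le {F : Type} [Field F] (w : Valuation F ℝ≥0) (hc : Cpl w)
    (h : ∃ x : F, x ≠ 0 ∧ w x ≠ 1) : 𝔠 ≤ #F := by
  let := nnf w h
  have : CompleteSpace F := (cpl_iff_aux w fun _ => rfl).1 hc
  exact continuum_le_cardinal_of_nontriviallyNormedField F

/-- a bounded additive extension of a ring homomorphism is multiplicative -/
theorem Dns.map_mul (h : Dns ι w) (g : F →+ F) (hg : ∀ z, w (g z) ≤ w z)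
    (h0 : ∀ x x', g (ι x * ι x') = g (ι x) * g (ι x')) (y z : F) : g (y * z) = g y * g z :=
  h.ext₂ w (AddMonoidHom.mul.compr₂ g) ((AddMonoidHom.mul.comp g).compl₂ g)
    (fun y z => by simpa using hg (y * z))
    (fun y z => by simpa using mul_le_mul' (hg y) (hg z)) h0 y z

/-- a bounded additive extension of a derivation satisfies the Leibniz rule -/
theorem Dns.leibniz (h : Dns ι w) (g : F →+ F) (hg : ∀ z, w (g z) ≤ w z)
    (h0 : ∀ x x', g (ι x * ι x') = ι x * g (ι x') + ι x' * g (ι x)) (y z : F) :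
    g (y * z) = y * g z + z * g y :=
  h.ext₂ w (AddMonoidHom.mul.compr₂ g)
    (AddMonoidHom.mul.compl₂ g + (AddMonoidHom.mul.compl₂ g).flip)
    (fun y z => by simpa using hg (y * z))
    (fun y z => by
      change w (y * g z + z * g y) ≤ _
      refine (w.map_add _ _).trans (max_le ?_ ?_)
      · rw [w.map_mul]; exact mul_le_mul' le_rfl (hg z)
      · rw [w.map_mul, mul_comm]; exact mul_le_mul' (hg y) le_rfl) h0 y z

/-- elements of value `< 1` lie in every valuation ring refining the integers -/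
theorem mem_of_val_lt_one {Γ : Type*} [LinearOrderedCommGroupWithZero Γ] (v : Valuation K Γ)
    (V : ValuationSubring K) (hV : ∀ z ∈ V, v z ≤ 1) {z : K} (hz : v z < 1) : z ∈ V.nonunits := by
  rw [ValuationSubring.mem_nonunits_iff_or]
  by_cases h0 : z = 0
  · exact Or.inl h0
  right
  intro hi
  have h1 := hV _ hi
  rw [map_inv₀, inv_le_one₀ (pos_iff_ne_zero.2 (by simpa using h0))] at h1
  exact absurd hz (not_lt.2 h1)

/-- the refinement of the integers of the completion given by a refinement downstairs -/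
theorem Dns.exists_vs (h : Dns ι w) (V : ValuationSubring K) (hV : ∀ x ∈ V, w (ι x) ≤ 1) :
    ∃ V' : ValuationSubring F, (∀ z, z ∈ V' ↔ ∃ x ∈ V, w (z - ι x) < 1) ∧
      (∀ z ∈ V', w z ≤ 1) ∧ (∀ x, ι x ∈ V' ↔ x ∈ V) := by
  have hle : ∀ z : F, ∀ x ∈ V, w (z - ι x) < 1 → w z ≤ 1 := by
    intro z x hx hz
    have : z = (z - ι x) + ι x := by ring
    rw [this]
    exact (w.map_add _ _).trans (max_le hz.le (hV x hx))
  let S : Subring F :=
    { carrier := {z | ∃ x ∈ V, w (z - ι x) < 1}
      mul_mem' := by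
        rintro z z' ⟨x, hx, hz⟩ ⟨x', hx', hz'⟩
        refine ⟨x * x', mul_mem hx hx', ?_⟩
        have : z * z' - ι (x * x') = z * (z' - ι x') + (z - ι x) * ι x' := by
          rw [_root_.map_mul]; ring
        rw [this]
        refine (w.map_add _ _).trans_lt (max_lt ?_ ?_)
        · rw [w.map_mul]; exact mul_lt_one_of_nonneg_of_lt_one_right (hle z x hx hz) zero_le hz'
        · rw [w.map_mul]; exact mul_lt_one_of_nonneg_of_lt_one_left zero_le hz (hV x' hx')
      one_mem' := ⟨1, one_mem _, by simp⟩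
      add_mem' := by
        rintro z z' ⟨x, hx, hz⟩ ⟨x', hx', hz'⟩
        refine ⟨x + x', add_mem hx hx', ?_⟩
        have : z + z' - ι (x + x') = (z - ι x) + (z' - ι x') := by rw [map_add]; ring
        rw [this]
        exact (w.map_add _ _).trans_lt (max_lt hz hz')
      zero_mem' := ⟨0, zero_mem _, by simp⟩
      neg_mem' := by
        rintro z ⟨x, hx, hz⟩
        refine ⟨-x, neg_mem hx, ?_⟩
        have : -z - ι (-x) = -(z - ι x) := by rw [map_neg]; ring
        rwa [this, w.map_neg] }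
  have hS : ∀ z : F, z ∈ S ∨ z⁻¹ ∈ S := by
    intro z
    rcases lt_trichotomy (w z) 1 with hz | hz | hz
    · exact Or.inl ⟨0, zero_mem _, by simpa using hz⟩
    · obtain ⟨x, hx⟩ := h z 1 one_pos
      have hx1 : w (ι x) = 1 := by
        have := w.map_sub_eq_of_lt_left (x := z) (y := z - ι x) (hz ▸ hx)
        simpa [hz] using this
      rcases V.mem_or_inv_mem x with hm | hm
      · exact Or.inl ⟨x, hm, hx⟩
      · refine Or.inr ⟨x⁻¹, hm, ?_⟩
        have hz0 : z ≠ 0 := by rintro rfl; simp at hz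
        have hx0 : ι x ≠ 0 := by intro h0; simp [h0] at hx1
        have : z⁻¹ - ι x⁻¹ = -(z - ι x) * z⁻¹ * (ι x)⁻¹ := by
          rw [map_inv₀]; field_simp; ring
        rw [this, w.map_mul, w.map_mul, w.map_neg, map_inv₀, map_inv₀, hz, hx1]
        simpa using hx
    · refine Or.inr ⟨0, zero_mem _, ?_⟩
      rw [map_zero, sub_zero, map_inv₀]
      exact inv_lt_one_of_one_lt₀ hz
  refine ⟨ValuationSubring.ofSubring S hS, fun z => Iff.rfl, ?_, fun x => ⟨?_, ?_⟩⟩
  · rintro z ⟨x, hx, hz⟩
    exact hle z x hx hz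
  · rintro ⟨x', hx', hz⟩
    have h1 : x - x' ∈ V.nonunits :=
      mem_of_val_lt_one (w.comap ι) V hV (by simpa using hz)
    have h2 : x = (x - x') + x' := by ring
    rw [h2]
    exact add_mem (V.nonunits_subset h1) hx'
  · intro hx
    exact ⟨x, hx, by simp⟩

end Dense

end Crest.Agent.T170.Base
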