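import Mathlib

/-!
# Row 170, module E (helper64): a rotation invariant place of `k(s_i)` with residue field `k`

For a field `k` of characteristic `p`, `n = p ^ a` and a cyclic permutation `ρ` of `n` variables
there is a valuation subring `W` of the fraction field of `k[s_i]` which contains `k`, is invariant
under the rotation and has residue field `k` (`exists_lex`, `exists_lex_fin`, `exists_lex_zmod`).
-/

set_option autoImplicit false

namespace Crest.Agent.T170.Base

open MvPolynomial
open scoped MonomialOrder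

section Deg

variable {k R K Γ : Type*} [Field k] [CommRing R] [IsDomain R] [Algebra k R] [Field K]
  [Algebra R K] [IsFractionRing R K] [LinearOrder Γ] [AddCommMonoid Γ]
  [IsOrderedCancelAddMonoid Γ]

omit [Algebra k R] in
/-- The valuation subring at infinity of a degree function. -/
theorem exists_vs_of_deg (d : R → Γ) (hmul : ∀ f g, f ≠ 0 → g ≠ 0 → d (f * g) = d f + d g)
    (hadd : ∀ f g, d (f + g) ≤ max (d f) (d g)) (hneg : ∀ f, d (-f) = d f)
    (h0 : ∀ f, d 0 ≤ d f) :
    ∃ W : ValuationSubring K, ∀ f g : R, g ≠ 0 →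
      (algebraMap R K f / algebraMap R K g ∈ W ↔ d f ≤ d g) := by
  have hne : ∀ g : R, g ≠ 0 → algebraMap R K g ≠ 0 := fun g hg => by simpa using hg
  have hle : ∀ f g f' g' : R, g ≠ 0 → g' ≠ 0 → d f ≤ d g → d f' ≤ d g' →
      d (f * f') ≤ d (g * g') := by
    intro f g f' g' hg hg' h h'
    by_cases hf : f * f' = 0
    · rw [hf]; exact h0 _
    · rw [hmul _ _ (left_ne_zero_of_mul hf) (right_ne_zero_of_mul hf), hmul _ _ hg hg']
      exact add_le_add h h'
  let S : Subring K :=
    { carrier := {z | ∃ f g : R, g ≠ 0 ∧ d f ≤ d g ∧ z = algebraMap R K f / algebraMap R K g}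
      mul_mem' := by
        rintro _ _ ⟨f, g, hg, h, rfl⟩ ⟨f', g', hg', h', rfl⟩
        refine ⟨f * f', g * g', mul_ne_zero hg hg', hle _ _ _ _ hg hg' h h', ?_⟩
        rw [map_mul, map_mul, div_mul_div_comm]
      one_mem' := ⟨1, 1, one_ne_zero, le_rfl, by simp⟩
      add_mem' := by
        rintro _ _ ⟨f, g, hg, h, rfl⟩ ⟨f', g', hg', h', rfl⟩
        refine ⟨f * g' + g * f', g * g', mul_ne_zero hg hg', (hadd _ _).trans (max_le ?_ ?_), ?_⟩
        · exact hle _ _ _ _ hg hg' h le_rfl
        · exact hle _ _ _ _ hg hg' le_rfl h'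
        · rw [map_add, map_mul, map_mul, map_mul, div_add_div _ _ (hne g hg) (hne g' hg')]
      zero_mem' := ⟨0, 1, one_ne_zero, h0 _, by simp⟩
      neg_mem' := by
        rintro _ ⟨f, g, hg, h, rfl⟩
        exact ⟨-f, g, hg, by rwa [hneg], by rw [map_neg, neg_div]⟩ }
  have hS : ∀ z : K, z ∈ S ∨ z⁻¹ ∈ S := by
    intro z
    obtain ⟨f, g, hg, rfl⟩ := IsFractionRing.div_surjective (A := R) z
    have hg' : g ≠ 0 := nonZeroDivisors.ne_zero hg
    rcases le_total (d f) (d g) with h | h
    · exact Or.inl ⟨f, g, hg', h, rfl⟩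
    · by_cases hf : f = 0
      · exact Or.inl ⟨f, g, hg', hf ▸ h0 _, rfl⟩
      · exact Or.inr ⟨g, f, hf, h, by rw [inv_div]⟩
  refine ⟨ValuationSubring.ofSubring S hS, fun f g hg => ⟨?_, fun h => ⟨f, g, hg, h, rfl⟩⟩⟩
  rintro ⟨f', g', hg', h, he⟩
  rw [div_eq_div_iff (hne g hg) (hne g' hg'), ← map_mul, ← map_mul] at he
  have he' : f * g' = f' * g := IsFractionRing.injective R K he
  by_cases hf : f = 0
  · rw [hf]; exact h0 _
  · have hf' : f' ≠ 0 := left_ne_zero_of_mul (he' ▸ mul_ne_zero hf hg')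
    have h1 : d f + d g' = d f' + d g := by rw [← hmul _ _ hf hg', ← hmul _ _ hf' hg, he']
    have h2 : d f + d g' ≤ d g + d g' := by
      rw [h1, add_comm (d g)]
      exact add_le_add h le_rfl
    exact le_of_add_le_add_right h2

end Deg

section Subst

variable {k σ : Type*} [Field k] (m : MonomialOrder σ)

/-- A substitution which preserves the leading monomial of the variables preserves all leading
monomials. -/
theorem degree_subst (ψ : MvPolynomial σ k →ₐ[k] MvPolynomial σ k)
    (hψ : ∀ j, m.degree (ψ (X j)) = Finsupp.single j 1) (f : MvPolynomial σ k) :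
    m.degree (ψ f) = m.degree f ∧ (f ≠ 0 → ψ f ≠ 0) := by
  classical
  have hX : ∀ j, ψ (X j) ≠ 0 := fun j =>
    MonomialOrder.ne_zero_of_degree_ne_zero (m := m) (by rw [hψ]; simp)
  have hmon : ∀ (e : σ →₀ ℕ) (c : k), c ≠ 0 →
      m.degree (ψ (monomial e c)) = e ∧ ψ (monomial e c) ≠ 0 := by
    intro e c hc
    have h1 : ψ (monomial e c) = C c * ∏ j ∈ e.support, ψ (X j) ^ e j := by
      rw [monomial_eq, map_mul, Finsupp.prod, map_prod]
      simp only [map_pow]
      congr 1
      exact ψ.commutes c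
    have h2 : ∀ j ∈ e.support, ψ (X j) ^ e j ≠ 0 := fun j _ => pow_ne_zero _ (hX j)
    have h3 : (∏ j ∈ e.support, ψ (X j) ^ e j) ≠ 0 := Finset.prod_ne_zero_iff.2 h2
    have h4 : (C c : MvPolynomial σ k) ≠ 0 := by simpa using hc
    refine ⟨?_, h1 ▸ mul_ne_zero h4 h3⟩
    rw [h1, MonomialOrder.degree_mul h4 h3, MonomialOrder.degree_C, zero_add,
      MonomialOrder.degree_prod h2]
    simp only [MonomialOrder.degree_pow, hψ, Finsupp.smul_single, smul_eq_mul, mul_one]
    exact Finsupp.sum_single e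
  by_cases hf : f = 0
  · simp [hf]
  by_cases hd : m.degree f = 0
  · have h1 := MonomialOrder.eq_C_of_degree_eq_zero hd
    have h2 : ψ f = f := by
      rw [h1]
      exact ψ.commutes _
    rw [h2]
    exact ⟨rfl, id⟩
  have hmem := MonomialOrder.degree_mem_support (m := m) hf
  have hlc : m.leadingCoeff f ≠ 0 := MonomialOrder.leadingCoeff_ne_zero_iff.2 hf
  have hsplit : ψ f = ψ (monomial (m.degree f) (m.leadingCoeff f)) +
      ∑ e ∈ f.support.erase (m.degree f), ψ (monomial e (f.coeff e)) := by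
    conv_lhs => rw [f.as_sum, ← Finset.add_sum_erase _ _ hmem]
    rw [map_add, map_sum]
    rfl
  have hlt : m.degree (∑ e ∈ f.support.erase (m.degree f), ψ (monomial e (f.coeff e))) ≺[m]
      m.degree (ψ (monomial (m.degree f) (m.leadingCoeff f))) := by
    rw [(hmon _ _ hlc).1]
    refine lt_of_le_of_lt MonomialOrder.degree_sum_le ?_
    have hpos : (⊥ : m.syn) < m.toSyn (m.degree f) := by
      rw [bot_lt_iff_ne_bot, MonomialOrder.bot_eq_zero, Ne, MonomialOrder.toSyn_eq_zero_iff]
      exact hd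
    rw [Finset.sup_lt_iff hpos]
    intro e he
    have he1 := Finset.mem_of_mem_erase he
    rw [(hmon e _ (mem_support_iff.1 he1)).1]
    exact lt_of_le_of_ne (MonomialOrder.le_degree he1)
      (fun h => Finset.ne_of_mem_erase he (m.toSyn.injective h))
  have hdeg : m.degree (ψ f) = m.degree f := by
    rw [hsplit, MonomialOrder.degree_add_of_lt hlt, (hmon _ _ hlc).1]
  exact ⟨hdeg, fun _ => MonomialOrder.ne_zero_of_degree_ne_zero (m := m) (hdeg ▸ hd)⟩

theorem degree_X_add (j : σ) (g : MvPolynomial σ k)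
    (hg : m.degree g ≺[m] Finsupp.single j 1) : m.degree (X j + g) = Finsupp.single j 1 := by
  rw [MonomialOrder.degree_add_of_lt (by rwa [MonomialOrder.degree_X]), MonomialOrder.degree_X]

theorem zero_lt_single (j : σ) : (0 : σ →₀ ℕ) ≺[m] Finsupp.single j 1 := by
  rw [map_zero, MonomialOrder.toSyn_lt_iff_ne_zero, Ne, MonomialOrder.toSyn_eq_zero_iff]
  simp

theorem exists_degree_sub_lt (f g : MvPolynomial σ k) (hg : g ≠ 0)
    (h : m.degree f ≼[m] m.degree g) :
    ∃ c : k, f - C c * g = 0 ∨ m.degree (f - C c * g) ≺[m] m.degree g := by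
  have hlc : m.leadingCoeff g ≠ 0 := MonomialOrder.leadingCoeff_ne_zero_iff.2 hg
  refine ⟨f.coeff (m.degree g) / m.leadingCoeff g, ?_⟩
  set c := f.coeff (m.degree g) / m.leadingCoeff g with hc
  by_cases h0 : f - C c * g = 0
  · exact Or.inl h0
  right
  have hle : m.degree (f - C c * g) ≼[m] m.degree g := by
    rw [MonomialOrder.degree_le_iff]
    intro e he
    by_contra hlt
    push Not at hlt
    apply mem_support_iff.1 he
    rw [coeff_sub, coeff_C_mul, MonomialOrder.coeff_eq_zero_of_lt (lt_of_le_of_lt h hlt),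
      MonomialOrder.coeff_eq_zero_of_lt hlt, mul_zero, sub_zero]
  refine lt_of_le_of_ne hle fun he => ?_
  have he' := m.toSyn.injective he
  apply (MonomialOrder.coeff_degree_ne_zero_iff (m := m)).2 h0
  rw [he', coeff_sub, coeff_C_mul, hc]
  change _ - _ * m.leadingCoeff g = 0
  rw [div_mul_cancel₀ _ hlc, sub_self]

end Subst

section Lam

variable (k : Type*) [Field k] (n : ℕ)

/-- the variables, extended by zero -/
noncomputable def lam (j : ℕ) : MvPolynomial (Fin n) k := if h : j < n then X ⟨j, h⟩ else 0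

/-- `s_j = (1 + T) ^ j λ_0` -/
noncomputable def sl (j : ℕ) : MvPolynomial (Fin n) k :=
  ∑ l ∈ Finset.range n, (j.choose l : MvPolynomial (Fin n) k) * lam k n l

/-- the unipotent substitution `λ_j ↦ λ_j + λ_{j+1}` -/
noncomputable def tau : MvPolynomial (Fin n) k →ₐ[k] MvPolynomial (Fin n) k :=
  aeval fun l => X l + lam k n (l + 1)

theorem lam_self : lam k n n = 0 := by simp [lam]

theorem tau_lam (l : ℕ) : tau k n (lam k n l) = lam k n l + lam k n (l + 1) := by
  by_cases h : l < n
  · simp [tau, lam, h]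
  · have h' : ¬ l + 1 < n := by omega
    simp [lam, h, h']

theorem sl_eq (j : ℕ) : sl k n j = lam k n 0 +
    ∑ l ∈ Finset.range n, (j.choose (l + 1) : MvPolynomial (Fin n) k) * lam k n (l + 1) := by
  have h := Finset.sum_range_succ
    (fun l => (j.choose l : MvPolynomial (Fin n) k) * lam k n l) n
  rw [Finset.sum_range_succ', lam_self, mul_zero, add_zero] at h
  rw [sl, ← h]
  simp [add_comm]

theorem tau_sl (j : ℕ) : tau k n (sl k n j) = sl k n (j + 1) := by
  have h1 : tau k n (sl k n j) = sl k n j +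
      ∑ l ∈ Finset.range n, (j.choose l : MvPolynomial (Fin n) k) * lam k n (l + 1) := by
    rw [sl, map_sum, ← Finset.sum_add_distrib]
    refine Finset.sum_congr rfl fun l _ => ?_
    rw [map_mul, map_natCast, tau_lam, mul_add]
  rw [h1, sl_eq, sl_eq, add_assoc, ← Finset.sum_add_distrib]
  congr 1
  refine Finset.sum_congr rfl fun l _ => ?_
  rw [Nat.choose_succ_succ', Nat.cast_add]
  ring

theorem sl_period (p a : ℕ) [Fact p.Prime] [CharP k p] :
    sl k (p ^ a) (p ^ a) = sl k (p ^ a) 0 := by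
  rw [sl_eq, sl_eq]
  congr 1
  refine Finset.sum_congr rfl fun l hl => ?_
  have hl' := Finset.mem_range.1 hl
  by_cases h : l + 1 = p ^ a
  · rw [h, lam_self, mul_zero, mul_zero]
  · have h1 : p ∣ (p ^ a).choose (l + 1) :=
      (Fact.out : p.Prime).dvd_choose_pow (by omega) h
    rw [(CharP.cast_eq_zero_iff (MvPolynomial (Fin (p ^ a)) k) p _).2 h1]
    simp

theorem degree_tau_X (l : Fin n) :
    (MonomialOrder.lex : MonomialOrder (Fin n)).degree (tau k n (X l)) = Finsupp.single l 1 := by
  rw [tau, aeval_X]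
  apply degree_X_add
  by_cases h : (l : ℕ) + 1 < n
  · rw [lam, dif_pos h, MonomialOrder.degree_X, MonomialOrder.lex_lt_iff,
      Finsupp.Lex.single_lt_iff]
    exact Nat.lt_succ_self _
  · rw [lam, dif_neg h, MonomialOrder.degree_zero]
    exact zero_lt_single _ _

/-- the reverse lexicographic order -/
noncomputable def revLex : MonomialOrder (Fin n) := MonomialOrder.lex (σ := (Fin n)ᵒᵈ)

theorem revLex_lt {i j : Fin n} (h : i < j) :
    Finsupp.single i 1 ≺[revLex n] Finsupp.single j 1 :=
  (Finsupp.Lex.single_lt_iff (α := (Fin n)ᵒᵈ)).2 h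

theorem degree_sl (j : Fin n) : (revLex n).degree (sl k n j) = Finsupp.single j 1 := by
  have hj : (j : ℕ) ∈ Finset.range n := Finset.mem_range.2 j.2
  rw [sl, ← Finset.add_sum_erase _ _ hj, Nat.choose_self, Nat.cast_one, one_mul, lam,
    dif_pos j.2]
  apply degree_X_add
  refine lt_of_le_of_lt MonomialOrder.degree_sum_le ?_
  have hpos : (⊥ : (revLex n).syn) < (revLex n).toSyn (Finsupp.single j 1) := by
    have := zero_lt_single (revLex n) j
    rwa [map_zero] at this
  rw [Finset.sup_lt_iff hpos]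
  intro l hl
  have hl1 := Finset.mem_range.1 (Finset.mem_of_mem_erase hl)
  have hl2 := Finset.ne_of_mem_erase hl
  rcases lt_or_gt_of_ne hl2 with h | h
  · rw [lam, dif_pos hl1]
    have h1 : ((j : ℕ).choose l : MvPolynomial (Fin n) k) * X ⟨l, hl1⟩ =
        monomial (Finsupp.single ⟨l, hl1⟩ 1) ((j : ℕ).choose l : k) := by
      rw [← map_natCast (C : k →+* MvPolynomial (Fin n) k), C_mul_X_eq_monomial]
    rw [h1]
    exact lt_of_le_of_lt (MonomialOrder.degree_monomial_le _) (revLex_lt n h)
  · rw [Nat.choose_eq_zero_of_lt h, Nat.cast_zero, zero_mul, MonomialOrder.degree_zero]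
    exact zero_lt_single _ _

theorem aeval_sl_ne_zero {f : MvPolynomial (Fin n) k} (hf : f ≠ 0) :
    aeval (fun j : Fin n => sl k n j) f ≠ 0 :=
  (degree_subst (revLex n) (aeval fun j : Fin n => sl k n j)
    (fun j => by rw [aeval_X, degree_sl]) f).2 hf

end Lam

section Main

variable (k : Type*) [Field k] (p a : ℕ) [Fact p.Prime] [CharP k p]

/-- **The invariant place.** -/
theorem exists_lex {ι : Type*} (ρ : ι → ι) (e : ℕ → ι) (he : ∀ j, e (j + 1) = ρ (e j))
    (hper : e (p ^ a) = e 0) (hbij : Function.Bijective fun j : Fin (p ^ a) => e j)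
    (K : Type*) [Field K] [Algebra (MvPolynomial ι k) K] [IsFractionRing (MvPolynomial ι k) K] :
    ∃ W : ValuationSubring K,
      (∀ c : k, algebraMap (MvPolynomial ι k) K (C c) ∈ W) ∧
      (∀ z ∈ W, ∃ c : k, z - algebraMap (MvPolynomial ι k) K (C c) ∈ W.nonunits) ∧
      ∀ g : K →+* K, (∀ f, g (algebraMap (MvPolynomial ι k) K f) =
        algebraMap (MvPolynomial ι k) K (rename ρ f)) → ∀ z, g z ∈ W ↔ z ∈ W := by
  classical
  let E : Fin (p ^ a) ≃ ι := Equiv.ofBijective _ hbij
  let φ : MvPolynomial ι k →ₐ[k] MvPolynomial (Fin (p ^ a)) k :=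
    aeval fun i => sl k (p ^ a) (E.symm i)
  have hφ : ∀ f, f ≠ 0 → φ f ≠ 0 := by
    intro f hf
    have h1 : φ f = aeval (fun j : Fin (p ^ a) => sl k (p ^ a) j) (rename E.symm f) := by
      rw [aeval_rename]; rfl
    rw [h1]
    apply aeval_sl_ne_zero
    intro h
    exact hf (rename_injective _ E.symm.injective (by rw [h, map_zero]))
  have hequiv : ∀ f, φ (rename ρ f) = tau k (p ^ a) (φ f) := by
    intro f
    have : φ.comp (rename ρ) = (tau k (p ^ a)).comp φ := by
      refine algHom_ext fun i => ?_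
      obtain ⟨j, rfl⟩ := E.surjective i
      simp only [φ, AlgHom.comp_apply, rename_X, aeval_X, Equiv.symm_apply_apply, tau_sl]
      have hE : ρ (E j) = e (j + 1) := (he j).symm
      rw [hE]
      by_cases h : (j : ℕ) + 1 < p ^ a
      · have : e (j + 1) = E ⟨j + 1, h⟩ := rfl
        rw [this, Equiv.symm_apply_apply]
      · have h2 : (j : ℕ) + 1 = p ^ a := by have := j.2; omega
        have h3 : 0 < p ^ a := by omega
        have : e 0 = E ⟨0, h3⟩ := rfl
        rw [h2, hper, this, Equiv.symm_apply_apply, sl_period]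
    exact congrArg (fun F : _ →ₐ[k] _ => F f) this
  let m : MonomialOrder (Fin (p ^ a)) := MonomialOrder.lex
  let d : MvPolynomial ι k → m.syn := fun f => m.toSyn (m.degree (φ f))
  have hd0 : d 0 = 0 := by simp [d]
  obtain ⟨W, hW⟩ := exists_vs_of_deg (K := K) d
    (fun f g hf hg => by
      simp only [d, map_mul]
      rw [MonomialOrder.degree_mul (hφ f hf) (hφ g hg), map_add])
    (fun f g => by
      simp only [d, map_add]
      exact MonomialOrder.degree_add_le)
    (fun f => by simp only [d, map_neg, MonomialOrder.degree_neg])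
    (fun f => by rw [hd0]; exact MonomialOrder.zero_le _ _)
  have hne : ∀ g : MvPolynomial ι k, g ≠ 0 → algebraMap (MvPolynomial ι k) K g ≠ 0 :=
    fun g hg => by simpa using hg
  have hC : ∀ c : k, φ (C c) = C c := fun c => φ.commutes c
  refine ⟨W, fun c => ?_, fun z hz => ?_, fun g hg z => ?_⟩
  · have := (hW (C c) 1 one_ne_zero).2 (by
      simp only [d, hC, MonomialOrder.degree_C, map_zero]
      exact MonomialOrder.zero_le _ _)
    simpa using this
  · obtain ⟨f, g, hg, rfl⟩ := IsFractionRing.div_surjective (A := MvPolynomial ι k) z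
    have hg' : g ≠ 0 := nonZeroDivisors.ne_zero hg
    obtain ⟨c, hc⟩ := exists_degree_sub_lt m (φ f) (φ g) (hφ g hg') ((hW f g hg').1 hz)
    refine ⟨c, ?_⟩
    have h1 : algebraMap (MvPolynomial ι k) K f / algebraMap (MvPolynomial ι k) K g -
        algebraMap (MvPolynomial ι k) K (C c) =
        algebraMap (MvPolynomial ι k) K (f - C c * g) / algebraMap (MvPolynomial ι k) K g := by
      rw [map_sub, map_mul]
      field_simp [hne g hg']
    have h2 : φ (f - C c * g) = φ f - C c * φ g := by rw [map_sub, map_mul, hC]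
    rw [h1, ValuationSubring.mem_nonunits_iff_or]
    by_cases h0 : f - C c * g = 0
    · left; rw [h0, map_zero, zero_div]
    · right
      rw [inv_div, hW _ _ h0, not_le]
      rcases hc with hc | hc
      · exact absurd (h2 ▸ hc) (hφ _ h0)
      · simp only [d]
        rwa [h2]
  · obtain ⟨f, f', hf', rfl⟩ := IsFractionRing.div_surjective (A := MvPolynomial ι k) z
    have hf'' : f' ≠ 0 := nonZeroDivisors.ne_zero hf'
    have hr : rename ρ f' ≠ 0 := by
      intro h
      have := hg f'
      rw [h, map_zero, map_eq_zero] at this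
      exact hne _ hf'' this
    have hdr : ∀ f, d (rename ρ f) = d f := fun f => by
      simp only [d, hequiv]
      rw [(degree_subst m (tau k (p ^ a)) (degree_tau_X k _) (φ f)).1]
    rw [map_div₀, hg, hg, hW _ _ hr, hW _ _ hf'', hdr, hdr]

/-- The invariant place for the variables `ZMod (p ^ a)` and the rotation `i ↦ i + 1`. -/
theorem exists_lex_zmod (K : Type*) [Field K] [Algebra (MvPolynomial (ZMod (p ^ a)) k) K]
    [IsFractionRing (MvPolynomial (ZMod (p ^ a)) k) K] :
    ∃ W : ValuationSubring K,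
      (∀ c : k, algebraMap (MvPolynomial (ZMod (p ^ a)) k) K (C c) ∈ W) ∧
      (∀ z ∈ W, ∃ c : k, z - algebraMap (MvPolynomial (ZMod (p ^ a)) k) K (C c) ∈ W.nonunits) ∧
      ∀ g : K →+* K, (∀ f, g (algebraMap (MvPolynomial (ZMod (p ^ a)) k) K f) =
        algebraMap (MvPolynomial (ZMod (p ^ a)) k) K (rename (· + 1) f)) →
        ∀ z, g z ∈ W ↔ z ∈ W := by
  have : NeZero (p ^ a) := ⟨pow_ne_zero _ (Fact.out : p.Prime).ne_zero⟩
  refine exists_lex k p a (· + 1) (fun j => (j : ZMod (p ^ a))) (fun j => by push_cast; rfl)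
    (by simp) ?_ K
  refine (Fintype.bijective_iff_injective_and_card _).2 ⟨fun i j h => ?_, by simp⟩
  have := (ZMod.natCast_eq_natCast_iff' _ _ _).1 h
  rw [Nat.mod_eq_of_lt i.2, Nat.mod_eq_of_lt j.2] at this
  exact Fin.ext this

/-- The invariant place for the variables `Fin (p ^ a)` and the rotation `i ↦ i + 1`. -/
theorem exists_lex_fin [NeZero (p ^ a)] (K : Type*) [Field K]
    [Algebra (MvPolynomial (Fin (p ^ a)) k) K] [IsFractionRing (MvPolynomial (Fin (p ^ a)) k) K] :
    ∃ W : ValuationSubring K,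
      (∀ c : k, algebraMap (MvPolynomial (Fin (p ^ a)) k) K (C c) ∈ W) ∧
      (∀ z ∈ W, ∃ c : k, z - algebraMap (MvPolynomial (Fin (p ^ a)) k) K (C c) ∈ W.nonunits) ∧
      ∀ g : K →+* K, (∀ f, g (algebraMap (MvPolynomial (Fin (p ^ a)) k) K f) =
        algebraMap (MvPolynomial (Fin (p ^ a)) k) K (rename (· + 1) f)) →
        ∀ z, g z ∈ W ↔ z ∈ W := by
  refine exists_lex k p a (· + 1) (fun j => Fin.ofNat (p ^ a) j) (fun j => ?_) (by simp) ?_ K
  · apply Fin.ext
    simp [Fin.val_add]
  · have : (fun j : Fin (p ^ a) => Fin.ofNat (p ^ a) j) = id := by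
      funext j; simp
    rw [this]
    exact Function.bijective_id

end Main

end Crest.Agent.T170.Base
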