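import Mathlib
import Crest.Agent.T170.BaseDef_49
import Crest.Agent.T170.BaseLex_64
import Crest.Agent.T170.BaseCpl_64

/-!
# Row 170, module E (helper64): `lexStmt : LexStmt p` and `cplStmt : CplStmt p`
-/

set_option autoImplicit false

namespace Crest.Agent.T170.Base

open scoped NNReal Cardinal

theorem lexStmt {p : ℕ} (hp : p.Prime) : LexStmt p := by
  intro a _ k κ _ _ _ _ _
  have : Fact p.Prime := ⟨hp⟩
  obtain ⟨W, h1, h2, h3⟩ := exists_lex_fin k p a κ
  refine ⟨W, h1, fun z hz => h2 z hz, fun f g => ?_⟩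
  have hinj : Function.Injective ((algebraMap (MvPolynomial (Fin (p ^ a)) k) κ).comp
      (MvPolynomial.rename (R := k) (fun i : Fin (p ^ a) => i + 1)).toRingHom) :=
    (IsFractionRing.injective _ κ).comp
      (MvPolynomial.rename_injective _ (add_left_injective 1))
  have h4 : ∀ f, IsFractionRing.lift (K := κ) hinj (algebraMap (MvPolynomial (Fin (p ^ a)) k) κ f) =
      algebraMap _ κ (MvPolynomial.rename (· + 1) f) := fun f => by
    rw [IsFractionRing.lift_algebraMap]; rfl
  rw [← h3 _ h4 (algebraMap _ κ f / algebraMap _ κ g), map_div₀, h4, h4]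

theorem cplStmt {p : ℕ} (hp : p ≠ 0) : CplStmt p := by
  intro n _ C K _ _ _ _ B hK
  obtain ⟨F, _, ι, w, hw, hc, hd, hext⟩ := exists_cpl K B.v
  let : Algebra C F := (ι.comp (algebraMap C K)).toAlgebra
  have hC : ∀ c : C, algebraMap C F c = ι (algebraMap C K c) := fun _ => rfl
  have : CharZero K := charZero_of_injective_algebraMap (algebraMap C K).injective
  have hp' : w (p : F) < 1 := by rw [← map_natCast ι, hw]; exact B.vp
  refine ⟨F, inferInstance, inferInstance, le_antisymm (hd.card_le hK)
    (continuum_le w hc ⟨p, ?_, hp'.ne⟩), ?_⟩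
  · rw [← map_natCast ι, map_ne_zero]
    exact_mod_cast hp
  -- the automorphism
  have vσ' : ∀ x, B.v (B.σ.symm x) = B.v x := fun x => by
    rw [← B.vσ, AlgEquiv.apply_symm_apply]
  obtain ⟨g, hg, vg⟩ := hext (ι.toAddMonoidHom.comp (B.σ : K →+* K).toAddMonoidHom)
    (fun x => by simp [hw, B.vσ])
  obtain ⟨g', hg', vg'⟩ := hext (ι.toAddMonoidHom.comp (B.σ.symm : K →+* K).toAddMonoidHom)
    (fun x => by simp [hw, vσ'])
  replace hg : ∀ x, g (ι x) = ι (B.σ x) := hg
  replace hg' : ∀ x, g' (ι x) = ι (B.σ.symm x) := hg'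
  have hgg' : ∀ z, g (g' z) = z := hd.ext w (g.comp g') (AddMonoidHom.id F) 1
    (fun z => by simpa using (vg _).trans (vg' z)) (fun z => by simp)
    (fun x => by simp [hg, hg'])
  have hg'g : ∀ z, g' (g z) = z := hd.ext w (g'.comp g) (AddMonoidHom.id F) 1
    (fun z => by simpa using (vg' _).trans (vg z)) (fun z => by simp)
    (fun x => by simp [hg, hg'])
  let σ : F ≃ₐ[C] F :=
    { toFun := g
      invFun := g'
      left_inv := hg'g
      right_inv := hgg'
      map_mul' := hd.map_mul g vg fun x x' => by rw [← map_mul, hg, hg, hg, map_mul, map_mul]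
      map_add' := g.map_add
      commutes' := fun c => by rw [hC, hg, AlgEquiv.commutes] }
  have hσ : ∀ x, σ (ι x) = ι (B.σ x) := hg
  have vσ : ∀ z, w (σ z) = w z := fun z =>
    le_antisymm (vg z) (by have h := vg' (g z); rw [hg'g] at h; exact h)
  have hσj : ∀ (j : ℕ) x, (σ ^ j) (ι x) = ι ((B.σ ^ j) x) := by
    intro j
    induction j with
    | zero => intro x; rfl
    | succ j ih => intro x; rw [pow_succ, pow_succ, AlgEquiv.mul_apply, AlgEquiv.mul_apply, hσ, ih]
  have vσj : ∀ (j : ℕ) z, w ((σ ^ j) z) = w z := by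
    intro j
    induction j with
    | zero => intro x; rfl
    | succ j ih => intro x; rw [pow_succ, AlgEquiv.mul_apply, ih, vσ]
  have σn : σ ^ n = 1 := by
    ext z
    exact hd.ext w ((σ ^ n : F ≃ₐ[C] F) : F →+* F).toAddMonoidHom (AddMonoidHom.id F) 1
      (fun z => by simpa using (vσj n z).le) (fun z => by simp)
      (fun x => by simp [hσj, B.σn]) z
  -- the derivations
  have hD : ∀ i, ∃ D : Derivation C F F, (∀ x, D (ι x) = ι (B.D i x)) ∧ ∀ z, w (D z) ≤ w z := by
    intro i
    obtain ⟨d, hdd, vd⟩ := hext (ι.toAddMonoidHom.comp (B.D i).toLinearMap.toAddMonoidHom)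
      (fun x => by simpa [hw] using B.vD i x)
    replace hdd : ∀ x, d (ι x) = ι (B.D i x) := hdd
    have hl := hd.leibniz d vd fun x x' => by
      rw [← map_mul, hdd, hdd, hdd, Derivation.leibniz]; simp
    refine ⟨Derivation.mk'
      { toFun := d
        map_add' := d.map_add
        map_smul' := fun c z => by
          rw [Algebra.smul_def, hl, hC, hdd, Derivation.map_algebraMap, map_zero, mul_zero,
            add_zero, RingHom.id_apply, Algebra.smul_def, hC] } (fun a b => hl a b), hdd, vd⟩
  choose D hD vD using hD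
  -- the refined valuation ring
  obtain ⟨V, hV, Vle, Vι⟩ := hd.exists_vs B.V fun x hx => by rw [hw]; exact B.fine.le x hx
  refine ⟨
    { v := w
      vp := hp'
      vgrp := fun z => ?_
      cpl := hc
      s := fun i => ι (B.s i)
      vs := fun i => by rw [hw]; exact B.vs i
      vss := fun i j h => by rw [← map_sub, hw]; exact B.vss i j h
      σ := σ
      σn := σn
      σs := fun i => by rw [hσ, B.σs]
      vσ := vσ
      D := D
      Ds := fun i j => by rw [hD, B.Ds]; split_ifs <;> simp
      vD := vD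
      Dcomm := fun i j => hd.ext w
        ((D i).toLinearMap.toAddMonoidHom.comp (D j).toLinearMap.toAddMonoidHom)
        ((D j).toLinearMap.toAddMonoidHom.comp (D i).toLinearMap.toAddMonoidHom) 1
        (fun z => by simpa using (vD i _).trans (vD j z))
        (fun z => by simpa using (vD j _).trans (vD i z))
        (fun x => by simp [hD, B.Dcomm i j])
      σD := fun i => hd.ext w (g.comp (D i).toLinearMap.toAddMonoidHom)
        ((D (i + 1)).toLinearMap.toAddMonoidHom.comp g) 1
        (fun z => by simpa using (vg _).trans (vD i z))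
        (fun z => by simpa using (vD (i + 1) _).trans (vg z))
        (fun x => by simp [hD, hg, B.σD])
      V := V
      fine := ⟨Vle, fun c hc => ?_, fun z hz => ?_⟩
      σV := fun z => ?_ }⟩
  · obtain ⟨x, hx⟩ := hd.val z
    obtain ⟨c, hc⟩ := B.vgrp x
    exact ⟨c, by rw [hC, hw, hc, ← hw, hx]⟩
  · rw [hC, Vι]
    exact B.fine.const c (by rwa [hC, hw] at hc)
  · obtain ⟨x, hx, hz'⟩ := (hV z).1 hz
    obtain ⟨c, hc1, hc2⟩ := B.fine.res x hx
    refine ⟨c, by rwa [hC, hw], ?_⟩
    have h1 : z - ι x ∈ V.nonunits := mem_of_val_lt_one w V Vle hz'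
    have h2 : ι (x - algebraMap C K c) ∈ V.nonunits := by
      rw [← ValuationSubring.mem_nonunits_iff, ValuationSubring.mem_nonunits_iff_or] at hc2
      rw [ValuationSubring.mem_nonunits_iff_or, ← map_inv₀, Vι, map_eq_zero]
      exact hc2
    have h3 : z - algebraMap C F c = (z - ι x) + ι (x - algebraMap C K c) := by
      rw [hC, map_sub]; ring
    rw [← ValuationSubring.mem_nonunits_iff, h3]
    exact add_mem h1 h2
  · rw [hV, hV]
    constructor
    · rintro ⟨x, hx, hz⟩
      refine ⟨B.σ.symm x, (B.σV _).1 (by simpa using hx), ?_⟩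
      rw [← vσ, map_sub, hσ, AlgEquiv.apply_symm_apply]
      exact hz
    · rintro ⟨x, hx, hz⟩
      refine ⟨B.σ x, (B.σV _).2 hx, ?_⟩
      rw [← hσ, ← map_sub, vσ]
      exact hz

end Crest.Agent.T170.Base
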