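import Mathlib
import Crest.Agent.T170.Base2_49
import Crest.Agent.T170.BaseFin_64

/-!
# Row 170, module E (helper49), part 3: `baseStmt : Fr.BaseStmt p`
-/

set_option autoImplicit false

namespace Crest.Agent.T170.Base

open scoped NNReal Cardinal

theorem card_padic_le (p : ℕ) [Fact p.Prime] : #ℚ_[p] ≤ 𝔠 := by
  have h1 : #ℚ_[p] ≤ #(CauSeq ℚ (padicNorm p)) := Cardinal.mk_quotient_le
  refine h1.trans ((Cardinal.mk_subtype_le _).trans (le_of_eq ?_))
  simp

theorem card_padicAlgCl_le (p : ℕ) [Fact p.Prime] : #(PadicAlgCl p) ≤ 𝔠 :=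
  (Algebra.IsAlgebraic.cardinalMk_le_max ℚ_[p] (PadicAlgCl p)).trans
    (max_le (card_padic_le p) Cardinal.aleph0_le_continuum)

theorem baseStmt {p : ℕ} (hp : p.Prime) : Fr.BaseStmt p := by
  intro a _ _
  have : Fact p.Prime := ⟨hp⟩
  have hv : (Valued.v : Valuation (PadicAlgCl p) ℝ≥0) (p : PadicAlgCl p) < 1 := by
    rw [PadicAlgCl.valuation_p, one_div]
    exact inv_lt_one_of_one_lt₀ (by exact_mod_cast hp.one_lt)
  obtain ⟨B⟩ := preBase_of_lex hp (lexStmt hp) a (PadicAlgCl p) Valued.v hv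
  have hK : #(FractionRing (MvPolynomial (Fin (p ^ a)) (PadicAlgCl p))) ≤ 𝔠 := by
    refine (IsLocalization.cardinalMk_le (nonZeroDivisors (MvPolynomial (Fin (p ^ a))
      (PadicAlgCl p)))).trans (MvPolynomial.cardinalMk_le_max.trans ?_)
    refine max_le (max_le (card_padicAlgCl_le p) ?_) Cardinal.aleph0_le_continuum
    exact (Cardinal.lt_aleph0_of_finite _).le.trans Cardinal.aleph0_le_continuum
  obtain ⟨F, _, _, hF, hB⟩ := cplStmt hp.ne_zero (p ^ a) (PadicAlgCl p) _ B hK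
  exact ⟨PadicAlgCl p, F, inferInstance, inferInstance, inferInstance, inferInstance,
    inferInstance, hF, hB⟩

end Crest.Agent.T170.Base
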