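import Crest.Agent.T170.OrdC_16
import Crest.Agent.T170.EllC_61
import Crest.Agent.T170.Fr_20

/-!
# Row 170, module D4 (helper16), part D: `EllStmt`
-/

set_option autoImplicit false

namespace Crest.Agent.T170.Ord

open scoped NNReal Classical
open WeierstrassCurve WeierstrassCurve.Affine Polynomial Crest.Agent.T170.Ell
  Crest.Agent.T170.Ell.Place

/-- The residue field of a valuation ring of an algebraically closed field is algebraically
closed. -/
theorem isAlgClosed_residueField {C : Type*} [Field C] [IsAlgClosed C] (A : ValuationSubring C) :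
    IsAlgClosed (IsLocalRing.ResidueField A) := by
  refine IsAlgClosed.of_exists_root _ fun f hf hirr => ?_
  obtain ⟨g, hg, hdeg, hmon⟩ := Polynomial.lifts_and_degree_eq_and_monic
    (f := IsLocalRing.residue A) ((Polynomial.mem_lifts f).mpr
      (Polynomial.map_surjective _ IsLocalRing.residue_surjective f)) hf
  obtain ⟨z, hz⟩ := IsAlgClosed.exists_aeval_eq_zero C g
    (by rw [hdeg]; exact (degree_pos_of_irreducible hirr).ne')
  obtain ⟨z, rfl⟩ := (IsIntegrallyClosed.isIntegral_iff (R := A) (K := C)).mp ⟨g, hmon, hz⟩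
  refine ⟨IsLocalRing.residue A z, ?_⟩
  rw [aeval_algebraMap_apply, coe_aeval_eq_eval,
    map_eq_zero_iff _ (IsFractionRing.injective A C)] at hz
  rw [← hg, eval_map, eval₂_at_apply, hz, map_zero]

theorem charP_residueField {C Γ : Type*} [Field C] [LinearOrderedCommGroupWithZero Γ]
    (v : Valuation C Γ) {p : ℕ} (hp : p.Prime) (hv : v (p : C) < 1) :
    CharP (IsLocalRing.ResidueField v.valuationSubring) p := by
  refine (CharP.charP_iff_prime_eq_zero hp).mpr ?_
  exact (sp_natCast p).unique ((isOf_ofValuationSubring v).sp_zero_iff.mpr hv)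

/-- **The ordinary curve of the frame.** -/
theorem ellStmt {p : ℕ} (hp : p.Prime) : Fr.EllStmt p := by
  intro C _ _ _ v hv a
  have : Fact p.Prime := ⟨hp⟩
  have := isAlgClosed_residueField v.valuationSubring
  have := charP_residueField v hp hv
  have hI := isOf_ofValuationSubring v
  have hP : (Place.ofValuationSubring v.valuationSubring).Over v.valuationSubring :=
    fun r => ⟨r.2, rfl⟩
  obtain ⟨W, hW, h⟩ := exists_ordinary_lift p hP IsLocalRing.residue_surjective fun r hr => by
    by_contra hu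
    exact hr ((IsLocalRing.residue_eq_zero_iff r).mpr hu)
  obtain ⟨T, hT, oT⟩ := h a
  obtain ⟨S, -, oS⟩ := h (a + 2)
  have fin : ∀ U : (W⁄C).Point, red W hP U ≠ 0 → ∃ x y h, U = .some x y h ∧ v x ≤ 1 := by
    rintro (_ | ⟨x, y, hxy⟩) hU
    · exact absurd (map_zero _) hU
    · rw [Ne, red_some_eq_zero_iff, not_not] at hU
      exact ⟨x, y, hxy, rfl, hU⟩
  refine ⟨W, hW, T, S, hT, fun j hj => fin _ ?_, fun j => ?_⟩
  · rw [map_nsmul, Ne, ← addOrderOf_dvd_iff_nsmul_eq_zero, oT]
    exact hj
  · have h2 : (2 : ℕ) • red W hP (S + j • T) ≠ 0 := by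
      intro h0
      have h1 : p ^ a • (2 : ℕ) • red W hP (S + j • T) = 0 := by rw [h0, smul_zero]
      rw [smul_comm, ← map_nsmul, smul_add, smul_comm, hT, smul_zero, add_zero, map_nsmul,
        smul_smul, ← addOrderOf_dvd_iff_nsmul_eq_zero, oS, pow_add, mul_comm 2,
        Nat.mul_dvd_mul_iff_left (pow_pos hp.pos a)] at h1
      have := Nat.le_of_dvd two_pos h1
      nlinarith [hp.two_le]
    obtain ⟨x, y, hxy, e, hx⟩ := fin (S + j • T) fun h0 => h2 (by rw [h0, smul_zero])
    refine ⟨x, y, hxy, e, hx, ?_⟩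
    have sx := sp_val ((hI x).mpr hx)
    have sy := sp_val (y_mem hP hxy.1 sx.mem)
    refine hI.eq_one (sy.sub (sp_negY hP sx sy)) (sub_ne_zero.mpr fun hy => h2 ?_)
    rw [e, red_some_of_sp hP hxy sx sy, two_nsmul, Point.add_self_of_Y_eq hy]

end Crest.Agent.T170.Ord
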