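import Crest.Agent.T170.World_7
import Crest.Agent.T170.Base3_49
import Crest.Agent.T170.OrdD_16

/-!
# Row 170 (helper7): `WorldStmt`
-/

set_option autoImplicit false

namespace Crest.Agent.T170.W5

/-- the world exists -/
theorem worldStmt {p : ℕ} (hp : p.Prime) : Fr.WorldStmt p :=
  worldStmt_of (Base.baseStmt hp) (Ord.ellStmt hp)

end Crest.Agent.T170.W5
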