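import Crest.Agent.T170.WrE_67
import Crest.Agent.T170.Fr_20

/-!
# Row 170, wreath step (helper67), file F: `RetE` from `RetP1` and `GStmt`
-/

set_option autoImplicit false
set_option linter.dupNamespace false
set_option linter.unusedSectionVars false

noncomputable section

namespace Crest.Agent.T170.Wr

open Crest.Agent.T170.Ret Crest.Agent.T170.RetU

section abs

variable {K B U : Type} [Field K] [Field B] [Field U] [Algebra ℂ K] [Algebra K B] [Algebra ℂ B]
  [IsScalarTower ℂ K B] [Algebra K U] [Algebra B U] [IsScalarTower K B U] [IsAlgClosure B U]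
  {x : K} {z : B} {e : Fin 3 → ℂ}

lemma Cv.isAlgClosure (h : Cv x z e) : IsAlgClosure K U :=
  have := h.fin
  ⟨IsAlgClosure.isAlgClosed B, Algebra.IsAlgebraic.trans K B U⟩

/-- maximality on the line gives maximality on the curve -/
lemma Cv.mem_of_max (h : Cv x z e) (hG : GStmt) {G : Type} [Group G] {n : ℕ} {a c : Fin n → ℂ}
    {S : Set ℂ} (he : ∀ j, e j ∈ S) (ha : ∀ j, a j ∈ S) {M : IntermediateField K U}
    (hmax : ∀ N : IntermediateField K U, FiniteDimensional K N → IsGalois K N →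
      ResW (N ≃ₐ[K] N) (Wr G) → (∀ b : ℂ, b ∉ S → Unr ℂ N (x - algebraMap ℂ K b)) → N ≤ M)
    (N : Type) [Field N] [Algebra B N] [Algebra N U] [IsScalarTower B N U] [FiniteDimensional B N]
    [IsGalois B N] (hres : ResW (N ≃ₐ[B] N) G) (hun : UnrZ N (algebraMap K B x) z a c) (y : N) :
    algebraMap N U y ∈ M := by
  have := h.fin
  have := h.isAlgClosure (U := U)
  have : CharZero K := charZero_of_injective_algebraMap (algebraMap ℂ K).injective
  let _ : Algebra K N := ((algebraMap B N).comp (algebraMap K B)).toAlgebra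
  have : IsScalarTower K B N := IsScalarTower.of_algebraMap_eq' rfl
  have : IsScalarTower K N U := IsScalarTower.of_algebraMap_eq fun f => by
    rw [IsScalarTower.algebraMap_apply K B U, IsScalarTower.algebraMap_apply B N U]
    rfl
  have : FiniteDimensional K N := FiniteDimensional.trans K B N
  let N' := IntermediateField.normalClosure K N U
  let _ : Algebra B N' := ((algebraMap N N').comp (algebraMap B N)).toAlgebra
  have : IsScalarTower B N N' := IsScalarTower.of_algebraMap_eq' rfl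
  have : IsScalarTower K B N' := IsScalarTower.of_algebraMap_eq fun f =>
    IsScalarTower.algebraMap_apply K N N' f
  have : IsGalois K N' := ⟨⟩
  refine hmax N' inferInstance inferInstance (h.resW_nc hgen_nc hG hres)
    (fun b hb => h.unr_nc hgen_nc hG hun ?_ ?_) (algebraMap N N' y).2
  · rintro ⟨j, rfl⟩
    exact hb (he j)
  · rintro ⟨j, rfl⟩
    exact hb (ha j)

theorem Cv.ret (h : Cv x z e) (hR : RetP1) (hG : GStmt) {n : ℕ} {a c : Fin n → ℂ}
    (ha : Function.Injective a) (hc0 : ∀ j, c j ≠ 0) (hc : ∀ j, c j ^ 2 = ∏ i, (a j - e i))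
    (G : Type) [Group G] [Finite G] :
    ∃ (n₀ : ℕ) (ζ : ℂ) (M : IntermediateField B U), 0 < n₀ ∧ IsPrimitiveRoot ζ n₀ ∧
      FiniteDimensional B M ∧ IsGalois B M ∧ ResW (M ≃ₐ[B] M) G ∧
      UnrZ M (algebraMap K B x) z a c ∧
      (∀ N : IntermediateField B U, FiniteDimensional B N → IsGalois B N → ResW (N ≃ₐ[B] N) G →
        UnrZ N (algebraMap K B x) z a c → N ≤ M) ∧
      ∃ γ : Fin n → (M ≃ₐ[B] M),
        (∀ i, ∃ u : AV B, Ctr ℂ u (algebraMap K B x - algebraMap ℂ B (a i)) n₀ ∧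
          0 < u (z - algebraMap ℂ B (c i)) ∧ GenOver u (algebraMap ℂ B ζ) (γ i)) ∧
        ∀ (A : Subgroup G) (c₀ : G),
          Nat.card {ρ : (M ≃ₐ[B] M) →* G // (∀ i, IsConj (ρ (γ i)) c₀) ∧ ρ.range ≤ A} =
            Nat.card (Smith13.Tup A fun (_ : Fin n) (y : A) => IsConj (y : G) c₀) := by
  classical
  have := h.isAlgClosure (U := U)
  let S : Finset ℂ := Finset.univ.image a ∪ Finset.univ.image e
  let α : Fin S.card → ℂ := fun i => S.equivFin.symm i
  have hα : Function.Injective α := Subtype.val_injective.comp S.equivFin.symm.injective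
  have hS : ∀ b ∈ S, b ∈ Set.range α := fun b hb => ⟨S.equivFin ⟨b, hb⟩, by simp [α]⟩
  have he : ∀ j, e j ∈ Set.range α := fun j => hS _ (by simp [S])
  have ha' : ∀ j, a j ∈ Set.range α := fun j => hS _ (by simp [S])
  have hr : 0 < Nat.card (Wr G) := Nat.card_pos
  obtain ⟨ζ, M, hζ, hfin, hgal, -, hun, hmax, σ, g, hg, hinf, hcl, hbij⟩ :=
    hR ℂ K U Cardinal.mk_complex x h.rat _ α hα (Wr G) _ (Nat.mul_pos two_pos hr)
      (fun w => by rw [mul_comm, pow_mul, pow_card_eq_one', one_pow])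
  have hBM : ∀ y : B, algebraMap B U y ∈ M := h.mem_of_max (a := a) (c := c) hG he ha' hmax B
    (fun γ _ => AlgEquiv.ext fun y => γ.commutes y) (fun u _ _ => ⟨u, fun _ => rfl⟩)
  let _ : Algebra B M := ((algebraMap B U).codRestrict M hBM).toAlgebra
  have : IsScalarTower K B M := IsScalarTower.of_algebraMap_eq fun f =>
    Subtype.ext (IsScalarTower.algebraMap_apply K B U f)
  have hrange : Set.range (α ∘ σ) = Set.range α := σ.surjective.range_comp α
  obtain ⟨E₀, h1, h2⟩ := h.core (α := α ∘ σ) hr hζ (hα.comp σ.injective) (by rwa [hrange]) ha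
    (by rwa [hrange]) hc0 hc hg hinf (by rwa [hrange]) hcl hbij.2
  let jM : M →ₐ[B] U := { (M.val : M →+* U) with commutes' := fun _ => rfl }
  obtain ⟨h3, h4, h5, h6, h7⟩ := h2 (E₀.map jM) (E₀.equivMap jM).symm
  refine ⟨_, ζ, E₀.map jM, Nat.mul_pos two_pos hr, hζ, h3, h4, h5, h6,
    fun N _ _ hres hun' y hy => ?_, h7⟩
  have h8 : ∀ y : N, (y : U) ∈ M := h.mem_of_max hG he ha' hmax N hres hun'
  let j : N →ₐ[B] M := { (N.val : N →+* U).codRestrict M h8 with commutes' := fun _ => rfl }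
  exact ⟨j ⟨y, hy⟩, h1 N j hres hun' _, rfl⟩

end abs

section curve

open WeierstrassCurve WeierstrassCurve.Affine

lemma exists_roots67 (W : Affine ℂ) [W.IsElliptic] : ∃ e : Fin 3 → ℂ, Function.Injective e ∧
    ∀ (F : Type) [Field F] [Algebra ℂ F] (x y : F), (W⁄F).Equation x y →
      (y + (algebraMap ℂ F (W.a₁ / 2) * x + algebraMap ℂ F (W.a₃ / 2))) ^ 2 =
        ∏ j, (x - algebraMap ℂ F (e j)) := by
  have ha : W.twoTorsionPolynomial.a ≠ 0 := by simp [twoTorsionPolynomial]
  obtain ⟨e0, e1, e2, h3⟩ := (Cubic.splits_iff_roots_eq_three (φ := RingHom.id ℂ) ha).1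
    (IsAlgClosed.splits _)
  obtain ⟨h01, h02, h12⟩ := (Cubic.discr_ne_zero_iff_roots_ne ha h3).1
    (W.twoTorsionPolynomial_discr_ne_zero two_ne_zero.isUnit W.isUnit_Δ)
  have hb := Cubic.b_eq_three_roots ha h3
  have hc := Cubic.c_eq_three_roots ha h3
  have hd := Cubic.d_eq_three_roots ha h3
  simp only [twoTorsionPolynomial, RingHom.id_apply, b₂, b₄, b₆] at hb hc hd
  refine ⟨![e0, e1, e2], ?_, fun F _ _ x y h => ?_⟩
  · intro i j
    fin_cases i <;> fin_cases j <;> simp [h01, h02, h12, h01.symm, h02.symm, h12.symm]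
  · have h1 : W.a₂ = -(e0 + e1 + e2) - (W.a₁ / 2) ^ 2 := by linear_combination hb / 4
    have h2 : W.a₄ = (e0 * e1 + e0 * e2 + e1 * e2) - 2 * (W.a₁ / 2) * (W.a₃ / 2) := by
      linear_combination hc / 4
    have h4 : W.a₆ = -(e0 * e1 * e2) - (W.a₃ / 2) ^ 2 := by linear_combination hd / 4
    have h5 : W.a₁ = 2 * (W.a₁ / 2) := by ring
    have h6 : W.a₃ = 2 * (W.a₃ / 2) := by ring
    rw [equation_iff] at h
    change y ^ 2 + algebraMap ℂ F W.a₁ * x * y + algebraMap ℂ F W.a₃ * y =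
      x ^ 3 + algebraMap ℂ F W.a₂ * x ^ 2 + algebraMap ℂ F W.a₄ * x + algebraMap ℂ F W.a₆ at h
    generalize W.a₁ / 2 = p at h1 h2 h5 ⊢
    generalize W.a₃ / 2 = q at h2 h4 h6 ⊢
    rw [h1, h2, h4, h5, h6] at h
    simp only [map_sub, map_neg, map_add, map_mul, map_pow, map_ofNat] at h
    rw [Fin.prod_univ_three]
    simp only [Matrix.cons_val_zero, Matrix.cons_val_one, Matrix.cons_val]
    linear_combination h

lemma pos_iff67 {B : Type} [Field B] [Algebra ℂ B] {u : AV B} (hu : Tr u) {x y : B} {a b : ℂ}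
    (p q : ℂ) (h : 0 < u (x - algebraMap ℂ B a)) :
    0 < u (y + (algebraMap ℂ B p * x + algebraMap ℂ B q) - algebraMap ℂ B (b + (p * a + q))) ↔
      0 < u (y - algebraMap ℂ B b) := by
  have h1 : 0 < u (algebraMap ℂ B p * (x - algebraMap ℂ B a)) := by
    rw [u.map_mul]
    exact h.trans_le (le_add_of_nonneg_left (hu.nonneg p))
  have h2 : y + (algebraMap ℂ B p * x + algebraMap ℂ B q) - algebraMap ℂ B (b + (p * a + q)) =
      (y - algebraMap ℂ B b) + algebraMap ℂ B p * (x - algebraMap ℂ B a) := by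
    simp only [map_add, map_mul]
    ring
  rw [h2]
  refine ⟨fun h3 => ?_, fun h3 => u.map_lt_add h3 h1⟩
  have h4 := u.map_lt_add h3 (y := -(algebraMap ℂ B p * (x - algebraMap ℂ B a)))
    (by rw [u.map_neg]; exact h1)
  rwa [add_neg_cancel_right] at h4

/-- **Riemann existence on the punctured elliptic curve** from the line -/
theorem retE_of (hR : RetP1) (hG : GStmt) : Fr.RetE := by
  intro B U _ _ _ _ _ W _ x y hx heq hgen n a b ha hab hneg G _ _
  obtain ⟨e, he, hsq⟩ := exists_roots67 W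
  let K := IntermediateField.adjoin ℂ {x}
  let x' : K := ⟨x, IntermediateField.mem_adjoin_simple_self ℂ x⟩
  let z : B := y + (algebraMap ℂ B (W.a₁ / 2) * x + algebraMap ℂ B (W.a₃ / 2))
  let c : Fin n → ℂ := fun i => b i + (W.a₁ / 2 * a i + W.a₃ / 2)
  have h : Cv x' z e := by
    refine ⟨⟨fun h1 => hx (IntermediateField.isAlgebraic_iff.1 h1), ?_⟩, he, hsq B x y heq, ?_⟩
    · apply IntermediateField.lift_injective
      rw [IntermediateField.lift_adjoin_simple, IntermediateField.lift_top]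
    · rw [← IntermediateField.restrictScalars_eq_top_iff (K := ℂ), eq_top_iff, ← hgen,
        IntermediateField.adjoin_le_iff]
      have h1 : x ∈ IntermediateField.adjoin K {z} := IntermediateField.algebraMap_mem _ x'
      have h2 : ∀ t : ℂ, algebraMap ℂ B t ∈ IntermediateField.adjoin K {z} := fun t =>
        IntermediateField.algebraMap_mem _ (algebraMap ℂ K t)
      rintro _ (rfl | rfl)
      · exact h1
      · have h3 := sub_mem (IntermediateField.mem_adjoin_simple_self K z)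
          (add_mem (mul_mem (h2 (W.a₁ / 2)) h1) (h2 (W.a₃ / 2)))
        rwa [add_sub_cancel_right] at h3
  have hc0 : ∀ j, c j ≠ 0 := fun j h1 => hneg j (by
    simp only [negY]
    linear_combination 2 * h1)
  have hc : ∀ j, c j ^ 2 = ∏ i, (a j - e i) := fun j => hsq ℂ (a j) (b j) (hab j)
  have hU : ∀ (N : Type) [Field N] [Algebra B N],
      UnrZ N (algebraMap K B x') z a c ↔ Fr.UnrE N x y a b := by
    intro N _ _
    have h1 : ∀ u : AV B, Tr u → (¬ OnD (algebraMap K B x') z a c u ↔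
        ∀ i, ¬ (0 < u (x - algebraMap ℂ B (a i)) ∧ 0 < u (y - algebraMap ℂ B (b i)))) := by
      intro u hu
      rw [OnD, not_exists]
      exact forall_congr' fun i => not_congr (and_congr_right fun h2 => pos_iff67 hu _ _ h2)
    exact ⟨fun h2 u hu ht hoff => h2 u ⟨hu, ht⟩ ((h1 u hu).2 hoff),
      fun h2 u hu hoff => h2 u hu.1 hu.2 ((h1 u hu.1).1 hoff)⟩
  obtain ⟨n₀, ζ, M, h1, h2, h3, h4, h5, h6, h7, γ, h8, h9⟩ :=
    h.ret (U := U) hR hG ha hc0 hc G
  refine ⟨n₀, ζ, M, h1, h2, h3, h4, h5, (hU M).1 h6,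
    fun N k1 k2 k3 k4 => h7 N k1 k2 k3 ((hU N).2 k4), γ, fun i => ?_, h9⟩
  obtain ⟨u, k1, k2, k3⟩ := h8 i
  refine ⟨u, ⟨k1, (pos_iff67 k1.1 _ _ ?_).1 k2⟩, k3⟩
  have k4 : u (x - algebraMap ℂ B (a i)) = ((n₀ : ℤ) : WithTop ℤ) := k1.2
  rw [k4]
  exact_mod_cast h1

end curve

end Crest.Agent.T170.Wr
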