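import Mathlib

/-!
# Row 170, item (5) (helper10), part A: zero count and the chart polynomial

* `exists_beta` : if `(x - a) θ` is integral over `κ[x]`, `(1 - a/x) θ` is integral over `κ[1/x]`
  and `θ ≠ 0` has degree `≤ e` over `κ(x)`, there is `β ≠ 0` in `κ[T]` of degree `≤ e` such that
  `β(x)` vanishes at every valuation ring `w ⊇ κ[x]` at which `(x - a) θ` vanishes.
* `exists_chart_poly` : if no valuation ring containing the chart ring `A` kills all coordinates
  of a point `p t` (`t` in a finite set), there is `q ∈ A[T]` with `q(0) = 1`, `q(p t) = 0`.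
-/

set_option autoImplicit false

namespace Crest.Agent.T170.Bad

open Polynomial IntermediateField
open scoped IntermediateField.algebraAdjoinAdjoin

section beta

variable {κ Ψ : Type*} [Field κ] [Field Ψ] [Algebra κ Ψ]

theorem isIntegrallyClosed_adjoin {t : Ψ} (ht : Transcendental κ t) :
    IsIntegrallyClosed (Algebra.adjoin κ {t}) :=
  IsIntegrallyClosed.of_equiv (Polynomial.algEquivOfTranscendental κ t ht).toRingEquiv

/-- The minimal polynomial over `κ(t)` of an element integral over `κ[t]` has coefficients in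
`κ[t]`. -/
theorem coeff_minpoly_mem {t : Ψ} (ht : Transcendental κ t) (K : IntermediateField κ Ψ)
    (hK : K = IntermediateField.adjoin κ {t}) {z : Ψ}
    (hz : IsIntegral (Algebra.adjoin κ {t}) z) (j : ℕ) :
    (((minpoly K z).coeff j : K) : Ψ) ∈ Algebra.adjoin κ {t} := by
  subst hK
  have := isIntegrallyClosed_adjoin ht
  rw [minpoly.isIntegrallyClosed_eq_field_fractions' (IntermediateField.adjoin κ {t}) hz,
    coeff_map]
  exact ((minpoly (Algebra.adjoin κ {t}) z).coeff j).2

theorem minpoly_mul_eq_scaleRoots {K : Type*} [Field K] [Algebra K Ψ] {z : Ψ}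
    (hz : IsIntegral K z) {r : K} (hr : r ≠ 0) :
    minpoly K (algebraMap K Ψ r * z) = (minpoly K z).scaleRoots r := by
  have key : ∀ (z : Ψ) (r : K), IsIntegral K z →
      (minpoly K (algebraMap K Ψ r * z)).natDegree ≤ (minpoly K z).natDegree := by
    intro z r hz
    have h1 : aeval (algebraMap K Ψ r * z) ((minpoly K z).scaleRoots r) = 0 :=
      scaleRoots_aeval_eq_zero (minpoly.aeval K z)
    have hm : ((minpoly K z).scaleRoots r).Monic := (monic_scaleRoots_iff r).2 (minpoly.monic hz)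
    have := natDegree_le_of_dvd (minpoly.dvd K _ h1) hm.ne_zero
    rwa [natDegree_scaleRoots] at this
  have hz' : IsIntegral K (algebraMap K Ψ r * z) := isIntegral_algebraMap.mul hz
  have h1 : aeval (algebraMap K Ψ r * z) ((minpoly K z).scaleRoots r) = 0 :=
    scaleRoots_aeval_eq_zero (minpoly.aeval K z)
  have hm : ((minpoly K z).scaleRoots r).Monic := (monic_scaleRoots_iff r).2 (minpoly.monic hz)
  have h2 := key _ r⁻¹ hz'
  rw [← mul_assoc, ← map_mul, inv_mul_cancel₀ hr, map_one, one_mul] at h2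
  symm
  refine eq_of_monic_of_dvd_of_natDegree_le (minpoly.monic hz') hm (minpoly.dvd K _ h1) ?_
  rwa [natDegree_scaleRoots]

theorem natDegree_le_of_eq {x : Ψ} (hx : Transcendental κ x) {β γ : κ[X]} {d : ℕ}
    (h : aeval x β * x⁻¹ ^ d = aeval x⁻¹ γ) : β.natDegree ≤ d := by
  have hx0 : x ≠ 0 := by
    rintro rfl
    exact hx isAlgebraic_zero
  by_cases hβ : β = 0
  · simp [hβ]
  let _ : Invertible (x⁻¹) := invertibleOfNonzero (inv_ne_zero hx0)
  have h1 := eval₂_reverse_mul_pow (algebraMap κ Ψ) x⁻¹ γ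
  have h2 : (⅟(x⁻¹) : Ψ) = x := by
    rw [invOf_eq_inv, inv_inv]
  rw [h2, ← aeval_def, ← aeval_def, ← h] at h1
  have h3 : aeval x (γ.reverse * X ^ d) = aeval x (β * X ^ γ.natDegree) := by
    simp only [map_mul, map_pow, aeval_X]
    have hd : x ^ d ≠ 0 := pow_ne_zero _ hx0
    have hg : x ^ γ.natDegree ≠ 0 := pow_ne_zero _ hx0
    rw [inv_pow, inv_pow] at h1
    field_simp at h1
    linear_combination h1
  have h4 := transcendental_iff_injective.mp hx h3
  have hγ : γ.reverse ≠ 0 := by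
    intro h0
    rw [h0, zero_mul] at h4
    exact mul_ne_zero hβ (pow_ne_zero _ X_ne_zero) h4.symm
  have h5 := congrArg natDegree h4
  rw [natDegree_mul hγ (pow_ne_zero _ X_ne_zero), natDegree_mul hβ (pow_ne_zero _ X_ne_zero),
    natDegree_X_pow, natDegree_X_pow] at h5
  have := reverse_natDegree_le γ
  omega

theorem adjoin_le_of_mem (w : ValuationSubring Ψ) (hw : ∀ c : κ, algebraMap κ Ψ c ∈ w)
    {S : Set Ψ} (hS : ∀ s ∈ S, s ∈ w) {z : Ψ} (hz : z ∈ Algebra.adjoin κ S) : z ∈ w := by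
  induction hz using Algebra.adjoin_induction with
  | mem s hs => exact hS s hs
  | algebraMap c => exact hw c
  | add a b _ _ ha hb => exact add_mem ha hb
  | mul a b _ _ ha hb => exact mul_mem ha hb

theorem mul_mem_nonunits (w : ValuationSubring Ψ) {a b : Ψ} (ha : a ∈ w) (hb : b ∈ w.nonunits) :
    a * b ∈ w.nonunits := by
  rw [ValuationSubring.mem_nonunits_iff] at hb ⊢
  rw [map_mul]
  exact mul_lt_one_of_nonneg_of_lt_one_right ((w.valuation_le_one_iff a).2 ha) zero_le hb

theorem mem_of_mem_nonunits (w : ValuationSubring Ψ) {a : Ψ} (ha : a ∈ w.nonunits) : a ∈ w :=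
  w.nonunits_subset ha

/-- **Zero count for one eigenvalue.** -/
theorem exists_beta {x : Ψ} (hx : Transcendental κ x) (a : κ) {θ : Ψ} (hθ : θ ≠ 0) {e : ℕ}
    (hdeg : (minpoly (IntermediateField.adjoin κ {x}) θ).natDegree ≤ e)
    (h0 : IsIntegral (Algebra.adjoin κ {x}) ((x - algebraMap κ Ψ a) * θ))
    (h1 : IsIntegral (Algebra.adjoin κ {x⁻¹}) ((1 - algebraMap κ Ψ a * x⁻¹) * θ)) :
    ∃ β : κ[X], β ≠ 0 ∧ β.natDegree ≤ e ∧ ∀ w : ValuationSubring Ψ,
      (∀ c : κ, algebraMap κ Ψ c ∈ w) → x ∈ w → (x - algebraMap κ Ψ a) * θ ∈ w.nonunits →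
        aeval x β ∈ w.nonunits := by
  have hx0 : x ≠ 0 := by
    rintro rfl
    exact hx isAlgebraic_zero
  have hxa : x - algebraMap κ Ψ a ≠ 0 := by
    intro h
    exact hx ((sub_eq_zero.1 h) ▸ isAlgebraic_algebraMap a)
  have hxi : Transcendental κ x⁻¹ := fun h => hx (IsAlgebraic.inv_iff.1 h)
  set K := IntermediateField.adjoin κ {x} with hK
  have hxK : x ∈ K := mem_adjoin_simple_self κ x
  have hK' : K = IntermediateField.adjoin κ {x⁻¹} := by
    apply le_antisymm
    · rw [hK, adjoin_simple_le_iff]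
      simpa using inv_mem (mem_adjoin_simple_self κ x⁻¹)
    · rw [adjoin_simple_le_iff]
      exact inv_mem hxK
  set z := (x - algebraMap κ Ψ a) * θ with hz
  have hz0 : z ≠ 0 := mul_ne_zero hxa hθ
  have hzK : IsIntegral K z := h0.tower_top
  let r : K := ⟨x - algebraMap κ Ψ a, sub_mem hxK (K.algebraMap_mem a)⟩
  have hr : r ≠ 0 := fun h => hxa (congrArg Subtype.val h)
  have hθK : IsIntegral K θ := by
    have : θ = algebraMap K Ψ r⁻¹ * z := by
      rw [map_inv₀]
      change θ = (x - algebraMap κ Ψ a)⁻¹ * z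
      rw [hz, inv_mul_cancel_left₀ hxa]
    rw [this]
    exact isIntegral_algebraMap.mul hzK
  have hdz : (minpoly K z).natDegree ≤ e := by
    have : z = algebraMap K Ψ r * θ := rfl
    rw [this, minpoly_mul_eq_scaleRoots hθK hr, natDegree_scaleRoots]
    exact hdeg
  obtain ⟨β, hβ⟩ := Algebra.adjoin_mem_exists_aeval κ x (coeff_minpoly_mem hx K hK h0 0)
  let s : K := ⟨x⁻¹, inv_mem hxK⟩
  have hs : s ≠ 0 := fun h => inv_ne_zero hx0 (congrArg Subtype.val h)
  have hz' : (1 - algebraMap κ Ψ a * x⁻¹) * θ = algebraMap K Ψ s * z := by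
    change _ = x⁻¹ * z
    rw [hz]
    field_simp
  obtain ⟨γ, hγ⟩ := Algebra.adjoin_mem_exists_aeval κ x⁻¹ (coeff_minpoly_mem hxi K hK' h1 0)
  rw [hz', minpoly_mul_eq_scaleRoots hzK hs, coeff_scaleRoots, tsub_zero] at hγ
  refine ⟨β, ?_, ?_, fun w hw hxw hzw => ?_⟩
  · rintro rfl
    rw [map_zero] at hβ
    have : (minpoly K z).coeff 0 = 0 := Subtype.ext hβ.symm
    exact minpoly.coeff_zero_ne_zero hzK hz0 this
  · refine le_trans (natDegree_le_of_eq hx (γ := γ) ?_) hdz
    rw [hγ, hβ]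
    simp [s]
  · have hA : ∀ j, (((minpoly K z).coeff j : K) : Ψ) ∈ w := fun j =>
      adjoin_le_of_mem w hw (by simpa using hxw) (coeff_minpoly_mem hx K hK h0 j)
    have hzw' : z ∈ w := mem_of_mem_nonunits w hzw
    have h := minpoly.aeval K z
    rw [← divX_mul_X_add (minpoly K z), map_add, map_mul, aeval_X, aeval_C] at h
    have hq : aeval z (minpoly K z).divX ∈ w := by
      rw [aeval_eq_sum_range]
      refine sum_mem fun j _ => ?_
      rw [coeff_divX, Algebra.smul_def]
      exact mul_mem (hA _) (pow_mem hzw' _)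
    have : aeval x β = -(aeval z (minpoly K z).divX * z) := by
      rw [hβ]
      exact eq_neg_of_add_eq_zero_right h
    rw [this]
    exact neg_mem (mul_mem_nonunits w hq hzw)

end beta

section chart

variable {Ψ : Type*} [Field Ψ]

theorem exists_chart_poly_one (A : Subring Ψ) {J : Type*} (p : J → Ψ)
    (h : ∀ w : ValuationSubring Ψ, A ≤ w.toSubring → (∀ j, p j ∈ w) → ∃ j, p j ∉ w.nonunits) :
    ∃ q : MvPolynomial J A, MvPolynomial.constantCoeff q = 1 ∧ MvPolynomial.aeval p q = 0 := by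
  classical
  let φ : MvPolynomial J A →ₐ[A] Ψ := MvPolynomial.aeval p
  let B : Subring Ψ := φ.toRingHom.range
  let I0 : Ideal (MvPolynomial J A) := RingHom.ker (MvPolynomial.constantCoeff)
  let I : Ideal B := I0.map φ.toRingHom.rangeRestrict
  by_cases hI : I = ⊤
  · have h1 : (1 : B) ∈ I := hI ▸ Submodule.mem_top
    obtain ⟨g, hg, hg1⟩ := (Ideal.mem_map_iff_of_surjective _
      φ.toRingHom.rangeRestrict_surjective).1 h1
    refine ⟨1 - g, ?_, ?_⟩
    · have : MvPolynomial.constantCoeff g = 0 := hg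
      simp [this]
    · have : φ g = 1 := congrArg Subtype.val hg1
      change φ (1 - g) = 0
      rw [map_sub, map_one, this, sub_self]
  · obtain ⟨w, hBw, hIw⟩ := Ideal.image_subset_nonunits_valuationSubring I hI
    have hp : ∀ j, p j ∈ w.nonunits := fun j => by
      refine hIw ⟨φ.toRingHom.rangeRestrict (MvPolynomial.X j), ?_, ?_⟩
      · exact Ideal.mem_map_of_mem _ (by simp [I0, RingHom.mem_ker])
      · exact MvPolynomial.aeval_X p j
    obtain ⟨j, hj⟩ := h w (fun a ha => hBw ⟨MvPolynomial.C ⟨a, ha⟩, by simp [φ]; rfl⟩)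
      fun j => w.nonunits_subset (hp j)
    exact absurd (hp j) hj

/-- **The chart polynomial.** -/
theorem exists_chart_poly (A : Subring Ψ) {J τ : Type*} (s : Finset τ) (p : τ → J → Ψ)
    (h : ∀ t ∈ s, ∀ w : ValuationSubring Ψ, A ≤ w.toSubring → (∀ j, p t j ∈ w) →
      ∃ j, p t j ∉ w.nonunits) :
    ∃ q : MvPolynomial J A, MvPolynomial.constantCoeff q = 1 ∧
      ∀ t ∈ s, MvPolynomial.aeval (p t) q = 0 := by
  classical
  choose! q hq using fun t (ht : t ∈ s) => exists_chart_poly_one A (p t) (h t ht)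
  refine ⟨∏ t ∈ s, q t, ?_, fun t ht => ?_⟩
  · rw [map_prod]
    exact Finset.prod_eq_one fun t ht => (hq t ht).1
  · rw [map_prod]
    exact Finset.prod_eq_zero ht (hq t ht).2

end chart

end Crest.Agent.T170.Bad
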