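import Crest.Agent.T170.BadA_10
import Crest.Agent.T170.Fr_20

/-!
# Row 170 (helper10): the frame statements `PolyStmt` and `QStmt`.
-/

set_option autoImplicit false

namespace Crest.Agent.T170.Bad

open Polynomial IntermediateField
open scoped IntermediateField.algebraAdjoinAdjoin

theorem polyStmt : Fr.PolyStmt := by
  intro κ Ω _ _ _ x φ r hx hφ h0 h1 hdeg
  have hx0 : x ≠ 0 := by
    rintro rfl
    exact hx isAlgebraic_zero
  have e0 : (x - algebraMap κ Ω 0) * (φ / x) = φ := by
    rw [map_zero, sub_zero]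
    field_simp
  have e1 : (1 - algebraMap κ Ω 0 * x⁻¹) * (φ / x) = φ / x := by
    rw [map_zero, zero_mul, sub_zero, one_mul]
  have hxK : x ∈ IntermediateField.adjoin κ {x} := mem_adjoin_simple_self κ x
  let s : IntermediateField.adjoin κ {x} := ⟨x⁻¹, inv_mem hxK⟩
  have hs : s ≠ 0 := fun h => inv_ne_zero hx0 (congrArg Subtype.val h)
  have hd : (minpoly (IntermediateField.adjoin κ {x}) (φ / x)).natDegree ≤ r := by
    have : φ / x = algebraMap _ Ω s * φ := by
      change _ = x⁻¹ * φ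
      rw [div_eq_inv_mul]
    rw [this, minpoly_mul_eq_scaleRoots h0.tower_top hs, natDegree_scaleRoots]
    exact hdeg
  obtain ⟨β, hβ0, hβ, hw⟩ := exists_beta hx 0 (div_ne_zero hφ hx0) hd (e0.symm ▸ h0)
    (e1.symm ▸ h1)
  refine ⟨β, hβ0, hβ, fun w hκ hxw hφw => ?_⟩
  rw [← ValuationSubring.mem_nonunits_iff]
  refine hw w hκ hxw ?_
  rw [e0, ValuationSubring.mem_nonunits_iff]
  exact hφw

theorem qStmt : Fr.QStmt := by
  intro Ω ι _ _ A T h
  refine exists_chart_poly A T (fun t => t) fun t ht w hA _ => ?_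
  obtain ⟨i, hi⟩ := h w (fun z hz => hA hz) t ht
  exact ⟨i, fun hm => hi ((ValuationSubring.mem_nonunits_iff w).1 hm)⟩

end Crest.Agent.T170.Bad
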