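import Crest.Agent.T170.CoreK2Def_62
import Crest.Agent.T170.EllC_61

/-!
# Row 170 (helper62), task K2: existence of the special fibre (`sfStmt`)
-/

set_option autoImplicit false

namespace Crest.Agent.T170.Fr

open scoped NNReal Polynomial Classical
open WeierstrassCurve WeierstrassCurve.Affine Crest.Agent.T170.Ell Crest.Agent.T170.Ell.Place

namespace K2

section generic

variable {K L κ Om : Type*} [Field K] [Field L] [Field κ] [Field Om]

/-- a map of valued fields induces a map of residue fields -/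
theorem exists_hom (P : Place K κ) (hs : ∀ a, ∃ z, P.Sp z a) (Q : Place L Om) (j : K →+* L)
    (hm : ∀ z, z ∈ P.A → j z ∈ Q.A) (h0 : ∀ z, P.Sp z 0 → Q.Sp (j z) 0) :
    ∃ f : κ →+* Om, ∀ z a, P.Sp z a → Q.Sp (j z) (f a) := by
  have hsurj : Function.Surjective P.φ := fun a => by
    obtain ⟨z, hz, e⟩ := hs a
    exact ⟨⟨z, hz⟩, e⟩
  let g : P.A →+* Om :=
    Q.φ.comp ((j.comp P.A.subtype).codRestrict Q.A.toSubring fun a => hm a a.2)
  have hg : ∀ a : P.A, Q.Sp (j a) (g a) := fun a => ⟨hm a a.2, rfl⟩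
  have hker : RingHom.ker P.φ ≤ RingHom.ker g := fun a ha =>
    (hg a).unique (h0 a ⟨a.2, ha⟩)
  refine ⟨P.φ.liftOfSurjective hsurj ⟨g, hker⟩, ?_⟩
  rintro z a ⟨hz, rfl⟩
  rw [RingHom.liftOfRightInverse_comp_apply]
  exact hg ⟨z, hz⟩

/-- the residue field of an algebraically closed field is algebraically closed -/
theorem isAlgClosed_of_place [IsAlgClosed K] (P : Place K κ) (hs : ∀ a, ∃ z, P.Sp z a) :
    IsAlgClosed κ := by
  have hsurj : Function.Surjective P.φ := fun a => by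
    obtain ⟨z, hz, e⟩ := hs a
    exact ⟨⟨z, hz⟩, e⟩
  refine IsAlgClosed.of_exists_root κ fun f hf hirr => ?_
  obtain ⟨q, hq, hdeg, hmon⟩ := Polynomial.lifts_and_degree_eq_and_monic
    (f := P.φ) ((Polynomial.mem_lifts f).2 (Polynomial.map_surjective _ hsurj f)) hf
  have hd : q.degree ≠ 0 := by
    rw [hdeg]; exact (Polynomial.degree_pos_of_irreducible hirr).ne'
  obtain ⟨z, hz⟩ := IsAlgClosed.exists_aeval_eq_zero_of_injective K
    (IsFractionRing.injective P.A K) q hd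
  obtain ⟨w, rfl⟩ := IsIntegrallyClosed.isIntegral_iff.1 (⟨q, hmon, hz⟩ : IsIntegral P.A z)
  refine ⟨P.φ w, ?_⟩
  rw [Polynomial.aeval_algebraMap_apply, map_eq_zero_iff _ (IsFractionRing.injective P.A K),
    Polynomial.coe_aeval_eq_eval] at hz
  rw [← hq, Polynomial.eval_map, Polynomial.eval₂_at_apply, hz, map_zero]

/-- the values of a place form a subfield -/
def values (P : Place K Om) : Subfield Om where
  carrier := {t | ∃ z, P.Sp z t}
  mul_mem' := fun ⟨_, h⟩ ⟨_, h'⟩ => ⟨_, h.mul h'⟩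
  one_mem' := ⟨_, sp_one⟩
  add_mem' := fun ⟨_, h⟩ ⟨_, h'⟩ => ⟨_, h.add h'⟩
  zero_mem' := ⟨_, sp_zero⟩
  neg_mem' := fun ⟨_, h⟩ => ⟨_, h.neg⟩
  inv_mem' := fun t ⟨_, h⟩ => by
    rcases eq_or_ne t 0 with rfl | ht
    · exact ⟨0, by simpa using sp_zero⟩
    · exact ⟨_, h.inv ht⟩

/-- the image in the residue field of a valuation ring refining the ring of the place -/
def image (P : Place K κ) (hs : ∀ a, ∃ z, P.Sp z a) (V : ValuationSubring K) :
    ValuationSubring κ where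
  carrier := {t | ∃ z ∈ V, P.Sp z t}
  mul_mem' := fun ⟨_, a, h⟩ ⟨_, a', h'⟩ => ⟨_, mul_mem a a', h.mul h'⟩
  one_mem' := ⟨_, one_mem _, sp_one⟩
  add_mem' := fun ⟨_, a, h⟩ ⟨_, a', h'⟩ => ⟨_, add_mem a a', h.add h'⟩
  zero_mem' := ⟨_, zero_mem _, sp_zero⟩
  neg_mem' := fun ⟨_, a, h⟩ => ⟨_, neg_mem a, h.neg⟩
  mem_or_inv_mem' := fun t => by
    obtain ⟨z, hz⟩ := hs t
    rcases eq_or_ne t 0 with rfl | ht
    · exact Or.inl ⟨_, zero_mem _, sp_zero⟩
    · exact (V.mem_or_inv_mem z).imp (fun h => ⟨_, h, hz⟩) fun h => ⟨_, h, hz.inv ht⟩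

theorem mem_image {P : Place K κ} (hs : ∀ a, ∃ z, P.Sp z a) {V : ValuationSubring K}
    (hV : ∀ z ∈ V, z ∈ P.A) {z : K} {t : κ} (hz : P.Sp z t) : t ∈ image P hs V ↔ z ∈ V := by
  refine ⟨?_, fun h => ⟨z, h, hz⟩⟩
  rintro ⟨w, hw, hwt⟩
  have h0 : P.Sp (z - w) 0 := by simpa using hz.sub hwt
  have : z - w ∈ V := by
    rcases eq_or_ne (z - w) 0 with e | e
    · rw [e]; exact zero_mem _
    · exact (V.mem_or_inv_mem _).resolve_right fun h => h0.inv_not_mem e (hV _ h)
  simpa using add_mem this hw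

theorem image_valuation_lt_one {P : Place K κ} (hs : ∀ a, ∃ z, P.Sp z a)
    {V : ValuationSubring K} (hV : ∀ z ∈ V, z ∈ P.A) {z : K} {t : κ} (hz : P.Sp z t)
    (h : V.valuation z < 1) : (image P hs V).valuation t < 1 := by
  rw [← ValuationSubring.mem_nonunits_iff, ValuationSubring.mem_nonunits_iff_or] at h ⊢
  rcases eq_or_ne t 0 with rfl | ht
  · exact Or.inl rfl
  · exact Or.inr fun hm =>
      (h.resolve_left (hz.ne_zero ht)) ((mem_image hs hV (hz.inv ht)).1 hm)

/-- reduction commutes with base change -/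
theorem red_baseChange {R : Type*} [CommRing R] [Algebra R K] [Algebra R L] [Algebra R κ]
    [Algebra R Om] [Algebra K L] [Algebra κ Om] [IsScalarTower R K L] [IsScalarTower R κ Om]
    {W : Affine R} [W.IsElliptic] {P : Place K κ} {Q : Place L Om} (hP : P.Over R)
    (hQ : Q.Over R) (h : ∀ z a, P.Sp z a → Q.Sp (algebraMap K L z) (algebraMap κ Om a))
    (T : (W⁄K).Point) :
    red W hQ (Point.baseChange K L T) = Point.baseChange κ Om (red W hP T) := by
  have e := red_map hP hQ (IsScalarTower.toAlgHom R K L) (IsScalarTower.toAlgHom R κ Om) h T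
  have e1 : ∀ T : (W⁄K).Point,
      Point.baseChange K L T = Point.map (IsScalarTower.toAlgHom R K L) T := by
    rintro (_ | _) <;> rfl
  have e2 : ∀ T : (W⁄κ).Point,
      Point.baseChange κ Om T = Point.map (IsScalarTower.toAlgHom R κ Om) T := by
    rintro (_ | _) <;> rfl
  rw [e1, e2, e]

end generic

end K2

open K2

theorem sfStmt : SFStmt := by
  intro p n _ _ R C K E N _ _ _ _ _ _ _ _ _ _ _ _ _ _ _ _ X
  have := X.ell
  -- the three residue fields
  let Fb : Type := IsLocalRing.ResidueField X.O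
  let Ω : Type := AlgebraicClosure Fb
  let vC := X.v.comap (algebraMap C E)
  let k : Type := IsLocalRing.ResidueField vC.valuationSubring
  let P₀ : Place E Fb := Place.ofValuationSubring X.O
  have h₀ : P₀.IsOf X.v := isOf_ofValuationSubring X.v
  have hs₀ : ∀ a, ∃ z, P₀.Sp z a := ofValuationSubring_surj _
  let pl : Place E Ω := P₀.map (algebraMap Fb Ω)
  have hpl : pl.IsOf X.v := h₀
  let PC : Place C k := Place.ofValuationSubring vC.valuationSubring
  have hC : PC.IsOf vC := isOf_ofValuationSubring vC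
  have hsC : ∀ a, ∃ z, PC.Sp z a := ofValuationSubring_surj _
  obtain ⟨f₀, hf₀⟩ := exists_hom PC hsC P₀ (algebraMap C E) (fun z hz => hz)
    (fun z hz => h₀.sp_zero_iff.2 (hC.sp_zero_iff.1 hz))
  let : Algebra k Ω := ((algebraMap Fb Ω).comp f₀).toAlgebra
  have hkΩ : ∀ t : k, algebraMap k Ω t = algebraMap Fb Ω (f₀ t) := fun _ => rfl
  have hf : ∀ z a, PC.Sp z a → pl.Sp (algebraMap C E z) (algebraMap k Ω a) := fun z a h =>
    (hf₀ z a h).map _
  have hRC : ∀ r : R, algebraMap R C r ∈ PC.A := fun r => (hC _).2 (by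
    rw [Valuation.comap_apply, ← IsScalarTower.algebraMap_apply]; exact X.vR r)
  let : Algebra R k :=
    (PC.φ.comp ((algebraMap R C).codRestrict PC.A.toSubring hRC)).toAlgebra
  have hPC : PC.Over R := fun r => ⟨hRC r, rfl⟩
  let : Algebra R Ω := ((algebraMap k Ω).comp (algebraMap R k)).toAlgebra
  have : IsScalarTower R k Ω := IsScalarTower.of_algebraMap_eq fun _ => rfl
  have hov : pl.Over R := fun r => by
    rw [IsScalarTower.algebraMap_apply R C E]
    exact hf _ _ (hPC r)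
  have hkc : IsAlgClosed k := isAlgClosed_of_place PC hsC
  have hch : CharP Fb p := by
    have h1 : P₀.Sp (p : E) 0 := h₀.sp_zero_iff.2 X.vp
    exact (CharP.charP_iff_prime_eq_zero Fact.out).2 ((sp_natCast p).unique h1)
  have : Infinite Fb := Infinite.of_injective f₀ f₀.injective
  refine ⟨k, Fb, Ω, inferInstance, inferInstance, inferInstance, inferInstance, inferInstance,
    inferInstance, inferInstance, inferInstance, hkc, inferInstance, hch, inferInstance,
    inferInstance, ?_⟩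
  -- the residue field of `K`
  let κ : IntermediateField k Ω :=
    (values (pl.comap (algebraMap K E))).toIntermediateField fun t => by
      obtain ⟨c, hc⟩ := hsC t
      refine ⟨algebraMap C K c, ?_⟩
      rw [comap_sp, ← IsScalarTower.algebraMap_apply]
      exact hf _ _ hc
  have hκ : ∀ t : Ω, t ∈ κ ↔ ∃ z : K, pl.Sp (algebraMap K E z) t := fun _ => Iff.rfl
  obtain ⟨PK, hPK⟩ := exists_codRestrict (pl.comap (algebraMap K E)) (algebraMap κ Ω)
    fun z b h => ⟨⟨b, (hκ b).2 ⟨z, h⟩⟩, rfl⟩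
  have hPK' : ∀ c d, PK.Sp c d → pl.Sp (algebraMap K E c) (algebraMap κ Ω d) := fun c d h =>
    (hPK c d).1 h
  have hsK : ∀ d, ∃ c, PK.Sp c d := fun d => by
    obtain ⟨c, hc⟩ := (hκ d).1 d.2
    exact ⟨c, (hPK c d).2 hc⟩
  have hKA : ∀ z : K, z ∈ PK.A ↔ X.v (algebraMap K E z) ≤ 1 := fun z =>
    (mem_iff_of_sp hPK' z).symm.trans (hpl _)
  -- the generic point
  let : Algebra R K := ((algebraMap C K).comp (algebraMap R C)).toAlgebra
  have : IsScalarTower R K E := IsScalarTower.of_algebraMap_eq fun r => by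
    rw [IsScalarTower.algebraMap_apply R C E, IsScalarTower.algebraMap_apply C K E]; rfl
  have hg : GaussX X.v K X.x := gaussX_iff_sup.2 X.gauss
  have hgen : IsGen X.W K X.x X.y := ⟨X.ns.1, hg.transcendental, X.gen⟩
  have hx : pl.Sp X.x (pl.val X.x) := sp_val ((hpl _).2 hg.le_one)
  have hy : pl.Sp X.y (pl.val X.y) := sp_val (y_mem hov X.ns.1 hx.mem)
  -- the punctures
  have ha' : ∀ i, PC.Sp (X.a' i) (PC.val (X.a' i)) := fun i => sp_val ((hC _).2 (X.va' i))
  have hb' : ∀ i, PC.Sp (X.b' i) (PC.val (X.b' i)) := fun i =>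
    sp_val (y_mem hPC (X.ns' i).1 (ha' i).mem)
  -- the automorphism
  obtain ⟨τ₀, hτ₀⟩ := exists_hom P₀ hs₀ P₀ (X.γE : E →+* E)
    (fun z hz => (h₀ _).2 (by rw [RingHom.coe_coe, X.vγ]; exact (h₀ _).1 hz))
    (fun z hz => h₀.sp_zero_iff.2 (by rw [RingHom.coe_coe, X.vγ]; exact h₀.sp_zero_iff.1 hz))
  have hτs : Function.Surjective τ₀ := fun a => by
    obtain ⟨z, hz⟩ := hs₀ a
    have hm : X.γE.symm z ∈ P₀.A := (h₀ _).2 (by
      rw [← X.vγ, AlgEquiv.apply_symm_apply]; exact h₀.le_one hz)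
    have h1 := hτ₀ _ _ (sp_val hm)
    rw [RingHom.coe_coe, AlgEquiv.apply_symm_apply] at h1
    exact ⟨_, h1.unique hz⟩
  let τ : Fb ≃+* Fb := RingEquiv.ofBijective τ₀ ⟨τ₀.injective, hτs⟩
  let g₀ : Ω ≃+* Ω := IsAlgClosure.equivOfEquiv Ω Ω τ
  have hg₀ : ∀ a : Fb, g₀ (algebraMap Fb Ω a) = algebraMap Fb Ω (τ₀ a) := fun a =>
    IsAlgClosure.equivOfEquiv_algebraMap Ω Ω τ a
  have hgsp : ∀ (z : E) (t : Ω), pl.Sp z t → pl.Sp (X.γE z) (g₀ t) := fun z t h => by
    obtain ⟨a, ha, rfl⟩ := (map_sp _ _ _ _).1 h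
    rw [hg₀]
    exact (hτ₀ z a ha).map _
  let gb : Ω ≃ₐ[k] Ω := AlgEquiv.ofRingEquiv (f := g₀) fun t => by
    obtain ⟨c, hc⟩ := hsC t
    have h1 := hgsp _ _ (hf _ _ hc)
    rw [AlgEquiv.commutes] at h1
    exact h1.unique (hf _ _ hc)
  have hgb : ∀ t, gb t = g₀ t := fun _ => rfl
  have hgK : ∀ (z : K) (t : Ω), pl.Sp (algebraMap K E z) t →
      pl.Sp (algebraMap K E (X.γK z)) (gb t) := fun z t h => by
    rw [← X.γEK]; exact hgsp _ _ h
  have hgK' : ∀ (z : K) (t : Ω), pl.Sp (algebraMap K E (X.γK z)) (gb t) →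
      pl.Sp (algebraMap K E z) t := fun z t h => by
    have hm : algebraMap K E z ∈ pl.A := (hpl _).2 (by
      rw [← X.vγ, X.γEK]; exact hpl.le_one h)
    exact gb.injective ((hgK _ _ (sp_val hm)).unique h) ▸ sp_val hm
  have hVle : ∀ z ∈ X.V, z ∈ PK.A := fun z hz => (hKA z).2 (X.fine.le z hz)
  have hCK : ∀ (c : C) (t : k), PC.Sp c t → PK.Sp (algebraMap C K c) (algebraMap k κ t) :=
    fun c t h => (hPK _ _).2 (by
      rw [comap_sp, ← IsScalarTower.algebraMap_apply, ← IsScalarTower.algebraMap_apply]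
      exact hf _ _ h)
  refine ⟨{
    red := IsLocalRing.residue X.O
    red_surj := IsLocalRing.residue_surjective
    red_eq_zero := fun z => by
      rw [IsLocalRing.residue_eq_zero_iff, Valuation.mem_maximalIdeal_iff]
    pl := pl
    pl_sp := fun _ _ => Iff.rfl
    ovR := hov
    sp_C := fun c hc => ⟨_, hf _ _ (sp_val ((hC c).2 hc))⟩
    sp_k := fun t => (hsC t).imp fun c hc => hf _ _ hc
    κ := κ
    mem_κ := hκ
    xb := pl.val X.x
    yb := pl.val X.y
    sp_x := hx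
    sp_y := hy
    nsb := nonsingular_sp hov X.ns.1 hx hy
    trans := hg.transcendental_sp hpl hPK' hsK hx
    gen := fun a => ?_
    Pb := red X.W hPC X.P
    ord := ?_
    ab := fun i => PC.val (X.a' i)
    bb := fun i => PC.val (X.b' i)
    sp_a := fun i => hpl.sp_of_sub (hf _ _ (ha' i)) (X.vaa' i)
    sp_b := fun i => hpl.sp_of_sub (hf _ _ (hb' i)) (X.vbb' i)
    nsab := fun i => nonsingular_sp hPC (X.ns' i).1 (ha' i) (hb' i)
    Ob := fun i => ?_
    gb := gb
    gb_sp := hgsp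
    gb_κ := fun t => ?_
    gb_ξ := ?_
    Vb := image PK hsK X.V
    Vb_k := fun t => ?_
    Vb_res := fun t ht => ?_
    Vb_g := fun t t' e => ?_ }⟩
  · obtain ⟨z, hz⟩ := hs₀ a
    obtain ⟨pb, qb, rb, -, e⟩ := hg.exists_sp_eq X.vR hgen hpl hPK' hx hy
      (hz.map (algebraMap Fb Ω))
    have hm : ∀ u : κ[X], Polynomial.aeval (pl.val X.x) u ∈
        IntermediateField.adjoin κ {pl.val X.x} := fun u =>
      IntermediateField.algebra_adjoin_le_adjoin _ _ (Polynomial.aeval_mem_adjoin_singleton _ _)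
    exact ⟨_, div_mem (hm pb) (hm rb), _, div_mem (hm qb) (hm rb), by rw [e]; ring⟩
  · refine Nat.dvd_antisymm (addOrderOf_dvd_of_nsmul_eq_zero ?_) ?_
    · rw [← map_nsmul, X.nP, map_zero]
    · by_contra hd
      obtain ⟨s, t, h, e, hs⟩ := X.Pint _ hd
      have h1 := addOrderOf_nsmul_eq_zero (red X.W hPC X.P)
      rw [← map_nsmul, e, red_some_eq_zero_iff] at h1
      exact h1 ((hC s).2 hs)
  · rw [← red_some_of_sp hPC (X.ns' _) (ha' _) (hb' _),
      ← red_some_of_sp hPC (X.ns' _) (ha' _) (hb' _), X.O', map_add]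
  · refine ⟨fun h => ?_, fun h => ?_⟩
    · obtain ⟨z, hz⟩ := (hκ _).1 h
      refine (hκ _).2 ⟨X.γK.symm z, hgK' _ _ ?_⟩
      rwa [AlgEquiv.apply_symm_apply]
    · obtain ⟨z, hz⟩ := (hκ _).1 h
      exact (hκ _).2 ⟨_, hgK _ _ hz⟩
  · have e := congrArg (red X.W hov) X.γξ
    rw [map_sub, red_baseChange hPC hov hf, red_some_of_sp hov X.ns hx hy, Point.map_some] at e
    exact (red_some_of_sp hov _ (hgsp _ _ hx) (hgsp _ _ hy)).symm.trans e
  · obtain ⟨c, hc⟩ := hsC t
    refine (mem_image hsK hVle (hCK c t hc)).2 (X.fine.const c ?_)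
    rw [Valuation.comap_apply, ← IsScalarTower.algebraMap_apply]
    exact hC.le_one hc
  · obtain ⟨z, hz, hzt⟩ := ht
    obtain ⟨c, hc, hlt⟩ := X.fine.res z hz
    rw [Valuation.comap_apply, ← IsScalarTower.algebraMap_apply] at hc
    exact ⟨_, image_valuation_lt_one hsK hVle (hzt.sub (hCK c _ (sp_val ((hC c).2 hc)))) hlt⟩
  · obtain ⟨z, hz⟩ := hsK t
    have h1 : PK.Sp (X.γK z) t' := (hPK _ _).2 (by
      rw [comap_sp]
      have := hgK _ _ (hPK' _ _ hz)
      rwa [IntermediateField.algebraMap_apply, ← e] at this)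
    rw [mem_image hsK hVle h1, mem_image hsK hVle hz, X.γV]

end Crest.Agent.T170.Fr
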