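import Crest.Agent.T170.Fr_20
import Crest.Agent.T170.EllA_61

/-!
# Row 170 (helper62), task K2: the special fibre of a `CoreData` — the structure `SF`

`k` = residue field of the constants, `Fb` = residue field of `E`, `Ω` = an algebraic closure of
`Fb`, `κ ⊆ Ω` = residue field of `K`.
-/

set_option autoImplicit false

namespace Crest.Agent.T170.Fr

open scoped NNReal Polynomial Classical
open WeierstrassCurve WeierstrassCurve.Affine

variable {p n : ℕ} [NeZero n] {R C K E N : Type} [CommRing R] [Field C] [Field K]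
  [Field E] [Field N] [Algebra C K] [Algebra K E] [Algebra E N] [Algebra C E] [Algebra C N]
  [Algebra K N] [Algebra R C] [Algebra R E] [IsScalarTower R C E]

/-- the ring of integers of `E` -/
noncomputable abbrev CoreData.O (X : CoreData p n R C K E N) : ValuationSubring E := X.v.valuationSubring

/-- **the special fibre** -/
structure SF (X : CoreData p n R C K E N) (k Fb Ω : Type) [Field k] [Field Fb] [Field Ω]
    [Algebra k Ω] [Algebra Fb Ω] [Algebra R k] [Algebra R Ω] [IsScalarTower R k Ω] where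
  /-- the residue map -/
  red : X.O →+* Fb
  red_surj : Function.Surjective red
  red_eq_zero : ∀ z : X.O, red z = 0 ↔ X.v z < 1
  /-- the residue map with values in `Ω`, as a place -/
  pl : Ell.Place E Ω
  pl_sp : ∀ (z : E) (t : Ω), pl.Sp z t ↔ ∃ h : z ∈ X.O, algebraMap Fb Ω (red ⟨z, h⟩) = t
  ovR : pl.Over R
  /-- `k` is the residue field of `C` -/
  sp_C : ∀ c : C, X.v (algebraMap C E c) ≤ 1 →
    ∃ t : k, pl.Sp (algebraMap C E c) (algebraMap k Ω t)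
  sp_k : ∀ t : k, ∃ c : C, pl.Sp (algebraMap C E c) (algebraMap k Ω t)
  /-- the residue field of `K` -/
  κ : IntermediateField k Ω
  mem_κ : ∀ t : Ω, t ∈ κ ↔ ∃ z : K, pl.Sp (algebraMap K E z) t
  xb : Ω
  yb : Ω
  sp_x : pl.Sp X.x xb
  sp_y : pl.Sp X.y yb
  nsb : (X.W⁄Ω).Nonsingular xb yb
  trans : Transcendental κ xb
  /-- `Fb = κ(xb) + κ(xb) yb` -/
  gen : ∀ z : Fb, ∃ s ∈ IntermediateField.adjoin κ {xb}, ∃ t ∈ IntermediateField.adjoin κ {xb},
    algebraMap Fb Ω z = s + t * yb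
  Pb : (X.W⁄k).Point
  ord : addOrderOf Pb = n
  ab : Fin n → k
  bb : Fin n → k
  sp_a : ∀ i, pl.Sp (algebraMap K E (X.a i)) (algebraMap k Ω (ab i))
  sp_b : ∀ i, pl.Sp (algebraMap K E (X.b i)) (algebraMap k Ω (bb i))
  nsab : ∀ i, (X.W⁄k).Nonsingular (ab i) (bb i)
  Ob : ∀ i, Point.some _ _ (nsab (i + 1)) = Point.some _ _ (nsab i) + Pb
  gb : Ω ≃ₐ[k] Ω
  gb_sp : ∀ (z : E) (t : Ω), pl.Sp z t → pl.Sp (X.γE z) (gb t)
  gb_κ : ∀ z, gb z ∈ κ ↔ z ∈ κ
  gb_ξ : Point.map (gb : Ω →ₐ[k] Ω) (Point.some _ _ nsb) =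
    Point.some _ _ nsb - Point.baseChange k Ω Pb
  Vb : ValuationSubring κ
  Vb_k : ∀ c : k, algebraMap k κ c ∈ Vb
  Vb_res : ∀ z ∈ Vb, ∃ c : k, Vb.valuation (z - algebraMap k κ c) < 1
  Vb_g : ∀ z z' : κ, (z' : Ω) = gb z → (z' ∈ Vb ↔ z ∈ Vb)

/-- existence of the special fibre (proved in `CoreK2_62`: `sfStmt`) -/
def SFStmt : Prop :=
  ∀ (p n : ℕ) [Fact p.Prime] [NeZero n] (R C K E N : Type) [CommRing R] [Field C] [Field K]
    [Field E] [Field N] [Algebra C K] [Algebra K E] [Algebra E N] [Algebra C E] [Algebra C N]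
    [Algebra K N] [Algebra R C] [Algebra R E] [IsScalarTower R C E] [IsScalarTower C K E]
    [IsAlgClosed C] (X : CoreData p n R C K E N),
    ∃ (k Fb Ω : Type) (_ : Field k) (_ : Field Fb) (_ : Field Ω) (_ : Algebra k Ω)
      (_ : Algebra Fb Ω) (_ : Algebra R k) (_ : Algebra R Ω) (_ : IsScalarTower R k Ω),
      IsAlgClosed k ∧ IsAlgClosure Fb Ω ∧ CharP Fb p ∧ CharP Ω p ∧ Infinite Fb ∧
        Nonempty (SF X k Fb Ω)

namespace SF

variable {X : CoreData p n R C K E N} {k Fb Ω : Type} [Field k] [Field Fb] [Field Ω]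
  [Algebra k Ω] [Algebra Fb Ω] [Algebra R k] [Algebra R Ω] [IsScalarTower R k Ω]
  (S : SF X k Fb Ω)

/-- the residue map `O_E → Ω` -/
noncomputable def res : X.O →+* Ω := (algebraMap Fb Ω).comp S.red

theorem res_apply (z : X.O) : S.res z = algebraMap Fb Ω (S.red z) := rfl

theorem sp_res (z : X.O) : S.pl.Sp z (S.res z) := (S.pl_sp _ _).2 ⟨z.2, rfl⟩

theorem sp_iff {z : E} {t : Ω} : S.pl.Sp z t ↔ ∃ h : z ∈ X.O, S.res ⟨z, h⟩ = t := S.pl_sp z t

theorem res_eq {z : X.O} {t : Ω} (h : S.pl.Sp z t) : S.res z = t := (S.sp_res z).unique h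

theorem mem_O {z : E} {t : Ω} (h : S.pl.Sp z t) : z ∈ X.O := (S.sp_iff.1 h).1

theorem v_le {z : E} {t : Ω} (h : S.pl.Sp z t) : X.v z ≤ 1 := S.mem_O h

theorem res_eq_zero (z : X.O) : S.res z = 0 ↔ X.v z < 1 := by
  rw [res_apply, map_eq_zero, S.red_eq_zero]

theorem red_eq_zero_iff_not_isUnit (z : X.O) : S.red z = 0 ↔ ¬ IsUnit z := by
  rw [S.red_eq_zero, ← mem_nonunits_iff, ← IsLocalRing.mem_maximalIdeal,
    Valuation.mem_maximalIdeal_iff]

theorem sp_zero_iff {z : E} : S.pl.Sp z 0 ↔ X.v z < 1 :=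
  ⟨fun h => (S.res_eq_zero ⟨z, S.mem_O h⟩).1 (S.res_eq h),
    fun h => S.sp_iff.2 ⟨h.le, (S.res_eq_zero _).2 h⟩⟩

theorem γ_mem {z : E} (h : z ∈ X.O) : X.γE z ∈ X.O := by
  rw [Valuation.mem_valuationSubring_iff] at h ⊢
  rwa [X.vγ]

theorem res_γ (z : X.O) (h : X.γE z ∈ X.O) : S.res ⟨X.γE z, h⟩ = S.gb (S.res z) :=
  S.res_eq (S.gb_sp _ _ (S.sp_res z))

theorem sp_x_sub (i : Fin n) :
    S.pl.Sp (X.x - algebraMap K E (X.a i)) (S.xb - algebraMap k Ω (S.ab i)) :=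
  S.sp_x.sub (S.sp_a i)

theorem sp_y_sub (i : Fin n) :
    S.pl.Sp (X.y - algebraMap K E (X.b i)) (S.yb - algebraMap k Ω (S.bb i)) :=
  S.sp_y.sub (S.sp_b i)

theorem xb_ne_zero : S.xb ≠ 0 := fun h => S.trans (h ▸ isAlgebraic_zero)

end SF

end Crest.Agent.T170.Fr
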