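import Crest.Agent.T170.CoreDefs_20

/-!
# Row 170 (T170), task K3 (helper9): the optimal scalar and a `γ`-stable common lattice

`lat_of` : the conclusion of `LatStmt` from `SlopeStmt`, `CommonStmt`, `EigStmt` and the two facts
(c), (d) of K1.
-/

set_option autoImplicit false

namespace Crest.Agent.T170.Fr

open scoped NNReal Polynomial
open Module Crest.Agent.T170.DM

/-- symmetrisation of a stable lattice under a semilinear automorphism of finite order -/
theorem exists_symm_lattice {O E V ι Γ : Type*} [CommRing O] [Field E] [Algebra O E]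
    [AddCommGroup V] [Module E V] [Module O V] [IsScalarTower O E V] [Group Γ]
    (act : Γ →* AddMonoid.End V) (γ : Γ) (hγ : IsOfFinOrder γ) (π : O)
    (δ : ι → AddMonoid.End V) (hconn : ∀ i, IsConn π 1 (δ i))
    (hsemi : ∀ a : O, ∃ a' : O, ∀ z, act γ (a • z) = a' • act γ z)
    (hrot : ∀ i, ∃ i', ∀ z, δ i (act γ z) = act γ (δ i' z))
    (L : Submodule O V) (hL : L.IsLattice E) (hst : ∀ i, Stab L (δ i)) :
    ∃ L' : Submodule O V, L'.IsLattice E ∧ (∀ i, Stab L' (δ i)) ∧
      ∀ z, act γ z ∈ L' ↔ z ∈ L' := by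
  obtain ⟨s, hs⟩ := hL.fg
  have hsemi' : ∀ g ∈ Submonoid.powers γ, ∀ a : O, ∃ a' : O, ∀ z,
      act g (a • z) = a' • act g z := by
    rintro _ ⟨j, rfl⟩
    induction j with
    | zero => exact fun a => ⟨a, fun z => by simp⟩
    | succ j ih =>
      intro a
      obtain ⟨a1, h1⟩ := hsemi a
      obtain ⟨a2, h2⟩ := ih a1
      refine ⟨a2, fun z => ?_⟩
      show act (γ ^ (j + 1)) (a • z) = a2 • act (γ ^ (j + 1)) z
      rw [pow_succ, map_mul, End_mul_apply, End_mul_apply, h1]
      exact h2 _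
  have hrot' : ∀ g ∈ Submonoid.powers γ, ∀ i, ∃ i', ∀ z, δ i (act g z) = act g (δ i' z) := by
    rintro _ ⟨j, rfl⟩
    induction j with
    | zero => exact fun i => ⟨i, fun z => by simp⟩
    | succ j ih =>
      intro i
      obtain ⟨i1, h1⟩ := ih i
      obtain ⟨i2, h2⟩ := hrot i1
      refine ⟨i2, fun z => ?_⟩
      show δ i (act (γ ^ (j + 1)) z) = act (γ ^ (j + 1)) (δ i2 z)
      rw [pow_succ, map_mul, End_mul_apply, End_mul_apply, ← h2]
      exact h1 _
  let S : Set V := Set.image2 (fun g x => act g x) (Submonoid.powers γ : Set Γ) (s : Set V)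
  have hS : S.Finite := Set.Finite.image2 _ hγ.finite_powers s.finite_toSet
  have hle : L ≤ Submodule.span O S := by
    rw [← hs]
    refine Submodule.span_mono fun x hx => ?_
    exact ⟨1, (Submonoid.powers γ).one_mem, x, hx, by simp⟩
  have hA : ∀ g ∈ Submonoid.powers γ, ∀ z ∈ Submodule.span O S, act g z ∈ Submodule.span O S := by
    intro g hg z hz
    induction hz using Submodule.span_induction with
    | mem x hx =>
      obtain ⟨h, hh, y, hy, rfl⟩ := hx
      refine Submodule.subset_span ⟨g * h, (Submonoid.powers γ).mul_mem hg hh, y, hy, ?_⟩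
      show act (g * h) y = act g (act h y)
      rw [map_mul, End_mul_apply]
    | zero => rw [map_zero]; exact Submodule.zero_mem _
    | add x y _ _ hx hy => rw [map_add]; exact Submodule.add_mem _ hx hy
    | smul a x _ hx =>
      obtain ⟨a', ha'⟩ := hsemi' g hg a
      rw [ha']
      exact Submodule.smul_mem _ _ hx
  refine ⟨Submodule.span O S,
    Submodule.IsLattice.of_le_of_isLattice_of_fg E hle (Submodule.fg_span hS), fun i => ?_,
    fun z => ⟨fun hz => ?_, hA γ (Submonoid.mem_powers γ) z⟩⟩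
  · refine (hconn i).map_span (L := Submodule.span O S) Submodule.subset_span ?_
    rintro _ ⟨g, hg, x, hx, rfl⟩
    obtain ⟨i', hi'⟩ := hrot' g hg i
    show δ i (act g x) ∈ _
    rw [hi']
    exact hA g hg _ (hle (hst i' x (hs ▸ Submodule.subset_span hx)))
  · have h1 : γ⁻¹ ∈ Submonoid.powers γ :=
      hγ.mem_powers_iff_mem_zpowers.2 ((Subgroup.zpowers γ).inv_mem (Subgroup.mem_zpowers γ))
    have h2 := hA _ h1 _ hz
    rwa [← End_mul_apply, ← map_mul, inv_mul_cancel, map_one] at h2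

/-- algebra automorphisms as additive endomorphisms -/
def actEnd (C N : Type*) [Field C] [Field N] [Algebra C N] : (N ≃ₐ[C] N) →* AddMonoid.End N where
  toFun g := (g : N →+* N).toAddMonoidHom
  map_one' := rfl
  map_mul' _ _ := rfl

theorem actEnd_apply {C N : Type*} [Field C] [Field N] [Algebra C N] (g : N ≃ₐ[C] N) (z : N) :
    actEnd C N g z = g z := rfl

section
variable {p n : ℕ} [NeZero n] {R C K E N : Type} [CommRing R] [Field C] [Field K]
  [Field E] [Field N] [Algebra C K] [Algebra K E] [Algebra E N] [Algebra C E] [Algebra C N]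
  [Algebra K N] [Algebra R C] [Algebra R E] [IsScalarTower R C E]
  [IsScalarTower C E N] (X : CoreData p n R C K E N)

omit [IsScalarTower C E N] in
theorem CoreData.vConn_of
    (hd : ∀ i (z : E), ∃ z' : E, X.D i (algebraMap E N z) = algebraMap E N z' ∧ X.v z' ≤ X.v z)
    (i : Fin n) : VConn X.v (X.Dop i) := by
  intro a
  obtain ⟨a', h1, h2⟩ := hd i a
  refine ⟨a', h2, fun z => ?_⟩
  rw [CoreData.Dop_apply, CoreData.Dop_apply, Algebra.smul_def, Derivation.leibniz, h1,
    Algebra.smul_def a, Algebra.smul_def a', smul_eq_mul, smul_eq_mul, mul_comm z]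

theorem CoreData.Dop_const (c : C) (i : Fin n) (z : N) :
    X.Dop i (algebraMap C E c • z) = algebraMap C E c • X.Dop i z := by
  rw [CoreData.Dop_apply, CoreData.Dop_apply, algebraMap_smul, algebraMap_smul,
    Derivation.map_smul]

omit [IsScalarTower C E N] in
theorem CoreData.γ_smul (a : E) (z : N) : X.γ (a • z) = X.γE a • X.γ z := by
  rw [Algebra.smul_def, Algebra.smul_def, map_mul, X.γγE]

variable [IsScalarTower C K E] [IsScalarTower K E N] [IsScalarTower C K N]
  [IsAlgClosed C] [CharZero C] [FiniteDimensional E N] [IsGalois E N]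

/-- the conclusion of `LatStmt` from K1 (c), (d) -/
theorem lat_of (hp : p.Prime) (hS : SlopeStmt) (hC : CommonStmt) (hE : EigStmt p)
    (hc : ∀ z : E, ∃ c : C, X.v (algebraMap C E c) = X.v z)
    (hd : ∀ i (z : E), ∃ z' : E, X.D i (algebraMap E N z) = algebraMap E N z' ∧ X.v z' ≤ X.v z) :
    ∃ (c : X.v.integer) (c₀ : C) (b : Basis (Fin (finrank E N)) E N),
      algebraMap C E c₀ = c ∧ c ≠ 0 ∧ X.v c < 1 ∧
      (∀ i, Stab (lat X.v.integer b) (X.δ c i)) ∧
      (∃ i z, ¬ TNil c (lat X.v.integer b) (X.δ c i) z) ∧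
      ∀ z, X.γ z ∈ lat X.v.integer b ↔ z ∈ lat X.v.integer b := by
  have : CharZero E := charZero_of_injective_algebraMap (algebraMap C E).injective
  have hV := X.vConn_of hd
  have hp0 : 0 < X.v (p : E) := by
    rw [pos_iff_ne_zero, Ne, Valuation.zero_iff]
    exact_mod_cast hp.ne_zero
  have hda : 0 < X.v (algebraMap K E (X.d X.i₀ (X.a X.i₀))) := hp0.trans X.big
  obtain ⟨c, ⟨c₀, rfl⟩, hc0, hc1, hst, hnil⟩ := hS E N (Fin n) X.v X.Dop
    (algebraMap C E).fieldRange hV
    (by rintro _ ⟨c₀, rfl⟩ i z; exact X.Dop_const c₀ i z)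
    (fun a j hj => by
      obtain ⟨c₁, h1⟩ := hc a
      obtain ⟨c₂, h2⟩ := IsAlgClosed.exists_pow_nat_eq c₁ hj
      exact ⟨algebraMap C E c₂, ⟨c₂, rfl⟩, by rw [← map_pow, ← map_pow, h2, h1]⟩)
    ⟨(p : E), hp0, X.vp⟩
    ⟨X.v (p : E) / X.v (algebraMap K E (X.d X.i₀ (X.a X.i₀))), (div_lt_one hda).2 X.big, by
      rintro _ ⟨c₀, rfl⟩ h
      exact (le_div_iff₀ hda).2 (hE n R C K E N X c₀ (h X.i₀))⟩
  let c : X.v.integer := ⟨algebraMap C E c₀, hc1.le⟩
  have hcu : ¬ IsUnit c := (int_nonunit_iff X.v c).2 hc1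
  have hcne : c ≠ 0 := by
    intro h
    have h1 : algebraMap C E c₀ = 0 := congrArg Subtype.val h
    rw [h1, map_zero] at hc0
    exact lt_irrefl _ hc0
  have hconn : ∀ i, IsConn c 1 (X.δ c i) := fun i => (hV i).isConn X.v c (X.Dop_const c₀ i)
  obtain ⟨L, hL, hLst⟩ := hC X.v.integer E N (Fin n) c (X.δ c) (int_arch X.v) hcne hcu hconn
    (fun i j => AddMonoidHom.ext fun z => by
      show algebraMap C E c₀ • X.Dop i (algebraMap C E c₀ • X.Dop j z) =
        algebraMap C E c₀ • X.Dop j (algebraMap C E c₀ • X.Dop i z)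
      rw [X.Dop_const, X.Dop_const, CoreData.Dop_apply, CoreData.Dop_apply, CoreData.Dop_apply,
        CoreData.Dop_apply, X.Dcomm])
    hst
  obtain ⟨L', hL', hst', hγ'⟩ := exists_symm_lattice (E := E) (actEnd C N) X.γ X.γfin c (X.δ c)
    hconn
    (fun a => ⟨⟨X.γE a, by
      show X.v (X.γE a) ≤ 1
      rw [X.vγ]
      exact a.2⟩, fun z => X.γ_smul a z⟩)
    (fun i => ⟨i - 1, fun z => by
      show algebraMap C E c₀ • X.D i (X.γ z) = X.γ (algebraMap C E c₀ • X.D (i - 1) z)
      rw [X.γ_smul, AlgEquiv.commutes, X.γD, sub_add_cancel]⟩)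
    L hL hLst
  obtain ⟨b, hb⟩ := exists_basis (ι := Fin (finrank E N)) (K := E) L' hL' (by simp)
  refine ⟨c, c₀, b, rfl, hcne, hc1, ?_, ?_, ?_⟩
  · rw [hb]
    exact hst'
  · rw [hb]
    exact hnil c L' hcu hL'
  · rw [hb]
    exact hγ'

end

end Crest.Agent.T170.Fr
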