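import Crest.Agent.T170.CoreK8_20
import Crest.Agent.T170.CoreK3_9
import Crest.Agent.T170.CoreK1_37

/-!
# Row 170 (helper20): assembly of the core, part 3
-/

set_option autoImplicit false
set_option linter.unusedSectionVars false

namespace Crest.Agent.T170.Fr

open scoped NNReal Polynomial Classical
open Module Crest.Agent.T170.DM Crest.Agent.T170.Bad CoreData

/-- degree over `κ(x̄)` of a root of a polynomial over `Fb` -/
def DegStmt : Prop :=
  ∀ (p n : ℕ) [NeZero n] (R C K E N : Type) [CommRing R] [Field C] [Field K]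
    [Field E] [Field N] [Algebra C K] [Algebra K E] [Algebra E N] [Algebra C E] [Algebra C N]
    [Algebra K N] [Algebra R C] [Algebra R E] [IsScalarTower R C E]
    (X : CoreData p n R C K E N) (k Fb Ω : Type) [Field k] [Field Fb] [Field Ω]
    [Algebra k Ω] [Algebra Fb Ω] [Algebra R k] [Algebra R Ω] [IsScalarTower R k Ω]
    (S : SF X k Fb Ω) (P : Fb[X]) (z : Ω), P ≠ 0 → Polynomial.aeval z P = 0 →
    (minpoly (IntermediateField.adjoin S.κ {S.xb}) z).natDegree ≤ 2 * P.natDegree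

theorem coreStmt_of {p : ℕ} (hp : p.Prime) (hS : SlopeStmt) (hC : CommonStmt) (hE : EigStmt p)
    (hG : GagaStmt p) (hI : IntStmt p) (hR : RotStmt) (hT : ThetaRot) (hSF : SFStmt)
    (hD : DegStmt) (hZ : ZStmt) (hF : FinalStmt) : CoreStmt p := by
  intro n _ R C K E N _ _ _ _ _ _ _ _ _ _ _ _ _ _ _ _ _ _ _ _ _ _ ⟨X⟩ hn
  haveI : Fact p.Prime := ⟨hp⟩
  have hd : ∀ i (z : E), ∃ z' : E, X.D i (algebraMap E N z) = algebraMap E N z' ∧
      X.v z' ≤ X.v z := fun i z => ⟨_, X.D_algebraMap i z, X.v_dE i z⟩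
  obtain ⟨c, c₀, b, hc₀, hc0, hc1, hstab, hnil, hγ⟩ := lat_of X hp hS hC hE X.exists_val_eq hd
  obtain ⟨k, Fb, Ω, _, _, _, _, _, _, _, _, _, hcl, hch, -, _, ⟨S⟩⟩ := hSF p n R C K E N X
  haveI : IsAlgClosed Ω := IsAlgClosure.isAlgClosed Fb
  haveI := X.ell
  have hconst : ∀ (e : C) i z, X.δ c i (algebraMap C E e • z) = algebraMap C E e • X.δ c i z := by
    intro e i z
    rw [δ, scK_apply, scK_apply, X.Dop_const, smul_comm]
  have hconn : ∀ i, IsConn c 1 (X.δ c i) := fun i =>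
    (X.vConn_of hd i).isConn X.v c fun z => by rw [← hc₀]; exact X.Dop_const c₀ i z
  have hcomm : ∀ i j, X.δ c i * X.δ c j = X.δ c j * X.δ c i := by
    intro i j
    refine AddMonoidHom.ext fun z => ?_
    show X.δ c i ((c : E) • X.D j z) = X.δ c j ((c : E) • X.D i z)
    have h1 := hconst c₀
    rw [hc₀] at h1
    rw [h1, h1, δ_apply, δ_apply, X.Dcomm]
  have hcu : ¬ IsUnit c := (int_nonunit_iff X.v c).2 hc1
  have hrc : S.rI c = 0 := (S.rI_eq_zero c).2 hcu
  choose A hA using fun i => exists_isMat (hstab i)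
  let δb : Fin n → Module.End Fb (Fin (finrank E N) → Fb) := fun i =>
    Matrix.toLin' ((A i).map S.rI)
  have hred : ∀ i, Red S.rI b (X.δ c i) (δb i) := fun i => (hA i).red (hconn i) hrc
  have hcb : ∀ i j, δb i * δb j = δb j * δb i := fun i j =>
    Red.unique S.rI_surj (vec_injective b) ((hred i).mul (hred j))
      (by rw [hcomm]; exact (hred j).mul (hred i))
  have hset : Setup p X.v.integer S.rI c (X.δ c) :=
    { arch := int_arch X.v
      surj := S.rI_surj
      ker := S.rI_eq_zero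
      char := hch
      pi_ne := hc0
      pi_nonunit := hcu
      pi_split := by
        obtain ⟨e, he⟩ := IsAlgClosed.exists_pow_nat_eq c₀ two_pos
        have h1 : X.v (algebraMap C E e) ^ 2 = X.v c := by rw [← map_pow, ← map_pow, he, hc₀]
        have h2 : X.v (algebraMap C E e) < 1 := by
          by_contra h
          exact absurd (h1 ▸ one_le_pow₀ (not_lt.1 h)) (not_le.2 hc1)
        refine ⟨⟨_, h2.le⟩, ⟨_, h2.le⟩, (int_nonunit_iff X.v _).2 h2,
          (int_nonunit_iff X.v _).2 h2, Subtype.ext ?_⟩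
        show (c : E) = algebraMap C E e * algebraMap C E e
        rw [← map_mul, ← pow_two, he, hc₀]
      conn := hconn
      comm := hcomm
      cst := fun a => by
        obtain ⟨e, he⟩ := X.exists_val_eq a
        exact ⟨⟨algebraMap C E e, he.le.trans a.2⟩, fun i z => hconst e i z,
          (int_associated_iff X.v _ _).2 he.symm⟩ }
  -- the spectrum
  have hfin := Theta.finite (Ψ := Ω) hcb
  obtain ⟨τb, hτ1, hτ2⟩ := S.exists_τb
  obtain ⟨T, hT1, hT2⟩ := hR X.v.integer E N Fb _ n S.rI S.rI_surj X.τ τb hτ1 b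
    X.γ.toRingEquiv.toAddEquiv (fun a z => X.γ_smul a z) hγ (X.δ c) δb hred (fun i z => by
      show X.γ ((c : E) • X.D i z) = (c : E) • X.D (i + 1) (X.γ z)
      rw [X.γ_smul, X.γD, ← hc₀, AlgEquiv.commutes])
  have hI' := hI n R C K E N X Fb _ S.rI S.rI_surj S.rI_eq_zero b
  have hx0 := S.xb_ne_zero
  have hp₁ : ∀ i, ∀ z : N, IsIntegral (Algebra.adjoin K {algebraMap E N X.x⁻¹}) z →
      IsIntegral (Algebra.adjoin K {algebraMap E N X.x⁻¹})
        ((1 - algebraMap K E (X.a i) / X.x) • X.D i z) := by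
    rw [map_inv₀]
    exact fun i => X.pres₁ i _ (Or.inl rfl)
  have hbad := hZ R k Ω S.κ X.W n (finrank E N) S.xb S.yb S.nsb S.Pb S.ord S.ab S.bb S.nsab S.Ob
    S.gb S.gb_κ S.gb_ξ S.Vb S.Vb_k S.Vb_res S.Vb_g hfin.toFinset
    (by
      rw [← Set.ncard_eq_toFinset_card _ hfin]
      simpa using Theta.ncard_le (Ψ := Ω) hcb)
    (fun θ hθ => hfin.mem_toFinset.2
      (hT Fb Ω _ n τb S.gb.toRingEquiv hτ2 δb hcb T hT1 hT2 θ (hfin.mem_toFinset.1 hθ)))
    (by
      intro θ hθ i hi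
      have hθ' := hfin.mem_toFinset.1 hθ
      have s1 : S.pl.Sp (1 - algebraMap K E (X.a i) / X.x)
          (1 - algebraMap k Ω (S.ab i) / S.xb) :=
        Ell.Place.sp_one.sub ((S.sp_a i).div S.sp_x hx0)
      have i0 := S.isIntegral_theta hred hcb S.sp_x (hI' _ (Or.inl rfl))
        ⟨_, S.v_le (S.sp_x_sub i)⟩ i
        (fun z hz => by rw [← hc₀]; exact δ_mem_Bt c₀ i (X.pres₀ i _ (Or.inl rfl)) hz) hθ'
      have i1 := S.isIntegral_theta hred hcb (S.sp_x.inv hx0) (hI' _ (Or.inr rfl))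
        ⟨_, S.v_le s1⟩ i (fun z hz => by rw [← hc₀]; exact δ_mem_Bt c₀ i (hp₁ i) hz) hθ'
      rw [S.rI_eq (a := ⟨_, S.v_le (S.sp_x_sub i)⟩) (S.sp_x_sub i)] at i0
      rw [S.rI_eq (a := ⟨_, S.v_le s1⟩) s1, div_eq_mul_inv] at i1
      have hdeg := hD p n R C K E N X k Fb Ω S _ _ (LinearMap.charpoly_monic _).ne_zero
        (Theta.aeval_charpoly_self hcb hθ' i)
      rw [LinearMap.charpoly_natDegree, finrank_fin_fun] at hdeg
      obtain ⟨β, hβ0, hβ1, hβ2⟩ := exists_beta S.trans (algebraMap k S.κ (S.ab i)) hi hdeg i0 i1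
      refine ⟨β, hβ0, hβ1, fun w hw hx hv => ?_⟩
      refine (ValuationSubring.mem_nonunits_iff w).1 (hβ2 w hw hx (mul_mem_nonunits w ?_ ?_))
      · exact sub_mem hx (hw _)
      · exact (ValuationSubring.mem_nonunits_iff w).2 hv)
    hn
  obtain ⟨⟨T₀, Tb₀, a1, a2, a3, a4⟩, T₁, Tb₁, b1, b2, b3, b4⟩ :=
    S.exists_ops c₀ (by rw [hc₀]; exact hred) hcb
      (fun w hw θ hθ h0 => hbad w hw θ (hfin.mem_toFinset.2 hθ) h0)
  rw [hc₀] at a1 b1
  obtain ⟨W, w1, w2, w3⟩ := hF p X.v.integer E N Fb _ _ S.rI c (X.δ c) hset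
    (fun i x y => by
      rw [δ_apply, δ_apply, δ_apply, Derivation.leibniz, smul_add, smul_eq_mul, smul_eq_mul,
        Algebra.smul_def, Algebra.smul_def, Algebra.smul_def, Algebra.smul_def]
      ring)
    (fun i g z => by rw [δ_apply, δ_apply, map_smul, X.D_comm_aut])
    b δb hred hnil _ _ (fun ϖ h0 h1 _ => hG n R C K E N X _ b ϖ h0 h1) T₀ T₁ Tb₀ Tb₁ a1 b1 a2 b2
    a3 b3 a4 b4
  exact ⟨W, w1, w3, w2⟩

end Crest.Agent.T170.Fr
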