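import Crest.Agent.T170.CoreK2b_62
import Crest.Agent.T170.CoreK9_20

/-!
# Row 170 (helper62): `DegStmt`
-/

set_option autoImplicit false

namespace Crest.Agent.T170.Fr

theorem degStmt : DegStmt := fun _ _ _ _ _ _ _ _ _ _ _ _ _ _ _ _ _ _ _ _ _ _ _ _ _ _ _ _ _ _ _ _ _ _
    S _ _ hP hz => (S.natDegree_minpoly_le hP le_rfl hz).2

end Crest.Agent.T170.Fr
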