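import Crest.Agent.T170.CoreK3_9
import Crest.Agent.T170.CoreK1_37

/-!
# Row 170 (T170), task K3 (helper9): `LatStmt`
-/

set_option autoImplicit false

namespace Crest.Agent.T170.Fr

open Crest.Agent.T170.DM

/-- **(LAT)** -/
theorem latStmt {p : ℕ} (hp : p.Prime) (hS : SlopeStmt) (hC : CommonStmt) (hE : EigStmt p) :
    LatStmt p := by
  intro n _ R C K E N _ _ _ _ _ _ _ _ _ _ _ _ _ _ _ _ _ _ _ _ _ _ X
  exact lat_of X hp hS hC hE X.exists_val_eq
    fun i z => ⟨X.dE i z, X.D_algebraMap i z, X.v_dE i z⟩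

end Crest.Agent.T170.Fr
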