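import Crest.Agent.T170.DMStm_38
import Crest.Agent.T170.BadB_10

/-!
# Row 170 (helper20): the pre-idempotent on a chart
-/

set_option autoImplicit false

namespace Crest.Agent.T170.K5

open Module Crest.Agent.T170.DM Crest.Agent.T170.Bad

variable {O N F Ψ ι n J : Type} [CommRing O] [AddCommGroup N] [Module O N] [Field F] [Field Ψ]
  [Algebra F Ψ] [Fintype ι]

/-- the scalars preserving `B` -/
def stabRing (O : Type) [CommRing O] {N : Type} [AddCommGroup N] [Module O N]
    (B : AddSubgroup N) : Subring O where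
  carrier := {a | ∀ z ∈ B, a • z ∈ B}
  mul_mem' := fun {a b} ha hb z hz => by rw [mul_smul]; exact ha _ (hb z hz)
  one_mem' := fun z hz => by rw [one_smul]; exact hz
  add_mem' := fun {a b} ha hb z hz => by rw [add_smul]; exact B.add_mem (ha z hz) (hb z hz)
  zero_mem' := fun z _ => by rw [zero_smul]; exact B.zero_mem
  neg_mem' := fun {a} ha z hz => by rw [neg_smul]; exact B.neg_mem (ha z hz)

theorem exists_chart_op [IsAlgClosed Ψ] [Finite n] (res : O →+* F) (b : ι → N)
    (δ : n → AddMonoid.End N) (δb : n → Module.End F (ι → F)) (hred : ∀ i, Red res b (δ i) (δb i))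
    (hc : ∀ i j, δb i * δb j = δb j * δb i) (B : AddSubgroup N) (idx : J → n) (h : J → O)
    (hB : ∀ j, ∀ z ∈ B, h j • δ (idx j) z ∈ B)
    (hbad : ∀ θ ∈ Theta F Ψ δb, θ ≠ 0 → ∀ w : ValuationSubring Ψ,
      (∀ a ∈ stabRing O B, algebraMap F Ψ (res a) ∈ w) →
      ∃ j, algebraMap F Ψ (res (h j)) * θ (idx j) ∉ w.nonunits) :
    ∃ (T : AddMonoid.End N) (Tb : Module.End F (ι → F)), T ∈ opRing O δ ∧ Set.MapsTo T B B ∧
      Red res b T Tb ∧ IsPre δb Tb := by
  classical
  let φ : stabRing O B →+* Ψ := ((algebraMap F Ψ).comp res).comp (stabRing O B).subtype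
  let A : Subring Ψ := φ.range
  have hfin := Theta.finite (Ψ := Ψ) hc
  obtain ⟨q, hq0, hq⟩ := exists_chart_poly A (hfin.toFinset.erase 0)
    (fun (θ : n → Ψ) (j : J) => algebraMap F Ψ (res (h j)) * θ (idx j)) (by
      intro θ hθ w hw _
      rw [Finset.mem_erase, Set.Finite.mem_toFinset] at hθ
      exact hbad θ hθ.2 hθ.1 w fun a ha => hw ⟨⟨a, ha⟩, rfl⟩)
  obtain ⟨q₀, rfl⟩ := MvPolynomial.map_surjective φ.rangeRestrict φ.rangeRestrict_surjective q
  let ψ : MvPolynomial J (stabRing O B) →+* MvPolynomial n F :=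
    MvPolynomial.eval₂Hom (MvPolynomial.C.comp (res.comp (stabRing O B).subtype))
      fun j => MvPolynomial.C (res (h j)) * MvPolynomial.X (idx j)
  have hψC : ∀ a, ψ (MvPolynomial.C a) = MvPolynomial.C (res a) := fun a => by
    simp [ψ]
  have hψX : ∀ j, ψ (MvPolynomial.X j) = MvPolynomial.C (res (h j)) * MvPolynomial.X (idx j) :=
    fun j => by simp [ψ]
  have key : ∀ r : MvPolynomial J (stabRing O B), ∃ T : AddMonoid.End N, T ∈ opRing O δ ∧
      Set.MapsTo T B B ∧ Red res b T (ev F δb hc (ψ r)) := by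
    intro r
    induction r using MvPolynomial.induction_on with
    | C a =>
      refine ⟨sc N (a : O), sc_mem_opRing δ _, fun z hz => a.2 z hz, ?_⟩
      rw [hψC, ← MvPolynomial.algebraMap_eq, AlgHom.commutes]
      exact Red.sc res b _
    | add r s hr hs =>
      obtain ⟨T, h1, h2, h3⟩ := hr
      obtain ⟨T', h1', h2', h3'⟩ := hs
      refine ⟨T + T', (opRing O δ).add_mem h1 h1', fun z hz => B.add_mem (h2 hz) (h2' hz), ?_⟩
      rw [map_add, map_add]
      exact h3.add h3'
    | mul_X r j hr =>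
      obtain ⟨T, h1, h2, h3⟩ := hr
      refine ⟨T * (sc N (h j) * δ (idx j)), (opRing O δ).mul_mem h1 ((opRing O δ).mul_mem
        (sc_mem_opRing δ _) (self_mem_opRing δ _)), fun z hz => h2 (hB j z hz), ?_⟩
      rw [map_mul, map_mul, hψX, map_mul, ev_X, ← MvPolynomial.algebraMap_eq, AlgHom.commutes]
      exact h3.mul ((Red.sc res b _).mul (hred _))
  have hev : ∀ (θ : n → Ψ) (r : MvPolynomial J (stabRing O B)), MvPolynomial.aeval θ (ψ r) =
      MvPolynomial.aeval (fun j => algebraMap F Ψ (res (h j)) * θ (idx j))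
        (MvPolynomial.map φ.rangeRestrict r) := by
    intro θ r
    induction r using MvPolynomial.induction_on with
    | C a => rw [hψC, MvPolynomial.map_C, MvPolynomial.aeval_C, MvPolynomial.aeval_C]; rfl
    | add r s hr hs => rw [map_add, map_add, map_add, map_add, hr, hs]
    | mul_X r j hr =>
      rw [map_mul, map_mul, map_mul, map_mul, hr, hψX, MvPolynomial.map_X, MvPolynomial.aeval_X,
        map_mul, MvPolynomial.aeval_C, MvPolynomial.aeval_X]
  have hcc : ∀ r : MvPolynomial J (stabRing O B),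
      MvPolynomial.constantCoeff (ψ r) = res (MvPolynomial.constantCoeff r : stabRing O B) := by
    intro r
    induction r using MvPolynomial.induction_on with
    | C a => rw [hψC, MvPolynomial.constantCoeff_C, MvPolynomial.constantCoeff_C]
    | add r s hr hs => rw [map_add, map_add, map_add, hr, hs, Subring.coe_add, map_add]
    | mul_X r j _ => simp [hψX]
  obtain ⟨T, h1, h2, h3⟩ := key q₀
  refine ⟨T, _, h1, h2, h3, isPre_ev (Ψ := Ψ) hc ?_ ?_⟩
  · rw [hcc]
    apply (algebraMap F Ψ).injective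
    rw [map_one]
    rw [MvPolynomial.constantCoeff_map] at hq0
    exact congrArg Subtype.val hq0
  · intro θ hθ h0
    rw [hev]
    exact hq θ (by rw [Finset.mem_erase, Set.Finite.mem_toFinset]; exact ⟨h0, hθ⟩)

end Crest.Agent.T170.K5
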