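import Crest.Agent.T170.DM2_38

/-!
Row 170: approximate idempotents in the operator ring.
-/

namespace Crest.Agent.T170.DM

open Module

section Approx

variable {R : Type*} [CommRing R] {V : Type*} [AddCommGroup V] [Module R V]
variable {n : Type*} {δ : n → AddMonoid.End V} {π ϖ : R} {L : Submodule R V}

/-- Newton step for idempotents -/
def nw {A : Type*} [Ring A] (e : A) : A := 3 * e ^ 2 - 2 * e ^ 3

theorem nw_mem {A : Type*} [Ring A] (S : Subring A) {e : A} (he : e ∈ S) : nw e ∈ S := by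
  have h3 : (3 : A) ∈ S := by exact_mod_cast natCast_mem S 3
  have h2 : (2 : A) ∈ S := by exact_mod_cast natCast_mem S 2
  exact sub_mem (mul_mem h3 (pow_mem he 2)) (mul_mem h2 (pow_mem he 3))

theorem nw_iter_mem {A : Type*} [Ring A] (S : Subring A) {e : A} (he : e ∈ S) (k : ℕ) :
    nw^[k] e ∈ S := by
  induction k with
  | zero => exact he
  | succ k ih => rw [Function.iterate_succ_apply']; exact nw_mem S ih

theorem nw_sq_sub {A : Type*} [Ring A] (e : A) :
    nw e * nw e - nw e = (e * e - e) * ((e * e - e) * (4 * (e * e - e) - 3)) := by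
  unfold nw; noncomm_ring

theorem nw_sub {A : Type*} [Ring A] (e : A) : nw e - e = (e * e - e) * (1 - 2 * e) := by
  unfold nw; noncomm_ring

/-- operators preserving an additive subgroup -/
def presRing (B : AddSubgroup V) : Subring (AddMonoid.End V) where
  carrier := {T | Set.MapsTo T B B}
  mul_mem' := fun hS hT _ hv => hS (hT hv)
  one_mem' := fun _ hv => hv
  add_mem' := fun hS hT _ hv => B.add_mem (hS hv) (hT hv)
  zero_mem' := fun _ _ => B.zero_mem
  neg_mem' := fun hS _ hv => B.neg_mem (hS hv)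

theorem small_nw_sq (hL : ∀ i, Stab L (δ i)) (hϖ : ∀ i, Comm ϖ (δ i)) {E : AddMonoid.End V}
    (hE : E ∈ opRing R δ) (h1 : Small ϖ L 1 (E * E - E)) (k : ℕ) :
    Small ϖ L (k + 1) (nw^[k] E * nw^[k] E - nw^[k] E) := by
  induction k with
  | zero => exact h1
  | succ k ih =>
    rw [Function.iterate_succ_apply', nw_sq_sub]
    set e := nw^[k] E
    have he : e ∈ opRing R δ := nw_iter_mem _ hE k
    have hu : e * e - e ∈ opRing R δ := sub_mem (mul_mem he he) he
    have h4 : (4 : AddMonoid.End V) ∈ opRing R δ := by exact_mod_cast natCast_mem (opRing R δ) 4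
    have h3 : (3 : AddMonoid.End V) ∈ opRing R δ := by exact_mod_cast natCast_mem (opRing R δ) 3
    have := ih.mul (Comm.of_mem hϖ hu)
      (ih.mul_stab (Stab.of_mem hL (sub_mem (mul_mem h4 hu) h3)))
    exact this.mono (by omega)

theorem small_nw_succ (hL : ∀ i, Stab L (δ i)) (hϖ : ∀ i, Comm ϖ (δ i)) {E : AddMonoid.End V}
    (hE : E ∈ opRing R δ) (h1 : Small ϖ L 1 (E * E - E)) (k : ℕ) :
    Small ϖ L (k + 1) (nw^[k + 1] E - nw^[k] E) := by
  rw [Function.iterate_succ_apply', nw_sub]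
  have he : nw^[k] E ∈ opRing R δ := nw_iter_mem _ hE k
  have h2 : (2 : AddMonoid.End V) ∈ opRing R δ := by exact_mod_cast natCast_mem (opRing R δ) 2
  exact (small_nw_sq hL hϖ hE h1 k).mul_stab
    (Stab.of_mem hL (sub_mem (one_mem _) (mul_mem h2 he)))

theorem small_nw_sub (hL : ∀ i, Stab L (δ i)) (hϖ : ∀ i, Comm ϖ (δ i)) {E : AddMonoid.End V}
    (hE : E ∈ opRing R δ) (h1 : Small ϖ L 1 (E * E - E)) (k : ℕ) :
    Small ϖ L 1 (nw^[k] E - E) := by
  induction k with
  | zero => simpa using Small.zero ϖ L 1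
  | succ k ih =>
    have := ((small_nw_succ hL hϖ hE h1 k).mono (show 1 ≤ k + 1 by omega)).add ih
    simpa using this

theorem small_corner (hδ : ∀ i, IsConn π 1 (δ i)) (hc : ∀ i j, δ i * δ j = δ j * δ i)
    (hL : ∀ i, Stab L (δ i)) (hϖ : ∀ i, Comm ϖ (δ i)) (hdvd : ϖ ∣ π) {e : AddMonoid.End V}
    (he : e ∈ opRing R δ) {j : ℕ} (hu : Small ϖ L j (e * e - e)) (t : ℕ) (ht : t ≤ j) :
    ∀ x ∈ opRing R δ, Small ϖ L t (e * x * (1 - e)) := by
  have h1e : 1 - e ∈ opRing R δ := sub_mem (one_mem _) he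
  induction t with
  | zero =>
    intro x hx
    exact small_zero_iff.2 (Stab.of_mem hL (mul_mem (mul_mem he hx) h1e))
  | succ t ih =>
    intro x hx
    obtain ⟨U, hU, hxe⟩ := opRing_comm hδ hc hx he
    obtain ⟨π', rfl⟩ := hdvd
    have hU' : sc V π' * U ∈ opRing R δ := mul_mem (sc_mem_opRing δ π') hU
    have hce : e * sc V ϖ = sc V ϖ * e := Comm.iff.1 (Comm.of_mem hϖ he)
    have key : e * x * (1 - e) = -((e * e - e) * (x * (1 - e))) - (e * x) * (e * e - e)
        - sc V ϖ * (e * (sc V π' * U) * (1 - e)) := by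
      have : sc V ϖ * (e * (sc V π' * U) * (1 - e)) = e * (x * e - e * x) * (1 - e) := by
        rw [hxe, map_mul, ← mul_assoc (sc V ϖ), ← mul_assoc (sc V ϖ), ← hce]
        simp only [mul_assoc]
      rw [this]; noncomm_ring
    rw [key]
    have hex : e * x ∈ opRing R δ := mul_mem he hx
    refine Small.sub (Small.sub (Small.neg ?_) ?_) ?_
    · exact (hu.mono ht).mul_stab (Stab.of_mem hL (mul_mem hx h1e))
    · exact Small.stab_mul (Stab.of_mem hL hex) (Comm.of_mem hϖ hex) (hu.mono ht)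
    · exact (ih (by omega) _ hU').sc_mul

/-- approximate idempotents of the operator ring are approximately central -/
theorem small_central (hδ : ∀ i, IsConn π 1 (δ i)) (hc : ∀ i j, δ i * δ j = δ j * δ i)
    (hL : ∀ i, Stab L (δ i)) (hϖ : ∀ i, Comm ϖ (δ i)) (hdvd : ϖ ∣ π) {e : AddMonoid.End V}
    (he : e ∈ opRing R δ) {j : ℕ} (hu : Small ϖ L j (e * e - e)) {x : AddMonoid.End V}
    (hx : x ∈ opRing R δ) : Small ϖ L j (e * x - x * e) := by
  have h1 := small_corner hδ hc hL hϖ hdvd he hu j le_rfl x hx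
  have hu' : Small ϖ L j ((1 - e) * (1 - e) - (1 - e)) := by
    have : (1 - e) * (1 - e) - (1 - e) = e * e - e := by noncomm_ring
    rwa [this]
  have h2 := small_corner hδ hc hL hϖ hdvd (sub_mem (one_mem _) he) hu' j le_rfl x hx
  have : e * x - x * e = e * x * (1 - e) - (1 - e) * x * (1 - (1 - e)) := by noncomm_ring
  rw [this]
  exact h1.sub h2

/-- uniqueness of approximate idempotents -/
theorem small_unique (hδ : ∀ i, IsConn π 1 (δ i)) (hc : ∀ i j, δ i * δ j = δ j * δ i)
    (hL : ∀ i, Stab L (δ i)) (hϖ : ∀ i, Comm ϖ (δ i)) (hdvd : ϖ ∣ π) {e e' : AddMonoid.End V}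
    (he : e ∈ opRing R δ) (he' : e' ∈ opRing R δ) {j : ℕ} (hu : Small ϖ L j (e * e - e))
    (hu' : Small ϖ L j (e' * e' - e')) (h1 : Small ϖ L 1 (e - e')) : Small ϖ L j (e - e') := by
  have hγ := small_central hδ hc hL hϖ hdvd he hu he'
  have hw : e - e' ∈ opRing R δ := sub_mem he he'
  have S : ∀ {x}, x ∈ opRing R δ → Stab L x := fun hx => Stab.of_mem hL hx
  have C : ∀ {x}, x ∈ opRing R δ → Comm ϖ x := fun hx => Comm.of_mem hϖ hx
  have hrest : Small ϖ L j ((e - e') * ((e - e') * (e - e')) - (e - e')) := by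
    have : (e - e') * ((e - e') * (e - e')) - (e - e') =
        (e * e - e) - (e' * e' - e') - (e * e - e) * e' - (e * e - e) * e' + (e' * e' - e') * e
        + e * (e' * e' - e') + e * (e * e' - e' * e) - (e * e' - e' * e) * e'
        + (e - e') * ((e * e - e) + (e' * e' - e')) := by noncomm_ring
    rw [this]
    exact ((((((((hu.sub hu').sub (hu.mul_stab (S he'))).sub (hu.mul_stab (S he'))).add
      (hu'.mul_stab (S he))).add (Small.stab_mul (S he) (C he) hu')).add
      (Small.stab_mul (S he) (C he) hγ)).sub (hγ.mul_stab (S he'))).add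
      (Small.stab_mul (S hw) (C hw) (hu.add hu')))
  have : ∀ t ≤ j, Small ϖ L t (e - e') := by
    intro t
    induction t with
    | zero => intro _; exact small_zero_iff.2 (S hw)
    | succ t ih =>
      intro ht
      have h3 : Small ϖ L (t + 1) ((e - e') * ((e - e') * (e - e'))) :=
        h1.mul (C hw) ((ih (by omega)).mul_stab (S hw))
      have := h3.sub (hrest.mono ht)
      simpa using this
  exact this j le_rfl

end Approx

section Reduction

variable {R : Type*} [CommRing R] {V : Type*} [AddCommGroup V] [Module R V]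
variable {ι : Type*} [Fintype ι] {F : Type*} [CommRing F] {res : R →+* F} {b : ι → V}

theorem Red.of_small {ϖ : R} (hϖ : res ϖ = 0) {S T : AddMonoid.End V}
    {Tb : Module.End F (ι → F)} (hT : Red res b T Tb) (h : Small ϖ (lat R b) 1 (S - T)) :
    Red res b S Tb := by
  intro c
  obtain ⟨c', h1, h2⟩ := hT c
  obtain ⟨c'', h3⟩ := mem_pw_lat.1 (h _ (vec_mem_lat b c))
  refine ⟨c' + ϖ ^ 1 • c'', ?_, ?_⟩
  · rw [map_add, h3, End_sub_apply, h1]; abel
  · rw [← h2]; ext i; simp [hϖ]

theorem Red.unique (hsurj : Function.Surjective res) (hb : Function.Injective (vec (R := R) b))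
    {T : AddMonoid.End V} {Tb Tb' : Module.End F (ι → F)} (h : Red res b T Tb)
    (h' : Red res b T Tb') : Tb = Tb' := by
  refine LinearMap.ext fun z => ?_
  choose c hc using fun i => hsurj (z i)
  obtain ⟨c1, e1, e2⟩ := h c
  obtain ⟨c2, e3, e4⟩ := h' c
  have : c1 = c2 := hb (e1.symm.trans e3)
  have hz : (fun i => res (c i)) = z := funext hc
  rw [← hz, ← e2, ← e4, this]

theorem exists_red_of_mem {n : Type*} {δ : n → AddMonoid.End V}
    {δb : n → Module.End F (ι → F)} (hred : ∀ i, Red res b (δ i) (δb i))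
    {T : AddMonoid.End V} (hT : T ∈ opRing R δ) : ∃ Tb, Red res b T Tb :=
  opRing_induction (P := fun T => ∃ Tb, Red res b T Tb) (fun a => ⟨_, Red.sc res b a⟩)
    (fun i => ⟨_, hred i⟩) (fun _ _ ⟨_, h⟩ ⟨_, h'⟩ => ⟨_, h.add h'⟩)
    (fun _ _ ⟨_, h⟩ ⟨_, h'⟩ => ⟨_, h.mul h'⟩) hT

theorem opRing_lin {n : Type*} {δ : n → AddMonoid.End V} {π : R} {L : Submodule R V}
    (hδ : ∀ i, IsConn π 1 (δ i)) (hc : ∀ i j, δ i * δ j = δ j * δ i) (hL : ∀ i, Stab L (δ i))
    {T : AddMonoid.End V} (hT : T ∈ opRing R δ) (a : R) {z : V} (hz : z ∈ L) :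
    T (a • z) - a • T z ∈ pw π L 1 := by
  obtain ⟨U, hU, e⟩ := opRing_comm hδ hc hT (sc_mem_opRing δ a)
  have := DFunLike.congr_fun e z
  change T (a • z) - a • T z = π • U z at this
  rw [this]
  simpa using smul_mem_pw (π := π) 1 (Stab.of_mem hL hU z hz)

theorem red_comm {n : Type*} {δ : n → AddMonoid.End V} {π : R}
    (hsurj : Function.Surjective res) (hb : Function.Injective (vec (R := R) b))
    (hπ : res π = 0) (hδ : ∀ i, IsConn π 1 (δ i)) (hc : ∀ i j, δ i * δ j = δ j * δ i)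
    (hL : ∀ i, Stab (lat R b) (δ i)) {S T : AddMonoid.End V} (hS : S ∈ opRing R δ)
    (hT : T ∈ opRing R δ) {Sb Tb : Module.End F (ι → F)} (h1 : Red res b S Sb)
    (h2 : Red res b T Tb) : Sb * Tb = Tb * Sb := by
  obtain ⟨U, hU, e⟩ := opRing_comm hδ hc hS hT
  have h3 : Red res b (S * T) (Tb * Sb) := by
    refine (h2.mul h1).of_small hπ ?_
    rw [e]
    exact (small_zero_iff.2 (Stab.of_mem hL hU)).sc_mul
  exact (h1.mul h2).unique hsurj hb h3

end Reduction

end Crest.Agent.T170.DM
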