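import Crest.Agent.T170.CoreDefs_20
import Crest.Agent.T170.CoreK2Def_62
import Crest.Agent.T170.CoreK5_20
import Crest.Agent.T170.Idem_38
import Crest.Agent.T170.BadFr_10

/-!
# Row 170 (helper20): assembly of the core, part 1 (no bad place)
-/

set_option autoImplicit false
set_option linter.unusedSectionVars false

namespace Crest.Agent.T170.Fr

open scoped NNReal Polynomial Classical
open Module Crest.Agent.T170.DM Crest.Agent.T170.Bad CoreData

/-- the joint spectrum is stable under a rotating semilinear automorphism -/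
def ThetaRot : Prop :=
  ∀ (F Ψ V : Type) (n : ℕ) [NeZero n] [Field F] [Field Ψ] [Algebra F Ψ] [AddCommGroup V]
    [Module F V] (τb : F ≃+* F) (g : Ψ ≃+* Ψ),
    (∀ f, g (algebraMap F Ψ f) = algebraMap F Ψ (τb f)) →
    ∀ (δb : Fin n → Module.End F V), (∀ i j, δb i * δb j = δb j * δb i) →
    ∀ S : V ≃+ V, (∀ (a : F) u, S (a • u) = τb a • S u) → (∀ i u, S (δb i u) = δb (i + 1) (S u)) →
    ∀ θ ∈ Theta F Ψ δb, (fun i => g (θ (i - 1))) ∈ Theta F Ψ δb

variable {p n : ℕ} [NeZero n] {R C K E N : Type} [CommRing R] [Field C] [Field K]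
  [Field E] [Field N] [Algebra C K] [Algebra K E] [Algebra E N] [Algebra C E] [Algebra C N]
  [Algebra K N] [Algebra R C] [Algebra R E] [IsScalarTower R C E]
  {X : CoreData p n R C K E N} {k Fb Ω : Type} [Field k] [Field Fb] [Field Ω]
  [Algebra k Ω] [Algebra Fb Ω] [Algebra R k] [Algebra R Ω] [IsScalarTower R k Ω]

namespace SF

variable (S : SF X k Fb Ω)

/-- the residue map on `v.integer` -/
noncomputable def rI : X.v.integer →+* Fb where
  toFun a := S.red ⟨a.1, a.2⟩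
  map_one' := S.red.map_one
  map_mul' a b := S.red.map_mul ⟨a.1, a.2⟩ ⟨b.1, b.2⟩
  map_zero' := S.red.map_zero
  map_add' a b := S.red.map_add ⟨a.1, a.2⟩ ⟨b.1, b.2⟩

theorem rI_surj : Function.Surjective S.rI := fun f =>
  let ⟨a, ha⟩ := S.red_surj f
  ⟨⟨a.1, a.2⟩, ha⟩

theorem rI_eq_zero (a : X.v.integer) : S.rI a = 0 ↔ ¬ IsUnit a := by
  rw [int_nonunit_iff]
  exact S.red_eq_zero ⟨a.1, a.2⟩

theorem sp_rI (a : X.v.integer) : S.pl.Sp (a : E) (algebraMap Fb Ω (S.rI a)) :=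
  S.sp_res ⟨a.1, a.2⟩

theorem rI_eq {a : X.v.integer} {t : Ω} (h : S.pl.Sp (a : E) t) : algebraMap Fb Ω (S.rI a) = t :=
  (S.sp_rI a).unique h

end SF

/-- `γE` on the ring of integers -/
noncomputable def CoreData.τ (X : CoreData p n R C K E N) : X.v.integer ≃+* X.v.integer where
  toFun a := ⟨X.γE a, by
    show X.v (X.γE a) ≤ 1
    rw [X.vγ]; exact a.2⟩
  invFun a := ⟨X.γE.symm a, by
    show X.v (X.γE.symm a) ≤ 1
    rw [← X.vγ, AlgEquiv.apply_symm_apply]; exact a.2⟩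
  left_inv a := Subtype.ext (X.γE.symm_apply_apply a)
  right_inv a := Subtype.ext (X.γE.apply_symm_apply a)
  map_mul' a b := Subtype.ext (map_mul X.γE (a : E) b)
  map_add' a b := Subtype.ext (map_add X.γE (a : E) b)

theorem SF.exists_τb (S : SF X k Fb Ω) : ∃ τb : Fb ≃+* Fb, (∀ a, S.rI (X.τ a) = τb (S.rI a)) ∧
    ∀ f, S.gb (algebraMap Fb Ω f) = algebraMap Fb Ω (τb f) := by
  have h1 : ∀ a, algebraMap Fb Ω (S.rI (X.τ a)) = S.gb (algebraMap Fb Ω (S.rI a)) := fun a =>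
    S.rI_eq (S.gb_sp _ _ (S.sp_rI a))
  choose s hs using S.rI_surj
  have h2 : ∀ f, algebraMap Fb Ω (S.rI (X.τ (s f))) = S.gb (algebraMap Fb Ω f) := fun f => by
    rw [h1, hs]
  have hinj := (algebraMap Fb Ω).injective
  let t : Fb →+* Fb :=
    { toFun := fun f => S.rI (X.τ (s f))
      map_one' := hinj (by rw [h2, map_one, map_one])
      map_mul' := fun a b => hinj (by rw [h2, map_mul, map_mul, map_mul, h2, h2])
      map_zero' := hinj (by rw [h2, map_zero, map_zero])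
      map_add' := fun a b => hinj (by rw [h2, map_add, map_add, map_add, h2, h2]) }
  have h3 : ∀ a, S.rI (X.τ a) = t (S.rI a) := fun a => hinj (by
    show _ = algebraMap Fb Ω (S.rI (X.τ (s _)))
    rw [h1, h2])
  have hb : Function.Bijective t := ⟨t.injective, fun f => ⟨S.rI (X.τ.symm (s f)), by
    rw [← h3, RingEquiv.apply_symm_apply, hs]⟩⟩
  exact ⟨RingEquiv.ofBijective t hb, h3, fun f => (h2 f).symm⟩

theorem SF.kt_le (S : SF X k Fb Ω) {t : E} {tb : Ω} (ht : S.pl.Sp t tb) {f : Fb}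
    (hf : f ∈ X.kt S.rI t) : algebraMap Fb Ω f ∈ Algebra.adjoin S.κ {tb} := by
  have : X.kt S.rI t ≤ (Algebra.adjoin S.κ {tb}).toSubring.comap (algebraMap Fb Ω) := by
    rw [kt, Subring.closure_le]
    rintro _ ⟨a, ha | ha, rfl⟩
    · obtain ⟨z, hz⟩ := ha
      have h1 : algebraMap Fb Ω (S.rI a) ∈ S.κ := (S.mem_κ _).2 ⟨z, hz ▸ S.sp_rI a⟩
      exact (Algebra.adjoin S.κ {tb}).algebraMap_mem ⟨_, h1⟩
    · have h1 : algebraMap Fb Ω (S.rI a) = tb := S.rI_eq (by rw [show (a : E) = t from ha]; exact ht)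
      show algebraMap Fb Ω (S.rI a) ∈ Algebra.adjoin S.κ {tb}
      rw [h1]
      exact Algebra.subset_adjoin rfl
  exact this hf

theorem isIntegral_of_coeff {F Ψ : Type} [Field F] [Field Ψ] [Algebra F Ψ] (A : Subring Ψ)
    {P : F[X]} (hP : P.Monic) (hc : ∀ j, algebraMap F Ψ (P.coeff j) ∈ A) {z : Ψ}
    (hz : Polynomial.aeval z P = 0) : IsIntegral A z := by
  have hl : P.map (algebraMap F Ψ) ∈ Polynomial.lifts (algebraMap A Ψ) := by
    rw [Polynomial.lifts_iff_coeff_lifts]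
    intro j
    rw [Polynomial.coeff_map]
    exact ⟨⟨_, hc j⟩, rfl⟩
  obtain ⟨Q, hQ, -, hQm⟩ := Polynomial.lifts_and_degree_eq_and_monic hl (hP.map _)
  refine ⟨Q, hQm, ?_⟩
  rw [← Polynomial.eval_map, hQ, Polynomial.eval_map_algebraMap, hz]

/-- eigenvalues of `h δ i` are integral over `κ[t̄]` -/
theorem SF.isIntegral_theta (S : SF X k Fb Ω) {ι : Type} [Fintype ι] {b : ι → N} {c : E}
    {δb : Fin n → Module.End Fb (ι → Fb)} (hred : ∀ i, Red S.rI b (X.δ c i) (δb i))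
    (hc : ∀ i j, δb i * δb j = δb j * δb i) {t : E} {tb : Ω} (ht : S.pl.Sp t tb)
    (hI : ∀ (T : AddMonoid.End N) (Tb : Module.End Fb (ι → Fb)), Red S.rI b T Tb →
      Set.MapsTo T (Bt K N t) (Bt K N t) →
      ∃ P : Fb[X], P.Monic ∧ (∀ j, P.coeff j ∈ X.kt S.rI t) ∧ Polynomial.aeval Tb P = 0)
    (h : X.v.integer) (i : Fin n) (hB : ∀ z ∈ Bt K N t, h • X.δ c i z ∈ Bt K N t)
    {θ : Fin n → Ω} (hθ : θ ∈ Theta Fb Ω δb) :
    IsIntegral (Algebra.adjoin S.κ {tb}) (algebraMap Fb Ω (S.rI h) * θ i) := by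
  obtain ⟨P, hP, hPc, hP0⟩ := hI _ _ ((Red.sc S.rI b h).mul (hred i)) (fun z hz => hB z hz)
  exact isIntegral_of_coeff (Algebra.adjoin S.κ {tb}).toSubring hP (fun j => S.kt_le ht (hPc j))
    (Theta.aeval_mul_eq_zero hc hθ _ i hP0)

end Crest.Agent.T170.Fr
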