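import Crest.Agent.T170.CoreK7_20

/-!
# Row 170 (helper20): assembly of the core, part 2
-/

set_option autoImplicit false
set_option linter.unusedSectionVars false

namespace Crest.Agent.T170.Fr

open scoped NNReal Polynomial Classical
open Module Crest.Agent.T170.DM Crest.Agent.T170.Bad CoreData

section

variable {p n : ℕ} [NeZero n] {R C K E N : Type} [CommRing R] [Field C] [Field K]
  [Field E] [Field N] [Algebra C K] [Algebra K E] [Algebra E N] [Algebra C E] [Algebra C N]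
  [Algebra K N] [Algebra R C] [Algebra R E] [IsScalarTower R C E]

variable [IsScalarTower C K E] [IsScalarTower K E N] [IsScalarTower C E N]
  {X : CoreData p n R C K E N}

theorem smul_mem_Bt {t a : E}
    (ha : IsIntegral (Algebra.adjoin K {algebraMap E N t}) (algebraMap E N a)) {z : N}
    (hz : z ∈ Bt K N t) : a • z ∈ Bt K N t := by
  rw [mem_Bt, Algebra.smul_def]
  exact ha.mul hz

theorem isIntegral_K (t : E) (a : K) :
    IsIntegral (Algebra.adjoin K {algebraMap E N t}) (algebraMap E N (algebraMap K E a)) := by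
  rw [← IsScalarTower.algebraMap_apply]
  exact isIntegral_algebraMap
    (x := (⟨_, Subalgebra.algebraMap_mem _ a⟩ : Algebra.adjoin K {algebraMap E N t}))

theorem δ_mem_Bt {t h : E} (c₀ : C) (i : Fin n)
    (hh : ∀ z : N, IsIntegral (Algebra.adjoin K {algebraMap E N t}) z →
      IsIntegral (Algebra.adjoin K {algebraMap E N t}) (h • X.D i z)) {z : N}
    (hz : z ∈ Bt K N t) : h • X.δ (algebraMap C E c₀) i z ∈ Bt K N t := by
  rw [δ_apply, smul_comm, IsScalarTower.algebraMap_apply C K E]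
  exact smul_mem_Bt (isIntegral_K t _) (hh z hz)

variable {k Fb Ω : Type} [Field k] [Field Fb] [Field Ω]
  [Algebra k Ω] [Algebra Fb Ω] [Algebra R k] [Algebra R Ω] [IsScalarTower R k Ω]

theorem val_mul_not_lt {Ψ : Type} [Field Ψ] (w : ValuationSubring Ψ) {s t : Ψ}
    (hs : ¬ w.valuation s < 1) (ht : ¬ w.valuation t < 1) : s * t ∉ w.nonunits := by
  rw [ValuationSubring.mem_nonunits_iff, map_mul, not_lt]
  exact one_le_mul (not_lt.1 hs) (not_lt.1 ht)

/-- the pre-idempotents on the two charts -/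
theorem SF.exists_ops [IsAlgClosed Ω] (S : SF X k Fb Ω) {ι : Type} [Fintype ι]
    {b : ι → N} (c₀ : C) {δb : Fin n → Module.End Fb (ι → Fb)}
    (hred : ∀ i, Red S.rI b (X.δ (algebraMap C E c₀) i) (δb i))
    (hc : ∀ i j, δb i * δb j = δb j * δb i)
    (hZ : ∀ w : ValuationSubring Ω, (∀ z : S.κ, (z : Ω) ∈ w) → ∀ θ ∈ Theta Fb Ω δb, θ ≠ 0 →
      ∃ i, ¬ (w.valuation (S.xb - algebraMap k Ω (S.ab i)) < 1 ∧
        w.valuation (S.yb - algebraMap k Ω (S.bb i)) < 1) ∧ ¬ w.valuation (θ i) < 1) :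
    (∃ (T : AddMonoid.End N) (Tb : Module.End Fb (ι → Fb)),
      T ∈ opRing X.v.integer (X.δ (algebraMap C E c₀)) ∧
      Set.MapsTo T (Bt K N X.x) (Bt K N X.x) ∧ Red S.rI b T Tb ∧ IsPre δb Tb) ∧
    ∃ (T : AddMonoid.End N) (Tb : Module.End Fb (ι → Fb)),
      T ∈ opRing X.v.integer (X.δ (algebraMap C E c₀)) ∧
      Set.MapsTo T (Bt K N X.x⁻¹) (Bt K N X.x⁻¹) ∧ Red S.rI b T Tb ∧ IsPre δb Tb := by
  have hκ : ∀ (t : E) (w : ValuationSubring Ω),
      (∀ a ∈ K5.stabRing X.v.integer (Bt K N t), algebraMap Fb Ω (S.rI a) ∈ w) →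
      ∀ z : S.κ, (z : Ω) ∈ w := by
    intro t w hw z
    obtain ⟨z', hz'⟩ := (S.mem_κ _).1 z.2
    have := hw ⟨algebraMap K E z', S.v_le hz'⟩ fun u hu => smul_mem_Bt (isIntegral_K t z') hu
    rwa [S.rI_eq (a := ⟨algebraMap K E z', S.v_le hz'⟩) hz'] at this
  have hx0 := S.xb_ne_zero
  constructor
  · refine K5.exists_chart_op (Ψ := Ω) (J := Fin n × Bool) S.rI b _ δb hred hc _ Prod.fst
      (fun j => if j.2 then ⟨_, S.v_le (S.sp_x_sub j.1)⟩ else ⟨_, S.v_le (S.sp_y_sub j.1)⟩) ?_ ?_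
    · rintro ⟨i, _ | _⟩ z hz
      · exact δ_mem_Bt c₀ i (X.pres₀ i _ (Or.inr rfl)) hz
      · exact δ_mem_Bt c₀ i (X.pres₀ i _ (Or.inl rfl)) hz
    · intro θ hθ h0 w hw
      obtain ⟨i, hi, hi'⟩ := hZ w (hκ _ w hw) θ hθ h0
      rcases not_and_or.1 hi with h | h
      · refine ⟨(i, true), ?_⟩
        simp only [if_true]
        rw [S.rI_eq (a := ⟨_, S.v_le (S.sp_x_sub i)⟩) (S.sp_x_sub i)]
        exact val_mul_not_lt w h hi'
      · refine ⟨(i, false), ?_⟩
        simp only [Bool.false_eq_true, if_false]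
        rw [S.rI_eq (a := ⟨_, S.v_le (S.sp_y_sub i)⟩) (S.sp_y_sub i)]
        exact val_mul_not_lt w h hi'
  · have s1 : ∀ i, S.pl.Sp (1 - algebraMap K E (X.a i) / X.x)
        (1 - algebraMap k Ω (S.ab i) / S.xb) := fun i =>
      Ell.Place.sp_one.sub ((S.sp_a i).div S.sp_x hx0)
    have s2 : ∀ i, S.pl.Sp ((X.y - algebraMap K E (X.b i)) / X.x ^ 2)
        ((S.yb - algebraMap k Ω (S.bb i)) / S.xb ^ 2) := fun i =>
      (S.sp_y_sub i).div (S.sp_x.pow 2) (pow_ne_zero 2 hx0)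
    have hp : ∀ i, ∀ h ∈ ({1 - algebraMap K E (X.a i) / X.x,
        (X.y - algebraMap K E (X.b i)) / X.x ^ 2} : Set E), ∀ z : N,
        IsIntegral (Algebra.adjoin K {algebraMap E N X.x⁻¹}) z →
        IsIntegral (Algebra.adjoin K {algebraMap E N X.x⁻¹}) (h • X.D i z) := by
      rw [map_inv₀]
      exact X.pres₁
    refine K5.exists_chart_op (Ψ := Ω) (J := Fin n × Bool) S.rI b _ δb hred hc _ Prod.fst
      (fun j => if j.2 then ⟨_, S.v_le (s1 j.1)⟩ else ⟨_, S.v_le (s2 j.1)⟩) ?_ ?_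
    · rintro ⟨i, _ | _⟩ z hz
      · exact δ_mem_Bt c₀ i (hp i _ (Or.inr rfl)) hz
      · exact δ_mem_Bt c₀ i (hp i _ (Or.inl rfl)) hz
    · intro θ hθ h0 w hw
      obtain ⟨i, hi, hi'⟩ := hZ w (hκ _ w hw) θ hθ h0
      by_cases h : w.valuation (1 - algebraMap k Ω (S.ab i) / S.xb) < 1
      · refine ⟨(i, false), ?_⟩
        simp only [Bool.false_eq_true, if_false]
        rw [S.rI_eq (a := ⟨_, S.v_le (s2 i)⟩) (s2 i)]
        refine val_mul_not_lt w (fun h' => hi ?_) hi'
        have ha : w.valuation (algebraMap k Ω (S.ab i)) ≤ 1 :=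
          (w.valuation_le_one_iff _).2 (hκ _ w hw ⟨_, S.κ.algebraMap_mem _⟩)
        have hq : w.valuation (algebraMap k Ω (S.ab i) / S.xb) = 1 := by
          have := w.valuation.map_one_sub_of_lt h
          rwa [sub_sub_cancel] at this
        have hxv : w.valuation S.xb ≤ 1 := by
          rw [map_div₀, div_eq_one_iff_eq ((Valuation.ne_zero_iff _).2 hx0)] at hq
          exact hq ▸ ha
        constructor
        · have e : S.xb - algebraMap k Ω (S.ab i) =
              S.xb * (1 - algebraMap k Ω (S.ab i) / S.xb) := by field_simp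
          rw [e, map_mul]
          exact lt_of_le_of_lt (mul_le_of_le_one_left' hxv) h
        · have e : S.yb - algebraMap k Ω (S.bb i) =
              S.xb ^ 2 * ((S.yb - algebraMap k Ω (S.bb i)) / S.xb ^ 2) := by field_simp
          rw [e, map_mul, map_pow]
          exact lt_of_le_of_lt (mul_le_of_le_one_left' (pow_le_one' hxv 2)) h'
      · refine ⟨(i, true), ?_⟩
        simp only [if_true]
        rw [S.rI_eq (a := ⟨_, S.v_le (s1 i)⟩) (s1 i)]
        exact val_mul_not_lt w h hi'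

end

end Crest.Agent.T170.Fr
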