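import Crest.Agent.T170.DM_38

/-!
Row 170, differential modules: the operator ring, small operators, and the interface with the
algebraisation step.
-/

namespace Crest.Agent.T170.DM

open Module

variable {R : Type*} [CommRing R] {V : Type*} [AddCommGroup V] [Module R V]

/-- `T` commutes with the scalar `c`. -/
def Comm (c : R) (T : AddMonoid.End V) : Prop := ∀ v, T (c • v) = c • T v

/-- `T L ⊆ ϖ ^ j L`. -/
def Small (ϖ : R) (L : Submodule R V) (j : ℕ) (T : AddMonoid.End V) : Prop :=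
  ∀ v ∈ L, T v ∈ pw ϖ L j

/-- The ring of operators generated by the scalars of `R` and the `δ i`. -/
def opRing (R : Type*) [CommRing R] {V : Type*} [AddCommGroup V] [Module R V] {n : Type*}
    (δ : n → AddMonoid.End V) : Subring (AddMonoid.End V) :=
  Subring.closure (Set.range (sc (R := R) V) ∪ Set.range δ)

/-- The algebraisation step ("GAGA"): two approximating sequences of operators, the first
preserving `B₀`, the second preserving `B₁`, asymptotically equal, Cauchy and asymptotically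
`R`-linear, converge to an additive operator on `V` itself. -/
def Gaga (ϖ : R) (L : Submodule R V) (B₀ B₁ : Set V) : Prop :=
  ∀ q q' : ℕ → AddMonoid.End V,
    (∀ k, Set.MapsTo (q k) B₀ B₀) → (∀ k, Set.MapsTo (q' k) B₁ B₁) →
    (∀ k, Comm ϖ (q k)) → (∀ k, Comm ϖ (q' k)) →
    (∀ k, Stab L (q k)) →
    (∀ k, Small ϖ L k (q k - q' k)) →
    (∀ k, Small ϖ L k (q (k + 1) - q k)) →
    (∀ k (a : R), Small ϖ L k (q k * sc V a - sc V a * q k)) →
    ∃ e : AddMonoid.End V, Comm ϖ e ∧ ∀ j, ∃ k₀, ∀ k, k₀ ≤ k → Small ϖ L j (e - q k)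

theorem Comm.one (c : R) : Comm c (1 : AddMonoid.End V) := fun _ => rfl
theorem Comm.zero (c : R) : Comm c (0 : AddMonoid.End V) := fun _ => by simp
theorem Comm.sc (c a : R) : Comm c (sc V a) := fun v => by rw [sc_apply, sc_apply, smul_comm]
theorem Comm.mul {c : R} {S T : AddMonoid.End V} (hS : Comm c S) (hT : Comm c T) :
    Comm c (S * T) := fun v => by rw [End_mul_apply, End_mul_apply, hT, hS]
theorem Comm.add {c : R} {S T : AddMonoid.End V} (hS : Comm c S) (hT : Comm c T) :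
    Comm c (S + T) := fun v => by rw [End_add_apply, End_add_apply, hT, hS, smul_add]
theorem Comm.neg {c : R} {S : AddMonoid.End V} (hS : Comm c S) : Comm c (-S) :=
  fun v => by rw [End_neg_apply, End_neg_apply, hS, smul_neg]
theorem Comm.sub {c : R} {S T : AddMonoid.End V} (hS : Comm c S) (hT : Comm c T) :
    Comm c (S - T) := by rw [sub_eq_add_neg]; exact hS.add hT.neg
theorem Comm.pow {c : R} {T : AddMonoid.End V} (hT : Comm c T) (k : ℕ) : Comm c (T ^ k) :=
  fun v => pow_comm_pi hT k v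
theorem Comm.pow_left {c : R} {T : AddMonoid.End V} (hT : Comm c T) (k : ℕ) : Comm (c ^ k) T :=
  fun v => comm_pow hT k v
theorem Comm.iff {c : R} {T : AddMonoid.End V} : Comm c T ↔ T * DM.sc V c = DM.sc V c * T :=
  ⟨fun h => AddMonoidHom.ext h, fun h v => DFunLike.congr_fun h v⟩

theorem sc_mem_opRing {n : Type*} (δ : n → AddMonoid.End V) (a : R) : sc V a ∈ opRing R δ :=
  Subring.subset_closure (Or.inl ⟨a, rfl⟩)

theorem self_mem_opRing {n : Type*} (δ : n → AddMonoid.End V) (i : n) : δ i ∈ opRing R δ :=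
  Subring.subset_closure (Or.inr ⟨i, rfl⟩)

theorem opRing_induction {n : Type*} {δ : n → AddMonoid.End V} {P : AddMonoid.End V → Prop}
    (hsc : ∀ a : R, P (sc V a)) (hδ : ∀ i, P (δ i)) (hadd : ∀ S T, P S → P T → P (S + T))
    (hmul : ∀ S T, P S → P T → P (S * T)) {T : AddMonoid.End V} (hT : T ∈ opRing R δ) : P T := by
  induction hT using Subring.closure_induction with
  | mem x hx =>
    rcases hx with ⟨a, rfl⟩ | ⟨i, rfl⟩
    exacts [hsc a, hδ i]
  | zero => simpa using hsc 0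
  | one => simpa using hsc 1
  | add x y _ _ hx hy => exact hadd x y hx hy
  | neg x _ hx =>
    have := hmul _ _ (hsc (-1)) hx
    simpa using this
  | mul x y _ _ hx hy => exact hmul x y hx hy

theorem Comm.of_mem {n : Type*} {δ : n → AddMonoid.End V} {c : R} (hc : ∀ i, Comm c (δ i))
    {T : AddMonoid.End V} (hT : T ∈ opRing R δ) : Comm c T :=
  opRing_induction (Comm.sc c) hc (fun _ _ => Comm.add) (fun _ _ => Comm.mul) hT

theorem Stab.of_mem {n : Type*} {δ : n → AddMonoid.End V} {L : Submodule R V}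
    (hL : ∀ i, Stab L (δ i)) {T : AddMonoid.End V} (hT : T ∈ opRing R δ) : Stab L T :=
  opRing_induction (Stab.sc L) hL (fun _ _ => Stab.add) (fun _ _ => Stab.mul) hT

theorem small_zero_iff {ϖ : R} {L : Submodule R V} {T : AddMonoid.End V} :
    Small ϖ L 0 T ↔ Stab L T := by simp [Small, Stab]

theorem Small.stab {ϖ : R} {L : Submodule R V} {j : ℕ} {T : AddMonoid.End V}
    (h : Small ϖ L j T) : Stab L T := fun v hv => pw_le ϖ L j (h v hv)

theorem Small.mono {ϖ : R} {L : Submodule R V} {i j : ℕ} {T : AddMonoid.End V}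
    (h : Small ϖ L j T) (hij : i ≤ j) : Small ϖ L i T := fun v hv => pw_anti ϖ L hij (h v hv)

theorem Small.zero (ϖ : R) (L : Submodule R V) (j : ℕ) : Small ϖ L j (0 : AddMonoid.End V) :=
  fun _ _ => (pw ϖ L j).zero_mem

theorem Small.add {ϖ : R} {L : Submodule R V} {j : ℕ} {S T : AddMonoid.End V}
    (hS : Small ϖ L j S) (hT : Small ϖ L j T) : Small ϖ L j (S + T) :=
  fun v hv => (pw ϖ L j).add_mem (hS v hv) (hT v hv)

theorem Small.neg {ϖ : R} {L : Submodule R V} {j : ℕ} {S : AddMonoid.End V}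
    (hS : Small ϖ L j S) : Small ϖ L j (-S) := fun v hv => (pw ϖ L j).neg_mem (hS v hv)

theorem Small.sub {ϖ : R} {L : Submodule R V} {j : ℕ} {S T : AddMonoid.End V}
    (hS : Small ϖ L j S) (hT : Small ϖ L j T) : Small ϖ L j (S - T) :=
  fun v hv => (pw ϖ L j).sub_mem (hS v hv) (hT v hv)

theorem Small.mul_stab {ϖ : R} {L : Submodule R V} {j : ℕ} {S T : AddMonoid.End V}
    (hS : Small ϖ L j S) (hT : Stab L T) : Small ϖ L j (S * T) := fun v hv => hS _ (hT v hv)

theorem Small.stab_mul {ϖ : R} {L : Submodule R V} {j : ℕ} {S T : AddMonoid.End V}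
    (hS : Stab L S) (hc : Comm ϖ S) (hT : Small ϖ L j T) : Small ϖ L j (S * T) :=
  fun v hv => hS.pw hc j _ (hT v hv)

theorem Small.mul {ϖ : R} {L : Submodule R V} {i j : ℕ} {S T : AddMonoid.End V}
    (hS : Small ϖ L i S) (hc : Comm ϖ S) (hT : Small ϖ L j T) : Small ϖ L (j + i) (S * T) := by
  intro v hv
  obtain ⟨w, hw, h⟩ := mem_pw.1 (hT v hv)
  rw [End_mul_apply, ← h, comm_pow hc]
  exact pow_smul_mem_pw j (hS w hw)

theorem Small.pow {ϖ : R} {L : Submodule R V} {T : AddMonoid.End V}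
    (hT : Small ϖ L 1 T) (hc : Comm ϖ T) (k : ℕ) : Small ϖ L k (T ^ k) := by
  induction k with
  | zero => rw [pow_zero]; exact small_zero_iff.2 (Stab.one L)
  | succ k ih => rw [pow_succ']; exact hT.mul hc ih

theorem Small.sc_mul {ϖ : R} {L : Submodule R V} {j : ℕ} {T : AddMonoid.End V}
    (hT : Small ϖ L j T) : Small ϖ L (j + 1) (sc V ϖ * T) := by
  intro v hv
  rw [End_mul_apply, sc_apply, add_comm]
  simpa using pow_smul_mem_pw 1 (hT v hv)

/-- `[𝓡, 𝓡] ⊆ π 𝓡`. -/
theorem opRing_comm {n : Type*} {δ : n → AddMonoid.End V} {π : R}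
    (hδ : ∀ i, IsConn π 1 (δ i)) (hc : ∀ i j, δ i * δ j = δ j * δ i)
    {S T : AddMonoid.End V} (hS : S ∈ opRing R δ) (hT : T ∈ opRing R δ) :
    ∃ U ∈ opRing R δ, S * T - T * S = sc V π * U := by
  have hπ : ∀ X ∈ opRing R δ, X * sc V π = sc V π * X := fun X hX =>
    Comm.iff.1 (Comm.of_mem (fun i => (hδ i).1) hX)
  -- closure properties in the second variable
  have step : ∀ S ∈ opRing R δ,
      (∀ a : R, ∃ U ∈ opRing R δ, S * sc V a - sc V a * S = sc V π * U) →
      (∀ i, ∃ U ∈ opRing R δ, S * δ i - δ i * S = sc V π * U) →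
      ∀ T ∈ opRing R δ, ∃ U ∈ opRing R δ, S * T - T * S = sc V π * U := by
    intro S _ h1 h2 T hT
    have := opRing_induction (R := R) (δ := δ)
      (P := fun T => T ∈ opRing R δ ∧ ∃ U ∈ opRing R δ, S * T - T * S = sc V π * U)
      (fun a => ⟨sc_mem_opRing δ a, h1 a⟩) (fun i => ⟨self_mem_opRing δ i, h2 i⟩)
      (fun X Y hX hY => ⟨add_mem hX.1 hY.1, by
        obtain ⟨U, hU, e⟩ := hX.2
        obtain ⟨U', hU', e'⟩ := hY.2
        exact ⟨U + U', add_mem hU hU', by rw [mul_add (sc V π), ← e, ← e']; noncomm_ring⟩⟩)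
      (fun X Y hX hY => ⟨mul_mem hX.1 hY.1, by
        obtain ⟨U, hU, e⟩ := hX.2
        obtain ⟨U', hU', e'⟩ := hY.2
        refine ⟨U * Y + X * U', add_mem (mul_mem hU hY.1) (mul_mem hX.1 hU'), ?_⟩
        have e2 : sc V π * (U * Y + X * U') = (sc V π * U) * Y + X * (sc V π * U') := by
          rw [mul_add (sc V π), ← mul_assoc (sc V π) X, ← hπ X hX.1, mul_assoc X,
            mul_assoc (sc V π)]
        rw [e2, ← e, ← e']
        noncomm_ring⟩) hT
    exact this.2
  have flip : ∀ X Y : AddMonoid.End V,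
      (∃ U ∈ opRing R δ, X * Y - Y * X = sc V π * U) →
      ∃ U ∈ opRing R δ, Y * X - X * Y = sc V π * U := by
    rintro X Y ⟨U, hU, e⟩
    exact ⟨-U, neg_mem hU, by rw [mul_neg, ← e]; noncomm_ring⟩
  have hδsc : ∀ i (a : R), ∃ U ∈ opRing R δ, δ i * sc V a - sc V a * δ i = sc V π * U := by
    intro i a
    obtain ⟨b, hb⟩ := (hδ i).2 a
    refine ⟨sc V b, sc_mem_opRing δ b, AddMonoidHom.ext fun v => ?_⟩
    change δ i (a • v) - a • δ i v = π • b • v
    rw [hb, pow_one, add_sub_cancel_left]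
  have hsc : ∀ a : R, ∀ T ∈ opRing R δ, ∃ U ∈ opRing R δ, sc V a * T - T * sc V a = sc V π * U :=
    fun a => step _ (sc_mem_opRing δ a)
      (fun b => ⟨0, zero_mem _, by rw [← map_mul, ← map_mul, mul_comm a b]; simp⟩)
      (fun i => flip _ _ (hδsc i a))
  have hd : ∀ i, ∀ T ∈ opRing R δ, ∃ U ∈ opRing R δ, δ i * T - T * δ i = sc V π * U :=
    fun i => step _ (self_mem_opRing δ i) (hδsc i)
      (fun j => ⟨0, zero_mem _, by rw [hc i j]; simp⟩)
  exact step S hS (fun a => flip _ _ (hsc a S hS)) (fun i => flip _ _ (hd i S hS)) T hT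

end Crest.Agent.T170.DM
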