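import Mathlib

/-!
# Row 170, descent (helper64): the finite level, generic part

`U / E₀` Galois, `E₀ ⊆ B ⊆ M ⊆ U`, `M / B` finite Galois and stable under `Gal(U / E₀)`,
`B = E₀(Cs)` with `Cs` stable.  Then there is a finite Galois extension `M₁ / E₀` inside `M` such
that `Gal(M / B)` is the pointwise fixer of `M₁ ∩ Cs` in `Gal(M₁ / E₀)` (`exists_fin`).
`fixedField_eq_adjoin` : the fixed field of a subgroup containing this fixer.
-/

set_option autoImplicit false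

namespace Crest.Agent.T170.Desc64

open IntermediateField Polynomial

section Generic

variable {E₀ U : Type*} [Field E₀] [Field U] [Algebra E₀ U]

theorem eq_on_adjoin {V : Type*} [Field V] (f g : U →+* V)
    (h0 : ∀ c : E₀, f (algebraMap E₀ U c) = g (algebraMap E₀ U c)) {s : Set U}
    (hs : ∀ x ∈ s, f x = g x) {z : U} (hz : z ∈ adjoin E₀ s) : f z = g z := by
  induction hz using adjoin_induction with
  | mem x hx => exact hs x hx
  | algebraMap c => exact h0 c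
  | add x y _ _ hx hy => rw [map_add, map_add, hx, hy]
  | inv x _ hx => rw [map_inv₀, map_inv₀, hx]
  | mul x y _ _ hx hy => rw [map_mul, map_mul, hx, hy]

theorem finite_orbit {x : U} (hx : IsIntegral E₀ x) :
    (Set.range fun h : U ≃ₐ[E₀] U => h x).Finite := by
  refine ((minpoly E₀ x).rootSet_finite U).subset ?_
  rintro _ ⟨h, rfl⟩
  rw [mem_rootSet]
  refine ⟨minpoly.ne_zero hx, ?_⟩
  rw [aeval_algHom_apply, minpoly.aeval, map_zero]

theorem exists_finite_adjoin {Cs t : Set U} (ht : t.Finite) (h : ∀ z ∈ t, z ∈ adjoin E₀ Cs) :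
    ∃ s : Set U, s.Finite ∧ s ⊆ Cs ∧ ∀ z ∈ t, z ∈ adjoin E₀ s := by
  choose! T hT using fun z (hz : z ∈ t) => exists_finset_of_mem_adjoin (h z hz)
  refine ⟨⋃ z ∈ t, (T z : Set U), ht.biUnion fun z _ => (T z).finite_toSet,
    Set.iUnion₂_subset fun z hz => (hT z hz).1, fun z hz => ?_⟩
  exact adjoin.mono E₀ _ _ (Set.subset_biUnion_of_mem (u := fun z => (T z : Set U)) hz) (hT z hz).2

variable {B : Type*} [Field B] [Algebra E₀ B] [Algebra B U] [IsScalarTower E₀ B U]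

/-- **The finite level.** -/
theorem exists_fin [IsGalois E₀ U] (M : IntermediateField B U) [FiniteDimensional B M]
    [IsGalois B M] (hM : ∀ (h : U ≃ₐ[E₀] U), ∀ z ∈ M, h z ∈ M)
    (Cs : Set U) (hCs : ∀ (h : U ≃ₐ[E₀] U), ∀ c ∈ Cs, h c ∈ Cs)
    (hCB : ∀ c ∈ Cs, ∃ b : B, algebraMap B U b = c)
    (hB : ∀ b : B, algebraMap B U b ∈ adjoin E₀ Cs)
    (E₁ : IntermediateField E₀ U) [FiniteDimensional E₀ E₁]
    (hE₁ : ∀ z ∈ E₁, ∃ b : B, algebraMap B U b = z) :
    ∃ (M₁ : IntermediateField E₀ U) (hle : ∀ z : M₁, (z : U) ∈ M),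
      FiniteDimensional E₀ M₁ ∧ IsGalois E₀ M₁ ∧ E₁ ≤ M₁ ∧
      ∃ r : (M ≃ₐ[B] M) →* (M₁ ≃ₐ[E₀] M₁), Function.Injective r ∧
        (∀ γ (z : M₁), (r γ z : U) = γ ⟨z, hle z⟩) ∧
        ∀ δ, δ ∈ r.range ↔ ∀ z : M₁, (z : U) ∈ Cs → δ z = z := by
  classical
  have hint : ∀ z : U, IsIntegral E₀ z := fun z => Algebra.IsIntegral.isIntegral z
  have : Normal B U := Normal.tower_top_of_normal E₀ B U
  let pb := Field.powerBasisOfFiniteOfSeparable B M
  set θ : U := (pb.gen : U) with hθ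
  -- the conjugates of `θ` as polynomials in `θ`
  have hq : ∀ w : U, w ∈ M → ∃ q : B[X], w = aeval θ q := by
    intro w hw
    obtain ⟨q, hq⟩ := pb.exists_eq_aeval' ⟨w, hw⟩
    refine ⟨q, ?_⟩
    have := congrArg M.val hq
    rwa [← aeval_algHom_apply] at this
  choose! q hq using hq
  obtain ⟨e, he⟩ : ∃ e : Finset U, adjoin E₀ (e : Set U) = E₁ := by
    obtain ⟨α, hα⟩ := Field.exists_primitive_element E₀ E₁
    refine ⟨{(α : U)}, ?_⟩
    rw [Finset.coe_singleton, ← lift_adjoin_simple, hα, lift_top]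
  let cf : B[X] → Set U := fun f => algebraMap B U '' (f.coeffs : Set B)
  have hcf : ∀ f, (cf f).Finite := fun f => f.coeffs.finite_toSet.image _
  let t : Set U := (⋃ w ∈ Set.range fun h : U ≃ₐ[E₀] U => h θ, cf (q w)) ∪ cf (minpoly B pb.gen) ∪ e
  have ht : t.Finite :=
    (((finite_orbit (hint θ)).biUnion fun w _ => hcf _).union (hcf _)).union e.finite_toSet
  have htB : ∀ z ∈ t, ∃ b : B, algebraMap B U b = z := by
    rintro z ((hz | hz) | hz)
    · obtain ⟨w, -, b, -, hb⟩ := Set.mem_iUnion₂.1 hz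
      exact ⟨b, hb⟩
    · obtain ⟨b, -, hb⟩ := hz
      exact ⟨b, hb⟩
    · exact hE₁ z (he ▸ subset_adjoin E₀ _ hz)
  obtain ⟨s, hs, hsC, hts⟩ := exists_finite_adjoin (E₀ := E₀) (Cs := Cs) ht fun z hz => by
    obtain ⟨b, rfl⟩ := htB z hz
    exact hB b
  let s' : Set U := ⋃ c ∈ s, Set.range fun h : U ≃ₐ[E₀] U => h c
  have hs' : s'.Finite := hs.biUnion fun c _ => finite_orbit (hint c)
  have hss' : s ⊆ s' := fun c hc => Set.mem_iUnion₂.2 ⟨c, hc, 1, rfl⟩
  have hs'C : s' ⊆ Cs := by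
    intro z hz
    obtain ⟨c, hc, h, rfl⟩ := Set.mem_iUnion₂.1 hz
    exact hCs h c (hsC hc)
  have hs'h : ∀ (h : U ≃ₐ[E₀] U), ∀ z ∈ s', h z ∈ s' := by
    intro h z hz
    obtain ⟨c, hc, h', rfl⟩ := Set.mem_iUnion₂.1 hz
    exact Set.mem_iUnion₂.2 ⟨c, hc, h * h', rfl⟩
  have hts' : ∀ z ∈ t, z ∈ adjoin E₀ s' := fun z hz => adjoin.mono E₀ _ _ hss' (hts z hz)
  let M₁ : IntermediateField E₀ U := adjoin E₀ (insert θ s')
  have hB₁ : adjoin E₀ s' ≤ M₁ := adjoin.mono E₀ _ _ (Set.subset_insert _ _)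
  have hθM₁ : θ ∈ M₁ := subset_adjoin E₀ _ (Set.mem_insert _ _)
  have hle : M₁ ≤ M.restrictScalars E₀ := by
    rw [adjoin_le_iff]
    rintro z (rfl | hz)
    · exact pb.gen.2
    · obtain ⟨b, rfl⟩ := hCB z (hs'C hz)
      exact M.algebraMap_mem b
  have haev : ∀ f : B[X], cf f ⊆ t → aeval θ f ∈ M₁ := by
    intro f hf
    rw [aeval_eq_sum_range]
    refine sum_mem fun i _ => ?_
    rw [Algebra.smul_def]
    refine mul_mem ?_ (pow_mem hθM₁ i)
    by_cases h0 : f.coeff i = 0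
    · rw [h0, map_zero]; exact zero_mem _
    · exact hB₁ (hts' _ (hf ⟨_, coeff_mem_coeffs h0, rfl⟩))
  have hnormal : Normal E₀ M₁ := by
    rw [normal_iff_forall_map_le']
    intro h
    rw [adjoin_map, adjoin_le_iff]
    rintro _ ⟨z, (rfl | hz), rfl⟩
    · change h θ ∈ M₁
      rw [hq (h θ) (hM h θ pb.gen.2)]
      refine haev _ fun z hz => Or.inl (Or.inl ?_)
      exact Set.mem_iUnion₂.2 ⟨h θ, ⟨h, rfl⟩, hz⟩
    · exact subset_adjoin E₀ _ (Set.mem_insert_of_mem _ (hs'h h z hz))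
  have hfin : FiniteDimensional E₀ M₁ :=
    have : Finite (insert θ s' : Set U) := (hs'.insert θ).to_subtype
    finiteDimensional_adjoin fun x _ => hint x
  let r₀ : (M ≃ₐ[B] M) → (M₁ ≃ₐ[E₀] M₁) := fun γ =>
    ((γ.liftNormal U).restrictScalars E₀).restrictNormal M₁
  have hr₀ : ∀ γ (z : M₁), (r₀ γ z : U) = γ ⟨z, hle z.2⟩ := by
    intro γ z
    rw [AlgEquiv.restrictNormal_apply]
    exact γ.liftNormal_commutes U ⟨z, hle z.2⟩
  let r : (M ≃ₐ[B] M) →* (M₁ ≃ₐ[E₀] M₁) := MonoidHom.mk' r₀ fun γ γ' => by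
    ext z
    rw [hr₀, AlgEquiv.mul_apply, AlgEquiv.mul_apply, hr₀]
    congr 2
    exact Subtype.ext (hr₀ γ' z).symm
  refine ⟨M₁, fun z => hle z.2, hfin, ⟨⟩, ?_, r, ?_, hr₀, fun δ => ⟨?_, fun hδ => ?_⟩⟩
  · rw [← he, adjoin_le_iff]
    exact fun z hz => hB₁ (hts' z (Or.inr hz))
  · rw [injective_iff_map_eq_one]
    intro γ hγ
    have h1 := hr₀ γ ⟨θ, hθM₁⟩
    change (r γ ⟨θ, hθM₁⟩ : U) = _ at h1
    rw [hγ] at h1
    have h2 : γ pb.gen = pb.gen := Subtype.ext h1.symm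
    exact AlgEquiv.coe_toAlgHom_injective (pb.algHom_ext h2)
  · rintro ⟨γ, rfl⟩ z hz
    obtain ⟨b, hb⟩ := hCB z hz
    apply Subtype.ext
    have h1 : (⟨z, hle z.2⟩ : M) = algebraMap B M b := Subtype.ext hb.symm
    refine (hr₀ γ z).trans ?_
    rw [h1, AlgEquiv.commutes, ← hb]
    rfl
  · let h : U ≃ₐ[E₀] U := δ.liftNormal U
    have hh : ∀ z : M₁, h z = δ z := fun z => δ.liftNormal_commutes U z
    have hfix : ∀ z ∈ adjoin E₀ s', h z = z := fun z hz =>
      eq_on_adjoin (h : U →+* U) (RingHom.id U) h.commutes (fun x hx => by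
        have hx' : x ∈ M₁ := hB₁ (subset_adjoin E₀ _ hx)
        exact (hh ⟨x, hx'⟩).trans (congrArg Subtype.val (hδ ⟨x, hx'⟩ (hs'C hx)))) hz
    have hroot : aeval (⟨h θ, hM h θ pb.gen.2⟩ : M) (minpoly B pb.gen) = 0 := by
      apply M.val.injective
      have h0 : aeval θ (minpoly B pb.gen) = 0 := by
        have := congrArg M.val (minpoly.aeval B pb.gen)
        rwa [← aeval_algHom_apply, map_zero] at this
      change M.val _ = M.val 0
      rw [← aeval_algHom_apply, map_zero, ← map_zero h, ← h0, aeval_eq_sum_range,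
        aeval_eq_sum_range, map_sum]
      refine Finset.sum_congr rfl fun i _ => ?_
      rw [Algebra.smul_def, Algebra.smul_def, map_mul, map_pow]
      congr 1
      by_cases h0 : (minpoly B pb.gen).coeff i = 0
      · rw [h0, map_zero, map_zero]
      · exact (hfix _ (hts' _ (Or.inl (Or.inr ⟨_, coeff_mem_coeffs h0, rfl⟩)))).symm
    obtain ⟨γ, hγ⟩ := minpoly.exists_algEquiv_of_root'
      (Algebra.IsAlgebraic.isAlgebraic (R := B) pb.gen) hroot
    refine ⟨γ, ?_⟩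
    ext z
    rw [← hh]
    change (r₀ γ z : U) = _
    rw [AlgEquiv.restrictNormal_apply]
    refine eq_on_adjoin (E₀ := E₀) ((γ.liftNormal U).restrictScalars E₀ : U →+* U) (h : U →+* U)
      (fun c => ((γ.liftNormal U).restrictScalars E₀).commutes c |>.trans (h.commutes c).symm)
      ?_ z.2
    rintro x (rfl | hx)
    · exact (γ.liftNormal_commutes U pb.gen).trans (congrArg Subtype.val hγ)
    · obtain ⟨b, rfl⟩ := hCB x (hs'C hx)
      exact ((γ.liftNormal U).commutes b).trans (hfix _ (subset_adjoin E₀ _ hx)).symm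

end Generic

section Fixed

variable {E₀ M : Type*} [Field E₀] [Field M] [Algebra E₀ M] [FiniteDimensional E₀ M]

/-- Artin for a stable subfield `L`: an automorphism fixing `L ^ H` agrees on `L` with an element
of `H`. -/
theorem exists_mem_eq_on (L : Subfield M) (H : Subgroup (M ≃ₐ[E₀] M))
    (hL : ∀ h ∈ H, ∀ z ∈ L, h z ∈ L) (δ : M ≃ₐ[E₀] M) (hδL : ∀ z, δ z ∈ L ↔ z ∈ L)
    (hδ : ∀ z ∈ L, (∀ h ∈ H, h z = z) → δ z = z) : ∃ η ∈ H, ∀ z ∈ L, δ z = η z := by
  let : MulSemiringAction H L :=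
    { smul := fun h z => ⟨(h : M ≃ₐ[E₀] M) z, hL h h.2 z z.2⟩
      one_smul := fun z => rfl
      mul_smul := fun h h' z => rfl
      smul_zero := fun h => Subtype.ext (map_zero (h : M ≃ₐ[E₀] M))
      smul_add := fun h z z' => Subtype.ext (map_add (h : M ≃ₐ[E₀] M) _ _)
      smul_one := fun h => Subtype.ext (map_one (h : M ≃ₐ[E₀] M))
      smul_mul := fun h z z' => Subtype.ext (map_mul (h : M ≃ₐ[E₀] M) _ _) }
  let δ' : L ≃ₐ[FixedPoints.subfield H L] L :=
    { toFun := fun z => ⟨δ z, (hδL z).2 z.2⟩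
      invFun := fun z => ⟨δ.symm z, (hδL _).1 (by simp)⟩
      left_inv := fun z => Subtype.ext (by simp)
      right_inv := fun z => Subtype.ext (by simp)
      map_mul' := fun z z' => Subtype.ext (map_mul δ _ _)
      map_add' := fun z z' => Subtype.ext (map_add δ _ _)
      commutes' := fun z => Subtype.ext
        (hδ _ (z : L).2 fun h hh => congrArg Subtype.val (z.2 ⟨h, hh⟩)) }
  obtain ⟨η, hη⟩ := FixedPoints.toAlgAut_surjective H L δ'
  refine ⟨η, η.2, fun z hz => ?_⟩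
  exact (congrArg Subtype.val (congrArg (fun e => e (⟨z, hz⟩ : L)) hη)).symm

/-- if `H` contains the pointwise fixer of the stable subfield `L`, then `H` is the pointwise fixer
of `L ^ H` -/
theorem mem_of_fix (L : Subfield M) (hL : ∀ (δ : M ≃ₐ[E₀] M), ∀ z ∈ L, δ z ∈ L)
    (H : Subgroup (M ≃ₐ[E₀] M)) (hH : ∀ δ : M ≃ₐ[E₀] M, (∀ z ∈ L, δ z = z) → δ ∈ H)
    (δ : M ≃ₐ[E₀] M) (hδ : ∀ z ∈ L, (∀ h ∈ H, h z = z) → δ z = z) : δ ∈ H := by
  obtain ⟨η, hη, he⟩ := exists_mem_eq_on L H (fun h _ => hL h) δ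
    (fun z => ⟨fun hz => by simpa using hL δ.symm _ hz, hL δ z⟩) hδ
  have h1 : η⁻¹ * δ ∈ H := hH _ fun z hz => by
    rw [AlgEquiv.mul_apply, he z hz]
    exact η.symm_apply_apply z
  simpa using H.mul_mem hη h1

/-- the fixed field of such an `H` is generated by `L ^ H` -/
theorem fixedField_eq_adjoin [IsGalois E₀ M] (L : Subfield M)
    (hL : ∀ (δ : M ≃ₐ[E₀] M), ∀ z ∈ L, δ z ∈ L)
    (H : Subgroup (M ≃ₐ[E₀] M)) (hH : ∀ δ : M ≃ₐ[E₀] M, (∀ z ∈ L, δ z = z) → δ ∈ H) :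
    fixedField H = adjoin E₀ {z | z ∈ L ∧ ∀ h ∈ H, h z = z} := by
  rw [← IsGalois.fixedField_fixingSubgroup (adjoin E₀ _)]
  congr 1
  ext δ
  rw [IntermediateField.mem_fixingSubgroup_iff]
  constructor
  · intro hδ z hz
    exact eq_on_adjoin (δ : M →+* M) (RingHom.id M) δ.commutes (fun x hx => hx.2 δ hδ) hz
  · intro hδ
    exact mem_of_fix L hL H hH δ fun z hz hz' => hδ z (subset_adjoin E₀ _ ⟨hz, hz'⟩)

end Fixed

end Crest.Agent.T170.Desc64
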