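import Crest.Agent.T170.DescT_79
import Crest.Agent.T170.DsDef_6

/-!
# Row 170, task F1 (helper79): `CanStmt` and `LabStmt`
-/

set_option autoImplicit false

namespace Crest.Agent.T170.Ds79

open Crest.Agent.T170.Fr Crest.Agent.T170.Pl Crest.Agent.T170.Ds

variable {p n : ℕ} [NeZero n] {U : Type} [Field U] [Algebra ℂ U] {X : World p n U}

theorem adm_of_lift {φ : Aut X} {j : ℕ} (h : Lift X φ j) : X.Adm j (φ : U ≃+* U) :=
  ⟨fun z => (h.F z).trans (X.g_pow_F j z), h.x, h.y⟩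

theorem lift_of_adm {h : U ≃+* U} {j : ℕ} (H : X.Adm j h) : Lift X H.alg j :=
  ⟨fun z => (H.hF z).trans (X.g_pow_F j z).symm, H.hx, H.hy⟩

theorem can_aux {h : U ≃+* U} {j : ℕ} (H : X.Adm j h) {G : Type} [Group G]
    (M : IntermediateField X.B U) [FiniteDimensional X.B M] [IsGalois X.B M]
    (h3 : Ret.ResW (M ≃ₐ[X.B] M) G) (h4 : UnrE M X.xB X.yB X.aC X.bC)
    (h5 : ∀ N : IntermediateField X.B U, FiniteDimensional X.B N → IsGalois X.B N →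
      Ret.ResW (N ≃ₐ[X.B] N) G → UnrE N X.xB X.yB X.aC X.bC → N ≤ M) (z : U) :
    h z ∈ M ↔ z ∈ M :=
  stable_of_max H.gB_const H.hgB (fun i => ⟨_, H.mov i⟩) h3 h4 h5 z

theorem lab_aux {h : U ≃+* U} {j : ℕ} (H : X.Adm j h) (M : IntermediateField X.B U)
    [FiniteDimensional X.B M] [IsGalois X.B M] {n₀ : ℕ} {ζ : ℂ} (hn : 0 < n₀)
    (hζ : IsPrimitiveRoot ζ n₀) (γ : Fin n → (M ≃ₐ[X.B] M))
    (hγ : ∀ i, ∃ u : Ret.AV X.B, AtPt u X.xB X.yB (X.aC i) (X.bC i) n₀ ∧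
      Ret.GenOver u (algebraMap ℂ X.B ζ) (γ i)) (hM : ∀ z, z ∈ M ↔ h z ∈ M) (i : Fin n)
    (δ : M ≃ₐ[X.B] M)
    (hδ : ∀ z z' : M, (z' : U) = h z → ((δ z' : M) : U) = h ((γ i z : M) : U)) :
    IsConj δ (γ (World.sh j i)) :=
  isConj_transport X.isGenB H.gB_const
    (j := resE' h (M := M) (M' := M) fun z => (hM z).symm) (fun _ => rfl) (H.mov i)
    (X.bC_ne _) (X.bC_ne _) hn (hζ.ne_zero hn.ne') (H.τ_root hn hζ.pow_eq_one)
    (fun z => Subtype.ext (hδ z _ rfl)) (hγ i) (hγ _)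

theorem canStmt : CanStmt := by
  intro p n _ U _ _ _ X G _ M h1 h2 h3 h4 h5 φ j hφ z hz
  exact (@can_aux p n _ U _ _ X _ j (adm_of_lift hφ) G _ M h1 h2 h3 h4 h5 z).2 hz

theorem labStmt : LabStmt := by
  intro _ p n _ U _ _ _ X M h1 h2 n₀ ζ hn hζ γ hγ φ j hφ hM i δ hδ
  exact ⟨_, @lab_aux p n _ U _ _ X _ j (adm_of_lift hφ) M h1 h2 n₀ ζ hn hζ γ hγ hM i δ hδ⟩

end Crest.Agent.T170.Ds79
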