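import Crest.Agent.T170.DsLift_6
import Crest.Agent.T170.DsCan_79
import Crest.Agent.T170.DescFin_64

/-!
# Row 170, descent (helper64): the finite level of a world

`FL X M` : a finite group `Γ` acting faithfully on a field `M₁ ⊆ M`, all elements induced by lifts,
containing `Gal(M / B)` as the pointwise fixer of the constants.  `exists_FL`.
-/

set_option autoImplicit false

noncomputable section

namespace Crest.Agent.T170.Desc64

open scoped NNReal Classical
open Crest.Agent.T170.Fr Crest.Agent.T170.Ds IntermediateField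

theorem finite_of_fixed {Q F L : Type*} [Group Q] [Finite Q] [Field L] [MulSemiringAction Q L]
    [Field F] [Algebra F L] (h : ∀ z : L, (∀ q : Q, q • z = z) → ∃ c : F, algebraMap F L c = z) :
    FiniteDimensional F L := by
  obtain ⟨s, hs⟩ := Module.Finite.fg_top (R := FixedPoints.subfield Q L) (M := L)
  refine ⟨s, eq_top_iff.2 fun z hz => ?_⟩
  clear hz
  have hz : z ∈ Submodule.span (FixedPoints.subfield Q L) (s : Set L) := by rw [hs]; trivial
  induction hz using Submodule.span_induction with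
  | mem x hx => exact Submodule.subset_span hx
  | zero => exact zero_mem _
  | add x y _ _ hx hy => exact add_mem hx hy
  | smul c x _ hx =>
    obtain ⟨f, hf⟩ := h c c.2
    have : c • x = f • x := by rw [Algebra.smul_def f, hf]; rfl
    rw [this]
    exact Submodule.smul_mem _ f hx

variable {p n : ℕ} [NeZero n] {U : Type} [Field U] [Algebra ℂ U] {X : World p n U}

theorem lift_zero_of_fix {φ : Aut X} {j : ℕ} (h : Lift X φ j)
    (hF : ∀ z : X.F, X.v (algebraMap X.F U z) ≤ 1 →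
      X.v (φ (algebraMap X.F U z) - algebraMap X.F U z) < 1) : Lift X φ 0 := by
  by_cases hj : n ∣ j
  · exact h.mod ((Nat.modEq_zero_iff_dvd).2 hj)
  · obtain ⟨z, hz, h1⟩ := X.faith j hj
    have h2 := hF z hz
    rw [h.map_F, ← map_sub, h1] at h2
    exact absurd h2 (lt_irrefl _)

variable (X) in
/-- `E₀ = F(x, y) ^ g` -/
def E0 : Subfield U := (EF X).toSubfield ⊓ (X.g : U →+* U).eqLocusField (RingHom.id U)

theorem mem_E0 {z : U} : z ∈ E0 X ↔ z ∈ EF X ∧ X.g z = z := Iff.rfl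

theorem Lift.fix_E0 {φ : Aut X} {j : ℕ} (h : Lift X φ j) {z : U} (hz : z ∈ E0 X) : φ z = z := by
  rw [h.eq_on hz.1]
  clear h
  induction j with
  | zero => rfl
  | succ j ih => rw [pow_succ, AlgEquiv.mul_apply, (mem_E0.1 hz).2, ih]

/-- a lift as an automorphism over `E₀` -/
def ofLift {φ : Aut X} {j : ℕ} (h : Lift X φ j) : U ≃ₐ[E0 X] U :=
  AlgEquiv.ofRingEquiv (f := (φ : U ≃+* U)) fun c => Lift.fix_E0 h c.2

/-- an automorphism over `E₀` as an automorphism over `C` -/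
def toAut (h : U ≃ₐ[E0 X] U) : Aut X :=
  AlgEquiv.ofRingEquiv (f := (h : U ≃+* U)) fun c =>
    h.commutes ⟨algebraMap X.C U c, (EF X).algebraMap_mem c, X.g.commutes c⟩

variable (X) in
/-- `F(x, y)` over `E₀` -/
def E1 : IntermediateField (E0 X) U := (EF X).toSubfield.toIntermediateField fun c => c.2.1

theorem mem_E1 {z : U} : z ∈ E1 X ↔ z ∈ EF X := Iff.rfl

variable (X) in
/-- the restriction of `g` -/
def g1 : E1 X ≃ₐ[E0 X] E1 X where
  toFun z := ⟨X.g z, g_mem_EF X z.2⟩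
  invFun z := ⟨X.g.symm z, (liftApi X).g.inv.mem_EF z.2⟩
  left_inv z := Subtype.ext (X.g.symm_apply_apply z)
  right_inv z := Subtype.ext (X.g.apply_symm_apply z)
  map_mul' z z' := Subtype.ext (map_mul X.g _ _)
  map_add' z z' := Subtype.ext (map_add X.g _ _)
  commutes' c := Subtype.ext c.2.2

theorem g1_pow (j : ℕ) (z : E1 X) : (((g1 X ^ j) z : E1 X) : U) = (X.g ^ j) z := by
  induction j with
  | zero => rfl
  | succ j ih => rw [pow_succ', pow_succ', AlgEquiv.mul_apply, AlgEquiv.mul_apply, ← ih]; rfl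

variable (X) in
theorem g1_fin : IsOfFinOrder (g1 X) :=
  isOfFinOrder_iff_pow_eq_one.2 ⟨n, Nat.pos_of_ne_zero (NeZero.ne n), by
    ext z
    rw [g1_pow, g_pow_n X z.2]; rfl⟩

theorem mem_bot_of_g1 (z : E1 X) (hz : g1 X z = z) : ∃ c : E0 X, algebraMap (E0 X) (E1 X) c = z :=
  ⟨⟨z, z.2, congrArg Subtype.val hz⟩, rfl⟩

instance finE1 : FiniteDimensional (E0 X) (E1 X) := by
  have : Finite (Subgroup.zpowers (g1 X)) := (g1_fin X).finite_zpowers
  exact finite_of_fixed (Q := Subgroup.zpowers (g1 X)) fun z hz =>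
    mem_bot_of_g1 z (hz ⟨g1 X, Subgroup.mem_zpowers _⟩)

instance galE1 : IsGalois (E0 X) (E1 X) := by
  refine IsGalois.of_fixedField_eq_bot _ _ (eq_bot_iff.2 fun z hz => ?_)
  exact IntermediateField.mem_bot.2 (mem_bot_of_g1 z (hz ⟨g1 X, trivial⟩))

theorem exists_eq_g1_pow (a : E1 X ≃ₐ[E0 X] E1 X) : ∃ j : ℕ, a = g1 X ^ j := by
  have h1 : a ∈ Subgroup.zpowers (g1 X) := by
    rw [← fixingSubgroup_fixedField (Subgroup.zpowers (g1 X)),
      IntermediateField.mem_fixingSubgroup_iff]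
    intro z hz
    obtain ⟨c, rfl⟩ := mem_bot_of_g1 z (hz ⟨g1 X, Subgroup.mem_zpowers _⟩)
    exact a.commutes c
  obtain ⟨j, hj⟩ := ((g1_fin X).mem_powers_iff_mem_zpowers).2 h1
  exact ⟨j, hj.symm⟩

theorem exists_lift (h : U ≃ₐ[E0 X] U) : ∃ j, Lift X (toAut h) j := by
  obtain ⟨j, hj⟩ := exists_eq_g1_pow (h.restrictNormal (E1 X))
  refine ⟨j, Lift.of_eq_on fun z hz => ?_⟩
  have h1 := AlgEquiv.restrictNormal_apply (E1 X) h ⟨z, hz⟩
  rw [hj, g1_pow] at h1
  exact h1.symm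

variable (X) in
theorem gal_U [IsAlgClosed U] : IsGalois (E0 X) U := by
  have := charZero_U U
  have h1 : Algebra.IsAlgebraic (E1 X) U := alg_EF X
  have h2 : Algebra.IsAlgebraic (E0 X) U := Algebra.IsAlgebraic.trans (E0 X) (E1 X) U
  have h3 : IsAlgClosure (E0 X) U := ⟨inferInstance, h2⟩
  exact ⟨⟩

theorem mem_adjoin_const {z : U} (hz : z ∈ EF X) : z ∈ adjoin (E0 X) {w : U | IsC w} := by
  let S : IntermediateField (E0 X) (E1 X) := (adjoin (E0 X) {w : U | IsC w}).comap (E1 X).val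
  have hS : S = ⊤ := by
    rw [← IsGalois.fixedField_fixingSubgroup S, ← IntermediateField.fixedField_bot]
    congr 1
    rw [eq_bot_iff]
    intro a ha
    rw [IntermediateField.mem_fixingSubgroup_iff] at ha
    obtain ⟨j, rfl⟩ := exists_eq_g1_pow a
    have h0 : Lift X (X.g ^ j) 0 := lift_zero_of_fix (lift_pow X j) fun c _ => by
      have h1 := ha ⟨algebraMap X.F U c, F_mem_EF X c⟩ (subset_adjoin _ _ ⟨c, rfl⟩)
      have h2 := congrArg Subtype.val h1
      rw [g1_pow] at h2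
      rw [h2]
      simp
    rw [Subgroup.mem_bot]
    ext w
    rw [g1_pow, h0.fix w.2]; rfl
  have : (⟨z, hz⟩ : E1 X) ∈ S := by rw [hS]; trivial
  exact this

variable (X) in
/-- the finite level -/
structure FL (M : IntermediateField X.B U) where
  Γ : Type
  M₁ : Type
  [grp : Group Γ]
  [fin : Finite Γ]
  [fld : Field M₁]
  [act : MulSemiringAction Γ M₁]
  [faith : FaithfulSMul Γ M₁]
  ι : M₁ →+* U
  le : ∀ z, ι z ∈ M
  memE : ∀ u ∈ EF X, ∃ z, ι z = u
  lift : ∀ δ : Γ, ∃ φ j, Lift X φ j ∧ ∀ z, φ (ι z) = ι (δ • z)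
  g : Γ
  hg : ∀ z, X.g (ι z) = ι (g • z)
  r : (M ≃ₐ[X.B] M) →* Γ
  inj : Function.Injective r
  r_apply : ∀ γ z, ι (r γ • z) = γ ⟨ι z, le z⟩
  r_range : ∀ δ, δ ∈ r.range ↔ ∀ z, IsC (ι z) → δ • z = z
  gen : ∀ H : Subgroup Γ, r.range ≤ H → ∀ S : Subfield U, (∀ u ∈ EF X, u ∈ S) →
    (∀ w, IsC (ι w) → (∀ δ ∈ H, δ • w = w) → ι w ∈ S) → ∀ z, (∀ δ ∈ H, δ • z = z) → ι z ∈ S
  fixE : ∀ z, (∀ δ : Γ, (∀ w, ι w ∈ EF X → δ • w = w) → δ • z = z) → ι z ∈ EF X

attribute [instance] FL.grp FL.fin FL.fld FL.act FL.faith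

theorem exists_FL [IsAlgClosed U] {G : Type} [Group G] (Y : X.RD G) : Nonempty (FL X Y.M) := by
  have := gal_U X
  have := Y.fin
  have := Y.gal
  let : Algebra (E0 X) X.B :=
    ((E0 X).subtype.codRestrict X.B fun z => EF_le_B X z.2.1).toAlgebra
  have : IsScalarTower (E0 X) X.B U := IsScalarTower.of_algebraMap_eq' rfl
  obtain ⟨M₁, hle, hfin, hgal, hE, r, hr, hra, hrr⟩ := exists_fin (E₀ := E0 X) Y.M
    (fun h z hz => by
      obtain ⟨j, hj⟩ := exists_lift h
      exact ((Ds79.adm_of_lift hj).stable Y z).2 hz)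
    {w : U | IsC w} (fun h c hc => by
      obtain ⟨j, hj⟩ := exists_lift h
      exact hj.isC hc)
    (fun c hc => ⟨⟨c, IsC.mem_B X hc⟩, rfl⟩)
    (fun b => B_le X (S := (adjoin (E0 X) {w : U | IsC w}).toSubfield)
      (fun c => subset_adjoin _ _ ⟨c, rfl⟩) (mem_adjoin_const (x_mem_EF X))
      (mem_adjoin_const (y_mem_EF X)) b.2)
    (E1 X) (fun z hz => ⟨⟨z, EF_le_B X hz⟩, rfl⟩)
  have hlift : ∀ δ : M₁ ≃ₐ[E0 X] M₁, ∃ φ j, Lift X φ j ∧ ∀ z : M₁, φ z = δ z := by
    intro δ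
    obtain ⟨j, hj⟩ := exists_lift (δ.liftNormal U)
    exact ⟨_, j, hj, fun z => δ.liftNormal_commutes U z⟩
  refine ⟨
    { Γ := M₁ ≃ₐ[E0 X] M₁
      M₁ := M₁
      ι := algebraMap M₁ U
      le := hle
      memE := fun u hu => ⟨⟨u, hE hu⟩, rfl⟩
      lift := hlift
      g := (ofLift (liftApi X).g).restrictNormal M₁
      hg := fun z => (AlgEquiv.restrictNormal_apply M₁ (ofLift (liftApi X).g) z).symm
      r := r
      inj := hr
      r_apply := hra
      r_range := hrr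
      gen := fun H hH S hS hS' z hz => ?_
      fixE := fun z hz => ?_ }⟩
  · let L : Subfield M₁ := (algebraMap ℂ U).fieldRange.comap (algebraMap M₁ U)
    have h1 := fixedField_eq_adjoin L (fun δ w hw => by
      obtain ⟨φ, j, hφ, h⟩ := hlift δ
      have h2 : IsC (φ w) := hφ.isC hw
      rw [h] at h2
      exact h2) H fun δ hδ => hH ((hrr δ).2 hδ)
    have h2 : z ∈ fixedField H := fun δ => hz δ δ.2
    rw [h1] at h2
    have h3 : adjoin (E0 X) {z | z ∈ L ∧ ∀ h ∈ H, h z = z} ≤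
        (S.toIntermediateField fun c : E0 X => hS c c.2.1).comap M₁.val :=
      adjoin_le_iff.2 fun w hw => hS' w hw.1 hw.2
    exact h3 h2
  · have h1 : z ∈ fixedField (((E1 X).comap M₁.val).fixingSubgroup) := fun δ =>
      hz δ fun w hw => (IntermediateField.mem_fixingSubgroup_iff _ _).1 δ.2 w hw
    rw [IsGalois.fixedField_fixingSubgroup] at h1
    exact h1

end Crest.Agent.T170.Desc64
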