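import Crest.Agent.T170.DescAsmB_64
import Crest.Agent.T170.DsGeo_74

/-!
# Row 170, descent (helper64): the unconditional descent statement
-/

set_option autoImplicit false

namespace Crest.Agent.T170.Desc64

theorem descentStmt {p : ℕ} (hp : p.Prime) : Fr.DescentStmt p :=
  descent64 hp (Desc74.geoStmt hp)

end Crest.Agent.T170.Desc64
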