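import Mathlib
import Crest.Agent.T170.CntDef_9

/-!
# Row 170 (helper77): the group-theoretic end of the descent
-/

set_option autoImplicit false

namespace Crest.Agent.T170.Desc77

open Crest.Agent.R170 Crest.Agent.T170.Smith13

/-- a quotient of `H` by the kernel of `ρ` with `O_p ≠ 1` gives `HasOp p (ρ H)` -/
theorem hasOp_map {Γ A : Type*} {G : Type} [Group Γ] [Group G] [Finite G] [Group A] {p : ℕ}
    (H : Subgroup Γ)
    (ρ : Γ →* G) (φ : H →* A) (hφ : Function.Surjective φ)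
    (hker : ∀ h : H, φ h = 1 ↔ ρ h = 1) (Q : Subgroup A) (hQn : Q.Normal) (hQ : Q ≠ ⊥)
    (hp : IsPGroup p Q) : HasOp p (H.map ρ) := by
  refine ⟨((Q.comap φ).map H.subtype).map ρ, ?_, ?_, ?_, ?_⟩
  · intro h
    apply hQ
    rw [eq_bot_iff]
    intro q hq
    obtain ⟨x, rfl⟩ := hφ q
    have : ρ x ∈ ((Q.comap φ).map H.subtype).map ρ := ⟨x, ⟨x, hq, rfl⟩, rfl⟩
    rw [h, Subgroup.mem_bot] at this
    exact Subgroup.mem_bot.2 ((hker x).2 this)
  · rintro ⟨_, _, ⟨x, hx, rfl⟩, rfl⟩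
    obtain ⟨k, hk⟩ := hp ⟨φ x, hx⟩
    refine ⟨k, Subtype.ext ?_⟩
    have h1 : φ (x ^ p ^ k) = 1 := by
      rw [map_pow]; exact congrArg Subtype.val hk
    have h2 := (hker _).1 h1
    simpa using h2
  · exact Subgroup.map_mono (Subgroup.map_subtype_le _)
  · rintro _ ⟨a, ha, rfl⟩
    apply mem_normalizer_of
    rintro _ ⟨_, ⟨x, hx, rfl⟩, rfl⟩
    refine ⟨a * x * a⁻¹, ⟨⟨a, ha⟩ * x * ⟨a, ha⟩⁻¹, ?_, rfl⟩, by simp⟩
    show φ (⟨a, ha⟩ * x * ⟨a, ha⟩⁻¹) ∈ Q
    rw [map_mul, map_mul, map_inv]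
    exact hQn.conj_mem _ hx _

/-- from a normal subgroup to the whole image -/
theorem hasOp_range {Γ G : Type} [Group Γ] [Group G] [Finite G] {p : ℕ} [Fact p.Prime]
    (H : Subgroup Γ) [hH : H.Normal] (ρ : Γ →* G) (h : HasOp p (H.map ρ)) :
    HasOp p ρ.range := by
  refine HasOp.of_normal (Subgroup.map_le_range _ _) ?_ h
  rintro _ ⟨a, rfl⟩
  apply mem_normalizer_of
  rintro _ ⟨x, hx, rfl⟩
  exact ⟨a * x * a⁻¹, hH.conj_mem _ hx _, by simp⟩

/-- the count, with `HasOp` hypothesis and a supplementing `p`-subgroup -/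
theorem count_of_sup {Pi Γ G : Type} [Group Pi] [Group Γ] [Group G] [Finite Γ] [Finite G]
    {p n : ℕ} [Fact p.Prime] (ι : Pi →* Γ) (hι : Function.Injective ι) [hN : ι.range.Normal]
    (S : Subgroup Γ) (hNS : ι.range ⊔ S = ⊤) (hS : IsPGroup p S) (γ : Fin n → Pi) (c : G)
    (hcount : ∀ A : Subgroup G,
      Nat.card {ρ : Pi →* G // (∀ i, IsConj (ρ (γ i)) c) ∧ ρ.range ≤ A} =
        Nat.card (Tup A fun (_ : Fin n) (h : A) => IsConj (h : G) c))
    (hperm : ∀ (t : Γ) (i : Fin n), ∃ (l : Fin n) (h : Pi),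
      t * ι (γ i) * t⁻¹ = ι (h * γ l * h⁻¹))
    (hgeo : ∀ ρ : Γ →* G, (∀ i, IsConj (ρ (ι (γ i))) c) → HasOp p ρ.range) :
    ((p * pPart p (Nat.card G) : ℕ) : ℤ) ∣
      ∑ᶠ w : Tup G (fun (_ : Fin n) (g : G) => IsConj g c), sA p (tcl w.1) := by
  classical
  let e : Pi ≃* ι.range := MonoidHom.ofInjective hι
  have he : ∀ x, ((e x : ι.range) : Γ) = ι x := fun x => rfl
  let T : Set (ι.range →* G) := {ρ | ∀ i, IsConj (ρ (e (γ i))) c}
  have hfin : Finite (ι.range →* G) := finite_hom ι.range G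
  have h1 := smith_of_sup (p := p) ι.range S hNS hS T ?_ ?_ ?_
  · rw [← tuple_sum_eq p (fun (_ : Fin n) (g : G) => IsConj g c)]
    rw [← chain_sum_eq p (fun ρ : T => (ρ : ι.range →* G).range)] at h1
    refine h1.trans (dvd_of_eq (finsum_congr fun σ => ?_))
    rw [← hcount (st σ)]
    congr 2
    refine Nat.card_congr ⟨fun ρ => ⟨(ρ.1 : ι.range →* G).comp e.toMonoidHom, ρ.1.2, ?_⟩,
      fun ρ => ⟨⟨ρ.1.comp e.symm.toMonoidHom, fun i => by simpa using ρ.2.1 i⟩, ?_⟩, ?_, ?_⟩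
    · rintro _ ⟨x, rfl⟩
      exact ρ.2 ⟨e x, rfl⟩
    · rintro _ ⟨x, rfl⟩
      exact ρ.2.2 ⟨e.symm x, rfl⟩
    · intro ρ
      ext x
      simp
    · intro ρ
      ext x
      simp
  · intro g ρ hρ i
    refine IsConj.trans ?_ (hρ i)
    exact (isConj_iff.2 ⟨g, rfl⟩).symm
  · intro t ρ hρ i
    obtain ⟨l, h, hl⟩ := hperm t i
    have : (MulAut.conjNormal t : MulAut ι.range) (e (γ i)) = e h * e (γ l) * (e h)⁻¹ := by
      apply Subtype.ext
      rw [← map_inv, ← map_mul, ← map_mul, he, ← hl, MulAut.conjNormal_apply, he]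
    show IsConj (ρ ((MulAut.conjNormal t : MulAut ι.range) (e (γ i)))) c
    rw [this, map_mul, map_mul, map_inv]
    exact (isConj_iff.2 ⟨ρ (e h), rfl⟩).symm.trans (hρ l)
  · intro ρ hρ
    exact hgeo ρ fun i => hρ i

/-- the count, quotient a `p`-group, geometric input on a normal subgroup `H` -/
theorem count_of {Pi Γ G : Type} [Group Pi] [Group Γ] [Group G] [Finite Γ] [Finite G]
    {p n : ℕ} [Fact p.Prime] (ι : Pi →* Γ) (hι : Function.Injective ι) [hN : ι.range.Normal]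
    (hq : IsPGroup p (Γ ⧸ ι.range)) (γ : Fin n → Pi) (c : G)
    (hcount : ∀ A : Subgroup G,
      Nat.card {ρ : Pi →* G // (∀ i, IsConj (ρ (γ i)) c) ∧ ρ.range ≤ A} =
        Nat.card (Tup A fun (_ : Fin n) (h : A) => IsConj (h : G) c))
    (hperm : ∀ (t : Γ) (i : Fin n), ∃ (l : Fin n) (h : Pi),
      t * ι (γ i) * t⁻¹ = ι (h * γ l * h⁻¹))
    (H : Subgroup Γ) [H.Normal]
    (hgeo : ∀ ρ : Γ →* G, (∀ i, IsConj (ρ (ι (γ i))) c) → HasOp p (H.map ρ)) :
    ((p * pPart p (Nat.card G) : ℕ) : ℤ) ∣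
      ∑ᶠ w : Tup G (fun (_ : Fin n) (g : G) => IsConj g c), sA p (tcl w.1) := by
  obtain ⟨S⟩ : Nonempty (Sylow p Γ) := inferInstance
  exact count_of_sup ι hι S (sup_sylow ι.range hq S) S.isPGroup' γ c hcount hperm
    fun ρ hρ => hasOp_range H ρ (hgeo ρ hρ)

section Galois
variable {E L : Type*} {G : Type} [Field E] [Field L] [Algebra E L] [FiniteDimensional E L]
  [IsGalois E L] [Group G]

/-- the field cut out by a homomorphism is Galois -/
theorem isGalois_ker (ρ : (L ≃ₐ[E] L) →* G) :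
    IsGalois E (IntermediateField.fixedField ρ.ker) :=
  IsGalois.of_fixedField_normal_subgroup ρ.ker

/-- the degree of the field cut out by a homomorphism -/
theorem finrank_ker_eq (ρ : (L ≃ₐ[E] L) →* G) :
    Module.finrank E (IntermediateField.fixedField ρ.ker) = Nat.card ρ.range := by
  have := isGalois_ker ρ
  rw [← IsGalois.card_aut_eq_finrank, ← Nat.card_congr (IsGalois.normalAutEquivQuotient ρ.ker).toEquiv]
  exact Nat.card_congr (QuotientGroup.quotientKerEquivRange ρ).toEquiv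

theorem finrank_ker_le [Finite G] (ρ : (L ≃ₐ[E] L) →* G) :
    Module.finrank E (IntermediateField.fixedField ρ.ker) ≤ Nat.card G := by
  rw [finrank_ker_eq]
  exact Subgroup.card_le_card_group _

/-- restriction to the field cut out by `ρ` has the kernel of `ρ` -/
theorem restrict_eq_one_iff (ρ : (L ≃ₐ[E] L) →* G)
    [Normal E (IntermediateField.fixedField ρ.ker)] (h : L ≃ₐ[E] L) :
    AlgEquiv.restrictNormalHom (IntermediateField.fixedField ρ.ker) h = 1 ↔ ρ h = 1 := by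
  rw [← MonoidHom.mem_ker, IntermediateField.restrictNormalHom_ker,
    IntermediateField.fixingSubgroup_fixedField, MonoidHom.mem_ker]

/-- the order of the restriction is the order of the image -/
theorem orderOf_restrict (ρ : (L ≃ₐ[E] L) →* G)
    [Normal E (IntermediateField.fixedField ρ.ker)] (h : L ≃ₐ[E] L) :
    orderOf (AlgEquiv.restrictNormalHom (IntermediateField.fixedField ρ.ker) h) =
      orderOf (ρ h) := by
  rw [orderOf_eq_orderOf_iff]
  intro k
  rw [← map_pow, restrict_eq_one_iff, map_pow]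

/-- the conclusion of `CoreStmt` for the field cut out by `ρ` gives `HasOp p ρ.range` -/
theorem hasOp_of_gal [Finite G] {p : ℕ} (ρ : (L ≃ₐ[E] L) →* G)
    (h : ∃ Q : Subgroup (IntermediateField.fixedField ρ.ker ≃ₐ[E]
      IntermediateField.fixedField ρ.ker), Q.Normal ∧ Q ≠ ⊥ ∧ IsPGroup p Q) :
    HasOp p ρ.range := by
  obtain ⟨Q, h1, h2, h3⟩ := h
  have := isGalois_ker ρ
  have h4 := hasOp_map (⊤ : Subgroup (L ≃ₐ[E] L)) ρ
    ((AlgEquiv.restrictNormalHom (IntermediateField.fixedField ρ.ker)).comp (Subgroup.subtype ⊤))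
    (fun a => by
      obtain ⟨b, rfl⟩ := AlgEquiv.restrictNormalHom_surjective (F := E)
        (K₁ := IntermediateField.fixedField ρ.ker) (E := L) a
      exact ⟨⟨b, trivial⟩, rfl⟩)
    (fun h => restrict_eq_one_iff ρ h) Q h1 h2 h3
  rwa [← MonoidHom.range_eq_map] at h4

/-- the same along a homomorphism `ψ : Gal(L / E) → Γ` (with image the normal subgroup `H`) -/
theorem hasOp_of_gal' [Finite G] {p : ℕ} {Γ : Type*} [Group Γ] (ψ : (L ≃ₐ[E] L) →* Γ)
    (ρ : Γ →* G)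
    (h : ∃ Q : Subgroup (IntermediateField.fixedField (ρ.comp ψ).ker ≃ₐ[E]
      IntermediateField.fixedField (ρ.comp ψ).ker), Q.Normal ∧ Q ≠ ⊥ ∧ IsPGroup p Q) :
    HasOp p (ψ.range.map ρ) := by
  rw [MonoidHom.map_range]
  exact hasOp_of_gal _ h

end Galois

end Crest.Agent.T170.Desc77
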