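import Crest.Agent.T170.LogC_89
import Crest.Agent.T170.GalConj_6
import Crest.Agent.T170.Fr_20

/-!
# Row 170, module LOG (helper89), part D: the derivation at the places of a cover of the curve

`B = ℂ(x, y)`, `M / B` finite Galois, unramified outside the points `(a i, b i)`, `D` a derivation
killing `x, y`, the coefficients of the curve and the `a l`, `l ≠ i`.

* `pres_val`, `pres_val_inf` : `h D` preserves every valuation ring of `M` over the charts.
-/

set_option autoImplicit false

namespace Crest.Agent.T170.Log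

open Polynomial IntermediateField WeierstrassCurve WeierstrassCurve.Affine
open Crest.Agent.T170.Ret Crest.Agent.T170.RetU Crest.Agent.T170.Fr

section Eqn

variable {C M Γ : Type*} [Field C] [Field M] [Algebra C M] [LinearOrderedCommGroupWithZero Γ]

/-- the Weierstrass equation in an extension field -/
def Eqn (W : Affine C) (x y : M) : Prop :=
  y ^ 2 + algebraMap C M W.a₁ * x * y + algebraMap C M W.a₃ * y =
    x ^ 3 + algebraMap C M W.a₂ * x ^ 2 + algebraMap C M W.a₄ * x + algebraMap C M W.a₆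

theorem eqn_iff (W : Affine C) (x y : M) : (W⁄M).Equation x y ↔ Eqn W x y := by
  rw [Affine.equation_iff]; rfl

theorem Eqn.map {W : Affine C} {x y : M} (h : Eqn W x y) {M' : Type*} [Field M'] [Algebra C M']
    (f : M →ₐ[C] M') : Eqn W (f x) (f y) := by
  have := congrArg f h
  simpa [Eqn] using this

theorem eqn_const {W : Affine C} {a b : C} (h : W.Equation a b) :
    Eqn W (algebraMap C M a) (algebraMap C M b) := by
  rw [Affine.equation_iff] at h
  have := congrArg (algebraMap C M) h
  simpa [Eqn] using this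

theorem val_le_one_of_quad (v : Valuation M Γ) {η α β : M} (hα : v α ≤ 1) (hβ : v β ≤ 1)
    (h : η ^ 2 + α * η = β) : v η ≤ 1 := by
  by_contra hlt
  push Not at hlt
  have h0 : 0 < v η := lt_trans zero_lt_one hlt
  have h1 : v (α * η) < v (η ^ 2) := by
    rw [map_mul, map_pow, pow_two]
    exact mul_lt_mul_of_pos_right (lt_of_le_of_lt hα hlt) h0
  have h2 := Valuation.map_add_eq_of_lt_left v h1
  rw [h, map_pow] at h2
  exact absurd (h2 ▸ hβ) (not_le.2 (one_lt_pow₀ hlt two_ne_zero))

variable {v : Valuation M Γ} {W : Affine C} {x y : M}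

theorem Eqn.val_y (h : Eqn W x y) (hC : ∀ c : C, v (algebraMap C M c) ≤ 1) (hx : v x ≤ 1) :
    v y ≤ 1 := by
  have e1 : y ^ 2 + aeval x (Polynomial.C W.a₁ * X + Polynomial.C W.a₃) * y =
      aeval x (X ^ 3 + Polynomial.C W.a₂ * X ^ 2 + Polynomial.C W.a₄ * X + Polynomial.C W.a₆) := by
    simp only [map_add, map_mul, map_pow, aeval_C, aeval_X]
    rw [← h]; ring
  exact val_le_one_of_quad v (val_aeval_le hC hx _) (val_aeval_le hC hx _) e1

theorem Eqn.val_y_div (h : Eqn W x y) (hC : ∀ c : C, v (algebraMap C M c) ≤ 1) (hx0 : x ≠ 0)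
    (hx : v x⁻¹ ≤ 1) : v (y / x ^ 2) ≤ 1 := by
  have e1 : (y / x ^ 2) ^ 2 + aeval x⁻¹ (Polynomial.C W.a₁ * X + Polynomial.C W.a₃ * X ^ 2) *
      (y / x ^ 2) = aeval x⁻¹ (X + Polynomial.C W.a₂ * X ^ 2 + Polynomial.C W.a₄ * X ^ 3 +
        Polynomial.C W.a₆ * X ^ 4) := by
    simp only [map_add, map_mul, map_pow, aeval_C, aeval_X]
    unfold Eqn at h
    field_simp
    linear_combination h
  exact val_le_one_of_quad v (val_aeval_le hC hx _) (val_aeval_le hC hx _) e1

theorem const_eq_of_val_lt (hC : ∀ c : C, v (algebraMap C M c) ≤ 1) {z : M} {a a' : C}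
    (h : v (z - algebraMap C M a) < 1) (h' : v (z - algebraMap C M a') < 1) : a = a' := by
  by_contra hne
  have := Valuation.map_sub_lt v h' h
  rw [show z - algebraMap C M a' - (z - algebraMap C M a) = algebraMap C M (a - a') by
    rw [map_sub]; ring, val_const hC (sub_ne_zero.2 hne)] at this
  exact lt_irrefl _ this

theorem val_le_one_of_sub (hC : ∀ c : C, v (algebraMap C M c) ≤ 1) {z : M} {a : C}
    (h : v (z - algebraMap C M a) < 1) : v z ≤ 1 := by
  rw [show z = (z - algebraMap C M a) + algebraMap C M a by ring]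
  exact Valuation.map_add_le v h.le (hC a)

/-- the centre of a place lies on the curve -/
theorem Eqn.centre (h : Eqn W x y) (hC : ∀ c : C, v (algebraMap C M c) ≤ 1) {a b : C}
    (ha : v (x - algebraMap C M a) < 1) (hb : v (y - algebraMap C M b) < 1) : W.Equation a b := by
  rw [Affine.equation_iff']
  by_contra hne
  have hx := val_le_one_of_sub hC ha
  have hy := val_le_one_of_sub hC hb
  have h1 := val_const hC hne
  have e : algebraMap C M (b ^ 2 + W.a₁ * a * b + W.a₃ * b - (a ^ 3 + W.a₂ * a ^ 2 + W.a₄ * a +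
      W.a₆)) = (x - algebraMap C M a) * (aeval x (X ^ 2 + Polynomial.C (a + W.a₂) * X +
        Polynomial.C (a ^ 2 + W.a₂ * a + W.a₄)) - algebraMap C M W.a₁ * y) -
      (y - algebraMap C M b) * (y + algebraMap C M (b + W.a₁ * a + W.a₃)) := by
    simp only [map_add, map_sub, map_mul, map_pow, aeval_C, aeval_X]
    unfold Eqn at h
    linear_combination h
  have h2 : v ((x - algebraMap C M a) * (aeval x (X ^ 2 + Polynomial.C (a + W.a₂) * X +
        Polynomial.C (a ^ 2 + W.a₂ * a + W.a₄)) - algebraMap C M W.a₁ * y)) < 1 := by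
    rw [map_mul]
    refine mul_lt_one_of_lt_of_le ha (Valuation.map_sub_le v (val_aeval_le hC hx _) ?_)
    rw [map_mul]; exact mul_le_one' (hC _) hy
  have h3 : v ((y - algebraMap C M b) * (y + algebraMap C M (b + W.a₁ * a + W.a₃))) < 1 := by
    rw [map_mul]
    exact mul_lt_one_of_lt_of_le hb (Valuation.map_add_le v hy (hC _))
  rw [e] at h1
  exact absurd h1 (Valuation.map_sub_lt v h2 h3).ne

theorem val_dy (hC : ∀ c : C, v (algebraMap C M c) ≤ 1) {a b : C}
    (hne : b ≠ W.negY a b) {z : M} (hz : v (z - algebraMap C M (2 * b + W.a₁ * a + W.a₃)) < 1) :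
    v z = 1 := by
  have h0 : 2 * b + W.a₁ * a + W.a₃ ≠ 0 := by
    intro h; apply hne; rw [negY]; linear_combination h
  rw [← val_const hC h0] at hz
  rw [Valuation.map_eq_of_sub_lt v hz, val_const hC h0]

/-- `x - a` divides `y - b` at a point which is not of order two -/
theorem Eqn.val_sub_le (h : Eqn W x y) (hC : ∀ c : C, v (algebraMap C M c) ≤ 1) {a b : C}
    (hab : W.Equation a b) (hne : b ≠ W.negY a b)
    (ha : v (x - algebraMap C M a) < 1) (hb : v (y - algebraMap C M b) < 1) :
    v (y - algebraMap C M b) ≤ v (x - algebraMap C M a) := by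
  have hx := val_le_one_of_sub hC ha
  have hy := val_le_one_of_sub hC hb
  have h' := eqn_const (M := M) hab
  have e : (y - algebraMap C M b) * (y + algebraMap C M (b + W.a₁ * a + W.a₃)) =
      (x - algebraMap C M a) * (aeval x (X ^ 2 + Polynomial.C (a + W.a₂) * X +
        Polynomial.C (a ^ 2 + W.a₂ * a + W.a₄)) - algebraMap C M W.a₁ * y) := by
    simp only [map_add, map_mul, map_pow, aeval_C, aeval_X]
    unfold Eqn at h h'
    linear_combination h - h'
  have h1 : v (y + algebraMap C M (b + W.a₁ * a + W.a₃)) = 1 := by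
    apply val_dy hC hne
    rwa [show y + algebraMap C M (b + W.a₁ * a + W.a₃) - algebraMap C M (2 * b + W.a₁ * a + W.a₃) =
      y - algebraMap C M b by simp only [map_add, map_mul, map_ofNat]; ring]
  have h2 := congrArg v e
  rw [map_mul, map_mul, h1, mul_one] at h2
  rw [h2]
  refine mul_le_of_le_one_right' (Valuation.map_sub_le v (val_aeval_le hC hx _) ?_)
  rw [map_mul]; exact mul_le_one' (hC _) hy

/-- the abscissae of the points of order two are constants of the derivation -/
theorem deriv_two_torsion {R₀ : Type*} [CommRing R₀] [Algebra R₀ M] [W.IsElliptic]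
    (D : Derivation R₀ M M)
    (hDW : ∀ c ∈ ({W.a₁, W.a₂, W.a₃, W.a₄, W.a₆} : Set C), D (algebraMap C M c) = 0) {a b : C}
    (hab : W.Equation a b) (he : b = W.negY a b) : D (algebraMap C M a) = 0 := by
  have hns := (Affine.nonsingular_iff' a b).1 (Affine.equation_iff_nonsingular.1 hab)
  have hy : 2 * b + W.a₁ * a + W.a₃ = 0 := by rw [negY] at he; linear_combination he
  have hx := hns.2.resolve_right (not_not.2 hy)
  have h := congrArg D (eqn_const (M := M) hab)
  simp only [map_add, deriv_mul, deriv_pow, hDW _ (by simp : W.a₁ ∈ _), hDW _ (by simp : W.a₂ ∈ _),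
    hDW _ (by simp : W.a₃ ∈ _), hDW _ (by simp : W.a₄ ∈ _), hDW _ (by simp : W.a₆ ∈ _)] at h
  have hy' := congrArg (algebraMap C M) hy
  have hx' : algebraMap C M (W.a₁ * b - (3 * a ^ 2 + 2 * W.a₂ * a + W.a₄)) ≠ 0 :=
    (_root_.map_ne_zero _).2 hx
  apply (mul_eq_zero.1 _).resolve_left hx'
  simp only [map_add, map_sub, map_mul, map_pow, map_ofNat, map_zero] at hy' ⊢
  push_cast at h
  linear_combination h - D (algebraMap C M b) * hy'

end Eqn

section Fin

variable {C B M : Type*} [Field C] [Field B] [Field M] [Algebra C B] [Algebra B M] [Algebra C M]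
  [IsScalarTower C B M] {W : Affine C} {x y : B}

theorem algebraMap_mem_of_gen (hgen : adjoin C {x, y} = ⊤) (S : IntermediateField C M)
    (hx : algebraMap B M x ∈ S) (hy : algebraMap B M y ∈ S) (f : B) : algebraMap B M f ∈ S := by
  have h1 : adjoin C {x, y} ≤ S.comap (IsScalarTower.toAlgHom C B M) := by
    rw [adjoin_le_iff]
    rintro z (rfl | rfl)
    exacts [hx, hy]
  exact h1 (hgen ▸ mem_top)

theorem isIntegral_y_of_mem {x y : M} (h : Eqn W x y) (K : IntermediateField C M) (hx : x ∈ K) :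
    IsIntegral K y :=
  isIntegral_of_forall_vs y fun V hV => (V.valuation_le_one_iff y).1
    (h.val_y (fun c => (V.valuation_le_one_iff _).2 (hV (algebraMap C K c)))
      ((V.valuation_le_one_iff _).2 (hV ⟨x, hx⟩)))

theorem finDim_line [FiniteDimensional B M] (h : Eqn W x y) (hgen : adjoin C {x, y} = ⊤)
    (K : IntermediateField C M) (hx : algebraMap B M x ∈ K) : FiniteDimensional K M := by
  have hy : IsIntegral K (algebraMap B M y) :=
    isIntegral_y_of_mem (h.map (IsScalarTower.toAlgHom C B M)) K hx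
  let K₁ := adjoin K {algebraMap B M y}
  have : FiniteDimensional K K₁ := adjoin.finiteDimensional hy
  have hB : ∀ f : B, algebraMap B M f ∈ K₁ := fun f =>
    algebraMap_mem_of_gen hgen (K₁.restrictScalars C) (K₁.algebraMap_mem ⟨_, hx⟩)
      (mem_adjoin_simple_self K _) f
  have : FiniteDimensional K₁ M := by
    obtain ⟨s, hs⟩ := Module.Finite.fg_top (R := B) (M := M)
    refine ⟨⟨s, eq_top_iff.2 fun z _ => ?_⟩⟩
    have hz : z ∈ Submodule.span B (s : Set M) := hs ▸ Submodule.mem_top
    induction hz using Submodule.span_induction with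
    | mem z hz => exact Submodule.subset_span hz
    | zero => exact zero_mem _
    | add a b _ _ ha hb => exact add_mem (ha trivial) (hb trivial)
    | smul f a _ ha =>
      have e : f • a = (⟨_, hB f⟩ : K₁) • a := by rw [Algebra.smul_def]; rfl
      rw [e]; exact Submodule.smul_mem _ _ (ha trivial)
  exact Module.Finite.trans K₁ M

theorem mem_adjoin_sub (x : M) (a : C) : x ∈ adjoin C {x - algebraMap C M a} := by
  have := add_mem (mem_adjoin_simple_self C (x - algebraMap C M a))
    ((adjoin C {x - algebraMap C M a}).algebraMap_mem a)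
  rwa [sub_add_cancel] at this

theorem mem_adjoin_inv (x : M) : x ∈ adjoin C {x⁻¹} := by
  have := inv_mem (mem_adjoin_simple_self C x⁻¹)
  rwa [inv_inv] at this

theorem deriv_mem_range {R₀ : Type*} [CommRing R₀] [Algebra R₀ M] (hgen : adjoin C {x, y} = ⊤)
    (D : Derivation R₀ M M) (hDx : D (algebraMap B M x) = 0) (hDy : D (algebraMap B M y) = 0)
    (hDc : ∀ c : C, ∃ c' : C, D (algebraMap C M c) = algebraMap C M c') (f : B) :
    ∃ f' : B, D (algebraMap B M f) = algebraMap B M f' := by
  have hf : f ∈ adjoin C {x, y} := hgen ▸ mem_top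
  induction hf using adjoin_induction with
  | mem z hz =>
    rcases hz with rfl | rfl
    exacts [⟨0, by rw [hDx, map_zero]⟩, ⟨0, by rw [hDy, map_zero]⟩]
  | algebraMap c =>
    obtain ⟨c', hc'⟩ := hDc c
    exact ⟨algebraMap C B c', by
      rw [← IsScalarTower.algebraMap_apply, ← IsScalarTower.algebraMap_apply, hc']⟩
  | add a b _ _ ha hb =>
    obtain ⟨a', ha⟩ := ha
    obtain ⟨b', hb⟩ := hb
    exact ⟨a' + b', by rw [map_add, map_add, ha, hb, map_add]⟩
  | inv a _ ha =>
    obtain ⟨a', ha⟩ := ha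
    exact ⟨-a⁻¹ ^ 2 * a', by
      rw [map_inv₀, Derivation.leibniz_inv, ha, smul_eq_mul, map_mul, map_neg, map_pow, map_inv₀]⟩
  | mul a b _ _ ha hb =>
    obtain ⟨a', ha⟩ := ha
    obtain ⟨b', hb⟩ := hb
    exact ⟨a * b' + b * a', by
      rw [map_mul, deriv_mul, ha, hb, map_add, map_mul, map_mul]⟩

/-- the curve is étale over the line at the points which are not of order two -/
theorem etale_curve {R₀ Γ : Type*} [CommRing R₀] [Algebra R₀ B] [CharZero C]
    [LinearOrderedCommGroupWithZero Γ] {v : Valuation B Γ} (h : Eqn W x y)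
    (hgen : adjoin C {x, y} = ⊤) (hC : ∀ c : C, v (algebraMap C B c) ≤ 1) {a b : C}
    (hne : b ≠ W.negY a b) (ht0 : x - algebraMap C B a ≠ 0) (ha : v (x - algebraMap C B a) < 1)
    (hb : v (y - algebraMap C B b) < 1) (D : Derivation R₀ B B)
    (hDc : ∀ c : C, v (D (algebraMap C B c)) ≤ 1) (hDx : v (D x) ≤ 1) :
    ∀ z : B, v z ≤ 1 → v (D z) ≤ 1 := by
  set t := x - algebraMap C B a with ht
  let K := adjoin C {t}
  have hxK : x ∈ K := mem_adjoin_sub x a
  have : FiniteDimensional K B := finDim_line (M := B) h hgen K hxK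
  have : CharZero K := charZero_of_injective_algebraMap (algebraMap C _).injective
  have hx := val_le_one_of_sub hC ha
  have hy := val_le_one_of_sub hC hb
  have hyint : IsIntegral K y := Algebra.IsIntegral.isIntegral y
  have hg : Algebra.adjoin K {y} = ⊤ := by
    rw [← adjoin_simple_toSubalgebra_of_isAlgebraic hyint.isAlgebraic]
    have h1 : adjoin K {y} = ⊤ := eq_top_iff.2 fun f _ =>
      algebraMap_mem_of_gen (M := B) hgen ((adjoin K {y}).restrictScalars C)
        ((adjoin K {y}).algebraMap_mem ⟨_, hxK⟩) (mem_adjoin_simple_self K _) f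
    rw [h1, top_toSubalgebra]
  let xK : K := ⟨x, hxK⟩
  let α : K := aeval xK (Polynomial.C W.a₁ * X + Polynomial.C W.a₃)
  let β : K := aeval xK (X ^ 3 + Polynomial.C W.a₂ * X ^ 2 + Polynomial.C W.a₄ * X +
    Polynomial.C W.a₆)
  have hα : algebraMap K B α = aeval x (Polynomial.C W.a₁ * X + Polynomial.C W.a₃) :=
    (aeval_algebraMap_apply B xK _).symm
  have hβ : algebraMap K B β = aeval x (X ^ 3 + Polynomial.C W.a₂ * X ^ 2 +
      Polynomial.C W.a₄ * X + Polynomial.C W.a₆) := (aeval_algebraMap_apply B xK _).symm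
  refine etale_lemma (K := K) v D y hg (X ^ 2 + Polynomial.C α * X - Polynomial.C β)
    (by monicity!) (fun i => ?_) ?_ ?_ fun c hc => ?_
  · simp only [coeff_sub, coeff_add, coeff_X_pow, coeff_C_mul, coeff_X, coeff_C, map_sub, map_add,
      map_mul]
    refine Valuation.map_sub_le v (Valuation.map_add_le v ?_ ?_) ?_
    · split_ifs <;> simp
    · rw [map_mul, hα]
      refine mul_le_one' (val_aeval_le hC hx _) ?_
      split_ifs <;> simp
    · split_ifs
      · rw [hβ]; exact val_aeval_le hC hx _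
      · simp
  · simp only [map_sub, map_add, map_mul, map_pow, aeval_C, aeval_X, hα, hβ]
    unfold Eqn at h
    linear_combination h
  · apply val_dy hC hne
    have e : aeval y (derivative (X ^ 2 + Polynomial.C α * X - Polynomial.C β)) -
        algebraMap C B (2 * b + W.a₁ * a + W.a₃) =
        algebraMap C B 2 * (y - algebraMap C B b) + algebraMap C B W.a₁ * t := by
      simp only [derivative_mul, derivative_C, derivative_X_pow,
        derivative_X, map_sub, map_add, map_mul, map_pow, aeval_C, aeval_X, hα, ht, map_ofNat,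
        map_zero, map_one, map_natCast]
      push_cast
      ring
    rw [e]
    refine Valuation.map_add_lt v ?_ ?_ <;> rw [map_mul]
    · exact lt_of_le_of_lt (mul_le_of_le_one_left' (hC _)) hb
    · exact lt_of_le_of_lt (mul_le_of_le_one_left' (hC _)) ha
  · refine Q_deriv_adjoin D (Q := fun g => g ≤ 1) (fun _ _ h h' => h.trans h') hC ht0 ha hDc ?_
      c.2 hc
    rw [ht, map_sub]
    exact Valuation.map_sub_le v hDx (hDc a)

end Fin

section Pres

variable {R₀ B M : Type} {Γ : Type*} [CommRing R₀] [Field B] [Field M] [Algebra ℂ B] [Algebra B M]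
  [Algebra ℂ M] [IsScalarTower ℂ B M] [Algebra R₀ M] [FiniteDimensional B M] [IsGalois B M]
  [LinearOrderedCommGroupWithZero Γ] {W : Affine ℂ} {x y : B} {n : ℕ} {a b : Fin n → ℂ}

/-- at an unramified place the value group does not grow -/
theorem val_unram (h : Eqn W x y) (hgen : adjoin ℂ {x, y} = ⊤) (hU : UnrE M x y a b)
    {v : Valuation M Γ} (hC : ∀ c : ℂ, v (algebraMap ℂ M c) ≤ 1) {t : B} (ht0 : t ≠ 0)
    (ht : v (algebraMap B M t) < 1) (hxt : x ∈ adjoin ℂ {t})
    (hcen : ∀ l, ¬ (v (algebraMap B M x - algebraMap ℂ M (a l)) < 1 ∧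
      v (algebraMap B M y - algebraMap ℂ M (b l)) < 1)) (z : M) (hz : z ≠ 0) :
    ∃ f : B, v z = v (algebraMap B M f) := by
  let vB := v.comap (algebraMap B M)
  have hCB : ∀ c : ℂ, vB (algebraMap ℂ B c) ≤ 1 := fun c => by
    rw [Valuation.comap_apply, ← IsScalarTower.algebraMap_apply]; exact hC c
  have : FiniteDimensional (adjoin ℂ {t}) B := finDim_line (M := B) h hgen _ hxt
  obtain ⟨π, hπ0, hπ, hπk⟩ := exists_unif vB (vB t) ((Valuation.ne_zero_iff vB).2 ht0) ht _
    (Nat.factorial_ne_zero _) (exists_pow_eq hCB ht0 ht) t ht0 ht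
  obtain ⟨u, hu1, hule, hult⟩ := exists_av vB hπ0 hπ hπk
  obtain ⟨v', hv'⟩ := hU u
    (fun c hc => le_antisymm (not_lt.1 fun h0 => (val_const hCB hc).not_lt ((hult _).1 h0))
      ((hule _).2 (hCB c))) ⟨π, hu1⟩
    (fun l hl => hcen l (by
      have h1 := (hult _).1 hl.1
      have h2 := (hult _).1 hl.2
      rw [Valuation.comap_apply, map_sub, ← IsScalarTower.algebraMap_apply] at h1 h2
      exact ⟨h1, h2⟩))
  obtain ⟨g, hg⟩ := Gal.exists_conj (F := B) v.valuationSubring (mv v').valuationSubring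
    (fun f => by
      rw [Valuation.mem_valuationSubring_iff, Valuation.mem_valuationSubring_iff, mv_le_one, hv',
        hule, Valuation.comap_apply])
  simp only [Valuation.mem_valuationSubring_iff, mv_le_one] at hg
  have hz' : g.symm z ≠ 0 := (_root_.map_ne_zero _).2 hz
  obtain ⟨k, hk⟩ := exists_int v' hz'
  have hp : v' (algebraMap B M (π ^ k)) = (k : WithTop ℤ) := by
    rw [hv', val_zpow u (k := 1) hu1 k, mul_one]
  have hp0 : algebraMap B M (π ^ k) ≠ 0 := (_root_.map_ne_zero _).2 (zpow_ne_zero _ hπ0)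
  have h1 : v (z / algebraMap B M (π ^ k)) ≤ 1 := by
    have := (hg (g.symm z / algebraMap B M (π ^ k))).1 (by
      rw [div_eq_mul_inv, v'.map_mul, hk, val_inv v' hp, ← WithTop.coe_add, add_neg_cancel]
      exact le_rfl)
    rwa [map_div₀, AlgEquiv.apply_symm_apply, AlgEquiv.commutes] at this
  have h2 : v (algebraMap B M (π ^ k) / z) ≤ 1 := by
    have := (hg (algebraMap B M (π ^ k) / g.symm z)).1 (by
      rw [div_eq_mul_inv, v'.map_mul, hp, val_inv v' hk, ← WithTop.coe_add, add_neg_cancel]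
      exact le_rfl)
    rwa [map_div₀, AlgEquiv.apply_symm_apply, AlgEquiv.commutes] at this
  rw [map_div₀, div_le_one₀ (zero_lt_iff.2 ((Valuation.ne_zero_iff v).2 hp0))] at h1
  rw [map_div₀, div_le_one₀ (zero_lt_iff.2 ((Valuation.ne_zero_iff v).2 hz))] at h2
  exact ⟨π ^ k, le_antisymm h1 h2⟩

variable [W.IsElliptic] (hx : Transcendental ℂ x) (h : Eqn W x y) (hgen : adjoin ℂ {x, y} = ⊤)
  (hab : ∀ i, W.Equation (a i) (b i)) (hneg : ∀ i, b i ≠ W.negY (a i) (b i))
  (hU : UnrE M x y a b) (D : Derivation R₀ M M) (hDx : D (algebraMap B M x) = 0)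
  (hDy : D (algebraMap B M y) = 0)
  (hDc : ∀ c : ℂ, ∃ c' : ℂ, D (algebraMap ℂ M c) = algebraMap ℂ M c')
  (hDW : ∀ c ∈ ({W.a₁, W.a₂, W.a₃, W.a₄, W.a₆} : Set ℂ), D (algebraMap ℂ M c) = 0) (i : Fin n)
  (hDa : ∀ l, l ≠ i → D (algebraMap ℂ M (a l)) = 0)

include hx h hgen hab hneg hU hDx hDy hDc hDW hDa

/-- the affine chart -/
theorem pres_val {v : Valuation M Γ} (hC : ∀ c : ℂ, v (algebraMap ℂ M c) ≤ 1)
    (hvx : v (algebraMap B M x) ≤ 1) {f : M}
    (hf : f = algebraMap B M x - algebraMap ℂ M (a i) ∨ f = algebraMap B M y - algebraMap ℂ M (b i))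
    {z : M} (hz : v z ≤ 1) : v (f * D z) ≤ 1 := by
  set xM := algebraMap B M x with hxM
  set yM := algebraMap B M y with hyM
  have hM : Eqn W xM yM := h.map (IsScalarTower.toAlgHom ℂ B M)
  have hvy : v yM ≤ 1 := hM.val_y hC hvx
  have hvf : v f ≤ 1 := by
    rcases hf with rfl | rfl
    exacts [Valuation.map_sub_le v hvx (hC _), Valuation.map_sub_le v hvy (hC _)]
  have hDc1 : ∀ c : ℂ, v (D (algebraMap ℂ M c)) ≤ 1 := fun c => by
    obtain ⟨c', hc'⟩ := hDc c
    rw [hc']; exact hC c'
  have hQ2 : ∀ g : Γ, g < 1 → g ≤ 1 := fun _ h => h.le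
  have hQ3 : ∀ g g' : Γ, g ≤ g' → g' ≤ 1 → g ≤ 1 := fun _ _ h h' => h.trans h'
  by_cases hcen : ∃ a₀ : ℂ, v (xM - algebraMap ℂ M a₀) < 1
  swap
  · -- the trivial valuation
    push Not at hcen
    have : FiniteDimensional (adjoin ℂ {xM}) M :=
      finDim_line h hgen _ (mem_adjoin_simple_self ℂ _)
    refine val_le_one_of_isIntegral (A := adjoin ℂ {xM}) v (fun c => ?_)
      (Algebra.IsIntegral.isIntegral _)
    obtain ⟨r, s, hc⟩ := (mem_adjoin_simple_iff ℂ _).1 c.2
    change v (c : M) ≤ 1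
    rw [hc, map_div₀]
    by_cases hs : s = 0
    · simp [hs]
    have h1 : v (aeval xM s) = 1 := le_antisymm (val_aeval_le hC hvx s) (not_lt.1 fun h0 => by
      obtain ⟨c', -, hc'⟩ := exists_root_of_val_lt hC hs h0
      exact absurd hc' (not_lt.2 (hcen c')))
    rw [h1, div_one]; exact val_aeval_le hC hvx r
  obtain ⟨a₀, ha₀⟩ := hcen
  have ht0B : x - algebraMap ℂ B a₀ ≠ 0 := fun h0 =>
    hx (sub_eq_zero.1 h0 ▸ isAlgebraic_algebraMap a₀)
  have htM : algebraMap B M (x - algebraMap ℂ B a₀) = xM - algebraMap ℂ M a₀ := by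
    rw [map_sub, ← IsScalarTower.algebraMap_apply]
  have ht0 : xM - algebraMap ℂ M a₀ ≠ 0 := htM ▸ (_root_.map_ne_zero _).2 ht0B
  have : FiniteDimensional (adjoin ℂ {xM - algebraMap ℂ M a₀}) M :=
    finDim_line h hgen _ (mem_adjoin_sub xM a₀)
  obtain ⟨b₀, hb₀⟩ := exists_res hC ht0 ha₀ (Algebra.IsAlgebraic.isAlgebraic yM) hvy
  have hab₀ : W.Equation a₀ b₀ := hM.centre hC ha₀ hb₀
  by_cases hA : D (algebraMap ℂ M a₀) = 0
  · have := log_p1 D (Q := fun g => g ≤ 1) (fun _ h => h) hQ2 hQ3 hC ht0 ha₀ hDc1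
      (by rw [map_sub, hDx, hA, sub_zero, map_zero]; exact zero_le) z hz
    rw [map_mul]; exact mul_le_one' hvf this
  by_cases hB : a₀ = a i ∧ b₀ = b i
  · obtain ⟨rfl, rfl⟩ := hB
    have := log_p1 ((xM - algebraMap ℂ M (a i)) • D) (Q := fun g => g ≤ 1) (fun _ h => h) hQ2 hQ3
      hC ht0 ha₀
      (fun c => by
        rw [Derivation.smul_apply, smul_eq_mul, map_mul]; exact mul_le_one' ha₀.le (hDc1 c))
      (by
        rw [Derivation.smul_apply, smul_eq_mul, map_mul, map_sub D, hDx, zero_sub,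
          Valuation.map_neg]
        exact mul_le_of_le_one_right' (hDc1 _)) z hz
    rw [Derivation.smul_apply, smul_eq_mul] at this
    rcases hf with rfl | rfl
    · exact this
    · rw [map_mul] at this ⊢
      exact (mul_le_mul_left (hM.val_sub_le hC (hab i) (hneg i) ha₀ hb₀) _).trans this
  have hne : b₀ ≠ W.negY a₀ b₀ := fun he => hA (deriv_two_torsion D hDW hab₀ he)
  obtain ⟨DB, hDB⟩ := exists_restrictDer D (algebraMap B M) (algebraMap B M).injective
    (deriv_mem_range hgen D hDx hDy hDc)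
  have hCB : ∀ c : ℂ, v.comap (algebraMap B M) (algebraMap ℂ B c) ≤ 1 := fun c => by
    rw [Valuation.comap_apply, ← IsScalarTower.algebraMap_apply]; exact hC c
  have het := etale_curve (v := v.comap (algebraMap B M)) h hgen hCB hne ht0B
    (by rw [Valuation.comap_apply, htM]; exact ha₀)
    (by rw [Valuation.comap_apply, map_sub, ← IsScalarTower.algebraMap_apply]; exact hb₀) DB
    (fun c => by
      rw [Valuation.comap_apply, hDB, ← IsScalarTower.algebraMap_apply]; exact hDc1 c)
    (by rw [Valuation.comap_apply, hDB, hDx, map_zero]; exact zero_le)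
  have hun := val_unram h hgen hU hC ht0B (by rw [htM]; exact ha₀) (mem_adjoin_sub x a₀)
    (fun l hl => by
      have e1 := const_eq_of_val_lt hC ha₀ hl.1
      have e2 := const_eq_of_val_lt hC hb₀ hl.2
      by_cases hli : l = i
      · exact hB (hli ▸ ⟨e1, e2⟩)
      · exact hA (e1 ▸ hDa l hli))
  have := log_lemma (K := B) v (hasMax_line hC ht0 ha₀) D (fun g => g ≤ 1) (fun _ h => h) hQ2 hQ3
    (fun c hc => by
      have := het c hc
      rwa [Valuation.comap_apply, hDB] at this)
    (fun w hw => by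
      obtain ⟨c, hc⟩ := exists_res hC ht0 ha₀ (Algebra.IsAlgebraic.isAlgebraic w) hw
      exact ⟨algebraMap ℂ B c, by rwa [← IsScalarTower.algebraMap_apply]⟩)
    (fun w hw _ => Or.inl (hun w hw)) z hz
  rw [map_mul]; exact mul_le_one' hvf this

/-- the chart at infinity -/
theorem pres_val_inf {v : Valuation M Γ} (hC : ∀ c : ℂ, v (algebraMap ℂ M c) ≤ 1)
    (hvx : v (algebraMap B M x)⁻¹ ≤ 1) {f : M}
    (hf : f = 1 - algebraMap ℂ M (a i) / algebraMap B M x ∨
      f = (algebraMap B M y - algebraMap ℂ M (b i)) / algebraMap B M x ^ 2)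
    {z : M} (hz : v z ≤ 1) : v (f * D z) ≤ 1 := by
  have hx0 : algebraMap B M x ≠ 0 :=
    (_root_.map_ne_zero _).2 fun h0 => hx (h0 ▸ isAlgebraic_zero)
  by_cases hx1 : v (algebraMap B M x) ≤ 1
  · rcases hf with rfl | rfl
    · have := pres_val hx h hgen hab hneg hU D hDx hDy hDc hDW i hDa hC hx1 (Or.inl rfl) hz
      rw [show (1 - algebraMap ℂ M (a i) / algebraMap B M x) * D z = (algebraMap B M x)⁻¹ *
        ((algebraMap B M x - algebraMap ℂ M (a i)) * D z) by field_simp, map_mul]
      exact mul_le_one' hvx this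
    · have := pres_val hx h hgen hab hneg hU D hDx hDy hDc hDW i hDa hC hx1 (Or.inr rfl) hz
      rw [show (algebraMap B M y - algebraMap ℂ M (b i)) / algebraMap B M x ^ 2 * D z =
        (algebraMap B M x)⁻¹ ^ 2 * ((algebraMap B M y - algebraMap ℂ M (b i)) * D z) by
          field_simp, map_mul, map_pow]
      exact mul_le_one' (pow_le_one' hvx _) this
  have hlt : v (algebraMap B M x)⁻¹ < 1 := by
    rw [map_inv₀]; exact inv_lt_one_of_one_lt₀ (not_le.1 hx1)
  have : FiniteDimensional (adjoin ℂ {(algebraMap B M x)⁻¹}) M :=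
    finDim_line h hgen _ (mem_adjoin_inv _)
  have h1 := log_p1 D (Q := fun g => g ≤ 1) (fun _ h => h) (fun _ h => h.le)
    (fun _ _ h h' => h.trans h') hC (inv_ne_zero hx0) hlt
    (fun c => by
      obtain ⟨c', hc'⟩ := hDc c
      rw [hc']; exact hC c')
    (by rw [Derivation.leibniz_inv, hDx, smul_zero, map_zero]; exact zero_le) z hz
  rw [map_mul]
  refine mul_le_one' ?_ h1
  rcases hf with rfl | rfl
  · refine Valuation.map_sub_le v (le_of_eq (map_one v)) ?_
    rw [div_eq_mul_inv, map_mul]; exact mul_le_one' (hC _) hvx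
  · rw [sub_div]
    refine Valuation.map_sub_le v ((h.map (IsScalarTower.toAlgHom ℂ B M)).val_y_div hC hx0 hvx) ?_
    rw [div_eq_mul_inv, map_mul, ← inv_pow, map_pow]
    exact mul_le_one' (hC _) (pow_le_one' hvx _)

end Pres

end Crest.Agent.T170.Log
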