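import Crest.Agent.T170.DescCore_74
import Crest.Agent.T170.LogD_89

/-!
# Row 170, descent (helper74): `CoreData` from `World`, part 2: the place over a puncture

* structure `Up X B` : `B = ℂ(x, y)` embedded in `U`;
* `Up.der_const`, `Up.der_B`, `Up.der_M`, `Up.finite_line`;
* `Emb.exists_place` : the fields `u`, `uK`, `uh`, `logd`, `wild` of `CoreData`.
-/

set_option autoImplicit false
set_option linter.unusedSectionVars false

namespace Crest.Agent.T170.Desc74

open scoped NNReal Polynomial Classical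
open WeierstrassCurve WeierstrassCurve.Affine Crest.Agent.T170.Fr Crest.Agent.T170.Ret
open IntermediateField

variable {p n : ℕ} [NeZero n] {U : Type} [Field U] [Algebra ℂ U] (X : World p n U)
  (B : Type) [Field B] [Algebra ℂ B] [Algebra B U] [IsScalarTower ℂ B U]

/-- `B = ℂ(x, y)` inside `U` -/
structure Up where
  x : B
  y : B
  hx : algebraMap B U x = X.x
  hy : algebraMap B U y = X.y
  gen : IntermediateField.adjoin ℂ {x, y} = ⊤

/-- the derivations preserve the complex constants -/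
theorem der_const (i : Fin n) (c : ℂ) :
    ∃ c' : ℂ, X.D i (algebraMap ℂ U c) = algebraMap ℂ U c' := by
  have : Algebra.IsAlgebraic X.F ℂ := ⟨X.algF⟩
  have h := Log.deriv_mem (X.D i) (IsScalarTower.toAlgHom X.F ℂ U).fieldRange
    (fun a => by
      obtain ⟨a', ha⟩ := X.DF i a
      rw [ha]; exact IntermediateField.algebraMap_mem _ _)
    (z := algebraMap ℂ U c) ⟨c, rfl⟩
    ((Algebra.IsSeparable.isSeparable X.F c).map (IsScalarTower.toAlgHom X.F ℂ U)
      (algebraMap ℂ U).injective)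
  obtain ⟨c', hc'⟩ := h
  exact ⟨c', hc'.symm⟩

/-- roots of unity are constants -/
theorem root_mem {ζ : ℂ} {m : ℕ} (hm : 0 < m) (hζ : ζ ^ m = 1) : ∃ c : X.C, (c : ℂ) = ζ := by
  have := X.Cac
  have h1 : _root_.IsIntegral X.C ζ :=
    ⟨Polynomial.X ^ m - Polynomial.C 1, Polynomial.monic_X_pow_sub_C _ hm.ne', by simp [hζ]⟩
  exact minpoly.mem_range_of_degree_eq_one X.C _
    (IsAlgClosed.degree_eq_one_of_irreducible X.C (minpoly.irreducible h1))

namespace Up

variable {X B} (Y : Up X B)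

theorem trans : Transcendental ℂ Y.x := fun h =>
  X.trans (Y.hx ▸ h.algHom (IsScalarTower.toAlgHom ℂ B U))

theorem eqn : ((X.W⁄ℂ)⁄B).Equation Y.x Y.y := by
  have h := X.ns.1
  rw [← Y.hx, ← Y.hy] at h
  have e : (X.W⁄ℂ)⁄B = X.W⁄B :=
    WeierstrassCurve.map_baseChange X.W (IsScalarTower.toAlgHom X.R ℂ B)
  rw [e]
  exact (baseChange_equation X.W (f := IsScalarTower.toAlgHom ℂ B U)
    (algebraMap B U).injective Y.x Y.y).1 h

include Y in
theorem der_B (i : Fin n) (z : B) : ∃ z' : B, X.D i (algebraMap B U z) = algebraMap B U z' := by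
  have hz : z ∈ IntermediateField.adjoin ℂ {Y.x, Y.y} := by rw [Y.gen]; trivial
  induction hz using IntermediateField.adjoin_induction with
  | mem x hx =>
    rcases hx with rfl | rfl
    · exact ⟨0, by rw [Y.hx, X.Dx, map_zero]⟩
    · exact ⟨0, by rw [Y.hy, X.Dy, map_zero]⟩
  | algebraMap k =>
    obtain ⟨k', hk'⟩ := der_const X i k
    exact ⟨algebraMap ℂ B k', by
      rw [← IsScalarTower.algebraMap_apply, ← IsScalarTower.algebraMap_apply, hk']⟩
  | add a b _ _ ha hb =>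
    obtain ⟨a', ha⟩ := ha
    obtain ⟨b', hb⟩ := hb
    exact ⟨a' + b', by rw [map_add, map_add, map_add, ha, hb]⟩
  | inv a _ ha =>
    obtain ⟨a', ha⟩ := ha
    exact ⟨-a⁻¹ ^ 2 * a', by
      rw [map_inv₀, Derivation.leibniz_inv, ha]; simp⟩
  | mul a b _ _ ha hb =>
    obtain ⟨a', ha⟩ := ha
    obtain ⟨b', hb⟩ := hb
    exact ⟨a * b' + b * a', by rw [map_mul, Derivation.leibniz, ha, hb]; simp⟩

include Y in
theorem der_M (M : IntermediateField B U) [Algebra.IsSeparable B M] (i : Fin n) (z : M) :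
    ∃ z' : M, X.D i (algebraMap M U z) = algebraMap M U z' := by
  have h := Log.deriv_mem (X.D i) M
    (fun a => by
      obtain ⟨a', ha⟩ := Y.der_B i a
      rw [ha]; exact IntermediateField.algebraMap_mem _ _)
    z.2 ((Algebra.IsSeparable.isSeparable B z).map M.val M.val.toRingHom.injective)
  exact ⟨⟨_, h⟩, rfl⟩

theorem finite_line (M : Type) [Field M] [Algebra B M] [Algebra ℂ M] [IsScalarTower ℂ B M]
    [FiniteDimensional B M] (a : ℂ) :
    FiniteDimensional ℂ⟮algebraMap B M (Y.x - algebraMap ℂ B a)⟯ M :=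
  Log.finDim_line ((Log.eqn_iff _ _ _).1 Y.eqn) Y.gen _ (by
    rw [map_sub, ← IsScalarTower.algebraMap_apply]
    exact Log.mem_adjoin_sub _ _)

include Y in
/-- the derivations on `M` -/
theorem exists_DM (M : IntermediateField B U) [Algebra.IsSeparable B M] (i : Fin n) :
    ∃ DM : Derivation ℤ M M, (∀ z : M, (DM z : U) = X.D i z) ∧
      ∀ c : ℂ, ∃ c' : ℂ, DM (algebraMap ℂ M c) = algebraMap ℂ M c' := by
  obtain ⟨DM, hDM⟩ := Log.exists_restrictDer (X.D i) (algebraMap M U) (algebraMap M U).injective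
    (Y.der_M M i)
  refine ⟨DM, hDM, fun c => ?_⟩
  obtain ⟨c', hc'⟩ := der_const X i c
  exact ⟨c', Subtype.ext ((hDM _).trans hc')⟩

end Up

variable {X B} {K E N : Type} [Field K] [Field E] [Field N] [Algebra X.C K] [Algebra K E]
  [Algebra E N] [Algebra X.C E] [Algebra X.C N] [Algebra K N] [IsScalarTower X.C K E]
  [IsScalarTower K E N] [IsScalarTower X.C E N] [IsScalarTower X.C K N] [Algebra X.F K]

namespace Emb

variable (J : Emb X K E N)

/-- the embedding `N → M` -/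
noncomputable def jM (M : IntermediateField B U) (hNM : ∀ z, J.j z ∈ M) : N →+* M :=
  J.j.toRingHom.codRestrict M hNM

@[simp] theorem coe_jM (M : IntermediateField B U) (hNM : ∀ z, J.j z ∈ M) (z : N) :
    (J.jM M hNM z : U) = J.j z := rfl

/-- the place over the wildly ramified puncture -/
theorem exists_place (hp : p.Prime) [Algebra.IsAlgebraic X.F K] [FiniteDimensional E N]
    (Y : Up X B) (M : IntermediateField B U) [FiniteDimensional B M] [IsGalois B M]
    (hNM : ∀ z, J.j z ∈ M) (D : Fin n → Derivation X.C N N) (d : Fin n → K → K)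
    (hD : ∀ i z, J.j (D i z) = X.D i (J.j z))
    (Dd : ∀ i z, D i (algebraMap K N z) = algebraMap K N (d i z))
    (i₀ : Fin n) {n₀ : ℕ} (hn : 0 < n₀) {ζ : ℂ} (hζ : IsPrimitiveRoot ζ n₀) {u₀ : AV B}
    (hu : AtPt u₀ Y.x Y.y (X.a i₀) (X.b i₀) n₀) {γ₀ : M ≃ₐ[B] M}
    (hγ : GenOver u₀ (algebraMap ℂ B ζ) γ₀) {h : N ≃ₐ[E] N}
    (hh : ∀ (z : N) (z' : M), (z' : U) = J.j z → (γ₀ z' : U) = J.j (h z))
    (hph : p ∣ orderOf h) :
    ∃ u : AV N, (∀ z : K, z ≠ 0 → u (algebraMap K N z) = 0) ∧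
      u (algebraMap E N (J.x - algebraMap K E (algebraMap X.F K (X.a i₀)))) =
        ((n₀ : ℤ) : WithTop ℤ) ∧
      (∀ (z : N) (k : ℤ), u z = (k : WithTop ℤ) →
        (k : WithTop ℤ) < u ((J.x - algebraMap K E (algebraMap X.F K (X.a i₀))) • D i₀ z +
          (((k : ℚ) / n₀ : ℚ) : N) * algebraMap K N (d i₀ (algebraMap X.F K (X.a i₀))) * z)) ∧
      ∃ (z : N) (k : ℤ), u z = (k : WithTop ℤ) ∧ p ∣ ((k : ℚ) / n₀).den := by
  have := charZero_of (X := X) K
  have := charZero_of (X := X) N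
  obtain ⟨w, hw, hrot⟩ := hγ
  let j := J.jM M hNM
  have hwC : ∀ c : ℂ, c ≠ 0 → w (algebraMap ℂ M c) = 0 := fun c hc => by
    rw [IsScalarTower.algebraMap_apply ℂ B M, hw]; exact hu.1.1 c hc
  have hK : ∀ k : K, ∃ c : ℂ, j (algebraMap K N k) = algebraMap ℂ M c := fun k => by
    obtain ⟨c, hc⟩ := J.exists_const k
    exact ⟨c, Subtype.ext hc⟩
  have uK : ∀ z : K, z ≠ 0 → w (j (algebraMap K N z)) = 0 := fun z hz => by
    obtain ⟨c, hc⟩ := hK z
    rw [hc]
    refine hwC c fun h0 => hz ?_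
    rw [h0, map_zero, map_eq_zero, map_eq_zero] at hc
    exact hc
  have ht : j (algebraMap E N (J.x - algebraMap K E (algebraMap X.F K (X.a i₀)))) =
      algebraMap B M (Y.x - algebraMap ℂ B (X.a i₀)) := Subtype.ext (by
    change J.jE _ = algebraMap B U _
    rw [map_sub, map_sub, jE_algebraMap, jK_F, Y.hx, ← IsScalarTower.algebraMap_apply, jE_apply,
      J.jx]
    rfl)
  have uh : w (algebraMap B M (Y.x - algebraMap ℂ B (X.a i₀))) = ((n₀ : ℤ) : WithTop ℤ) := by
    rw [hw]; exact hu.1.2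
  refine ⟨w.comap j, uK, ?_, fun z k hz => ?_, ?_⟩
  · change w (j _) = _
    rw [ht, uh]
  · obtain ⟨DM, hDM', hDc⟩ := Y.exists_DM M i₀
    have hDM : ∀ z, algebraMap M U (DM z) = X.D i₀ (algebraMap M U z) := hDM'
    have := Y.finite_line M (X.a i₀)
    have hi := (algebraMap M U).injective
    have hj : ∀ z, algebraMap M U (j z) = J.j z := fun _ => rfl
    have key := Log.logd_line (C := ℂ) w hwC hn uh DM hDc
      (e := j (algebraMap K N (d i₀ (algebraMap X.F K (X.a i₀)))))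
      (by
        rcases eq_or_ne (d i₀ (algebraMap X.F K (X.a i₀))) 0 with h0 | h0
        · rw [h0, map_zero, map_zero, w.map_zero]; exact le_top
        · rw [uK _ h0])
      (hi (by
        rw [hDM, ← ht, map_neg, hj, hj, ← Dd, hD, map_sub, map_sub, map_sub, J.jx, X.Dx, zero_sub,
          ← IsScalarTower.algebraMap_apply]))
      (j z) k hz
    have e : j ((J.x - algebraMap K E (algebraMap X.F K (X.a i₀))) • D i₀ z +
        (((k : ℚ) / n₀ : ℚ) : N) * algebraMap K N (d i₀ (algebraMap X.F K (X.a i₀))) * z) =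
        algebraMap B M (Y.x - algebraMap ℂ B (X.a i₀)) * DM (j z) +
          (((k : ℚ) / n₀ : ℚ) : M) * j (algebraMap K N (d i₀ (algebraMap X.F K (X.a i₀)))) *
            j z := by
      rw [Algebra.smul_def, map_add, map_mul, map_mul, map_mul, ht, map_ratCast]
      congr 2
      exact hi (by rw [hDM, hj, hj, hD])
    change _ < w (j _)
    rw [e]
    exact key
  · obtain ⟨c, hc⟩ := root_mem X hn hζ.pow_eq_one
    have hζK : IsPrimitiveRoot (algebraMap X.C K c) n₀ := by
      refine IsPrimitiveRoot.map_of_injective ?_ (algebraMap X.C K).injective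
      refine IsPrimitiveRoot.of_map_of_injective (f := X.C.subtype) ?_ X.C.subtype.injective
      rw [← hc] at hζ
      exact hζ
    have e : j (algebraMap K N (algebraMap X.C K c)) = algebraMap B M (algebraMap ℂ B ζ) :=
      Subtype.ext (by
        change J.jK _ = algebraMap B U _
        rw [AlgHom.commutes, ← IsScalarTower.algebraMap_apply, ← hc]
        rfl)
    refine Log.wild hp (w.comap j) uK hζK hn (g := h) (fun f k hf => ?_)
      (isOfFinOrder_of_finite h) hph
    have h1 := hrot (j f) k hf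
    have e2 : γ₀ (j f) = j (h f) := Subtype.ext (hh f _ rfl)
    change _ < w (j _)
    rw [map_sub, map_mul, map_zpow₀, e, ← e2]
    exact h1

/-- from the valuation rings of `M` to integrality in `N` -/
theorem isIntegral_of_val [Algebra.IsAlgebraic X.F K] (M : IntermediateField B U)
    (hNM : ∀ z, J.j z ∈ M) (ξ : N) {z z' : N}
    (hz : _root_.IsIntegral (Algebra.adjoin K {ξ}) z)
    (h : ∀ W : ValuationSubring M, (∀ c : ℂ, W.valuation (algebraMap ℂ M c) ≤ 1) →
      W.valuation (J.jM M hNM ξ) ≤ 1 → W.valuation (J.jM M hNM z) ≤ 1 →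
      W.valuation (J.jM M hNM z') ≤ 1) :
    _root_.IsIntegral (Algebra.adjoin K {ξ}) z' := by
  refine Log.isIntegral_of_forall_vs z' fun V hV => ?_
  obtain ⟨W, hW⟩ := Log.exists_vs_ext (J.jM M hNM) V
  refine (hW _).1 ((W.valuation_le_one_iff _).1 (h W (fun c => ?_) ?_ ?_))
  · have : Algebra.IsAlgebraic X.F ℂ := ⟨X.algF⟩
    refine Log.val_le_one_of_isIntegral (A := X.F) W.valuation (fun a => ?_)
      (Algebra.IsIntegral.isIntegral (R := X.F) c).algebraMap
    have e : algebraMap X.F M a = J.jM M hNM (algebraMap K N (algebraMap X.F K a)) :=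
      Subtype.ext (J.jF a).symm
    rw [e, W.valuation_le_one_iff, hW]
    exact hV (algebraMap K _ (algebraMap X.F K a))
  · rw [W.valuation_le_one_iff, hW]
    exact hV ⟨ξ, Algebra.self_mem_adjoin_singleton K ξ⟩
  · rw [W.valuation_le_one_iff, hW]
    exact Log.vs_mem_of_isIntegral V hV hz

/-- the fields `pres₀`, `pres₁` -/
theorem pres [Algebra.IsAlgebraic X.F K]
    (Y : Up X B) (M : IntermediateField B U) [FiniteDimensional B M] [IsGalois B M]
    (hU : UnrE M Y.x Y.y (fun i => (X.a i : ℂ)) (fun i => (X.b i : ℂ)))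
    (hNM : ∀ z, J.j z ∈ M) (D : Fin n → Derivation X.C N N)
    (hD : ∀ i z, J.j (D i z) = X.D i (J.j z)) :
    (∀ i, ∀ h ∈ ({J.x - algebraMap K E (algebraMap X.F K (X.a i)),
        J.y - algebraMap K E (algebraMap X.F K (X.b i))} : Set E), ∀ z : N,
      _root_.IsIntegral (Algebra.adjoin K {algebraMap E N J.x}) z →
      _root_.IsIntegral (Algebra.adjoin K {algebraMap E N J.x}) (h • D i z)) ∧
    ∀ i, ∀ h ∈ ({1 - algebraMap K E (algebraMap X.F K (X.a i)) / J.x,
        (J.y - algebraMap K E (algebraMap X.F K (X.b i))) / J.x ^ 2} : Set E), ∀ z : N,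
      _root_.IsIntegral (Algebra.adjoin K {(algebraMap E N J.x)⁻¹}) z →
      _root_.IsIntegral (Algebra.adjoin K {(algebraMap E N J.x)⁻¹}) (h • D i z) := by
  have := X.ell
  let j := J.jM M hNM
  have hns : ∀ i, (X.W⁄ℂ).Nonsingular (X.a i : ℂ) (X.b i : ℂ) := fun i =>
    (baseChange_nonsingular X.W (f := Algebra.ofId ℂ U) (algebraMap ℂ U).injective _ _).1 (X.nsO i)
  have hneg : ∀ i, (X.b i : ℂ) ≠ (X.W⁄ℂ).negY (X.a i : ℂ) (X.b i : ℂ) := fun i h => by
    have h1 := X.vW i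
    have h2 := baseChange_negY (W' := X.W) (Algebra.ofId ℂ U) (X.a i : ℂ) (X.b i : ℂ)
    rw [← h] at h2
    have h3 : (X.W⁄U).negY (algebraMap X.F U (X.a i)) (algebraMap X.F U (X.b i)) =
        algebraMap X.F U (X.b i) := h2
    rw [h3, sub_self, map_zero] at h1
    exact zero_ne_one h1
  have jx : j (algebraMap E N J.x) = algebraMap B M Y.x := Subtype.ext (J.jx.trans Y.hx.symm)
  have jy : j (algebraMap E N J.y) = algebraMap B M Y.y := Subtype.ext (J.jy.trans Y.hy.symm)
  have jF : ∀ a : X.F, j (algebraMap E N (algebraMap K E (algebraMap X.F K a))) =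
      algebraMap ℂ M (a : ℂ) := fun a => Subtype.ext (by
    change J.jE _ = _
    rw [jE_algebraMap, jK_F]; rfl)
  choose DM hDM hDc using Y.exists_DM M
  have hjD : ∀ i z, j (D i z) = DM i (j z) := fun i z =>
    Subtype.ext ((hD i z).trans (hDM i (j z)).symm)
  have hDx : ∀ i, DM i (algebraMap B M Y.x) = 0 := fun i => Subtype.ext ((hDM i _).trans (by
    change X.D i (algebraMap B U Y.x) = 0
    rw [Y.hx, X.Dx]))
  have hDy : ∀ i, DM i (algebraMap B M Y.y) = 0 := fun i => Subtype.ext ((hDM i _).trans (by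
    change X.D i (algebraMap B U Y.y) = 0
    rw [Y.hy, X.Dy]))
  have hR : ∀ i (r : X.R), DM i (algebraMap ℂ M (algebraMap X.R ℂ r)) = 0 := fun i r =>
    Subtype.ext ((hDM i _).trans ((X.D i).map_algebraMap (r : X.C)))
  have hDW : ∀ i, ∀ c ∈ ({(X.W⁄ℂ).a₁, (X.W⁄ℂ).a₂, (X.W⁄ℂ).a₃, (X.W⁄ℂ).a₄, (X.W⁄ℂ).a₆} : Set ℂ),
      DM i (algebraMap ℂ M c) = 0 := by
    rintro i c (rfl | rfl | rfl | rfl | rfl) <;> exact hR i _
  have hDa : ∀ i l, l ≠ i → DM i (algebraMap ℂ M (X.a l : ℂ)) = 0 := fun i l hl =>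
    Subtype.ext ((hDM i _).trans (X.Da l i hl.symm))
  refine ⟨fun i h hh z hz => ?_, fun i h hh z hz => ?_⟩
  · refine J.isIntegral_of_val M hNM _ hz fun W hC h1 h2 => ?_
    change W.valuation (j _) ≤ 1
    rw [Algebra.smul_def, map_mul, hjD]
    refine Log.pres_val Y.trans ((Log.eqn_iff _ _ _).1 Y.eqn) Y.gen (fun i => (hns i).1) hneg hU
      (DM i) (hDx i) (hDy i) (hDc i) (hDW i) i (hDa i) hC (jx ▸ h1) ?_ h2
    rcases hh with rfl | rfl
    · left; rw [map_sub, map_sub, jx, jF]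
    · right; rw [map_sub, map_sub, jy, jF]
  · refine J.isIntegral_of_val M hNM _ hz fun W hC h1 h2 => ?_
    change W.valuation (j _) ≤ 1
    rw [Algebra.smul_def, map_mul, hjD]
    refine Log.pres_val_inf Y.trans ((Log.eqn_iff _ _ _).1 Y.eqn) Y.gen (fun i => (hns i).1) hneg
      hU (DM i) (hDx i) (hDy i) (hDc i) (hDW i) i (hDa i) hC
      (by rw [← jx, ← map_inv₀ j]; exact h1) ?_ h2
    rcases hh with rfl | rfl
    · left; rw [map_sub, map_sub, map_div₀, map_div₀, map_one, map_one, jx, jF]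
    · right; rw [map_div₀, map_div₀, map_sub, map_sub, map_pow, map_pow, jx, jy, jF]

/-- **`CoreData` from `World`** -/
theorem coreData (hp : p.Prime) [Algebra.IsAlgebraic X.F K] [FiniteDimensional E N]
    (cpl : Cpl (J.vE.comap (algebraMap K E)))
    (hvd : ∀ i (k : K), X.v (X.D i (J.jK k)) ≤ X.v (J.jK k))
    (γ : N ≃ₐ[X.C] N)
    (hF : ∀ z : X.F, γ (algebraMap K N (algebraMap X.F K z)) =
      algebraMap K N (algebraMap X.F K (X.σ z)))
    (hx : J.j (γ (algebraMap E N J.x)) = X.g X.x) (hy : J.j (γ (algebraMap E N J.y)) = X.g X.y)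
    (hK : ∀ k : K, ∃ k' : K, γ (algebraMap K N k) = algebraMap K N k') (hfin : IsOfFinOrder γ)
    (V : ValuationSubring K) (fine : Fine (C := X.C) (J.vE.comap (algebraMap K E)) V)
    (hV : ∀ k k' : K, γ (algebraMap K N k) = algebraMap K N k' → (k' ∈ V ↔ k ∈ V))
    (Y : Up X B) (M : IntermediateField B U) [FiniteDimensional B M] [IsGalois B M]
    (hU : UnrE M Y.x Y.y (fun i => (X.a i : ℂ)) (fun i => (X.b i : ℂ)))
    (hNM : ∀ z, J.j z ∈ M)
    (i₀ : Fin n) {n₀ : ℕ} (hn : 0 < n₀) {ζ : ℂ} (hζ : IsPrimitiveRoot ζ n₀) {u₀ : AV B}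
    (hu : AtPt u₀ Y.x Y.y (X.a i₀) (X.b i₀) n₀) {γ₀ : M ≃ₐ[B] M}
    (hγ : GenOver u₀ (algebraMap ℂ B ζ) γ₀) {h : N ≃ₐ[E] N}
    (hh : ∀ (z : N) (z' : M), (z' : U) = J.j z → (γ₀ z' : U) = J.j (h z))
    (hph : p ∣ orderOf h) : Nonempty (CoreData p n X.R X.C K E N) := by
  have := charZero_of (X := X) E
  obtain ⟨D, d, hD, Dd⟩ := J.exists_der
  obtain ⟨h0, h1⟩ := J.pres Y M hU hNM D hD
  obtain ⟨u, uK, uh, logd, wild⟩ := J.exists_place hp Y M hNM D d hD Dd i₀ hn hζ hu hγ hh hph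
  exact J.coreData_of hp.ne_zero cpl hvd γ hF hx hy hK hfin V fine hV D d hD Dd h0 h1 i₀ u n₀ hn
    uK uh logd wild

end Emb

end Crest.Agent.T170.Desc74
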