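import Crest.Agent.T170.EllC_61

/-!
# Row 170, module D (helper61), part D: invariance of the Gauss valuation under translations

* `GaussX.add_pt` : `x(ξ + T)` has the Gauss property if `x(ξ)` has and `T` is algebraic over `K`.
* `GaussX.val_map` : a semilinear translation preserves the Gauss valuation.
* `GaussX.val_deriv_le` : derivations killing `x, y` are bounded.
* `exists_gaussX` : existence of the Gauss valuation on `K(E)`.
-/

set_option autoImplicit false

namespace Crest.Agent.T170.Ell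

open WeierstrassCurve WeierstrassCurve.Affine Polynomial Place

namespace Place

variable {K L Om : Type*} [Field K] [Field L] [Field Om]

/-- The field of values of a place. -/
def resField (P : Place K Om) : Subfield Om where
  carrier := {a | ∃ c, P.Sp c a}
  mul_mem' := fun ⟨_, h⟩ ⟨_, h'⟩ => ⟨_, h.mul h'⟩
  one_mem' := ⟨_, sp_one⟩
  add_mem' := fun ⟨_, h⟩ ⟨_, h'⟩ => ⟨_, h.add h'⟩
  zero_mem' := ⟨_, sp_zero⟩
  neg_mem' := fun ⟨_, h⟩ => ⟨_, h.neg⟩
  inv_mem' := fun a ⟨_, h⟩ => by
    rcases eq_or_ne a 0 with rfl | ha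
    exacts [⟨_, by simpa using sp_zero⟩, ⟨_, h.inv ha⟩]

theorem mem_resField {P : Place K Om} {a : Om} : a ∈ P.resField ↔ ∃ c, P.Sp c a := Iff.rfl

/-- Every place is a surjective place onto its field of values. -/
theorem exists_onto (P : Place K Om) : ∃ P' : Place K P.resField,
    (∀ c d, P'.Sp c d ↔ P.Sp c (d : Om)) ∧ ∀ d, ∃ c, P'.Sp c d := by
  obtain ⟨P', h⟩ := P.exists_codRestrict P.resField.subtype fun x b hb => ⟨⟨b, x, hb⟩, rfl⟩
  exact ⟨P', h, fun ⟨_, c, hc⟩ => ⟨c, (h _ _).mpr hc⟩⟩

/-- Values of algebraic elements are algebraic. -/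
theorem isAlgebraic_sp {κ : Type*} [Field κ] [Algebra K L] [Algebra κ Om] {P : Place K κ}
    {Q : Place L Om} (hPQ : ∀ c d, P.Sp c d → Q.Sp (algebraMap K L c) (algebraMap κ Om d))
    {t : L} {a : Om} (ht : IsAlgebraic K t) (h : Q.Sp t a) : IsAlgebraic κ a := by
  obtain ⟨f, hf, e⟩ := ht
  obtain ⟨c, p, pb, rfl, hp, h0⟩ := P.exists_polySp_content f
  have hc : c ≠ 0 := by
    rintro rfl
    exact hf (by simp)
  have e' : aeval t p = 0 := by simpa [hc] using e
  have h1 : Q.Sp (aeval t p) (aeval a pb) := hp.sp_eval₂ hPQ h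
  rw [e'] at h1
  exact ⟨pb, h0, h1.unique sp_zero⟩

/-- The structure map to the values of a place that is finite on `R`. -/
noncomputable def valHom (P : Place L Om) {R : Type*} [CommRing R] (i : R →+* L)
    (h : ∀ r, i r ∈ P.A) : R →+* Om :=
  P.φ.comp (i.codRestrict P.A.toSubring h)

theorem sp_valHom (P : Place L Om) {R : Type*} [CommRing R] (i : R →+* L) (h : ∀ r, i r ∈ P.A)
    (r : R) : P.Sp (i r) (P.valHom i h r) := ⟨h r, rfl⟩

end Place

variable {R K L : Type*} [CommRing R] [Field K] [Field L] [Algebra R K] [Algebra R L]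
  [Algebra K L] [IsScalarTower R K L] {Γ : Type*} [LinearOrderedCommGroupWithZero Γ]
  {v : Valuation L Γ} {W : Affine R} {x y : L}

theorem red_mem_algPts [W.IsElliptic] [DecidableEq L] {κ Om : Type*} [Field κ] [Field Om]
    [DecidableEq Om] [Algebra κ Om] [Algebra R κ] [Algebra R Om] [IsScalarTower R κ Om]
    {P : Place K κ} {Q : Place L Om} (hQ : Q.Over R)
    (hPQ : ∀ c d, P.Sp c d → Q.Sp (algebraMap K L c) (algebraMap κ Om d)) {T : (W⁄L).Point}
    (hT : T ∈ algPts W K L) : red W hQ T ∈ algPts W κ Om := by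
  rcases T with _ | ⟨s, t, hst⟩
  · rw [← Point.zero_def, map_zero]; exact zero_mem _
  by_cases hs : s ∈ Q.A
  · rw [red_some_of_sp hQ hst (sp_val hs) (sp_val (y_mem hQ hst.1 hs)), some_mem_algPts_iff]
    exact isAlgebraic_sp hPQ ((some_mem_algPts_iff _).mp hT) (sp_val hs)
  · rw [red_some_of_not_mem hQ hst hs]; exact zero_mem _

/-- Translating the generic point by an algebraic point preserves the Gauss property. -/
theorem GaussX.add_pt [W.IsElliptic] [DecidableEq L] (hg : GaussX v K x)
    (hR : ∀ r : R, v (algebraMap R L r) ≤ 1) (ns : (W⁄L).Nonsingular x y) {T : (W⁄L).Point}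
    (hT : T ∈ algPts W K L) {x' y' : L} {ns' : (W⁄L).Nonsingular x' y'}
    (e : Point.some x' y' ns' = Point.some x y ns + T) : GaussX v K x' := by
  classical
  let Q := Place.ofValuationSubring v.valuationSubring
  have hQ : Q.IsOf v := isOf_ofValuationSubring v
  obtain ⟨P, hP, hs⟩ := (Q.comap (algebraMap K L)).exists_onto
  have hPQ : ∀ c d, P.Sp c d → Q.Sp (algebraMap K L c) (algebraMap _ _ d) := fun c d h =>
    (hP c d).mp h
  have hm : ∀ r, algebraMap R K r ∈ P.A := fun r => (mem_iff_of_sp hPQ _).mp (by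
    rw [← IsScalarTower.algebraMap_apply]; exact hR r)
  let _ := (P.valHom _ hm).toAlgebra
  let _ := ((Q.comap (algebraMap K L)).resField.subtype.comp (P.valHom _ hm)).toAlgebra
  have : IsScalarTower R (Q.comap (algebraMap K L)).resField
      (IsLocalRing.ResidueField v.valuationSubring) := .of_algebraMap_eq fun _ => rfl
  have hQR : Q.Over R := fun r => by
    rw [IsScalarTower.algebraMap_apply R K L]
    exact hPQ _ _ (P.sp_valHom _ hm r)
  have hx := sp_val ((hQ x).mpr hg.le_one)
  have hy := sp_val (y_mem hQR ns.1 hx.mem)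
  have h1 : red W hQR (.some x y ns) ∉ algPts W (Q.comap (algebraMap K L)).resField _ := by
    rw [red_some_of_sp hQR ns hx hy, some_mem_algPts_iff]
    exact hg.transcendental_sp hQ hPQ hs hx
  have h2 : red W hQR (.some x' y' ns') ∉ algPts W (Q.comap (algebraMap K L)).resField _ := by
    intro hm
    rw [e, map_add] at hm
    exact h1 (by simpa using sub_mem hm (red_mem_algPts hQR hPQ hT))
  have hx' : x' ∈ Q.A := by
    by_contra hn
    rw [red_some_of_not_mem hQR ns' hn] at h2
    exact h2 (zero_mem _)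
  rw [red_some_of_sp hQR ns' (sp_val hx') (sp_val (y_mem hQR ns'.1 hx')),
    some_mem_algPts_iff] at h2
  exact gaussX_of_transcendental hQ hPQ (sp_val hx') h2

omit [Algebra R K] [Algebra R L] [IsScalarTower R K L] in
theorem GaussX.comap {K' L' : Type*} [Field K'] [Field L'] [Algebra K' L'] {τ : L' →+* L}
    {σ : K' →+* K} (hτ : ∀ c, τ (algebraMap K' L' c) = algebraMap K L (σ c)) {x' : L'}
    (hg : GaussX v K (τ x')) : GaussX (v.comap τ) K' x' := fun f γ => by
  have e : τ (aeval x' f) = aeval (τ x') (f.map σ) := by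
    rw [aeval_def, aeval_def, hom_eval₂, eval₂_map]
    congr 1
    exact RingHom.ext hτ
  rw [Valuation.comap_apply, e, hg]
  simp only [coeff_map, Valuation.comap_apply, hτ]

/-- **A semilinear translation preserves the Gauss valuation.** -/
theorem GaussX.val_map [W.IsElliptic] [DecidableEq L] (hg : GaussX v K x)
    (hR : ∀ r : R, v (algebraMap R L r) ≤ 1) (ns : (W⁄L).Nonsingular x y)
    (hgen : IntermediateField.adjoin K {x, y} = ⊤) {S : Type*} [CommRing S] [Algebra R S]
    [Algebra S L] [IsScalarTower R S L] (τ : L →ₐ[S] L) (σ : K →+* K)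
    (hτ : ∀ c, τ (algebraMap K L c) = algebraMap K L (σ c))
    (hσ : ∀ c, v (algebraMap K L (σ c)) = v (algebraMap K L c)) {T : (W⁄L).Point}
    (hT : T ∈ algPts W K L) (e : Point.map τ (.some x y ns) = Point.some x y ns + T) (z : L) :
    v (τ z) = v z := by
  rw [Point.map_some] at e
  have h1 : GaussX (v.comap (τ : L →+* L)) K x := GaussX.comap (σ := σ) hτ (hg.add_pt hR ns hT e)
  have h2 := hg.valuation_ext h1 hR ⟨ns.1, hg.transcendental, hgen⟩ fun c => by
    rw [Valuation.comap_apply, RingHom.coe_coe, hτ, hσ]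
  exact (congrArg (fun w : Valuation L Γ => w z) h2).symm

omit [Algebra R K] [IsScalarTower R K L] in
/-- Points defined over a field `C` of elements algebraic over `K` are algebraic points. -/
theorem baseChange_mem_algPts' [DecidableEq L] [Algebra R K] [IsScalarTower R K L] {C : Type*}
    [Field C] [DecidableEq C] [Algebra R C] [Algebra C L] [IsScalarTower R C L]
    (hC : ∀ c : C, IsAlgebraic K (algebraMap C L c)) (T : (W⁄C).Point) :
    Point.baseChange C L T ∈ algPts W K L := by
  rcases T with _ | ⟨a, b, h⟩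
  · exact zero_mem _
  · exact (some_mem_algPts_iff _).mpr (hC a)

/-- A derivation which is bounded on `K` and kills `x`, `y` is bounded on `K(x, y)`.  The derivation
may take its values in (and be defined on) a larger field `N`. -/
theorem GaussX.exists_deriv_eq (hg : GaussX v K x) (hR : ∀ r : R, v (algebraMap R L r) ≤ 1)
    (h : IsGen W K x y) {A N : Type*} [CommRing A] [Field N] [Algebra A N] [Algebra L N]
    (D : Derivation A N N) (d : K → K)
    (hd : ∀ c, D (algebraMap L N (algebraMap K L c)) = algebraMap L N (algebraMap K L (d c)))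
    {β : Γ} (hv : ∀ c, v (algebraMap K L (d c)) ≤ β * v (algebraMap K L c))
    (hx : D (algebraMap L N x) = 0) (hy : D (algebraMap L N y) = 0) (z : L) :
    ∃ z', D (algebraMap L N z) = algebraMap L N z' ∧ v z' ≤ β * v z := by
  let B : L → Γ → Prop := fun z γ => v z ≤ γ ∧ ∃ z', D (algebraMap L N z) = algebraMap L N z' ∧
    v z' ≤ β * γ
  have hadd : ∀ {z w γ}, B z γ → B w γ → B (z + w) γ := by
    rintro z w γ ⟨h1, z', e, h2⟩ ⟨h3, w', e', h4⟩
    exact ⟨v.map_add_le h1 h3, z' + w', by rw [map_add, map_add, e, e', map_add],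
      v.map_add_le h2 h4⟩
  have hmul : ∀ {z w γ δ}, B z γ → B w δ → B (z * w) (γ * δ) := by
    rintro z w γ δ ⟨h1, z', e, h2⟩ ⟨h3, w', e', h4⟩
    refine ⟨by rw [map_mul]; exact mul_le_mul' h1 h3, z * w' + w * z', ?_, v.map_add_le ?_ ?_⟩
    · rw [map_mul, Derivation.leibniz, e, e', map_add, map_mul, map_mul, smul_eq_mul, smul_eq_mul]
    · rw [map_mul, mul_left_comm]; exact mul_le_mul' h1 h4
    · rw [map_mul, mul_comm γ δ, mul_left_comm]; exact mul_le_mul' h3 h2
  have hc : ∀ {c γ}, v (algebraMap K L c) ≤ γ → B (algebraMap K L c) γ := fun {c _} h1 =>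
    ⟨h1, _, hd c, (hv c).trans (mul_le_mul' le_rfl h1)⟩
  have h0 : ∀ {z}, v z ≤ 1 → D (algebraMap L N z) = 0 → B z 1 := fun h1 h2 =>
    ⟨h1, 0, by rw [h2, map_zero], by simp⟩
  have hp : ∀ {p : K[X]}, (∀ i, v (algebraMap K L (p.coeff i)) ≤ 1) → B (aeval x p) 1 := by
    intro p hp
    rw [aeval_eq_sum_range]
    refine Finset.sum_induction _ (B · 1) (fun _ _ => hadd) (h0 (by simp) (by simp)) fun i _ => ?_
    rw [Algebra.smul_def]
    simpa using hmul (hc (hp i)) (h0 (z := x ^ i)
      (by rw [map_pow]; exact pow_le_one₀ zero_le hg.le_one)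
      (by rw [map_pow, Derivation.leibniz_pow, hx]; simp))
  have hinv : ∀ {z}, v z = 1 → B z 1 → B z⁻¹ 1 := by
    rintro z h1 ⟨-, z', e, h2⟩
    refine ⟨by simp [h1], -z⁻¹ ^ 2 * z', ?_, by simpa [h1] using h2⟩
    rw [map_inv₀, Derivation.leibniz_inv, e]
    simp
  obtain ⟨c, p, q, r, h1, h2, h3, -, h5, h6, e⟩ := hg.exists_decomp hR h z
  have := hmul (hc (c := c) le_rfl) (hmul (hadd (hp h1) (by
    simpa using hmul (hp h2) (h0 (val_y_le_one hR h.eqn hg.le_one) hy))) (hinv h5 (hp h3)))
  rw [← div_eq_mul_inv, ← e, mul_one, mul_one, ← h6] at this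
  exact this.2

/-- **Existence of the Gauss valuation** on the function field. -/
theorem exists_gaussX (h : IsGen W K x y) (w : Valuation K Γ)
    (hR : ∀ r : R, w (algebraMap R K r) ≤ 1) :
    ∃ v : Valuation L Γ, (∀ c, v (algebraMap K L c) = w c) ∧ GaussX v K x := by
  let P := Place.ofValuationSubring w.valuationSubring
  have hP : P.IsOf w := isOf_ofValuationSubring w
  let κ := IsLocalRing.ResidueField w.valuationSubring
  let _ : Algebra R κ := (P.valHom (algebraMap R K) hR).toAlgebra
  have hb := isGen_functionField W κ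
  let Lb := (W⁄κ).FunctionField
  let Om := AlgebraicClosure Lb
  have hP' : (P.map (algebraMap κ Om)).Over R := fun r => by
    rw [IsScalarTower.algebraMap_apply R κ Om]
    exact (P.sp_valHom _ hR r).map _
  obtain ⟨Q, hc, hx, hy⟩ := h.exists_place_over _ hP'
    ((W.baseChange_equation (f := IsScalarTower.toAlgHom R Lb Om)
      (algebraMap Lb Om).injective _ _).mpr hb.eqn)
  have hc' : ∀ c d, P.Sp c d → Q.Sp (algebraMap K L c) (algebraMap κ Om d) := fun c d hd =>
    hc _ _ (hd.map _)
  have ht := (transcendental_algebraMap_iff (algebraMap Lb Om).injective).mpr hb.trans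
  obtain ⟨v, h1, h2⟩ := exists_valuation w Q (algebraMap K L)
    (fun c => (mem_iff_of_sp hc' c).trans (hP c)) fun z => by
      obtain ⟨c, p, q, r, pb, qb, rb, hp, hq, hr, h0, hr0, rfl⟩ := h.exists_decomp P z
      have hr1 := fun e => ht ⟨rb, hr0, e⟩
      refine ⟨c, _, _, div_ne_zero (fun e => ?_) hr1, ((hp.sp_eval₂ hc' hx).add
        ((hq.sp_eval₂ hc' hx).mul hy)).div (hr.sp_eval₂ hc' hx) hr1, rfl⟩
      have e' := hb.basis_eq_zero (p := pb) (q := qb) ((algebraMap Lb Om).injective (by
        rw [map_add, map_mul, ← aeval_algebraMap_apply, ← aeval_algebraMap_apply, map_zero]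
        exact e))
      simp [e'.1, e'.2] at h0
  exact ⟨v, h1, gaussX_of_transcendental h2 hc' hx ht⟩

end Crest.Agent.T170.Ell
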