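import Crest.Agent.T170.LogA_89

/-!
# Row 170, module LOG (helper89), part B: étale lemma, places over the line

* `etale_lemma` ; `restrictDer`, `deriv_mem` ; `exists_vs_ext` ;
* for a valuation `v` of `M`, trivial on the constants `C`, `v t < 1`, `M / C(t)` finite:
  `exists_res` (residue field `C`), `exists_pow_eq` (discreteness), `log_p1` (log lemma),
  `exists_unif` (uniformiser).
-/

set_option autoImplicit false

namespace Crest.Agent.T170.Log

open Polynomial

section Etale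

variable {R₀ K N Γ : Type*} [CommRing R₀] [Field K] [Field N] [Algebra R₀ N] [Algebra K N]
  [LinearOrderedCommGroupWithZero Γ]

open Pointwise in
/-- **étale lemma** -/
theorem etale_lemma [FiniteDimensional K N] [Algebra.IsSeparable K N] (v : Valuation N Γ)
    (Δ : Derivation R₀ N N) (α : N) (hgen : Algebra.adjoin K {α} = ⊤) (f : K[X]) (hf : f.Monic)
    (hfc : ∀ i, v (algebraMap K N (f.coeff i)) ≤ 1) (hfα : aeval α f = 0)
    (hf' : v (aeval α (derivative f)) = 1)
    (hK : ∀ a : K, v (algebraMap K N a) ≤ 1 → v (Δ (algebraMap K N a)) ≤ 1) :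
    ∀ z : N, v z ≤ 1 → v (Δ z) ≤ 1 := by
  classical
  let R : ValuationSubring K := (v.comap (algebraMap K N)).valuationSubring
  have hR : ∀ a : R, v (algebraMap R N a) ≤ 1 := fun a => a.2
  have hRΔ : ∀ a : R, v (Δ (algebraMap R N a)) ≤ 1 := fun a => hK a a.2
  obtain ⟨f₀, hf₀, -, hf₀m⟩ := Polynomial.lifts_and_degree_eq_and_monic
    (f := algebraMap R K) (p := f)
    ((Polynomial.lifts_iff_coeff_lifts _).2 fun i => ⟨⟨f.coeff i, hfc i⟩, rfl⟩) hf
  have hf₀α : aeval α f₀ = 0 := by rw [← hfα, ← hf₀, aeval_map_algebraMap]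
  have hint : IsIntegral R α := ⟨f₀, hf₀m, by rwa [← aeval_def]⟩
  have hα : v α ≤ 1 := val_le_one_of_isIntegral v hR hint
  have hev : ∀ g : R[X], v (aeval α g) ≤ 1 := fun g =>
    val_le_one_of_isIntegral v hR (by
      have : aeval α g ∈ Algebra.adjoin R {α} := by
        rw [Algebra.adjoin_singleton_eq_range_aeval]; exact ⟨g, rfl⟩
      exact (IsIntegral.of_mem_of_fg _ hint.fg_adjoin_singleton _ this))
  have hch : ∀ g : R[X], v (Δ (aeval α g) - aeval α (derivative g) * Δ α) ≤ 1 := by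
    intro g
    have := val_deriv_eval v Δ (g.map (algebraMap R N)) α 1 hα (fun i => by
      rw [coeff_map]; exact hRΔ _)
    rwa [derivative_map, eval_map_algebraMap, eval_map_algebraMap] at this
  have hf₀' : v (aeval α (derivative f₀)) = 1 := by
    rw [← hf', ← hf₀, derivative_map, aeval_map_algebraMap]
  have hΔα : v (Δ α) ≤ 1 := by
    have := hch f₀
    rwa [hf₀α, map_zero, zero_sub, Valuation.map_neg, map_mul, hf₀', one_mul] at this
  have hΔev : ∀ g : R[X], v (Δ (aeval α g)) ≤ 1 := by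
    intro g
    have e : Δ (aeval α g) = (Δ (aeval α g) - aeval α (derivative g) * Δ α) +
      aeval α (derivative g) * Δ α := by ring
    rw [e]
    apply Valuation.map_add_le _ (hch g)
    rw [map_mul]; exact mul_le_one' (hev _) hΔα
  obtain ⟨g, hg⟩ := minpoly.isIntegrallyClosed_dvd hint hf₀α
  have hm' : v (aeval α (derivative (minpoly R α))) = 1 := by
    have h1 : aeval α (derivative f₀) = aeval α (derivative (minpoly R α)) * aeval α g := by
      conv_lhs => rw [hg]
      rw [derivative_mul, map_add, map_mul, map_mul, minpoly.aeval, zero_mul, add_zero]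
    rw [h1, map_mul] at hf₀'
    refine le_antisymm (hev _) ?_
    calc (1 : Γ) = _ * _ := hf₀'.symm
      _ ≤ v (aeval α (derivative (minpoly R α))) * 1 := mul_le_mul_right (hev g) _
      _ = _ := mul_one _
  set m' := aeval α (derivative (minpoly R α)) with hm'def
  have hm0 : m' ≠ 0 := by
    intro h; rw [h, map_zero] at hm'; exact zero_ne_one hm'
  have hS : ∀ s : N, IsIntegral R s → v (Δ s) ≤ 1 := by
    intro s hs
    have hmem : s ∈ (Algebra.traceForm K N).dualSubmodule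
        (Subalgebra.toSubmodule (Algebra.adjoin R {α})) := by
      rw [LinearMap.BilinForm.mem_dualSubmodule]
      intro y hy
      rw [Algebra.traceForm_apply]
      refine Submodule.mem_one.mpr <| IsIntegrallyClosed.isIntegral_iff.mp ?_
      exact Algebra.isIntegral_trace
        (hs.mul (IsIntegral.of_mem_of_fg _ hint.fg_adjoin_singleton _ hy))
    rw [traceForm_dualSubmodule_adjoin R K hgen hint,
      minpoly.isIntegrallyClosed_eq_field_fractions' K hint, derivative_map,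
      aeval_map_algebraMap, ← hm'def] at hmem
    obtain ⟨w, hw, hws⟩ := (Submodule.mem_smul_pointwise_iff_exists _ _ _).1 hmem
    rw [Subalgebra.mem_toSubmodule, Algebra.adjoin_singleton_eq_range_aeval] at hw
    obtain ⟨q, rfl⟩ := hw
    have e : m' * s = aeval α q := by
      rw [← hws, smul_eq_mul, mul_inv_cancel_left₀ hm0]; rfl
    have e2 : m' * Δ s = Δ (aeval α q) - s * Δ m' := by rw [← e, deriv_mul]; ring
    have h3 : v (m' * Δ s) ≤ 1 := by
      rw [e2]
      apply Valuation.map_sub_le _ (hΔev q)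
      rw [map_mul]
      exact mul_le_one' (val_le_one_of_isIntegral v hR hs) (hΔev _)
    rwa [map_mul, hm', one_mul] at h3
  intro z hz
  obtain ⟨s, hs1, hsW⟩ := exists_unit_integral (K := K) v hz (Algebra.IsAlgebraic.isAlgebraic z)
  have hW : ∀ W : ValuationSubring N, (∀ a : R, algebraMap R N a ∈ W) →
      ∀ a : K, v (algebraMap K N a) ≤ 1 → algebraMap K N a ∈ W :=
    fun W h a ha => h ⟨a, ha⟩
  have h1 := hS s (isIntegral_of_forall_vs s fun W h => (hsW W (hW W h)).1)
  have h2 := hS (s * z) (isIntegral_of_forall_vs _ fun W h => (hsW W (hW W h)).2)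
  have h3 : s * Δ z = Δ (s * z) - z * Δ s := by rw [deriv_mul]; ring
  have h4 : v (s * Δ z) ≤ 1 := by
    rw [h3]
    apply Valuation.map_sub_le _ h2
    rw [map_mul]
    exact mul_le_one' hz h1
  rwa [map_mul, hs1, one_mul] at h4

/-- a derivation which maps `K` into a subfield `S` maps the elements of `S` which are separable
over `K` into `S`. -/
theorem deriv_mem (D : Derivation R₀ N N) (S : IntermediateField K N)
    (hK : ∀ a : K, D (algebraMap K N a) ∈ S) {z : N} (hz : z ∈ S) (hsep : IsSeparable K z) :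
    D z ∈ S := by
  have h0 : aeval z (minpoly K z) = 0 := minpoly.aeval K z
  have h1 : aeval z (derivative (minpoly K z)) ≠ 0 :=
    Polynomial.Separable.aeval_derivative_ne_zero hsep h0
  have h2 := deriv_eval D ((minpoly K z).map (algebraMap K N)) z
  rw [eval_map_algebraMap, h0, map_zero, derivative_map, eval_map_algebraMap] at h2
  have h3 : D z = -(∑ i ∈ Finset.range (((minpoly K z).map (algebraMap K N)).natDegree + 1),
      D (((minpoly K z).map (algebraMap K N)).coeff i) * z ^ i) /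
      aeval z (derivative (minpoly K z)) := by
    rw [eq_div_iff h1, eq_neg_iff_add_eq_zero, add_comm, mul_comm (D z)]
    exact h2.symm
  rw [h3]
  refine div_mem (neg_mem (sum_mem fun i _ => mul_mem ?_ (pow_mem hz i))) ?_
  · rw [coeff_map]; exact hK _
  · rw [aeval_eq_sum_range]
    exact sum_mem fun i _ => S.smul_mem (pow_mem hz i)

end Etale

section Restrict

variable {R₀ S T : Type*} [CommRing R₀] [CommRing S] [CommRing T] [Algebra R₀ T]

/-- restriction of a derivation along an injective ring homomorphism, given the function. -/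
def restrictDer (D : Derivation R₀ T T) (j : S →+* T) (hj : Function.Injective j) (d : S → S)
    (h : ∀ s : S, D (j s) = j (d s)) : Derivation ℤ S S :=
  Derivation.mk'
    (AddMonoidHom.toIntLinearMap
      { toFun := d
        map_zero' := hj (by rw [← h]; simp)
        map_add' := fun a b => hj (by rw [← h, map_add, map_add, map_add, h, h]) })
    (fun a b => hj (by
      change j (d (a * b)) = j (a • d b + b • d a)
      rw [← h, smul_eq_mul, smul_eq_mul, map_add j, map_mul j, map_mul j, map_mul j, deriv_mul, h,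
        h]))

theorem exists_restrictDer (D : Derivation R₀ T T) (j : S →+* T) (hj : Function.Injective j)
    (h : ∀ s : S, ∃ s' : S, D (j s) = j s') :
    ∃ D' : Derivation ℤ S S, ∀ s, j (D' s) = D (j s) := by
  choose d hd using h
  exact ⟨restrictDer D j hj d hd, fun s => (hd s).symm⟩

/-- the same, keeping the linearity over the constants. -/
theorem exists_restrictDer' [Algebra R₀ S] (D : Derivation R₀ T T) (j : S →ₐ[R₀] T)
    (hj : Function.Injective j) (h : ∀ s : S, ∃ s' : S, D (j s) = j s') :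
    ∃ D' : Derivation R₀ S S, ∀ s, j (D' s) = D (j s) := by
  choose d hd using h
  refine ⟨Derivation.mk'
    { toFun := d
      map_add' := fun a b => hj (by rw [← hd, map_add, map_add, map_add, hd, hd])
      map_smul' := fun r a => hj (by
        rw [← hd, map_smul j, RingHom.id_apply, map_smul j, Derivation.map_smul, hd]) }
    (fun a b => hj (by
      change j (d (a * b)) = j (a • d b + b • d a)
      rw [← hd, smul_eq_mul, smul_eq_mul, map_add j, map_mul j, map_mul j, map_mul j, deriv_mul,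
        hd, hd])),
    fun s => (hd s).symm⟩

end Restrict

/-- valuation rings extend along field embeddings. -/
theorem exists_vs_ext {N U : Type*} [Field N] [Field U] (j : N →+* U) (W : ValuationSubring N) :
    ∃ W' : ValuationSubring U, ∀ z, j z ∈ W' ↔ z ∈ W := by
  obtain ⟨A, hA, hloc⟩ := IsLocalRing.exists_factor_valuationRing (j.comp W.subtype)
  refine ⟨A, fun z => ⟨fun hz => ?_, fun hz => hA ⟨z, hz⟩⟩⟩
  by_contra hzW
  have hz0 : z ≠ 0 := fun h => hzW (h ▸ zero_mem W)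
  have hw : z⁻¹ ∈ W := (W.mem_or_inv_mem z).resolve_left hzW
  have hu : IsUnit (((j.comp W.subtype).codRestrict A.toSubring hA) ⟨z⁻¹, hw⟩) := by
    refine isUnit_iff_exists_inv.2 ⟨⟨j z, hz⟩, Subtype.ext ?_⟩
    change j z⁻¹ * j z = 1
    rw [← map_mul, inv_mul_cancel₀ hz0, map_one]
  obtain ⟨⟨b, hb⟩, e⟩ := isUnit_iff_exists_inv.1 (hloc.1 _ hu)
  have e' : z⁻¹ * b = 1 := congrArg Subtype.val e
  have : b = z := by field_simp at e'; exact e'
  exact hzW (this ▸ hb)

section Pow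

variable {K N Γ : Type*} [Field K] [Field N] [Algebra K N] [LinearOrderedCommGroupWithZero Γ]

theorem exists_pow_val_eq_le (v : Valuation N Γ) {z : N} (hz0 : z ≠ 0) (hz : IsIntegral K z) :
    ∃ j : ℕ, 0 < j ∧ j ≤ (minpoly K z).natDegree ∧
      ∃ a : K, a ≠ 0 ∧ v z ^ j = v (algebraMap K N a) := by
  classical
  set p := minpoly K z
  set n := p.natDegree
  let F : ℕ → N := fun i => algebraMap K N (p.coeff i) * z ^ i
  have hsum : ∑ i ∈ Finset.range (n + 1), F i = 0 := by
    have h0 : aeval z p = 0 := minpoly.aeval K z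
    rw [aeval_eq_sum_range] at h0
    rw [← h0]
    exact Finset.sum_congr rfl fun i _ => (Algebra.smul_def _ _).symm
  have hvz : v z ≠ 0 := (Valuation.ne_zero_iff v).2 hz0
  obtain ⟨i₀, hi₀, hmax⟩ := Finset.exists_max_image (Finset.range (n + 1)) (fun i => v (F i))
    ⟨n, Finset.self_mem_range_succ n⟩
  have hFn : v (F n) ≠ 0 := by
    have : p.coeff n = 1 := minpoly.monic hz
    simp only [F, this, map_one, one_mul, map_pow]
    exact pow_ne_zero _ hvz
  have hi₀0 : v (F i₀) ≠ 0 := fun h =>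
    hFn (le_zero_iff.1 (h ▸ hmax n (Finset.self_mem_range_succ n)))
  have hex : ∃ i₁ ∈ Finset.range (n + 1), i₁ ≠ i₀ ∧ v (F i₁) = v (F i₀) := by
    by_contra hne
    push Not at hne
    rw [← Finset.add_sum_erase _ _ hi₀] at hsum
    have hlt : v (∑ i ∈ (Finset.range (n + 1)).erase i₀, F i) < v (F i₀) := by
      apply Valuation.map_sum_lt _ hi₀0
      intro i hi
      rw [Finset.mem_erase] at hi
      exact lt_of_le_of_ne (hmax i hi.2) (hne i hi.2 hi.1)
    have := Valuation.map_add_eq_of_lt_left _ hlt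
    rw [hsum, map_zero] at this
    exact hi₀0 this.symm
  have key : ∀ i k, i ∈ Finset.range (n + 1) → k < i → v (F i) = v (F k) → v (F i) ≠ 0 →
      ∃ j : ℕ, 0 < j ∧ j ≤ n ∧ ∃ a : K, a ≠ 0 ∧ v z ^ j = v (algebraMap K N a) := by
    intro i k hi hki h h0
    rw [Finset.mem_range] at hi
    obtain ⟨j, rfl⟩ : ∃ j, i = k + j := ⟨i - k, by omega⟩
    have hk0 : v (F k) ≠ 0 := h ▸ h0
    simp only [F, map_mul, map_pow] at h h0 hk0
    have h1 : v (algebraMap K N (p.coeff (k + j))) ≠ 0 := left_ne_zero_of_mul h0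
    have h2 : v (algebraMap K N (p.coeff k)) ≠ 0 := left_ne_zero_of_mul hk0
    refine ⟨j, by omega, by omega, p.coeff k / p.coeff (k + j), ?_, ?_⟩
    · refine div_ne_zero (fun h => h2 ?_) (fun h => h1 ?_) <;> rw [h, map_zero, map_zero]
    · rw [map_div₀, map_div₀, eq_div_iff h1]
      apply mul_right_cancel₀ (pow_ne_zero k hvz)
      rw [← h, pow_add]
      simp only [mul_comm, mul_left_comm]
  obtain ⟨i₁, hi₁, hne, heq⟩ := hex
  rcases lt_or_gt_of_ne hne with h | h
  · exact key i₀ i₁ hi₀ h heq.symm hi₀0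
  · exact key i₁ i₀ hi₁ h heq (heq ▸ hi₀0)

/-- a uniformiser of a discrete valuation. -/
theorem exists_unif (v : Valuation N Γ) (τ : Γ) (hτ0 : τ ≠ 0) (hτ : τ < 1) (d : ℕ)
    (hd : d ≠ 0) (h : ∀ y : N, y ≠ 0 → ∃ k : ℤ, v y ^ d = τ ^ k) (t : N) (ht0 : t ≠ 0)
    (ht : v t < 1) :
    ∃ π : N, π ≠ 0 ∧ v π < 1 ∧ ∀ y : N, y ≠ 0 → ∃ k : ℤ, v y = v π ^ k := by
  obtain ⟨π, hπ, hπmax⟩ := hasMax_of_pow v τ hτ0 hτ d hd h {y | v y < 1} ⟨t, ht⟩
    ⟨1, fun y hy => by rw [map_one]; exact le_of_lt hy⟩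
  have hπ : v π < 1 := hπ
  have hvπ : v π ≠ 0 := fun h0 =>
    (Valuation.ne_zero_iff v).2 ht0 (le_zero_iff.1 (h0 ▸ hπmax t ht))
  have hπ0 : π ≠ 0 := (Valuation.ne_zero_iff v).1 hvπ
  have hτpos : 0 < τ := zero_lt_iff.2 hτ0
  obtain ⟨k₀, hk₀⟩ := h π hπ0
  have hk₀pos : 0 < k₀ := by
    have : τ ^ k₀ < τ ^ (0 : ℤ) := by
      rw [← hk₀, zpow_zero]; exact pow_lt_one₀ zero_le hπ hd
    exact (zpow_lt_zpow_iff_right_of_lt_one₀ hτpos hτ).1 this
  refine ⟨π, hπ0, hπ, fun y hy => ?_⟩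
  obtain ⟨k, hk⟩ := h y hy
  refine ⟨k / k₀, ?_⟩
  have hy' : v (y / π ^ (k / k₀)) ^ d = τ ^ (k % k₀) := by
    rw [map_div₀, map_zpow₀, div_pow, hk, ← zpow_natCast (v π ^ (k / k₀)), ← zpow_mul, mul_comm,
      zpow_mul, zpow_natCast, hk₀, ← zpow_mul, ← zpow_sub₀ hτ0, Int.emod_def]
  have hr0 : 0 ≤ k % k₀ := Int.emod_nonneg _ hk₀pos.ne'
  have hr1 : k % k₀ < k₀ := Int.emod_lt_of_pos _ hk₀pos
  have hone : v (y / π ^ (k / k₀)) = 1 := by
    rcases hr0.eq_or_lt with h0 | h0
    · rw [← h0, zpow_zero] at hy'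
      exact (pow_eq_one_iff_of_nonneg zero_le hd).1 hy'
    · exfalso
      have h1 : v (y / π ^ (k / k₀)) < 1 := by
        apply lt_of_pow_lt_pow_left₀ d zero_le
        rw [hy', one_pow]
        exact zpow_lt_one₀ hτpos hτ h0
      have h2 := pow_le_pow_left₀ zero_le (hπmax _ h1) d
      rw [hy', hk₀, zpow_le_zpow_iff_right_of_lt_one₀ hτpos hτ] at h2
      omega
  rw [map_div₀, map_zpow₀, div_eq_one_iff_eq (zpow_ne_zero _ hvπ)] at hone
  exact hone

end Pow

section Line

open IntermediateField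

variable {R₀ C M Γ : Type*} [CommRing R₀] [Field C] [Field M] [Algebra C M] [Algebra R₀ M]
  [LinearOrderedCommGroupWithZero Γ] {v : Valuation M Γ} {t : M}

theorem val_const (hC : ∀ c : C, v (algebraMap C M c) ≤ 1) {c : C} (hc : c ≠ 0) :
    v (algebraMap C M c) = 1 := by
  refine le_antisymm (hC c) ?_
  have h := hC c⁻¹
  have h0 : 0 < v (algebraMap C M c) :=
    zero_lt_iff.2 ((Valuation.ne_zero_iff v).2 ((_root_.map_ne_zero _).2 hc))
  rwa [map_inv₀, map_inv₀, inv_le_one₀ h0] at h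

theorem val_aeval_le (hC : ∀ c : C, v (algebraMap C M c) ≤ 1) (ht : v t ≤ 1) (r : C[X]) :
    v (aeval t r) ≤ 1 := by
  rw [aeval_eq_sum_range]
  apply Valuation.map_sum_le
  intro i _
  rw [Algebra.smul_def, map_mul, map_pow]
  exact mul_le_one' (hC _) (pow_le_one' ht i)

theorem val_aeval_sub (hC : ∀ c : C, v (algebraMap C M c) ≤ 1) (ht : v t < 1) (r : C[X]) :
    v (aeval t r - algebraMap C M (r.coeff 0)) < 1 := by
  have e : aeval t r - algebraMap C M (r.coeff 0) = t * aeval t r.divX := by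
    have h := congrArg (aeval t) (X_mul_divX_add r)
    rw [map_add, map_mul, aeval_X, aeval_C] at h
    rw [← h]; ring
  rw [e, map_mul]
  calc v t * v (aeval t r.divX) ≤ v t * 1 := mul_le_mul_right (val_aeval_le hC ht.le _) _
    _ < 1 := by rwa [mul_one]

theorem val_aeval_eq_one (hC : ∀ c : C, v (algebraMap C M c) ≤ 1) (ht : v t < 1) {r : C[X]}
    (hr : r.coeff 0 ≠ 0) : v (aeval t r) = 1 := by
  have h := val_aeval_sub hC ht r
  rw [← val_const hC hr] at h
  rw [Valuation.map_eq_of_sub_lt v h, val_const hC hr]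

theorem exists_X_pow_mul (r : C[X]) (hr : r ≠ 0) :
    ∃ (m : ℕ) (q : C[X]), q.coeff 0 ≠ 0 ∧ r = X ^ m * q := by
  obtain ⟨q, hq, hq'⟩ := exists_eq_pow_rootMultiplicity_mul_and_not_dvd r hr 0
  rw [map_zero, sub_zero] at hq hq'
  exact ⟨_, q, fun h => hq' (X_dvd_iff.2 h), hq⟩

theorem exists_zpow_form (ht0 : t ≠ 0) {a : M} (ha : a ∈ adjoin C {t}) (ha0 : a ≠ 0) :
    ∃ (k : ℤ) (r s : C[X]), r.coeff 0 ≠ 0 ∧ s.coeff 0 ≠ 0 ∧
      a = t ^ k * (aeval t r / aeval t s) := by
  obtain ⟨r, s, rfl⟩ := (mem_adjoin_simple_iff C a).1 ha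
  have hr : r ≠ 0 := by rintro rfl; simp at ha0
  have hs : s ≠ 0 := by rintro rfl; simp at ha0
  obtain ⟨m, r', hr', rfl⟩ := exists_X_pow_mul r hr
  obtain ⟨l, s', hs', rfl⟩ := exists_X_pow_mul s hs
  refine ⟨(m : ℤ) - l, r', s', hr', hs', ?_⟩
  rw [zpow_sub₀ ht0, zpow_natCast, zpow_natCast, map_mul, map_mul, map_pow, map_pow, aeval_X,
    mul_div_mul_comm]

theorem val_mem_adjoin (hC : ∀ c : C, v (algebraMap C M c) ≤ 1) (ht0 : t ≠ 0) (ht : v t < 1)
    {a : M} (ha : a ∈ adjoin C {t}) (ha0 : a ≠ 0) : ∃ k : ℤ, v a = v t ^ k := by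
  obtain ⟨k, r, s, hr, hs, rfl⟩ := exists_zpow_form ht0 ha ha0
  exact ⟨k, by rw [map_mul, map_div₀, val_aeval_eq_one hC ht hr, val_aeval_eq_one hC ht hs,
    map_zpow₀, div_one, mul_one]⟩

theorem exists_int_form (hC : ∀ c : C, v (algebraMap C M c) ≤ 1) (ht0 : t ≠ 0) (ht : v t < 1)
    {a : M} (ha : a ∈ adjoin C {t}) (ha1 : v a ≤ 1) :
    ∃ r s : C[X], s.coeff 0 ≠ 0 ∧ a = aeval t r / aeval t s := by
  by_cases ha0 : a = 0
  · exact ⟨0, 1, by simp, by simp [ha0]⟩
  obtain ⟨k, r, s, hr, hs, rfl⟩ := exists_zpow_form ht0 ha ha0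
  rw [map_mul, map_div₀, val_aeval_eq_one hC ht hr, val_aeval_eq_one hC ht hs,
    map_zpow₀, div_one, mul_one] at ha1
  have hpos : 0 < v t := zero_lt_iff.2 ((Valuation.ne_zero_iff v).2 ht0)
  have hk : 0 ≤ k := by
    rw [← zpow_zero (v t)] at ha1
    exact (zpow_le_zpow_iff_right_of_lt_one₀ hpos ht).1 ha1
  obtain ⟨m, rfl⟩ := Int.eq_ofNat_of_zero_le hk
  exact ⟨X ^ m * r, s, hs, by rw [zpow_natCast, map_mul, map_pow, aeval_X, mul_div_assoc]⟩

theorem exists_res_adjoin (hC : ∀ c : C, v (algebraMap C M c) ≤ 1) (ht0 : t ≠ 0) (ht : v t < 1)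
    {a : M} (ha : a ∈ adjoin C {t}) (ha1 : v a ≤ 1) :
    ∃ c : C, v (a - algebraMap C M c) < 1 := by
  obtain ⟨r, s, hs, rfl⟩ := exists_int_form hC ht0 ht ha ha1
  refine ⟨r.coeff 0 / s.coeff 0, ?_⟩
  have h1 := val_aeval_eq_one hC ht hs
  have hs0 : aeval t s ≠ 0 := by intro h; rw [h, map_zero] at h1; exact zero_ne_one h1
  have hc0 : algebraMap C M (s.coeff 0) ≠ 0 := (_root_.map_ne_zero _).2 hs
  have e : aeval t r / aeval t s - algebraMap C M (r.coeff 0 / s.coeff 0) =
      ((aeval t r - algebraMap C M (r.coeff 0)) - algebraMap C M (r.coeff 0 / s.coeff 0) *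
        (aeval t s - algebraMap C M (s.coeff 0))) / aeval t s := by
    rw [map_div₀]; field_simp; ring
  rw [e, map_div₀, h1, div_one]
  apply Valuation.map_sub_lt _ (val_aeval_sub hC ht r)
  rw [map_mul]
  calc _ ≤ 1 * v (aeval t s - algebraMap C M (s.coeff 0)) := mul_le_mul_left (hC _) _
    _ < 1 := by rw [one_mul]; exact val_aeval_sub hC ht s

/-- if `q(z) ≡ 0` for a non-zero polynomial over the algebraically closed constants then `z` is
congruent to a root of `q`. -/
theorem exists_root_of_val_lt [IsAlgClosed C] (hC : ∀ c : C, v (algebraMap C M c) ≤ 1) {z : M}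
    {q : C[X]} (hq : q ≠ 0) (h : v (aeval z q) < 1) :
    ∃ c : C, q.IsRoot c ∧ v (z - algebraMap C M c) < 1 := by
  by_contra hne
  push Not at hne
  have hsp := (IsAlgClosed.splits q).eq_prod_roots
  have h1 : ∀ s : Multiset C, (∀ c ∈ s, q.IsRoot c) →
      1 ≤ v (aeval z (s.map fun a => X - Polynomial.C a).prod) := by
    intro s
    induction s using Multiset.induction_on with
    | empty => intro _; simp
    | cons a s ih =>
      intro hs
      rw [Multiset.map_cons, Multiset.prod_cons, map_mul, map_mul]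
      refine one_le_mul ?_ (ih fun c hc => hs c (Multiset.mem_cons_of_mem hc))
      simpa using hne a (hs a (Multiset.mem_cons_self a s))
  rw [hsp, map_mul, map_mul, aeval_C, val_const hC (leadingCoeff_ne_zero.2 hq), one_mul] at h
  exact absurd h (not_lt.2 (h1 _ fun c hc => (mem_roots hq).1 hc))

/-- the residue field is the field of constants. -/
theorem exists_res [IsAlgClosed C] (hC : ∀ c : C, v (algebraMap C M c) ≤ 1) (ht0 : t ≠ 0)
    (ht : v t < 1) {z : M} (hz : IsAlgebraic (adjoin C {t}) z) (hz1 : v z ≤ 1) :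
    ∃ c : C, v (z - algebraMap C M c) < 1 := by
  obtain ⟨p, hp, hpz⟩ := hz
  obtain ⟨c, j, -, hcj, hle, -⟩ :=
    exists_normalised (v.comap (algebraMap (adjoin C {t}) M)) p hp
  simp only [Valuation.comap_apply] at hle
  choose e he using fun i => exists_res_adjoin hC ht0 ht (c * p.coeff i).2 (hle i)
  set n := p.natDegree
  have hjn : j ≤ n := by
    apply le_natDegree_of_ne_zero
    intro h0; rw [h0, mul_zero] at hcj; exact zero_ne_one hcj
  have hej : e j ≠ 0 := by
    intro h0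
    have := he j
    rw [h0, hcj] at this
    simp at this
  let q : C[X] := ∑ i ∈ Finset.range (n + 1), monomial i (e i)
  have hq : q ≠ 0 := by
    intro h0
    have : q.coeff j = e j := by
      simp only [q, finsetSum_coeff, coeff_monomial]
      rw [Finset.sum_ite_eq' (Finset.range (n + 1)) j e, if_pos (Finset.mem_range.2 (by omega))]
    rw [h0, coeff_zero] at this
    exact hej this.symm
  have hsum : ∑ i ∈ Finset.range (n + 1), ((c * p.coeff i : adjoin C {t}) : M) * z ^ i = 0 := by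
    have h1 : algebraMap (adjoin C {t}) M c * aeval z p = 0 := by rw [hpz, mul_zero]
    rw [aeval_eq_sum_range, Finset.mul_sum] at h1
    rw [← h1]
    refine Finset.sum_congr rfl fun i _ => ?_
    rw [Algebra.smul_def, ← mul_assoc, ← map_mul]; rfl
  have hv : v (aeval z q) < 1 := by
    have e1 : aeval z q = -∑ i ∈ Finset.range (n + 1),
        (((c * p.coeff i : adjoin C {t}) : M) - algebraMap C M (e i)) * z ^ i := by
      simp only [q, map_sum, aeval_monomial, sub_mul, Finset.sum_sub_distrib, hsum]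
      ring
    rw [e1, Valuation.map_neg]
    apply Valuation.map_sum_lt _ one_ne_zero
    intro i _
    rw [map_mul, map_pow]
    calc _ ≤ v (((c * p.coeff i : adjoin C {t}) : M) - algebraMap C M (e i)) * 1 :=
          mul_le_mul_right (pow_le_one' hz1 i) _
      _ < 1 := by rw [mul_one]; exact he i
  obtain ⟨c', -, hc'⟩ := exists_root_of_val_lt hC hq hv
  exact ⟨c', hc'⟩

/-- discreteness. -/
theorem exists_pow_eq [FiniteDimensional (adjoin C {t}) M]
    (hC : ∀ c : C, v (algebraMap C M c) ≤ 1) (ht0 : t ≠ 0) (ht : v t < 1) (y : M) (hy : y ≠ 0) :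
    ∃ k : ℤ, v y ^ (Module.finrank (adjoin C {t}) M).factorial = v t ^ k := by
  obtain ⟨j, hj0, hj, a, ha0, ha⟩ := exists_pow_val_eq_le (K := adjoin C {t}) v hy
    (Algebra.IsIntegral.isIntegral y)
  obtain ⟨k, hk⟩ := val_mem_adjoin hC ht0 ht a.2 (fun h => ha0 (Subtype.ext h))
  obtain ⟨m, hm⟩ := Nat.dvd_factorial hj0 (hj.trans (minpoly.natDegree_le y))
  refine ⟨k * m, ?_⟩
  rw [hm, pow_mul, ha, zpow_mul, zpow_natCast, ← hk]; rfl

theorem hasMax_line [FiniteDimensional (adjoin C {t}) M]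
    (hC : ∀ c : C, v (algebraMap C M c) ≤ 1) (ht0 : t ≠ 0) (ht : v t < 1) : HasMax v :=
  hasMax_of_pow v (v t) ((Valuation.ne_zero_iff v).2 ht0) ht _ (Nat.factorial_ne_zero _)
    (exists_pow_eq hC ht0 ht)

section Q

variable (Δ : Derivation R₀ M M) {Q : Γ → Prop}

theorem Q_add (hQ3 : ∀ g g', g ≤ g' → Q g' → Q g) {a b : M} (ha : Q (v a)) (hb : Q (v b)) :
    Q (v (a + b)) := by
  rcases le_max_iff.1 (v.map_add a b) with h | h
  exacts [hQ3 _ _ h ha, hQ3 _ _ h hb]

theorem Q_mul (hQ3 : ∀ g g', g ≤ g' → Q g' → Q g) {a b : M} (ha : v a ≤ 1) (hb : Q (v b)) :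
    Q (v (a * b)) :=
  hQ3 _ _ (by rw [map_mul]; exact mul_le_of_le_one_left' ha) hb

theorem Q_deriv_aeval (hQ3 : ∀ g g', g ≤ g' → Q g' → Q g)
    (hC : ∀ c : C, v (algebraMap C M c) ≤ 1) (ht : v t ≤ 1)
    (hΔC : ∀ c : C, Q (v (Δ (algebraMap C M c)))) (hΔt : Q (v (Δ t))) (r : C[X]) :
    Q (v (Δ (aeval t r))) := by
  induction r using Polynomial.induction_on' with
  | add p q hp hq => rw [map_add, map_add]; exact Q_add hQ3 hp hq
  | monomial n c =>
    rw [aeval_monomial, deriv_mul, deriv_pow]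
    refine Q_add hQ3 (Q_mul hQ3 (hC c) (Q_mul hQ3 ?_ hΔt)) (Q_mul hQ3 ?_ (hΔC c))
    · rw [map_mul, map_pow]
      exact mul_le_one' (by rw [← map_natCast (algebraMap C M)]; exact hC _) (pow_le_one' ht _)
    · rw [map_pow]; exact pow_le_one' ht _

theorem Q_deriv_adjoin (hQ3 : ∀ g g', g ≤ g' → Q g' → Q g)
    (hC : ∀ c : C, v (algebraMap C M c) ≤ 1) (ht0 : t ≠ 0) (ht : v t < 1)
    (hΔC : ∀ c : C, Q (v (Δ (algebraMap C M c)))) (hΔt : Q (v (Δ t))) {a : M}
    (ha : a ∈ adjoin C {t}) (ha1 : v a ≤ 1) : Q (v (Δ a)) := by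
  obtain ⟨r, s, hs, e⟩ := exists_int_form hC ht0 ht ha ha1
  have h1 := val_aeval_eq_one hC ht hs
  have hs0 : aeval t s ≠ 0 := by intro h; rw [h, map_zero] at h1; exact zero_ne_one h1
  have e1 : aeval t s * a = aeval t r := by rw [e]; field_simp
  have e2 : aeval t s * Δ a = Δ (aeval t r) + (-a) * Δ (aeval t s) := by
    rw [← e1, deriv_mul]; ring
  have h2 : Q (v (aeval t s * Δ a)) := by
    rw [e2]
    exact Q_add hQ3 (Q_deriv_aeval Δ hQ3 hC ht.le hΔC hΔt r)
      (Q_mul hQ3 (by rwa [Valuation.map_neg]) (Q_deriv_aeval Δ hQ3 hC ht.le hΔC hΔt s))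
  rwa [map_mul, h1, one_mul] at h2

/-- **log lemma over the line**. -/
theorem log_p1 [IsAlgClosed C] [CharZero C] [FiniteDimensional (adjoin C {t}) M]
    (hQ1 : ∀ g, Q g → g ≤ 1) (hQ2 : ∀ g, g < 1 → Q g) (hQ3 : ∀ g g', g ≤ g' → Q g' → Q g)
    (hC : ∀ c : C, v (algebraMap C M c) ≤ 1) (ht0 : t ≠ 0) (ht : v t < 1)
    (hΔC : ∀ c : C, Q (v (Δ (algebraMap C M c)))) (hΔt : v (Δ t) ≤ v t) :
    ∀ z : M, v z ≤ 1 → Q (v (Δ z)) := by
  have : CharZero (adjoin C {t}) := charZero_of_injective_algebraMap (algebraMap C _).injective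
  refine log_lemma (K := adjoin C {t}) v (hasMax_line hC ht0 ht) Δ Q hQ1 hQ2 hQ3
    (fun a ha => Q_deriv_adjoin Δ hQ3 hC ht0 ht hΔC (hQ2 _ (lt_of_le_of_lt hΔt ht)) a.2 ha)
    (fun z hz => ?_) (fun y hy0 hy => Or.inr ?_)
  · obtain ⟨c, hc⟩ := exists_res hC ht0 ht (Algebra.IsAlgebraic.isAlgebraic z) hz
    exact ⟨algebraMap C _ c, hc⟩
  · obtain ⟨k, hk⟩ := exists_pow_eq hC ht0 ht y hy0
    set d := (Module.finrank (adjoin C {t}) M).factorial
    have hd : d ≠ 0 := Nat.factorial_ne_zero _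
    have hpos : 0 < v t := zero_lt_iff.2 ((Valuation.ne_zero_iff v).2 ht0)
    have hk0 : 0 < k := by
      have : v t ^ k < v t ^ (0 : ℤ) := by
        rw [← hk, zpow_zero]; exact pow_lt_one₀ zero_le hy hd
      exact (zpow_lt_zpow_iff_right_of_lt_one₀ hpos ht).1 this
    obtain ⟨m, rfl⟩ := Int.eq_ofNat_of_zero_le hk0.le
    obtain ⟨m, rfl⟩ : ∃ l, m = l + 1 := ⟨m - 1, by omega⟩
    rw [zpow_natCast] at hk
    refine ⟨d, ⟨t, mem_adjoin_simple_self C t⟩ ^ (m + 1), ?_, ?_, ?_⟩
    · rw [← map_natCast (algebraMap C M)]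
      exact val_const hC (Nat.cast_ne_zero.2 hd)
    · rw [hk, map_pow, map_pow]; rfl
    · rw [map_pow]
      change v (Δ (t ^ (m + 1))) ≤ v (t ^ (m + 1))
      rw [deriv_pow, map_mul, map_mul, Nat.add_sub_cancel, map_pow, map_pow, pow_succ]
      refine mul_le_mul' (mul_le_of_le_one_left' ?_) hΔt
      rw [← map_natCast (algebraMap C M)]; exact hC _

end Q

end Line

end Crest.Agent.T170.Log
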