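import Crest.Agent.T170.EllA_61

/-!
# Row 170, module D (helper61), part B: extension of places, generic points, translations

* `exists_place` : a homomorphism `B → Om` (`Om` algebraically closed) extends to a place of any
  field `L` receiving `B`; `Place.exists_extension`.
* `IsGen W F x y` : `(x, y)` is a generic point of `W` over `F` generating the field `L`.
* `IsGen.exists_algHom`, `IsGen.algHom_ext`, `IsGen.exists_place` (specialisation of the generic
  point to any finite point), `IsGen.exists_translation` (semilinear translation automorphisms).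
-/

set_option autoImplicit false

namespace Crest.Agent.T170.Ell

open WeierstrassCurve WeierstrassCurve.Affine Polynomial Place

section Chevalley

variable {L Om : Type*} [Field L] [Field Om]

/-- subrings of `L × Om` which are graphs -/
def IsGraph (G : Subring (L × Om)) : Prop := ∀ a : Om, ((0 : L), a) ∈ G → a = 0

theorem IsGraph.adjoin_le {G : Subring (L × Om)} (hG : Maximal IsGraph G) (z : L × Om)
    (h : ∀ f : G[X], (eval₂ G.subtype z f).1 = 0 → (eval₂ G.subtype z f).2 = 0) : z ∈ G := by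
  have h1 : IsGraph (eval₂RingHom G.subtype z).range := by
    rintro a ⟨f, hf⟩
    have := h f (by rw [← coe_eval₂RingHom, hf])
    rwa [← coe_eval₂RingHom, hf] at this
  have h2 : G ≤ (eval₂RingHom G.subtype z).range := fun g hg => ⟨C ⟨g, hg⟩, by simp⟩
  exact hG.2 h1 h2 ⟨X, by simp⟩

theorem IsGraph.inv_mem {G : Subring (L × Om)} (hG : Maximal IsGraph G) {x : L} {a : Om}
    (hx : (x, a) ∈ G) (ha : a ≠ 0) : (x⁻¹, a⁻¹) ∈ G := by
  have hx0 : x ≠ 0 := by
    rintro rfl
    exact ha (hG.1 a hx)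
  refine IsGraph.adjoin_le hG _ fun f hf => ?_
  have key : ∀ f : G[X], ∃ n : ℕ, eval₂ G.subtype (x⁻¹, a⁻¹) f * (x, a) ^ n ∈ G := by
    intro f
    induction f using Polynomial.induction_on' with
    | add p q hp hq =>
      obtain ⟨m, hm⟩ := hp
      obtain ⟨n, hn⟩ := hq
      refine ⟨m + n, ?_⟩
      have := add_mem (mul_mem hm (pow_mem hx n)) (mul_mem hn (pow_mem hx m))
      rw [eval₂_add]
      convert this using 1
      ring
    | monomial n c =>
      refine ⟨n, ?_⟩
      rw [eval₂_monomial, mul_assoc, ← mul_pow]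
      have : ((x⁻¹, a⁻¹) : L × Om) * (x, a) = 1 :=
        Prod.ext (inv_mul_cancel₀ hx0) (inv_mul_cancel₀ ha)
      rw [this, one_pow, mul_one]
      exact c.2
  obtain ⟨n, hn⟩ := key f
  have h2 := hG.1 ((eval₂ G.subtype (x⁻¹, a⁻¹) f).2 * a ^ n) (by
    convert hn using 1
    refine Prod.ext ?_ (by simp)
    simp [hf])
  exact (mul_eq_zero.mp h2).resolve_right (pow_ne_zero n ha)

theorem IsGraph.exists_mem [IsAlgClosed Om] {G : Subring (L × Om)} (hG : Maximal IsGraph G)
    (V : ValuationSubring L) (hV' : ∀ g ∈ G, g.2 = 0 → g.1 ∈ V.nonunits)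
    {x : L} (hx : x ∈ V) : ∃ c, (x, c) ∈ G := by
  let p₁ : G →+* L := (RingHom.fst L Om).comp G.subtype
  let p₂ : G →+* Om := (RingHom.snd L Om).comp G.subtype
  let k : Subfield Om :=
    { p₂.range with
      inv_mem' := by
        rintro _ ⟨g, rfl⟩
        by_cases h0 : p₂ g = 0
        · exact ⟨0, by simp [h0]⟩
        · exact ⟨⟨_, IsGraph.inv_mem hG (x := g.1.1) (a := g.1.2) g.2 h0⟩, rfl⟩ }
  let s : G →+* k := p₂.codRestrict k fun g => ⟨g, rfl⟩
  have hs : Function.Surjective s := by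
    rintro ⟨_, g, rfl⟩
    exact ⟨g, rfl⟩
  have hs' : Function.Surjective (mapRingHom s) := Polynomial.map_surjective s hs
  let J : Ideal k[X] := (RingHom.ker (eval₂RingHom p₁ x)).map (mapRingHom s)
  have hJ : (1 : k[X]) ∉ J := by
    intro h1
    obtain ⟨f, hf, hf1⟩ := (Ideal.mem_map_iff_of_surjective _ hs').mp h1
    have hf0 : eval₂ p₁ x f = 0 := hf
    have hc : ∀ i, p₂ ((f - 1).coeff i) = 0 := by
      intro i
      have : s ((f - 1).coeff i) = 0 := by
        rw [← coeff_map, Polynomial.map_sub, Polynomial.map_one, ← coe_mapRingHom, hf1]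
        simp
      exact congrArg Subtype.val this
    have hn : V.valuation (eval₂ p₁ x (f - 1)) < 1 := by
      rw [eval₂_eq_sum_range]
      refine Valuation.map_sum_lt _ one_ne_zero fun i _ => ?_
      rw [map_mul, map_pow]
      have h1 := (V.mem_nonunits_iff).mp (hV' _ ((f - 1).coeff i).2 (hc i))
      have h2 : V.valuation x ^ i ≤ 1 := pow_le_one₀ zero_le ((V.valuation_le_one_iff x).mpr hx)
      exact lt_of_le_of_lt (mul_le_of_le_one_right' h2) h1
    rw [eval₂_sub, hf0, eval₂_one] at hn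
    simp at hn
  obtain ⟨g, hg⟩ := (IsPrincipalIdealRing.principal J).principal
  have hroot : ∃ c : Om, eval₂ k.subtype c g = 0 := by
    by_cases hg0 : g = 0
    · exact ⟨0, by simp [hg0]⟩
    refine IsAlgClosed.exists_eval₂_eq_zero _ _ fun hd => hJ ?_
    have hu : IsUnit g := isUnit_iff_degree_eq_zero.mpr hd
    have : J = ⊤ := by
      rw [hg]
      exact Ideal.span_singleton_eq_top.mpr hu
    rw [this]
    trivial
  obtain ⟨c, hc⟩ := hroot
  refine ⟨c, IsGraph.adjoin_le hG _ fun f hf => ?_⟩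
  have e1 : (eval₂ G.subtype (x, c) f).1 = eval₂ p₁ x f :=
    Polynomial.hom_eval₂ f G.subtype (RingHom.fst L Om) (x, c)
  have e2 : (eval₂ G.subtype (x, c) f).2 = eval₂ p₂ c f :=
    Polynomial.hom_eval₂ f G.subtype (RingHom.snd L Om) (x, c)
  have hm : f.map s ∈ J := Ideal.mem_map_of_mem (mapRingHom s) (show eval₂ p₁ x f = 0 by rw [← e1, hf])
  rw [hg] at hm
  obtain ⟨u, hu⟩ := Ideal.mem_span_singleton'.mp hm
  have e3 : eval₂ p₂ c f = eval₂ k.subtype c (f.map s) := by
    rw [eval₂_map]; rfl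
  rw [e2, e3, ← hu, eval₂_mul, hc, mul_zero]

/-- **Chevalley's extension theorem.** -/
theorem exists_place [IsAlgClosed Om] {B : Type*} [CommRing B] (i : B →+* L) (ψ : B →+* Om)
    (hker : ∀ b, i b = 0 → ψ b = 0) : ∃ P : Place L Om, ∀ b, P.Sp (i b) (ψ b) := by
  have h0 : IsGraph (i.prod ψ).range := by
    rintro a ⟨b, hb⟩
    have h1 : i b = 0 := congrArg Prod.fst hb
    have h2 : ψ b = a := congrArg Prod.snd hb
    rw [← h2, hker b h1]
  obtain ⟨G, hG0, hG⟩ := zorn_le_nonempty₀ {G : Subring (L × Om) | IsGraph G} (fun c hc hch y hy => by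
    have : Nonempty c := ⟨⟨y, hy⟩⟩
    refine ⟨⨆ j : c, j.1, fun a ha => ?_, fun z hz => le_iSup (fun j : c => j.1) ⟨z, hz⟩⟩
    obtain ⟨j, hj⟩ := (Subring.mem_iSup_of_directed hch.directed).mp ha
    exact hc j.2 a hj) _ h0
  replace hG : Maximal IsGraph G := hG
  let p₁ : G →+* L := (RingHom.fst L Om).comp G.subtype
  let p₂ : G →+* Om := (RingHom.snd L Om).comp G.subtype
  have hinj : Function.Injective p₁ := by
    refine (injective_iff_map_eq_zero _).mpr fun g hg => Subtype.ext (Prod.ext hg ?_)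
    refine hG.1 g.1.2 ?_
    have : ((0 : L), g.1.2) = g.1 := Prod.ext hg.symm rfl
    rw [this]
    exact g.2
  let e : G ≃+* p₁.range := RingEquiv.ofBijective p₁.rangeRestrict
    ⟨fun a b h => hinj (congrArg Subtype.val h), p₁.rangeRestrict_surjective⟩
  let I : Ideal p₁.range := RingHom.ker (p₂.comp e.symm.toRingHom)
  obtain ⟨V, -, hV'⟩ := Ideal.image_subset_nonunits_valuationSubring I (RingHom.ker_ne_top _)
  have hVG' : ∀ g ∈ G, g.2 = 0 → g.1 ∈ V.nonunits := fun g hg h2 =>
    hV' ⟨e ⟨g, hg⟩, by simpa [I, RingHom.mem_ker, p₂] using h2, rfl⟩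
  let A : ValuationSubring L :=
    { p₁.range with
      mem_or_inv_mem' := fun x => by
        rcases V.mem_or_inv_mem x with h | h
        · obtain ⟨c, hc⟩ := IsGraph.exists_mem hG V hVG' h
          exact Or.inl ⟨⟨_, hc⟩, rfl⟩
        · obtain ⟨c, hc⟩ := IsGraph.exists_mem hG V hVG' h
          exact Or.inr ⟨⟨_, hc⟩, rfl⟩ }
  refine ⟨⟨A, p₂.comp e.symm.toRingHom, fun a ha => ?_⟩, fun b => ?_⟩
  · obtain ⟨g, rfl⟩ := e.surjective a
    have ha' : g.1.2 ≠ 0 := by simpa [p₂] using ha
    exact ⟨⟨_, IsGraph.inv_mem hG (x := g.1.1) (a := g.1.2) g.2 ha'⟩, rfl⟩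
  · let g : G := ⟨(i b, ψ b), hG0 ⟨b, rfl⟩⟩
    refine ⟨⟨g, rfl⟩, ?_⟩
    have : (⟨i b, ⟨g, rfl⟩⟩ : p₁.range) = e g := rfl
    change p₂ (e.symm ⟨i b, _⟩) = ψ b
    rw [this, e.symm_apply_apply]
    rfl

/-- A place with values in an algebraically closed field extends to every extension field. -/
theorem Place.exists_extension [IsAlgClosed Om] {K : Type*} [Field K] (P : Place K Om)
    (j : K →+* L) : ∃ Q : Place L Om, ∀ x a, P.Sp x a → Q.Sp (j x) a := by
  obtain ⟨Q, hQ⟩ := exists_place (j.comp P.A.subtype) P.φ fun b hb => by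
    have : b = 0 := Subtype.ext ((map_eq_zero j).mp hb)
    rw [this, map_zero]
  refine ⟨Q, ?_⟩
  rintro x a ⟨hx, rfl⟩
  exact hQ ⟨x, hx⟩

/-- If `Q` extends `P` along `j`, then `P` is recovered from `Q`. -/
theorem Place.sp_of_extension {K : Type*} [Field K] {P : Place K Om} {Q : Place L Om}
    {j : K →+* L} (h : ∀ x a, P.Sp x a → Q.Sp (j x) a) {x : K} {a : Om} (hx : Q.Sp (j x) a) :
    P.Sp x a := by
  by_cases hm : x ∈ P.A
  · exact (h _ _ (sp_val hm)).unique hx ▸ sp_val hm
  · obtain ⟨h0, hi⟩ := not_mem_iff.mp hm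
    have := h _ _ hi
    rw [map_inv₀] at this
    exact absurd hx.mem (not_mem_iff.mpr ⟨(map_ne_zero j).mpr h0, this⟩)

/-- The trivial place attached to an embedding of fields. -/
def Place.ofHom (f : L →+* Om) : Place L Om where
  A := ⊤
  φ := f.comp (⊤ : ValuationSubring L).subtype
  loc := fun _ _ => trivial

theorem Place.ofHom_sp (f : L →+* Om) (x : L) : (Place.ofHom f).Sp x (f x) := ⟨trivial, rfl⟩

/-- The place attached to a valuation subring, with values in its residue field. -/
noncomputable def Place.ofValuationSubring (A : ValuationSubring L) :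
    Place L (IsLocalRing.ResidueField A) where
  A := A
  φ := IsLocalRing.residue A
  loc := fun a ha => by
    have hu : IsUnit a := by
      by_contra h
      exact ha ((IsLocalRing.residue_eq_zero_iff a).mpr h)
    obtain ⟨b, hb⟩ := hu.exists_right_inv
    have : (a : L)⁻¹ = b := (eq_inv_of_mul_eq_one_right (congrArg Subtype.val hb)).symm
    rw [this]
    exact b.2

end Chevalley

section Generic

variable {R F L : Type*} [CommRing R] [Field F] [Field L] [Algebra R F] [Algebra R L]
  [Algebra F L] [IsScalarTower R F L]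

/-- `(x, y)` is a generic point of `W` over `F` and generates `L` over `F`. -/
structure IsGen (W : Affine R) (F : Type*) {L : Type*} [Field F] [Field L] [Algebra R L]
    [Algebra F L] (x y : L) : Prop where
  eqn : (W⁄L).Equation x y
  trans : Transcendental F x
  gen : IntermediateField.adjoin F {x, y} = ⊤

variable {W : Affine R}

/-- Evaluation of the coordinate ring at a point. -/
noncomputable def evalPt (W : Affine R) {S M : Type*} [CommRing S] [Algebra R S] [CommRing M]
    [Algebra R M] (σ : S →ₐ[R] M) {x y : M} (h : (W⁄M).Equation x y) :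
    (W⁄S).CoordinateRing →+* M :=
  AdjoinRoot.lift (eval₂RingHom (σ : S →+* M) x) y (by
    rw [equation_iff'] at h
    simp only [Affine.polynomial, eval₂_add, eval₂_sub, eval₂_mul, eval₂_pow, eval₂_X, eval₂_C,
      coe_eval₂RingHom]
    rw [← h]
    simp only [Affine.baseChange, WeierstrassCurve.baseChange, map_a₁, map_a₂, map_a₃, map_a₄,
      map_a₆, RingHom.coe_coe, AlgHom.commutes]
    ring)

section evalPt

variable {S M : Type*} [CommRing S] [Algebra R S] [CommRing M] [Algebra R M] (σ : S →ₐ[R] M)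
  {x y : M} (h : (W⁄M).Equation x y)

theorem evalPt_mk_C (p : S[X]) :
    evalPt W σ h (CoordinateRing.mk (W⁄S) (C p)) = eval₂ (σ : S →+* M) x p := by
  simp [evalPt]

theorem evalPt_mk_X : evalPt W σ h (CoordinateRing.mk (W⁄S) X) = y := by
  simp [evalPt]

theorem evalPt_mk_C_C (c : S) : evalPt W σ h (CoordinateRing.mk (W⁄S) (C (C c))) = σ c := by
  rw [evalPt_mk_C, eval₂_C]; rfl

theorem evalPt_mk_C_X : evalPt W σ h (CoordinateRing.mk (W⁄S) (C X)) = x := by
  rw [evalPt_mk_C, eval₂_X]

theorem evalPt_basis (p q : S[X]) :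
    evalPt W σ h (p • (1 : (W⁄S).CoordinateRing) + q • CoordinateRing.mk (W⁄S) X) =
      eval₂ (σ : S →+* M) x p + eval₂ (σ : S →+* M) x q * y := by
  rw [CoordinateRing.smul, CoordinateRing.smul, map_add, map_mul, map_mul, map_one, mul_one,
    evalPt_mk_C, evalPt_mk_C, evalPt_mk_X]

theorem evalPt_injective [IsDomain S] (ht : ∀ p : S[X], p ≠ 0 → eval₂ (σ : S →+* M) x p ≠ 0) :
    Function.Injective (evalPt W σ h) := by
  refine (injective_iff_map_eq_zero _).mpr fun z hz => ?_
  obtain ⟨p, q, rfl⟩ := CoordinateRing.exists_smul_basis_eq z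
  have h1 := CoordinateRing.coe_norm_smul_basis (W' := W⁄S) p q
  have h2 : CoordinateRing.mk (W⁄S) (C p + C q * X) =
      p • (1 : (W⁄S).CoordinateRing) + q • CoordinateRing.mk (W⁄S) X := by
    rw [CoordinateRing.smul, CoordinateRing.smul, map_add, map_mul, mul_one]
  rw [map_mul, h2] at h1
  have h3 := congrArg (evalPt W σ h) h1
  rw [map_mul, hz, zero_mul] at h3
  have h4 : eval₂ (σ : S →+* M) x (Algebra.norm S[X]
      (p • (1 : (W⁄S).CoordinateRing) + q • CoordinateRing.mk (W⁄S) X)) = 0 := by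
    rw [← evalPt_mk_C σ h, ← h3]; rfl
  have h5 := not_not.mp (mt (ht _) (not_not.mpr h4))
  have h6 := CoordinateRing.degree_norm_smul_basis (W' := W⁄S) p q
  rw [h5, degree_zero, eq_comm, max_eq_bot] at h6
  have hp : p = 0 := by
    by_contra hp
    have := h6.1
    rw [degree_eq_natDegree hp, two_nsmul] at this
    exact absurd this (by norm_cast)
  have hq : q = 0 := by
    by_contra hq
    have := h6.2
    rw [degree_eq_natDegree hq, two_nsmul] at this
    exact absurd this (by norm_cast)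
  rw [hp, hq, zero_smul, zero_smul, add_zero]

theorem coordinateRing_ringHom_ext {N : Type*} [Semiring N] {f g : (W⁄S).CoordinateRing →+* N}
    (hc : ∀ c, f (CoordinateRing.mk (W⁄S) (C (C c))) = g (CoordinateRing.mk (W⁄S) (C (C c))))
    (hx : f (CoordinateRing.mk (W⁄S) (C X)) = g (CoordinateRing.mk (W⁄S) (C X)))
    (hy : f (CoordinateRing.mk (W⁄S) X) = g (CoordinateRing.mk (W⁄S) X)) : f = g := by
  have h1 : f.comp (CoordinateRing.mk (W⁄S)) = g.comp (CoordinateRing.mk (W⁄S)) := by
    refine Polynomial.ringHom_ext' (Polynomial.ringHom_ext' (RingHom.ext hc) hx) hy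
  refine RingHom.ext fun z => ?_
  obtain ⟨z, rfl⟩ := AdjoinRoot.mk_surjective z
  exact congrArg (fun φ => φ z) (congrArg DFunLike.coe h1)

end evalPt

namespace IsGen

variable {x y : L} (h : IsGen W F x y)
include h

theorem eval₂_ne_zero {p : F[X]} (hp : p ≠ 0) :
    eval₂ ((IsScalarTower.toAlgHom R F L : F →ₐ[R] L) : F →+* L) x p ≠ 0 := fun h0 =>
  h.trans ⟨p, hp, h0⟩

/-- The embedding of the coordinate ring given by a generic point. -/
noncomputable def ev : (W⁄F).CoordinateRing →+* L := evalPt W (IsScalarTower.toAlgHom R F L) h.eqn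

theorem ev_injective : Function.Injective h.ev :=
  evalPt_injective _ _ fun _ hp => h.eval₂_ne_zero hp

theorem ev_basis (p q : F[X]) :
    h.ev (p • (1 : (W⁄F).CoordinateRing) + q • CoordinateRing.mk (W⁄F) X) =
      aeval x p + aeval x q * y := evalPt_basis _ _ p q

theorem exists_div (z : L) : ∃ a b, z = h.ev a / h.ev b := by
  have hz : z ∈ IntermediateField.adjoin F {x, y} := by rw [h.gen]; trivial
  have hsub : IntermediateField.adjoin F {x, y} ≤
      (Subfield.closure (Set.range h.ev)).toIntermediateField fun c =>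
        Subfield.subset_closure ⟨_, evalPt_mk_C_C _ h.eqn c⟩ := by
    rw [IntermediateField.adjoin_le_iff]
    rintro _ (rfl | rfl)
    · exact Subfield.subset_closure ⟨_, evalPt_mk_C_X _ h.eqn⟩
    · exact Subfield.subset_closure ⟨_, evalPt_mk_X _ h.eqn⟩
  have h1 : z ∈ Subfield.closure (Set.range h.ev) := hsub hz
  obtain ⟨a, ha, b, hb, rfl⟩ := Subfield.mem_closure_iff.mp h1
  have e : Subring.closure (Set.range h.ev) = h.ev.range := by
    rw [← RingHom.coe_range, Subring.closure_eq]
  rw [e] at ha hb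
  obtain ⟨a, rfl⟩ := ha
  obtain ⟨b, rfl⟩ := hb
  exact ⟨a, b, rfl⟩

/-- Every element of `L` is `(p(x) + q(x) y) / r(x)`. -/
theorem exists_eq_div (z : L) : ∃ p q r : F[X], r ≠ 0 ∧
    z = (aeval x p + aeval x q * y) / aeval x r := by
  obtain ⟨a, b, rfl⟩ := h.exists_div z
  by_cases hb : b = 0
  · exact ⟨0, 0, 1, one_ne_zero, by simp [hb]⟩
  obtain ⟨p, q, rfl⟩ := CoordinateRing.exists_smul_basis_eq b
  have h1 := CoordinateRing.coe_norm_smul_basis (W' := W⁄F) p q
  have h2 : CoordinateRing.mk (W⁄F) (C p + C q * X) =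
      p • (1 : (W⁄F).CoordinateRing) + q • CoordinateRing.mk (W⁄F) X := by
    rw [CoordinateRing.smul, CoordinateRing.smul, map_add, map_mul, mul_one]
  rw [map_mul, h2] at h1
  set b := p • (1 : (W⁄F).CoordinateRing) + q • CoordinateRing.mk (W⁄F) X
  set b' := CoordinateRing.mk (W⁄F) (C p + C q * (-X - C (C (W⁄F).a₁ * X + C (W⁄F).a₃)))
  have : Module.Finite F[X] (W⁄F).CoordinateRing := .of_basis (CoordinateRing.basis _)
  have hN : Algebra.norm F[X] b ≠ 0 := Algebra.norm_ne_zero_iff.mpr hb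
  have h3 : aeval x (Algebra.norm F[X] b) = h.ev b * h.ev b' := by
    rw [← map_mul, ← h1]
    exact (evalPt_mk_C (IsScalarTower.toAlgHom R F L) h.eqn (Algebra.norm F[X] b)).symm
  have h4 : aeval x (Algebra.norm F[X] b) ≠ 0 := h.eval₂_ne_zero hN
  obtain ⟨p', q', e⟩ := CoordinateRing.exists_smul_basis_eq (a * b')
  refine ⟨p', q', _, hN, ?_⟩
  rw [← h.ev_basis, e, map_mul, h3, mul_div_mul_right]
  exact right_ne_zero_of_mul (h3 ▸ h4)

theorem basis_eq_zero {p q : F[X]} (e : aeval x p + aeval x q * y = 0) : p = 0 ∧ q = 0 := by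
  rw [← h.ev_basis, map_eq_zero_iff _ h.ev_injective] at e
  exact CoordinateRing.smul_basis_eq_zero e

theorem ringHom_ext {M : Type*} [DivisionRing M] {f g : L →+* M}
    (hc : ∀ c, f (algebraMap F L c) = g (algebraMap F L c)) (hx : f x = g x) (hy : f y = g y) :
    f = g := by
  have h1 : f.comp h.ev = g.comp h.ev := by
    refine coordinateRing_ringHom_ext (fun c => ?_) ?_ ?_
    · simp only [RingHom.comp_apply, ev, evalPt_mk_C_C]; exact hc c
    · simp only [RingHom.comp_apply, ev, evalPt_mk_C_X]; exact hx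
    · simp only [RingHom.comp_apply, ev, evalPt_mk_X]; exact hy
  ext z
  obtain ⟨a, b, rfl⟩ := h.exists_div z
  rw [map_div₀, map_div₀]
  exact congrArg₂ _ (congrArg (fun φ => φ a) (congrArg DFunLike.coe h1))
    (congrArg (fun φ => φ b) (congrArg DFunLike.coe h1))

/-- Universal property of the generic point. -/
theorem exists_algHom {M : Type*} [Field M] [Algebra R M] (σ : F →ₐ[R] M) {x' y' : M}
    (he : (W⁄M).Equation x' y') (ht : ∀ p : F[X], p ≠ 0 → eval₂ (σ : F →+* M) x' p ≠ 0) :
    ∃ f : L →ₐ[R] M, (∀ c, f (algebraMap F L c) = σ c) ∧ f x = x' ∧ f y = y' := by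
  let _ := h.ev.toAlgebra
  have : FaithfulSMul (W⁄F).CoordinateRing L :=
    (faithfulSMul_iff_algebraMap_injective _ _).mpr h.ev_injective
  have : IsFractionRing (W⁄F).CoordinateRing L := IsFractionRing.of_field _ _ h.exists_div
  let f : L →+* M := IsFractionRing.lift (evalPt_injective σ he ht)
  have hf : ∀ a, f (h.ev a) = evalPt W σ he a := fun a => IsFractionRing.lift_algebraMap _ a
  have hc : ∀ c, f (algebraMap F L c) = σ c := fun c => by
    rw [← evalPt_mk_C_C σ he, ← hf, ev, evalPt_mk_C_C]; rfl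
  refine ⟨⟨f, fun r => ?_⟩, hc, ?_, ?_⟩
  · change f _ = _
    rw [IsScalarTower.algebraMap_apply R F L, hc, AlgHom.commutes]
  · change f x = x'
    rw [← evalPt_mk_C_X σ he, ← hf, ev, evalPt_mk_C_X]
  · change f y = y'
    rw [← evalPt_mk_X σ he, ← hf, ev, evalPt_mk_X]

/-- Specialisation of the generic point to a finite point over a place of the base field. -/
theorem exists_place_over {Om : Type*} [Field Om] [IsAlgClosed Om] [Algebra R Om]
    (P : Place F Om) (hP : P.Over R) {a b : Om} (he : (W⁄Om).Equation a b) :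
    ∃ Q : Place L Om, (∀ c d, P.Sp c d → Q.Sp (algebraMap F L c) d) ∧ Q.Sp x a ∧ Q.Sp y b := by
  let _ : Algebra R P.A := ((algebraMap R F).codRestrict P.A.toSubring fun r => (hP r).mem).toAlgebra
  let σ₁ : P.A →ₐ[R] L := ⟨(algebraMap F L).comp P.A.subtype, fun r =>
    (IsScalarTower.algebraMap_apply R F L r).symm⟩
  let σ₂ : P.A →ₐ[R] Om := ⟨P.φ, fun r => (hP r).2⟩
  have hinj : Function.Injective (evalPt W σ₁ h.eqn) := evalPt_injective _ _ fun p hp h0 => by
    refine h.trans ⟨p.map P.A.subtype, ?_, ?_⟩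
    · exact (Polynomial.map_ne_zero_iff Subtype.val_injective).mpr hp
    · rw [aeval_def, eval₂_map]; exact h0
  obtain ⟨Q, hQ⟩ := exists_place (evalPt W σ₁ h.eqn) (evalPt W σ₂ he) fun z hz => by
    rw [(map_eq_zero_iff _ hinj).mp hz, map_zero]
  refine ⟨Q, ?_, ?_, ?_⟩
  · rintro c d ⟨hc, rfl⟩
    have := hQ (CoordinateRing.mk _ (C (C ⟨c, hc⟩)))
    rwa [evalPt_mk_C_C, evalPt_mk_C_C] at this
  · have := hQ (CoordinateRing.mk _ (C X))
    rwa [evalPt_mk_C_X, evalPt_mk_C_X] at this
  · have := hQ (CoordinateRing.mk _ X)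
    rwa [evalPt_mk_X, evalPt_mk_X] at this

/-- Specialisation of the generic point to a finite point, trivial on the base field. -/
theorem exists_place {Om : Type*} [Field Om] [IsAlgClosed Om] [Algebra R Om]
    (σ : F →ₐ[R] Om) {a b : Om} (he : (W⁄Om).Equation a b) :
    ∃ Q : Place L Om, (∀ c, Q.Sp (algebraMap F L c) (σ c)) ∧ Q.Sp x a ∧ Q.Sp y b := by
  obtain ⟨Q, h1, h2⟩ := h.exists_place_over (Place.ofHom (σ : F →+* Om))
    (fun r => by simpa using Place.ofHom_sp (σ : F →+* Om) (algebraMap R F r)) he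
  exact ⟨Q, fun c => h1 _ _ (Place.ofHom_sp _ c), h2⟩

end IsGen

/-- The canonical function field has a generic point. -/
theorem isGen_functionField (W : Affine R) (F : Type*) [Field F] [Algebra R F] :
    IsGen W F (algebraMap (W⁄F).CoordinateRing (W⁄F).FunctionField (CoordinateRing.mk _ (C X)))
      (algebraMap (W⁄F).CoordinateRing (W⁄F).FunctionField (CoordinateRing.mk _ X)) := by
  set i := algebraMap (W⁄F).CoordinateRing (W⁄F).FunctionField with hi
  have hinj : Function.Injective i := IsFractionRing.injective _ _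
  have hC : ∀ p : F[X], aeval (i (CoordinateRing.mk _ (C X))) p = i (CoordinateRing.mk _ (C p)) := by
    intro p
    have : (aeval (i (CoordinateRing.mk _ (C X))) : F[X] →ₐ[F] _).toRingHom =
        i.comp ((CoordinateRing.mk (W⁄F)).comp C) :=
      Polynomial.ringHom_ext (fun c => by simp; rfl) (by simp)
    exact congrArg (fun φ => φ p) (congrArg DFunLike.coe this)
  refine ⟨?_, ?_, ?_⟩
  · rw [equation_iff']
    have h0 : (i.comp (CoordinateRing.mk (W⁄F))) (W⁄F).polynomial = 0 := by
      rw [RingHom.comp_apply, AdjoinRoot.mk_self, map_zero]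
    simp only [Affine.polynomial, map_add, map_sub, map_mul, map_pow] at h0
    simp only [RingHom.comp_apply] at h0
    have hc : ∀ r : R, algebraMap R (W⁄F).FunctionField r =
        i (CoordinateRing.mk (W⁄F) (C (C (algebraMap R F r)))) := fun r => rfl
    have e1 : (W⁄(W⁄F).FunctionField).a₁ = i (CoordinateRing.mk (W⁄F) (C (C (W⁄F).a₁))) := hc _
    have e2 : (W⁄(W⁄F).FunctionField).a₂ = i (CoordinateRing.mk (W⁄F) (C (C (W⁄F).a₂))) := hc _
    have e3 : (W⁄(W⁄F).FunctionField).a₃ = i (CoordinateRing.mk (W⁄F) (C (C (W⁄F).a₃))) := hc _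
    have e4 : (W⁄(W⁄F).FunctionField).a₄ = i (CoordinateRing.mk (W⁄F) (C (C (W⁄F).a₄))) := hc _
    have e6 : (W⁄(W⁄F).FunctionField).a₆ = i (CoordinateRing.mk (W⁄F) (C (C (W⁄F).a₆))) := hc _
    rw [e1, e2, e3, e4, e6]
    linear_combination h0
  · rintro ⟨p, hp, h0⟩
    rw [hC, map_eq_zero_iff _ hinj] at h0
    have := CoordinateRing.smul_basis_eq_zero (W' := W⁄F) (p := p) (q := 0)
      (by rw [CoordinateRing.smul, h0, zero_mul, zero_smul, add_zero])
    exact hp this.1
  · rw [eq_top_iff]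
    set K := IntermediateField.adjoin F {i (CoordinateRing.mk _ (C X)), i (CoordinateRing.mk _ X)}
    have hx : i (CoordinateRing.mk _ (C X)) ∈ K := IntermediateField.subset_adjoin _ _ (by simp)
    have hy : i (CoordinateRing.mk _ X) ∈ K := IntermediateField.subset_adjoin _ _ (by simp)
    have hp : ∀ p : F[X], i (CoordinateRing.mk _ (C p)) ∈ K := fun p => by
      rw [← hC]
      rw [aeval_eq_sum_range]
      exact sum_mem fun j _ => K.smul_mem (pow_mem hx j)
    have ha : ∀ a, i a ∈ K := fun a => by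
      obtain ⟨p, q, rfl⟩ := CoordinateRing.exists_smul_basis_eq a
      rw [CoordinateRing.smul, CoordinateRing.smul, mul_one, map_add, map_mul]
      exact add_mem (hp p) (mul_mem (hp q) hy)
    intro z _
    obtain ⟨a, b, -, rfl⟩ := IsFractionRing.div_surjective (A := (W⁄F).CoordinateRing) z
    exact div_mem (ha a) (ha b)

variable [W.IsElliptic]

/-- The generic point as a point of the curve. -/
def IsGen.pt {x y : L} (h : IsGen W F x y) : (W⁄L).Point :=
  .some x y (equation_iff_nonsingular.mp h.eqn)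

variable [DecidableEq F] [DecidableEq L]

/-- Points with coordinates algebraic over `F` form a subgroup. -/
noncomputable def algPts (W : Affine R) (F L : Type*) [Field F] [Field L] [Algebra R F]
    [Algebra R L] [Algebra F L] [IsScalarTower R F L] [DecidableEq L] : AddSubgroup (W⁄L).Point :=
  open Classical in
  (Point.map (W' := W) ((algebraicClosure F L).val.restrictScalars R)).range

omit [W.IsElliptic] [DecidableEq F] in
theorem zero_mem_algPts : (0 : (W⁄L).Point) ∈ algPts W F L := zero_mem _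

omit [W.IsElliptic] [DecidableEq F] in
theorem some_mem_algPts_iff {x y : L} (h : (W⁄L).Nonsingular x y) :
    Point.some x y h ∈ algPts W F L ↔ IsAlgebraic F x := by
  classical
  constructor
  · rintro ⟨_ | ⟨a, b, hab⟩, e⟩
    · exact absurd e.symm (Point.some_ne_zero _)
    · rw [Point.map_some, Point.some.injEq] at e
      rw [← e.1]
      exact (mem_algebraicClosure_iff.mp a.2)
  · intro hx
    have hxK : x ∈ algebraicClosure F L := mem_algebraicClosure_iff.mpr hx
    have hR : ∀ r : R, algebraMap R L r ∈ algebraicClosure F L := fun r => by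
      rw [IsScalarTower.algebraMap_apply R F L]
      exact IntermediateField.algebraMap_mem _ _
    have hy : IsIntegral (algebraicClosure F L) y := by
      have e := (equation_iff _ _).mp h.1
      refine ⟨X ^ 2 + C ⟨(W⁄L).a₁ * x + (W⁄L).a₃, add_mem (mul_mem (hR _) hxK) (hR _)⟩ * X -
        C ⟨x ^ 3 + (W⁄L).a₂ * x ^ 2 + (W⁄L).a₄ * x + (W⁄L).a₆, add_mem (add_mem (add_mem
          (pow_mem hxK 3) (mul_mem (hR _) (pow_mem hxK 2))) (mul_mem (hR _) hxK)) (hR _)⟩, ?_, ?_⟩
      · monicity!
      · simp only [eval₂_sub, eval₂_add, eval₂_mul, eval₂_pow, eval₂_X, eval₂_C]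
        change y ^ 2 + ((W⁄L).a₁ * x + (W⁄L).a₃) * y -
          (x ^ 3 + (W⁄L).a₂ * x ^ 2 + (W⁄L).a₄ * x + (W⁄L).a₆) = 0
        linear_combination e
    have hyK : y ∈ algebraicClosure F L :=
      mem_algebraicClosure_iff'.mpr (isIntegral_trans (A := algebraicClosure F L) y hy)
    refine ⟨.some ⟨x, hxK⟩ ⟨y, hyK⟩ ((W.baseChange_nonsingular
      (f := (algebraicClosure F L).val.restrictScalars R) Subtype.val_injective _ _).mp h), rfl⟩

omit [W.IsElliptic] in
theorem baseChange_mem_algPts (T : (W⁄F).Point) : Point.baseChange F L T ∈ algPts W F L := by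
  rcases T with _ | ⟨a, b, h⟩
  · exact zero_mem _
  · exact (some_mem_algPts_iff _).mpr (isAlgebraic_algebraMap a)

namespace IsGen

variable {x y : L} (h : IsGen W F x y)
include h

omit [DecidableEq F] in
theorem pt_not_mem : h.pt ∉ algPts W F L := fun hm => h.trans ((some_mem_algPts_iff _).mp hm)

omit [DecidableEq F] in
theorem algHom_ext {M : Type*} [Field M] [Algebra R M] [DecidableEq M] {f g : L →ₐ[R] M}
    (hc : ∀ c, f (algebraMap F L c) = g (algebraMap F L c))
    (hp : Point.map f h.pt = Point.map g h.pt) : f = g := by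
  rw [pt, Point.map_some, Point.map_some, Point.some.injEq] at hp
  exact AlgHom.coe_ringHom_injective (h.ringHom_ext hc hp.1 hp.2)

omit [DecidableEq F] in
/-- A homomorphism sending the generic point to a given non-algebraic point. -/
theorem exists_algHom_pt {F' M : Type*} [Field F'] [Field M] [Algebra R F'] [Algebra R M]
    [Algebra F' M] [IsScalarTower R F' M] [DecidableEq M] (σ : F →ₐ[R] F') {T : (W⁄M).Point}
    (hT : T ∉ algPts W F' M) :
    ∃ f : L →ₐ[R] M, (∀ c, f (algebraMap F L c) = algebraMap F' M (σ c)) ∧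
      Point.map f h.pt = T := by
  rcases T with _ | ⟨x', y', h'⟩
  · exact absurd (zero_mem _) hT
  rw [some_mem_algPts_iff] at hT
  obtain ⟨f, hf, hx, hy⟩ := h.exists_algHom ((IsScalarTower.toAlgHom R F' M).comp σ) h'.1
    fun p hp h0 => hT ⟨p.map (σ : F →+* F'), (Polynomial.map_ne_zero_iff
      (σ : F →+* F').injective).mpr hp, by rw [aeval_def, eval₂_map]; exact h0⟩
  refine ⟨f, hf, ?_⟩
  rw [pt, Point.map_some, Point.some.injEq]
  exact ⟨hx, hy⟩

theorem pt_add_not_mem (T : (W⁄F).Point) : h.pt + Point.baseChange F L T ∉ algPts W F L :=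
  fun hm => h.pt_not_mem (by simpa using sub_mem hm (baseChange_mem_algPts (L := L) T))

omit h [W.IsElliptic] in
theorem map_baseChange_of_comm {f : L →ₐ[R] L} {σ : F →ₐ[R] F}
    (hf : ∀ c, f (algebraMap F L c) = algebraMap F L (σ c)) (T : (W⁄F).Point) :
    Point.map f (Point.baseChange F L T) = Point.baseChange F L (Point.map σ T) := by
  rcases T with _ | ⟨a, b, hab⟩
  · rfl
  · simp only [Point.map_some, Point.some.injEq]
    exact ⟨hf a, hf b⟩

/-- **Semilinear translations**: for an automorphism `σ` of `F` and a point `T` over `F` there is an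
automorphism of the function field extending `σ` and sending `ξ` to `ξ + T`. -/
theorem exists_translation (σ : F ≃ₐ[R] F) (T : (W⁄F).Point) :
    ∃ τ : L ≃ₐ[R] L, (∀ c, τ (algebraMap F L c) = algebraMap F L (σ c)) ∧
      Point.map (τ : L →ₐ[R] L) h.pt = h.pt + Point.baseChange F L T := by
  obtain ⟨f, hf, hfp⟩ := h.exists_algHom_pt (σ : F →ₐ[R] F) (h.pt_add_not_mem T)
  obtain ⟨g, hg, hgp⟩ := h.exists_algHom_pt (σ.symm : F →ₐ[R] F)
    (h.pt_add_not_mem (-Point.map (σ.symm : F →ₐ[R] F) T))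
  have e1 : Point.map (σ : F →ₐ[R] F) (Point.map (σ.symm : F →ₐ[R] F) T) = T := by
    rw [Point.map_map]
    rcases T with _ | ⟨a, b, hab⟩
    · rfl
    · simp [Point.map_some]
  refine ⟨AlgEquiv.ofAlgHom f g ?_ ?_, hf, hfp⟩
  · refine h.algHom_ext (fun c => by simp [hf, hg]) ?_
    rw [← Point.map_map, hgp, map_add, hfp, map_baseChange_of_comm hf, map_neg, e1, map_neg,
      add_neg_cancel_right]
    rfl
  · refine h.algHom_ext (fun c => by simp [hf, hg]) ?_
    rw [← Point.map_map, hfp, map_add, hgp, map_baseChange_of_comm hg, map_neg,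
      neg_add_cancel_right]
    rfl

/-- Iterates of a translation by a `σ`-fixed point. -/
theorem map_pow_translation {σ : F ≃ₐ[R] F} {T : (W⁄F).Point} {τ : L ≃ₐ[R] L}
    (hσ : ∀ c, τ (algebraMap F L c) = algebraMap F L (σ c))
    (hT : Point.map (σ : F →ₐ[R] F) T = T)
    (hτ : Point.map (τ : L →ₐ[R] L) h.pt = h.pt + Point.baseChange F L T) (k : ℕ) :
    Point.map ((τ ^ k : L ≃ₐ[R] L) : L →ₐ[R] L) h.pt = h.pt + k • Point.baseChange F L T := by
  induction k with
  | zero => rw [pow_zero, zero_smul, add_zero]; rfl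
  | succ k ih =>
    have e : ((τ ^ (k + 1) : L ≃ₐ[R] L) : L →ₐ[R] L) =
        (τ : L →ₐ[R] L).comp ((τ ^ k : L ≃ₐ[R] L) : L →ₐ[R] L) := by
      rw [pow_succ']; rfl
    rw [e, ← Point.map_map, ih, map_add, hτ, map_nsmul,
      map_baseChange_of_comm (σ := (σ : F →ₐ[R] F)) hσ, hT, succ_nsmul]
    abel

theorem translation_pow_eq_one {σ : F ≃ₐ[R] F} {T : (W⁄F).Point} {τ : L ≃ₐ[R] L}
    (hσ : ∀ c, τ (algebraMap F L c) = algebraMap F L (σ c))
    (hT : Point.map (σ : F →ₐ[R] F) T = T)
    (hτ : Point.map (τ : L →ₐ[R] L) h.pt = h.pt + Point.baseChange F L T) {n : ℕ}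
    (hσn : σ ^ n = 1) (hTn : n • T = 0) : τ ^ n = 1 := by
  have hk : ∀ (k : ℕ) c, (τ ^ k) (algebraMap F L c) = algebraMap F L ((σ ^ k) c) := by
    intro k
    induction k with
    | zero => intro c; rfl
    | succ k ih => intro c; rw [pow_succ', pow_succ', AlgEquiv.mul_apply, ih, hσ]; rfl
  refine AlgEquiv.coe_toAlgHom_injective (h.algHom_ext (fun c => ?_) ?_)
  · change (τ ^ n) _ = _
    rw [hk, hσn]; rfl
  · rw [h.map_pow_translation hσ hT hτ, ← map_nsmul, hTn, map_zero, add_zero]
    rfl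

/-- Specialisation of the generic point to a non-zero point, as a statement on `red`. -/
theorem exists_red_pt {Om : Type*} [Field Om] [IsAlgClosed Om] [Algebra R Om] [DecidableEq Om]
    (σ : F →ₐ[R] Om) {T : (W⁄Om).Point} (hT : T ≠ 0) :
    ∃ (Q : Place L Om) (hQ : Q.Over R), (∀ c, Q.Sp (algebraMap F L c) (σ c)) ∧
      red W hQ h.pt = T ∧ ∀ S : (W⁄F).Point, red W hQ (Point.baseChange F L S) = Point.map σ S := by
  rcases T with _ | ⟨a, b, hab⟩
  · exact absurd rfl hT
  obtain ⟨Q, hc, hx, hy⟩ := h.exists_place σ hab.1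
  have hQ : Q.Over R := fun r => by
    rw [IsScalarTower.algebraMap_apply R F L, ← σ.commutes]
    exact hc _
  refine ⟨Q, hQ, hc, red_some_of_sp hQ _ hx hy, ?_⟩
  rintro (_ | ⟨c, d, hcd⟩)
  · simp only [← Point.zero_def, map_zero]
  · exact red_some_of_sp hQ _ (hc c) (hc d)

end IsGen

end Generic

end Crest.Agent.T170.Ell
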