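import Crest.Agent.T170.BaseA_64
import Crest.Agent.T170.EllB_61

/-!
# Row 170, task W3 (helper90): the derivations and the automorphism `g` on `U`
-/

set_option autoImplicit false

namespace Crest.Agent.T170.W3

open Polynomial IntermediateField WeierstrassCurve WeierstrassCurve.Affine
open scoped Classical

section alg

variable {F K U : Type*} [Field F] [Field K] [Field U] [Algebra F K] [Algebra F U] [Algebra K U]
  [IsScalarTower F K U]

/-- `K / F` algebraic, `U / K(x)` algebraic implies `U / F(x)` algebraic. -/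
theorem alg_adjoin (hK : ∀ c : K, IsAlgebraic F c) {x : U} (h : Algebra.IsAlgebraic K⟮x⟯ U) :
    Algebra.IsAlgebraic F⟮x⟯ U := by
  let L : IntermediateField F⟮x⟯ U := algebraicClosure F⟮x⟯ U
  have hKL : ∀ c : K, algebraMap K U c ∈ L := fun c =>
    mem_algebraicClosure_iff.2 (((hK c).algebraMap (A := U)).tower_top F⟮x⟯)
  have hx : x ∈ L := L.algebraMap_mem (AdjoinSimple.gen F x)
  have hle : ∀ z ∈ K⟮x⟯, z ∈ L := by
    let L' : IntermediateField K U := L.toSubfield.toIntermediateField hKL
    have : K⟮x⟯ ≤ L' := adjoin_simple_le_iff.2 hx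
    exact fun z hz => this hz
  refine ⟨fun u => ?_⟩
  let ι : K⟮x⟯ →+* L := (K⟮x⟯.val : K⟮x⟯ →+* U).codRestrict L fun z => hle z z.2
  have h1 : IsAlgebraic L u :=
    (h.isAlgebraic u).ringHom_of_comp_eq ι (RingHom.id U) ι.injective rfl
  exact h1.restrictScalars F⟮x⟯

theorem trans_of {x : U} (h : Transcendental K x) : Transcendental F x :=
  fun h' => h (h'.tower_top K)

end alg

section der

variable {F U : Type*} [Field F] [Field U] [Algebra F U] [CharZero U] {x : U}

theorem etale (htr : Transcendental F x) (halg : Algebra.IsAlgebraic F⟮x⟯ U) :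
    letI : Algebra F[X] U := (aeval x : F[X] →ₐ[F] U).toRingHom.toAlgebra
    Algebra.FormallyEtale F[X] U := by
  let : Algebra F[X] U := (aeval x : F[X] →ₐ[F] U).toRingHom.toAlgebra
  let : Algebra F[X] F⟮x⟯ := (aeval (AdjoinSimple.gen F x) : F[X] →ₐ[F] F⟮x⟯).toRingHom.toAlgebra
  have hc : ∀ p : F[X], algebraMap F⟮x⟯ U (algebraMap F[X] F⟮x⟯ p) = algebraMap F[X] U p :=
    fun p => (aeval_algebraMap_apply U (AdjoinSimple.gen F x) p).symm
  have : IsScalarTower F[X] F⟮x⟯ U := IsScalarTower.of_algebraMap_eq fun p => (hc p).symm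
  have hinj : Function.Injective (algebraMap F[X] F⟮x⟯) := fun p q h =>
    transcendental_iff_injective.1 htr (by
      have := congrArg (algebraMap F⟮x⟯ U) h
      rwa [hc, hc] at this)
  have : FaithfulSMul F[X] F⟮x⟯ := (faithfulSMul_iff_algebraMap_injective _ _).2 hinj
  have : IsFractionRing F[X] F⟮x⟯ := IsFractionRing.of_field _ _ fun z => by
    obtain ⟨r, s, h⟩ := (IntermediateField.mem_adjoin_simple_iff F z.1).1 z.2
    refine ⟨r, s, (algebraMap F⟮x⟯ U).injective ?_⟩
    rw [map_div₀, hc, hc]
    exact h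
  have : Algebra.FormallyEtale F[X] F⟮x⟯ :=
    Algebra.FormallyEtale.of_isLocalization (nonZeroDivisors F[X])
  have : CharZero F⟮x⟯ := (algebraMap F⟮x⟯ U).charZero
  have : Algebra.FormallyEtale F⟮x⟯ U := Algebra.FormallyEtale.of_isSeparable _ _
  exact Algebra.FormallyEtale.comp F[X] F⟮x⟯ U

/-- a twisted derivation which kills `F` and `x` is zero -/
theorem leib_zero (htr : Transcendental F x) (halg : Algebra.IsAlgebraic F⟮x⟯ U)
    {T : Type*} [CommRing T] (τ : U →+* T) (E : U →+ T)
    (hE : ∀ a b, E (a * b) = τ a * E b + τ b * E a) (h0 : ∀ c : F, E (algebraMap F U c) = 0)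
    (hx : E x = 0) (u : U) : E u = 0 := by
  let : Algebra F[X] U := (aeval x : F[X] →ₐ[F] U).toRingHom.toAlgebra
  have := etale htr halg
  let : Module U T := Module.compHom T τ
  refine Base.leib_eq_zero (R := F[X]) (M := T) E hE (fun p => ?_) u
  change E (aeval x p) = 0
  induction p using Polynomial.induction_on with
  | C a => rw [aeval_C, h0]
  | add p q hp hq => rw [map_add, map_add, hp, hq, add_zero]
  | monomial n a h => rw [pow_succ, ← mul_assoc, map_mul, aeval_X, hE, h, hx]; simp

variable {C : Type*} [Field C] [Algebra C F] [Algebra C U] [IsScalarTower C F U]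

/-- extension of a derivation of `F` with `D x = 0` -/
theorem exists_der (htr : Transcendental F x) (halg : Algebra.IsAlgebraic F⟮x⟯ U)
    (d : Derivation C F F) : ∃ D : Derivation C U U, D x = 0 ∧
      ∀ z : F, D (algebraMap F U z) = algebraMap F U (d z) := by
  let : Algebra F[X] U := (aeval x : F[X] →ₐ[F] U).toRingHom.toAlgebra
  have := etale htr halg
  have : IsScalarTower C F[X] U := IsScalarTower.of_algebraMap_eq fun c => by
    change _ = aeval x (algebraMap C F[X] c)
    rw [Polynomial.algebraMap_apply, aeval_C, ← IsScalarTower.algebraMap_apply]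
  let d' : Derivation C F[X] F[X] :=
    (PolynomialModule.equivPolynomialSelf (R := F)).toLinearMap.compDer d.mapCoeffs
  refine ⟨Base.derUp U d', ?_, fun z => ?_⟩
  · have h := Base.derUp_algebraMap (S := U) d' X
    have h1 : algebraMap F[X] U X = x := aeval_X x
    rw [h1] at h
    rw [h]
    simp [d']
  · have h := Base.derUp_algebraMap (S := U) d' (Polynomial.C z)
    have h1 : ∀ z, algebraMap F[X] U (Polynomial.C z) = algebraMap F U z := fun z => aeval_C x z
    rw [h1] at h
    rw [h, ← h1]
    simp [d']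

/-- the kernel of a derivation -/
def kerD (D : Derivation C U U) : IntermediateField C U where
  carrier := {z | D z = 0}
  mul_mem' {a b} ha hb := by
    change D (a * b) = 0
    rw [D.leibniz, show D a = 0 from ha, show D b = 0 from hb]; simp
  add_mem' {a b} ha hb := by
    change D (a + b) = 0
    rw [map_add, show D a = 0 from ha, show D b = 0 from hb, add_zero]
  algebraMap_mem' c := D.map_algebraMap c
  inv_mem' a ha := by
    change D a⁻¹ = 0
    rw [D.leibniz_inv, show D a = 0 from ha, smul_zero]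

variable {R : Type*} [CommRing R] [Algebra R C] [Algebra R U] [IsScalarTower R C U]

theorem der_y (W : Affine R) {y : U} (h : (W⁄U).Equation x y) (D : Derivation C U U)
    (hx : D x = 0) : D y = 0 := by
  have hR : ∀ r : R, D (algebraMap R U r) = 0 := fun r => by
    rw [IsScalarTower.algebraMap_apply R C U, D.map_algebraMap]
  rw [equation_iff] at h
  have h1 := congrArg D h
  simp only [Affine.baseChange, WeierstrassCurve.baseChange, map_a₁, map_a₂, map_a₃, map_a₄, map_a₆, map_add, Derivation.leibniz,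
    Derivation.leibniz_pow, hR, hx, smul_zero, add_zero, smul_eq_mul, mul_zero] at h1
  by_cases h2 : 2 * y + algebraMap R U W.a₁ * x + algebraMap R U W.a₃ = 0
  · have h3 := congrArg D h2
    simp only [two_mul, map_add, Derivation.leibniz, hR, hx, smul_zero, add_zero, map_zero] at h3
    rw [← two_mul] at h3
    exact (mul_eq_zero.1 h3).resolve_left two_ne_zero
  · refine (mul_eq_zero.1 ?_).resolve_left h2
    simp only [nsmul_eq_mul, Nat.cast_ofNat, Nat.add_one_sub_one, pow_one] at h1
    linear_combination h1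

omit [CharZero U] in
/-- the coordinates of `ξ + P` lie in every field containing `x`, `y` and the constants -/
theorem coord_mem (W : Affine R) [W.IsElliptic] {y : U} (ns : (W⁄U).Nonsingular x y)
    (P : (W⁄C).Point) (K : IntermediateField C U) (hx : x ∈ K) (hy : y ∈ K) {x' y' : U}
    {ns' : (W⁄U).Nonsingular x' y'}
    (h : Point.some _ _ ns' = Point.some _ _ ns - Point.baseChange C U P) : x' ∈ K ∧ y' ∈ K := by
  have ns0 : (W⁄K).Nonsingular (⟨x, hx⟩ : K) ⟨y, hy⟩ :=
    (baseChange_nonsingular W (f := K.val) Subtype.val_injective _ _).1 ns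
  have h1 : Point.map K.val (Point.some _ _ ns0 - Point.baseChange C K P) =
      Point.some _ _ ns - Point.baseChange C U P := by
    rw [map_sub, Point.map_baseChange]; rfl
  rw [← h] at h1
  rcases hQ : Point.some _ _ ns0 - Point.baseChange C K P with _ | ⟨a, b, hab⟩
  · rw [hQ] at h1
    exact absurd h1.symm (Point.some_ne_zero _)
  · rw [hQ, Point.map_some] at h1
    obtain ⟨rfl, rfl⟩ := Point.some.inj h1
    exact ⟨a.2, b.2⟩

variable [Algebra R F] [IsScalarTower R C F] [IsScalarTower R F U]

omit [CharZero U] in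
/-- the automorphism `g` -/
theorem exists_g [IsAlgClosed U] (W : Affine R) [W.IsElliptic] {y : U}
    (ns : (W⁄U).Nonsingular x y) (htr : Transcendental F x) (halg : Algebra.IsAlgebraic F⟮x⟯ U)
    (P : (W⁄C).Point) (σ : F ≃ₐ[C] F) :
    ∃ g : U ≃ₐ[C] U, (∀ z, g (algebraMap F U z) = algebraMap F U (σ z)) ∧
      Point.map (g : U →ₐ[C] U) (Point.some _ _ ns) =
        Point.some _ _ ns - Point.baseChange C U P := by
  let L : IntermediateField F U := adjoin F {x, y}
  have hx : x ∈ L := subset_adjoin _ _ (by simp)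
  have hy : y ∈ L := subset_adjoin _ _ (by simp)
  have ns0 : (W⁄L).Nonsingular (⟨x, hx⟩ : L) ⟨y, hy⟩ :=
    (baseChange_nonsingular W (f := L.val) Subtype.val_injective _ _).1 ns
  have hG : Ell.IsGen W F (⟨x, hx⟩ : L) ⟨y, hy⟩ := by
    refine ⟨ns0.1, fun h => htr (h.algHom L.val), ?_⟩
    apply IntermediateField.map_injective L.val
    rw [adjoin_map, ← AlgHom.fieldRange_eq_map, fieldRange_val]
    congr 1
    simp [Set.image_pair]
  obtain ⟨τ, hτ, hτp⟩ := hG.exists_translation (σ.restrictScalars R) (-Point.baseChange C F P)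
  have hle : F⟮x⟯ ≤ L := adjoin_simple_le_iff.2 hx
  have : Algebra.IsAlgebraic L U := ⟨fun u =>
    (halg.isAlgebraic u).ringHom_of_comp_eq (inclusion hle : F⟮x⟯ →+* L) (RingHom.id U)
      (inclusion hle : F⟮x⟯ →+* L).injective rfl⟩
  have : IsAlgClosure L U := ⟨inferInstance, inferInstance⟩
  let g₀ : U ≃+* U := IsAlgClosure.equivOfEquiv U U (τ : L ≃+* L)
  have hg₀ : ∀ z : L, g₀ z = τ z := fun z => IsAlgClosure.equivOfEquiv_algebraMap U U _ z
  have hF : ∀ z, g₀ (algebraMap F U z) = algebraMap F U (σ z) := fun z => by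
    have h1 := hg₀ (algebraMap F L z)
    rw [hτ] at h1
    exact h1
  let g : U ≃ₐ[C] U := AlgEquiv.ofRingEquiv (f := g₀) fun c => by
    rw [IsScalarTower.algebraMap_apply C F U, hF, σ.commutes]
  refine ⟨g, hF, ?_⟩
  have h2 := congrArg (Point.map L.val) hτp
  rw [map_add, Point.map_baseChange, map_neg, ← sub_eq_add_neg] at h2
  have h3 : Point.baseChange F U (Point.baseChange C F P) = Point.baseChange C U P :=
    Point.map_baseChange (IsScalarTower.toAlgHom C F U) P
  rw [h3] at h2
  refine Eq.trans ?_ h2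
  simp only [Ell.IsGen.pt, Point.map_some]
  congr 1
  · exact hg₀ ⟨x, hx⟩
  · exact hg₀ ⟨y, hy⟩

/-- **W3** -/
theorem w3 [IsAlgClosed U] (W : Affine R) [W.IsElliptic] {y : U}
    (ns : (W⁄U).Nonsingular x y) (htr : Transcendental F x) (halg : Algebra.IsAlgebraic F⟮x⟯ U)
    (P : (W⁄C).Point) {ι : Type*} (d : ι → Derivation C F F) (σ : F ≃ₐ[C] F) (s : ι → ι)
    (hσ : ∀ i z, σ (d i z) = d (s i) (σ z)) (hcomm : ∀ i j z, d i (d j z) = d j (d i z)) :
    ∃ (D : ι → Derivation C U U) (g : U ≃ₐ[C] U), (∀ i, D i x = 0) ∧ (∀ i, D i y = 0) ∧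
      (∀ i z, D i (algebraMap F U z) = algebraMap F U (d i z)) ∧
      (∀ i j z, D i (D j z) = D j (D i z)) ∧
      (∀ z, g (algebraMap F U z) = algebraMap F U (σ z)) ∧
      Point.map (g : U →ₐ[C] U) (Point.some _ _ ns) =
        Point.some _ _ ns - Point.baseChange C U P ∧
      ∀ i z, g (D i z) = D (s i) (g z) := by
  choose D hDx hDF using fun i => exists_der htr halg (d i)
  obtain ⟨g, hg, hgp⟩ := exists_g W ns htr halg P σ
  have hDy := fun i => der_y W ns.1 (D i) (hDx i)
  refine ⟨D, g, hDx, hDy, hDF, fun i j z => ?_, hg, hgp, fun i z => ?_⟩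
  · have := leib_zero htr halg (RingHom.id U) (⁅D i, D j⁆ : Derivation C U U).toLinearMap.toAddMonoidHom
      (fun a b => (⁅D i, D j⁆ : Derivation C U U).leibniz a b)
      (fun c => by
        change (⁅D i, D j⁆ : Derivation C U U) _ = 0
        simp [Derivation.commutator_apply, hDF, hcomm i j c])
      (by
        change (⁅D i, D j⁆ : Derivation C U U) _ = 0
        simp [Derivation.commutator_apply, hDx]) z
    change (⁅D i, D j⁆ : Derivation C U U) _ = 0 at this
    simpa [Derivation.commutator_apply, sub_eq_zero] using this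
  · have hgx : D (s i) (g x) = 0 := by
      rw [Point.map_some] at hgp
      exact (coord_mem W ns P (kerD (D (s i))) (hDx _) (hDy _) hgp).1
    have := leib_zero htr halg (g : U →+* U)
      ((g : U →+* U).toAddMonoidHom.comp (D i).toLinearMap.toAddMonoidHom -
        (D (s i)).toLinearMap.toAddMonoidHom.comp (g : U →+* U).toAddMonoidHom)
      (fun a b => by simp; ring) (fun c => by simp [hDF, hg, hσ]) (by simp [hDx, hgx]) z
    simpa [sub_eq_zero] using this

end der

end Crest.Agent.T170.W3
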