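import Crest.Agent.T170.DescFine_74
import Crest.Agent.T170.LogB_89
import Crest.Agent.T170.EllD_61
import Crest.Agent.T170.W3_90

/-!
# Row 170, descent (helper74): `CoreData` from `World`, part 1

`X : World`, abstract fields `K ⊆ E ⊆ N` with an embedding `j : N →ₐ[X.C] U` (structure `Emb`).

* `Emb.exists_const` : `j K ⊆ ℂ`;  `Emb.exists_der` : the derivations restrict to `N` and `K`;
* `Emb.exists_restrict` : `γ` restricts to `K` and `E`;
* `Emb.coreData_of` : all fields of `CoreData` except the logarithmic ones.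
-/

set_option autoImplicit false
set_option linter.unusedSectionVars false

namespace Crest.Agent.T170.Desc74

open scoped NNReal Polynomial Classical
open WeierstrassCurve WeierstrassCurve.Affine Crest.Agent.T170.Fr Crest.Agent.T170.Ret
open IntermediateField

/-- restriction of an automorphism of finite order to a stable subfield -/
theorem exists_restrict_aut {C S N : Type*} [Field C] [Field S] [Field N] [Algebra C S]
    [Algebra C N] [Algebra S N] [IsScalarTower C S N] (γ : N ≃ₐ[C] N) (hfin : IsOfFinOrder γ)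
    (h : ∀ s : S, ∃ s' : S, γ (algebraMap S N s) = algebraMap S N s') :
    ∃ γ' : S ≃ₐ[C] S, ∀ s, γ (algebraMap S N s) = algebraMap S N (γ' s) := by
  choose f hf using h
  have hi := (algebraMap S N).injective
  let φ : S →ₐ[C] S :=
    { toFun := f
      map_one' := hi (by rw [← hf]; simp)
      map_mul' := fun a b => hi (by rw [← hf, map_mul, map_mul, map_mul, hf, hf])
      map_zero' := hi (by rw [← hf]; simp)
      map_add' := fun a b => hi (by rw [← hf, map_add, map_add, map_add, hf, hf])
      commutes' := fun c => hi (by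
        rw [← hf, ← IsScalarTower.algebraMap_apply, AlgEquiv.commutes]) }
  have hpow : ∀ (m : ℕ) (s : S), (γ ^ m) (algebraMap S N s) = algebraMap S N (f^[m] s) := by
    intro m
    induction m with
    | zero => intro s; simp
    | succ m ih =>
      intro s
      rw [pow_succ', AlgEquiv.mul_apply, ih, hf, Function.iterate_succ_apply']
  obtain ⟨m, hm, hγ⟩ := isOfFinOrder_iff_pow_eq_one.1 hfin
  have hsurj : Function.Surjective φ := fun s => by
    obtain ⟨k, rfl⟩ : ∃ k, m = k + 1 := ⟨m - 1, by omega⟩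
    refine ⟨f^[k] s, hi ?_⟩
    have := hpow (k + 1) s
    rw [hγ, Function.iterate_succ_apply'] at this
    exact this.symm
  exact ⟨AlgEquiv.ofBijective φ ⟨φ.toRingHom.injective, hsurj⟩, hf⟩

variable {p n : ℕ} [NeZero n] {U : Type} [Field U] [Algebra ℂ U] (X : World p n U)
  (K E N : Type) [Field K] [Field E] [Field N] [Algebra X.C K] [Algebra K E] [Algebra E N]
  [Algebra X.C E] [Algebra X.C N] [Algebra K N] [IsScalarTower X.C K E] [IsScalarTower K E N]
  [IsScalarTower X.C E N] [IsScalarTower X.C K N] [Algebra X.F K]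

/-- an embedding of the tower `F ⊆ K ⊆ E = K(x, y) ⊆ N` into `U` -/
structure Emb where
  j : N →ₐ[X.C] U
  jF : ∀ z : X.F, j (algebraMap K N (algebraMap X.F K z)) = algebraMap X.F U z
  x : E
  y : E
  jx : j (algebraMap E N x) = X.x
  jy : j (algebraMap E N y) = X.y
  gen : IntermediateField.adjoin K {x, y} = ⊤

namespace Emb

variable {X K E N} (J : Emb X K E N)

/-- the embedding of `E` -/
noncomputable def jE : E →ₐ[X.C] U := J.j.comp (IsScalarTower.toAlgHom X.C E N)

theorem jE_apply (z : E) : J.jE z = J.j (algebraMap E N z) := rfl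

/-- the embedding of `K` -/
noncomputable def jK : K →ₐ[X.C] U := J.j.comp (IsScalarTower.toAlgHom X.C K N)

theorem jK_apply (z : K) : J.jK z = J.j (algebraMap K N z) := rfl

theorem jE_algebraMap (z : K) : J.jE (algebraMap K E z) = J.jK z := by
  rw [jE_apply, jK_apply, ← IsScalarTower.algebraMap_apply]

theorem jK_F (z : X.F) : J.jK (algebraMap X.F K z) = algebraMap X.F U z := J.jF z

include J in
theorem incl (c : X.C) : algebraMap X.F K (Subfield.inclusion X.CF c) = algebraMap X.C K c :=
  J.jK.toRingHom.injective (by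
    change J.jK _ = J.jK _
    rw [jK_F, AlgHom.commutes]; rfl)

theorem charZero_of (S : Type) [Field S] [Algebra X.C S] : CharZero S :=
  charZero_of_injective_algebraMap (algebraMap X.C S).injective

/-- the constants `K` lie in `ℂ` -/
theorem exists_const [Algebra.IsAlgebraic X.F K] (k : K) :
    ∃ c : ℂ, J.jK k = algebraMap ℂ U c := by
  let _ : Algebra K U := J.jK.toRingHom.toAlgebra
  have : IsScalarTower X.F K U := IsScalarTower.of_algebraMap_eq fun z => (J.jK_F z).symm
  have h1 : IsIntegral X.F (algebraMap K U k) := (Algebra.IsIntegral.isIntegral k).algebraMap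
  have h2 : IsIntegral ℂ (algebraMap K U k) := h1.tower_top
  have h3 := minpoly.mem_range_of_degree_eq_one ℂ _
    (IsAlgClosed.degree_eq_one_of_irreducible ℂ (minpoly.irreducible h2))
  obtain ⟨c, hc⟩ := h3
  exact ⟨c, hc.symm⟩

/-- the embedding of `K` into `ℂ` -/
theorem exists_emb [Algebra.IsAlgebraic X.F K] :
    ∃ ι : K →+* ℂ, ∀ k, algebraMap ℂ U (ι k) = J.jK k := by
  choose f hf using J.exists_const
  have hi := (algebraMap ℂ U).injective
  exact ⟨{ toFun := f
           map_one' := hi (by rw [← hf]; simp)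
           map_mul' := fun a b => hi (by rw [← hf, map_mul, map_mul, hf, hf])
           map_zero' := hi (by rw [← hf]; simp)
           map_add' := fun a b => hi (by rw [← hf, map_add, map_add, hf, hf]) },
    fun k => (hf k).symm⟩

theorem der_K [Algebra.IsAlgebraic X.F K] (i : Fin n) (k : K) :
    ∃ k' : K, X.D i (J.jK k) = J.jK k' := by
  have := charZero_of (X := X) K
  let _ : Algebra K U := J.jK.toRingHom.toAlgebra
  have : IsScalarTower X.F K U := IsScalarTower.of_algebraMap_eq fun z => (J.jK_F z).symm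
  have h := Log.deriv_mem (X.D i) (IsScalarTower.toAlgHom X.F K U).fieldRange
    (fun a => by
      obtain ⟨a', ha⟩ := X.DF i a
      rw [ha]; exact IntermediateField.algebraMap_mem _ _)
    (z := J.jK k) ⟨k, rfl⟩
    ((Algebra.IsSeparable.isSeparable X.F k).map (IsScalarTower.toAlgHom X.F K U)
      (algebraMap K U).injective)
  obtain ⟨k', hk'⟩ := h
  exact ⟨k', hk'.symm⟩

theorem der_E [Algebra.IsAlgebraic X.F K] (i : Fin n) (z : E) :
    ∃ z' : E, X.D i (J.jE z) = J.jE z' := by
  have hz : z ∈ IntermediateField.adjoin K {J.x, J.y} := by rw [J.gen]; trivial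
  induction hz using IntermediateField.adjoin_induction with
  | mem x hx =>
    rcases hx with rfl | rfl
    · exact ⟨0, by rw [jE_apply, J.jx, X.Dx, map_zero]⟩
    · exact ⟨0, by rw [jE_apply, J.jy, X.Dy, map_zero]⟩
  | algebraMap k =>
    obtain ⟨k', hk'⟩ := J.der_K i k
    exact ⟨algebraMap K E k', by rw [jE_algebraMap, jE_algebraMap, hk']⟩
  | add a b _ _ ha hb =>
    obtain ⟨a', ha⟩ := ha
    obtain ⟨b', hb⟩ := hb
    exact ⟨a' + b', by rw [map_add, map_add, map_add, ha, hb]⟩
  | inv a _ ha =>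
    obtain ⟨a', ha⟩ := ha
    exact ⟨-a⁻¹ ^ 2 * a', by
      rw [map_inv₀, Derivation.leibniz_inv, ha]; simp⟩
  | mul a b _ _ ha hb =>
    obtain ⟨a', ha⟩ := ha
    obtain ⟨b', hb⟩ := hb
    exact ⟨a * b' + b * a', by rw [map_mul, Derivation.leibniz, ha, hb]; simp⟩

theorem der_N [Algebra.IsAlgebraic X.F K] [Algebra.IsSeparable E N] (i : Fin n) (z : N) :
    ∃ z' : N, X.D i (J.j z) = J.j z' := by
  let _ : Algebra E U := J.jE.toRingHom.toAlgebra
  let j' : N →ₐ[E] U := { J.j.toRingHom with commutes' := fun _ => rfl }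
  have h := Log.deriv_mem (X.D i) j'.fieldRange
    (fun a => by
      obtain ⟨a', ha⟩ := J.der_E i a
      exact ⟨algebraMap E N a', ha.symm⟩)
    (z := J.j z) ⟨z, rfl⟩
    ((Algebra.IsSeparable.isSeparable E z).map j' j'.toRingHom.injective)
  obtain ⟨z', hz'⟩ := h
  exact ⟨z', hz'.symm⟩

/-- the derivations restrict to `N` and `K` -/
theorem exists_der [Algebra.IsAlgebraic X.F K] [Algebra.IsSeparable E N] :
    ∃ (D : Fin n → Derivation X.C N N) (d : Fin n → K → K),
      (∀ i z, J.j (D i z) = X.D i (J.j z)) ∧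
      ∀ i z, D i (algebraMap K N z) = algebraMap K N (d i z) := by
  choose D hD using fun i => Log.exists_restrictDer' (X.D i) J.j J.j.toRingHom.injective (J.der_N i)
  choose d hd using J.der_K
  exact ⟨D, d, hD, fun i z => J.j.toRingHom.injective (by
    change J.j _ = J.j _
    rw [hD]; exact hd i z)⟩

theorem ns : (X.W⁄E).Nonsingular J.x J.y := by
  have h := X.ns
  rw [← J.jx, ← J.jy, ← jE_apply, ← jE_apply] at h
  exact (baseChange_nonsingular X.W J.jE.toRingHom.injective (f := J.jE) J.x J.y).1 h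

/-- the valuation on `E` -/
noncomputable def vE : Valuation E ℝ≥0 := X.v.comap J.jE.toRingHom

theorem vE_apply (z : E) : J.vE z = X.v (J.jE z) := rfl

theorem vE_K (z : K) : J.vE (algebraMap K E z) = X.v (J.jK z) := by
  rw [vE_apply, jE_algebraMap]

theorem vE_C (z : X.C) : J.vE (algebraMap X.C E z) = X.v (algebraMap X.C U z) := by
  rw [vE_apply, AlgHom.commutes]

theorem vE_F (z : X.F) :
    J.vE (algebraMap K E (algebraMap X.F K z)) = X.v (algebraMap X.F U z) := by
  rw [vE_K, jK_F]

theorem vE_R (r : X.R) : J.vE (algebraMap X.R E r) ≤ 1 := by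
  rw [IsScalarTower.algebraMap_apply X.R X.C E, vE_C]; exact X.vR r

theorem gaussX [Algebra.IsAlgebraic X.F K] : Ell.GaussX J.vE K J.x := by
  obtain ⟨ι, hι⟩ := J.exists_emb
  let _ : Algebra K U := J.jK.toRingHom.toAlgebra
  let _ : Algebra K ℂ := ι.toAlgebra
  have : IsScalarTower K ℂ U := IsScalarTower.of_algebraMap_eq fun k => (hι k).symm
  have h : Ell.GaussX X.v K X.x := (Ell.gaussX_of_isAlgClosed X.vx X.gauss).of_tower
  let j' : E →ₐ[K] U := { J.jE.toRingHom with commutes' := J.jE_algebraMap }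
  intro f γ
  have e : J.vE (Polynomial.aeval J.x f) = X.v (Polynomial.aeval X.x f) := by
    change X.v (j' (Polynomial.aeval J.x f)) = _
    rw [← Polynomial.aeval_algHom_apply, show j' J.x = X.x from J.jx]
  rw [e, h]
  simp only [vE_K]
  rfl

theorem nontriv (hp : p ≠ 0) : ∃ z : X.F, z ≠ 0 ∧
    (J.vE.comap (algebraMap K E)) (algebraMap X.F K z) ≠ 1 :=
  ⟨(p : X.F), Nat.cast_ne_zero.2 hp, by
    rw [Valuation.comap_apply, vE_F, map_natCast]; exact X.vp.ne⟩

theorem cplF : Gal.Cpl ((J.vE.comap (algebraMap K E)).comap (algebraMap X.F K)) := by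
  have e : (J.vE.comap (algebraMap K E)).comap (algebraMap X.F K) =
      X.v.comap (algebraMap X.F U) := Valuation.ext fun z => J.vE_F z
  rw [e]; exact X.cpl

/-- `γ` maps `E` into `E` -/
theorem aut_E (γ : N ≃ₐ[X.C] N) (hx : J.j (γ (algebraMap E N J.x)) = X.g X.x)
    (hy : J.j (γ (algebraMap E N J.y)) = X.g X.y)
    (hK : ∀ k : K, ∃ k' : K, γ (algebraMap K N k) = algebraMap K N k') (z : E) :
    ∃ z' : E, γ (algebraMap E N z) = algebraMap E N z' := by
  have := X.ell
  have hc := W3.coord_mem X.W X.ns X.P J.jE.fieldRange ⟨J.x, J.jx⟩ ⟨J.y, J.jy⟩ X.gξ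
  have hi := J.j.toRingHom.injective
  have hz : z ∈ IntermediateField.adjoin K {J.x, J.y} := by rw [J.gen]; trivial
  induction hz using IntermediateField.adjoin_induction with
  | mem x hx' =>
    rcases hx' with rfl | rfl
    · obtain ⟨t, ht⟩ := hc.1
      exact ⟨t, hi (hx.trans ht.symm)⟩
    · obtain ⟨t, ht⟩ := hc.2
      exact ⟨t, hi (hy.trans ht.symm)⟩
  | algebraMap k =>
    obtain ⟨k', hk'⟩ := hK k
    exact ⟨algebraMap K E k', by
      rw [← IsScalarTower.algebraMap_apply, ← IsScalarTower.algebraMap_apply, hk']⟩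
  | add a b _ _ ha hb =>
    obtain ⟨a', ha⟩ := ha
    obtain ⟨b', hb⟩ := hb
    exact ⟨a' + b', by rw [map_add, map_add, map_add, ha, hb]⟩
  | inv a _ ha =>
    obtain ⟨a', ha⟩ := ha
    exact ⟨a'⁻¹, by rw [map_inv₀, map_inv₀, map_inv₀, ha]⟩
  | mul a b _ _ ha hb =>
    obtain ⟨a', ha⟩ := ha
    obtain ⟨b', hb⟩ := hb
    exact ⟨a' * b', by rw [map_mul, map_mul, map_mul, ha, hb]⟩

/-- `γ` rotates the derivations -/
theorem aut_der [Algebra.IsAlgebraic X.F K] [Algebra.IsAlgebraic E N] (γ : N ≃ₐ[X.C] N)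
    (hF : ∀ z : X.F, γ (algebraMap K N (algebraMap X.F K z)) =
      algebraMap K N (algebraMap X.F K (X.σ z)))
    (hx : J.j (γ (algebraMap E N J.x)) = X.g X.x)
    (D : Fin n → Derivation X.C N N) (hD : ∀ i z, J.j (D i z) = X.D i (J.j z)) (i : Fin n)
    (z : N) : γ (D i z) = D (i + 1) (γ z) := by
  have := charZero_of (X := X) N
  let _ : Algebra X.F N := ((algebraMap K N).comp (algebraMap X.F K)).toAlgebra
  let jF : N →ₐ[X.F] U := { J.j.toRingHom with commutes' := J.jF }
  have hi := J.j.toRingHom.injective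
  have htr : Transcendental X.F (algebraMap E N J.x) := by
    have h1 : Transcendental X.F X.x := X.trans.restrictScalars (algebraMap X.F ℂ).injective
    rw [← J.jx] at h1
    exact fun h => h1 (h.algHom jF)
  have halg : Algebra.IsAlgebraic X.F⟮algebraMap E N J.x⟯ N := by
    have h1 : Algebra.IsAlgebraic X.F⟮X.x⟯ U := W3.alg_adjoin X.algF X.alg
    have e : (X.F⟮algebraMap E N J.x⟯).map jF = X.F⟮X.x⟯ := by
      rw [IntermediateField.adjoin_map, Set.image_singleton]
      exact congrArg (fun t => X.F⟮t⟯) J.jx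
    let ψ : X.F⟮algebraMap E N J.x⟯ ≃ₐ[X.F] X.F⟮X.x⟯ :=
      (IntermediateField.equivMap _ jF).trans (IntermediateField.equivOfEq e)
    refine ⟨fun t => ?_⟩
    refine (h1.isAlgebraic (J.j t)).of_ringHom_of_comp_eq (f := (ψ : _ →+* _))
      (g := J.j.toRingHom) ψ.surjective hi ?_
    ext s
    rfl
  have key := W3.leib_zero htr halg (γ : N →+* N)
    (((γ : N →+* N) : N →+ N).comp (D i).toLinearMap.toAddMonoidHom -
      (D (i + 1)).toLinearMap.toAddMonoidHom.comp ((γ : N →+* N) : N →+ N))
    (fun a b => by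
      simp only [AddMonoidHom.sub_apply, AddMonoidHom.comp_apply, AddMonoidHom.coe_coe,
        LinearMap.toAddMonoidHom_coe, Derivation.coeFn_coe, Derivation.leibniz, map_mul, map_add,
        smul_eq_mul]
      ring)
    (fun c => by
      change γ (D i (algebraMap K N (algebraMap X.F K c))) -
        D (i + 1) (γ (algebraMap K N (algebraMap X.F K c))) = 0
      obtain ⟨c', hc'⟩ := X.DF i c
      have e : D i (algebraMap K N (algebraMap X.F K c)) =
          algebraMap K N (algebraMap X.F K c') := hi (by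
        change J.j _ = J.j _
        rw [hD, J.jF, J.jF, hc'])
      rw [e, hF, hF, sub_eq_zero]
      refine hi ?_
      change J.j _ = J.j _
      rw [hD, J.jF, J.jF, ← X.gσ, ← X.gσ, ← X.gD, hc'])
    (by
      change γ (D i (algebraMap E N J.x)) - D (i + 1) (γ (algebraMap E N J.x)) = 0
      have e : D i (algebraMap E N J.x) = 0 := hi (by
        change J.j _ = J.j _
        rw [hD, J.jx, X.Dx, map_zero])
      rw [e, map_zero, zero_sub, neg_eq_zero]
      refine hi ?_
      change J.j _ = J.j _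
      rw [hD, hx, ← X.gD, X.Dx, map_zero, map_zero]) z
  exact sub_eq_zero.1 key

/-- all fields of `CoreData` except the logarithmic ones -/
theorem coreData_of (hp : p ≠ 0) [Algebra.IsAlgebraic X.F K] [Algebra.IsAlgebraic E N]
    (cpl : Cpl (J.vE.comap (algebraMap K E)))
    (hvd : ∀ i (k : K), X.v (X.D i (J.jK k)) ≤ X.v (J.jK k))
    (γ : N ≃ₐ[X.C] N)
    (hF : ∀ z : X.F, γ (algebraMap K N (algebraMap X.F K z)) =
      algebraMap K N (algebraMap X.F K (X.σ z)))
    (hx : J.j (γ (algebraMap E N J.x)) = X.g X.x) (hy : J.j (γ (algebraMap E N J.y)) = X.g X.y)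
    (hK : ∀ k : K, ∃ k' : K, γ (algebraMap K N k) = algebraMap K N k') (hfin : IsOfFinOrder γ)
    (V : ValuationSubring K) (fine : Fine (C := X.C) (J.vE.comap (algebraMap K E)) V)
    (hV : ∀ k k' : K, γ (algebraMap K N k) = algebraMap K N k' → (k' ∈ V ↔ k ∈ V))
    (D : Fin n → Derivation X.C N N) (d : Fin n → K → K)
    (hD : ∀ i z, J.j (D i z) = X.D i (J.j z))
    (Dd : ∀ i z, D i (algebraMap K N z) = algebraMap K N (d i z))
    (pres₀ : ∀ i, ∀ h ∈ ({J.x - algebraMap K E (algebraMap X.F K (X.a i)),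
        J.y - algebraMap K E (algebraMap X.F K (X.b i))} : Set E), ∀ z : N,
      IsIntegral (Algebra.adjoin K {algebraMap E N J.x}) z →
      IsIntegral (Algebra.adjoin K {algebraMap E N J.x}) (h • D i z))
    (pres₁ : ∀ i, ∀ h ∈ ({1 - algebraMap K E (algebraMap X.F K (X.a i)) / J.x,
        (J.y - algebraMap K E (algebraMap X.F K (X.b i))) / J.x ^ 2} : Set E), ∀ z : N,
      IsIntegral (Algebra.adjoin K {(algebraMap E N J.x)⁻¹}) z →
      IsIntegral (Algebra.adjoin K {(algebraMap E N J.x)⁻¹}) (h • D i z))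
    (i₀ : Fin n) (u : AV N) (n₀ : ℕ) (n₀pos : 0 < n₀)
    (uK : ∀ z : K, z ≠ 0 → u (algebraMap K N z) = 0)
    (uh : u (algebraMap E N (J.x - algebraMap K E (algebraMap X.F K (X.a i₀)))) =
      ((n₀ : ℤ) : WithTop ℤ))
    (logd : ∀ (z : N) (k : ℤ), u z = (k : WithTop ℤ) →
      (k : WithTop ℤ) < u ((J.x - algebraMap K E (algebraMap X.F K (X.a i₀))) • D i₀ z +
        (((k : ℚ) / n₀ : ℚ) : N) * algebraMap K N (d i₀ (algebraMap X.F K (X.a i₀))) * z))
    (wild : ∃ (z : N) (k : ℤ), u z = (k : WithTop ℤ) ∧ p ∣ ((k : ℚ) / n₀).den) :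
    Nonempty (CoreData p n X.R X.C K E N) := by
  have := X.ell
  have hi := J.j.toRingHom.injective
  obtain ⟨γK, hγK⟩ := exists_restrict_aut (S := K) γ hfin hK
  obtain ⟨γE, hγE⟩ := exists_restrict_aut (S := E) γ hfin (J.aut_E γ hx hy hK)
  have hd : ∀ i k, J.jK (d i k) = X.D i (J.jK k) := fun i k => by
    rw [jK_apply, ← Dd, hD, jK_apply]
  have γEK : ∀ z, γE (algebraMap K E z) = algebraMap K E (γK z) := fun z =>
    (algebraMap E N).injective (by
      rw [← hγE, ← IsScalarTower.algebraMap_apply, ← IsScalarTower.algebraMap_apply, hγK])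
  have vK : ∀ k, J.vE (algebraMap K E (γK k)) = J.vE (algebraMap K E k) := fun k =>
    Gal.val_equiv _ (J.nontriv hp) J.cplF (J.vE.comap (algebraMap K E)) (fun _ => rfl)
      (γK : K →+* K) (fun a => by
        have e : γK (algebraMap X.F K a) = algebraMap X.F K (X.σ a) :=
          (algebraMap K N).injective (by rw [← hγK, hF])
        change J.vE (algebraMap K E (γK (algebraMap X.F K a))) =
          J.vE (algebraMap K E (algebraMap X.F K a))
        rw [e, vE_F, vE_F, X.vσ]) k
  have γξ : Point.map (γE : E →ₐ[X.C] E) (Point.some _ _ J.ns) =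
      Point.some _ _ J.ns - Point.baseChange X.C E X.P := by
    apply Point.map_injective (f := J.jE)
    rw [map_sub, Point.map_baseChange, Point.map_map]
    have e1 : Point.map J.jE (Point.some _ _ J.ns) = Point.some _ _ X.ns := by
      rw [Point.map_some]
      simp only [Point.some.injEq]
      exact ⟨J.jx, J.jy⟩
    rw [e1, ← X.gξ, Point.map_some, Point.map_some]
    simp only [Point.some.injEq]
    exact ⟨(congrArg J.j (hγE J.x)).symm.trans hx, (congrArg J.j (hγE J.y)).symm.trans hy⟩
  let _ : Algebra X.R K := ((algebraMap X.C K).comp (algebraMap X.R X.C)).toAlgebra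
  have : IsScalarTower X.R K E := IsScalarTower.of_algebraMap_eq fun r =>
    (IsScalarTower.algebraMap_apply X.R X.C E r).trans
      (IsScalarTower.algebraMap_apply X.C K E _)
  have vγ : ∀ z, J.vE (γE z) = J.vE z := fun z =>
    J.gaussX.val_map J.vE_R J.ns J.gen (γE : E →ₐ[X.C] E) (γK : K →+* K) γEK vK
      (T := -Point.baseChange X.C E X.P)
      (neg_mem (Ell.baseChange_mem_algPts' (fun c => by
        rw [IsScalarTower.algebraMap_apply X.C K E]; exact isAlgebraic_algebraMap _) X.P))
      (by rw [γξ, sub_eq_add_neg]) z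
  have hdec : (fun a b : X.C => a.instDecidableEq b) =
      fun a b => Classical.propDecidable (a = b) := Subsingleton.elim _ _
  exact ⟨{
    v := J.vE
    vp := by rw [vE_apply, map_natCast]; exact X.vp
    vgrp := fun z => by
      obtain ⟨c, hc⟩ := J.exists_const z
      obtain ⟨c', hc'⟩ := X.vgrp c
      exact ⟨c', by rw [vE_C, vE_K, hc, hc']⟩
    cpl := cpl
    vR := J.vE_R
    W := X.W
    ell := X.ell
    x := J.x
    y := J.y
    ns := J.ns
    gauss := Ell.gaussX_iff_sup.1 J.gaussX
    gen := J.gen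
    P := X.P
    nP := by rw [← hdec]; exact X.nP
    Pint := fun j hj => by
      obtain ⟨s, t, h, h1, h2⟩ := X.Pint j hj
      exact ⟨s, t, h, by rw [← hdec]; exact h1, by rw [vE_C]; exact h2⟩
    a := fun i => algebraMap X.F K (X.a i)
    b := fun i => algebraMap X.F K (X.b i)
    a' := X.a'
    b' := X.b'
    va' := fun i => by rw [vE_C]; exact X.va' i
    vaa' := fun i => by
      rw [vE_apply, map_sub, jE_algebraMap, jK_F, AlgHom.commutes]; exact X.vaa' i
    vbb' := fun i => by
      rw [vE_apply, map_sub, jE_algebraMap, jK_F, AlgHom.commutes]; exact X.vbb' i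
    ns' := X.ns'
    O' := by rw [← hdec]; exact X.O'
    D := D
    d := d
    Dd := Dd
    vd := fun i z => by rw [vE_K, vE_K, hd]; exact hvd i z
    Dx := fun i => hi (by
      change J.j _ = J.j _
      rw [hD, J.jx, X.Dx, map_zero])
    Dy := fun i => hi (by
      change J.j _ = J.j _
      rw [hD, J.jy, X.Dy, map_zero])
    Dcomm := fun i j z => hi (by
      change J.j _ = J.j _
      rw [hD, hD, hD, hD, X.Dcomm])
    pres₀ := pres₀
    pres₁ := pres₁
    i₀ := i₀
    u := u
    n₀ := n₀
    n₀pos := n₀pos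
    uK := uK
    uh := uh
    logd := logd
    wild := wild
    big := by
      rw [vE_K, hd, jK_F, vE_apply, map_natCast]; exact X.big i₀
    γ := γ
    γE := γE
    γK := γK
    γγE := hγE
    γEK := γEK
    γfin := hfin
    vγ := vγ
    γD := J.aut_der γ hF hx D hD
    γξ := by rw [← hdec]; exact γξ
    V := V
    fine := fine
    γV := fun z => hV z _ (hγK z) }⟩

/-- completeness of `K` if it is finite over `F` -/
theorem cpl_of_finite (hp : p ≠ 0) [FiniteDimensional X.F K] :
    Cpl (J.vE.comap (algebraMap K E)) :=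
  Gal.Cpl.finite J.cplF (J.nontriv hp) _ fun _ => rfl

/-- an extension of `X.V` to `K` is fine -/
theorem fine_of_over (hp : p ≠ 0) [Algebra.IsAlgebraic X.F K] (V : ValuationSubring K)
    (hV : ∀ z : X.F, algebraMap X.F K z ∈ V ↔ z ∈ X.V) :
    Fine (C := X.C) (J.vE.comap (algebraMap K E)) V := by
  have := X.Cac
  have hC : ∀ c : X.C, (J.vE.comap (algebraMap K E)) (algebraMap X.C K c) =
      X.v (algebraMap X.C U c) := fun c => by
    rw [Valuation.comap_apply, ← IsScalarTower.algebraMap_apply, vE_C]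
  refine fine_ext (Subfield.inclusion X.CF) J.incl _ (J.nontriv hp) J.cplF X.V
    (fun z hz => ?_) (fun c hc => X.Vconst c (by rwa [hC] at hc)) (fun z hz => ?_) V hV
  · rw [Valuation.comap_apply, vE_F]; exact X.Vle z hz
  · obtain ⟨c, h1, h2⟩ := X.Vres z hz
    exact ⟨c, by rwa [hC], h2⟩

end Emb

end Crest.Agent.T170.Desc74
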