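import Crest.Agent.T170.CntDef_9

/-!
# Row 170 (helper16): the group-theoretic assembly of the descent

* `cnt_of_group` : the finite Smith lemma together with the count of labelled homomorphisms;
* `hasOp_of_core` : from the Galois group of the fixed field of the kernel to the image;
* `exists_pow_gt`, `exists_pPart_pow` : numerical helpers.
-/

set_option autoImplicit false

namespace Crest.Agent.T170.Desc16

open Crest.Agent.R170 Crest.Agent.T170.Smith13

section Group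

variable {Pi Γ G : Type} [Group Pi] [Group Γ] [Group G]

/-- the count of labelled homomorphisms, summed with the weight `sA` -/
theorem finsum_hom_eq [Finite Pi] [Finite G] (p : ℕ) {n : ℕ} (γ : Fin n → Pi) (c : G)
    (hcount : ∀ A : Subgroup G,
      Nat.card {ρ : Pi →* G // (∀ i, IsConj (ρ (γ i)) c) ∧ ρ.range ≤ A} =
        Nat.card (Tup A fun (_ : Fin n) (h : A) => IsConj (h : G) c)) :
    ∑ᶠ ρ : {ρ : Pi →* G // ∀ i, IsConj (ρ (γ i)) c}, sA p ρ.1.range =
      ∑ᶠ w : Tup G (fun (_ : Fin n) (g : G) => IsConj g c), sA p (tcl w.1) := by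
  have : Finite (Pi →* G) := Finite.of_injective _ DFunLike.coe_injective
  rw [← tuple_sum_eq p (fun (_ : Fin n) (g : G) => IsConj g c),
    ← chain_sum_eq p (fun ρ : {ρ : Pi →* G // ∀ i, IsConj (ρ (γ i)) c} => ρ.1.range)]
  refine finsum_congr fun σ => ?_
  rw [← hcount]
  congr 2
  exact Nat.card_congr (Equiv.subtypeSubtypeEquivSubtypeInter
    (fun ρ : Pi →* G => ∀ i, IsConj (ρ (γ i)) c) fun ρ => ρ.range ≤ st σ)

/-- **Group-theoretic assembly**, with the geometric input on the whole group. -/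
theorem cnt_of_group' [Finite Pi] [Finite Γ] [Finite G] {p : ℕ} [Fact p.Prime] {n : ℕ}
    (r : Pi →* Γ) (hr : Function.Injective r) [r.range.Normal] (hq : IsPGroup p (Γ ⧸ r.range))
    (γ : Fin n → Pi) (c : G)
    (hstab : ∀ (s : Γ) (i : Fin n), ∃ (j : Fin n) (k : Pi), s * r (γ i) * s⁻¹ = r (k * γ j * k⁻¹))
    (hcount : ∀ A : Subgroup G,
      Nat.card {ρ : Pi →* G // (∀ i, IsConj (ρ (γ i)) c) ∧ ρ.range ≤ A} =
        Nat.card (Tup A fun (_ : Fin n) (h : A) => IsConj (h : G) c))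
    (hgeo : ∀ ρ' : Γ →* G, (∀ i, IsConj (ρ' (r (γ i))) c) → HasOp p ρ'.range) :
    ((p * pPart p (Nat.card G) : ℕ) : ℤ) ∣
      ∑ᶠ w : Tup G (fun (_ : Fin n) (g : G) => IsConj g c), sA p (tcl w.1) := by
  let e : Pi ≃* r.range := MonoidHom.ofInjective hr
  have he : ∀ z, ((e z : r.range) : Γ) = r z := fun _ => rfl
  let T : Set (r.range →* G) := {ρ | ∀ i, IsConj (ρ (e (γ i))) c}
  have h := smith (p := p) r.range hq T
    (fun g ρ hρ i => (isConj_iff.mpr ⟨g, rfl⟩ : IsConj (ρ (e (γ i))) _).symm.trans (hρ i))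
    (fun s ρ hρ i => by
      obtain ⟨j, k, hk⟩ := hstab s i
      have e1 : MulAut.conjNormal s (e (γ i)) = e k * e (γ j) * (e k)⁻¹ := by
        rw [← map_inv, ← map_mul, ← map_mul]
        exact Subtype.ext (by rw [MulAut.conjNormal_apply, he, he, hk])
      change IsConj (ρ (MulAut.conjNormal s (e (γ i)))) c
      rw [e1, map_mul, map_mul, map_inv]
      exact (isConj_iff.mpr ⟨ρ (e k), rfl⟩ : IsConj (ρ (e (γ j))) _).symm.trans (hρ j))
    (fun ρ' hρ' => hgeo ρ' hρ')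
  rw [← finsum_hom_eq p γ c hcount]
  let E : T ≃ {ρ : Pi →* G // ∀ i, IsConj (ρ (γ i)) c} :=
    { toFun := fun ρ => ⟨ρ.1.comp e.toMonoidHom, ρ.2⟩
      invFun := fun ρ => ⟨ρ.1.comp e.symm.toMonoidHom, fun i => by simpa using ρ.2 i⟩
      left_inv := fun ρ => Subtype.ext (MonoidHom.ext fun z => by simp)
      right_inv := fun ρ => Subtype.ext (MonoidHom.ext fun z => by simp) }
  rw [← finsum_comp_equiv E]
  convert h using 3 with ρ
  congr 1
  change (ρ.1.comp e.toMonoidHom).range = _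
  have he' : e.toMonoidHom.range = ⊤ := MonoidHom.range_eq_top.mpr e.surjective
  rw [MonoidHom.range_comp, he', ← MonoidHom.range_eq_map]

/-- `O_p ≠ 1` passes from the image of a normal subgroup to the whole image. -/
theorem hasOp_range_of_map [Finite G] {p : ℕ} [Fact p.Prime] (I : Subgroup Γ) [hI : I.Normal]
    (ρ : Γ →* G) (h : HasOp p (I.map ρ)) : HasOp p ρ.range := by
  refine HasOp.of_normal (Subgroup.map_le_range ρ I) ?_ h
  rintro _ ⟨s, rfl⟩
  refine Subgroup.mem_normalizer_iff.mpr fun z => ⟨?_, ?_⟩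
  · rintro ⟨t, ht, rfl⟩
    exact ⟨s * t * s⁻¹, hI.conj_mem t ht s, by simp⟩
  · rintro ⟨t, ht, e⟩
    refine ⟨s⁻¹ * t * s⁻¹⁻¹, hI.conj_mem t ht s⁻¹, ?_⟩
    simp [e, mul_assoc]

/-- **Group-theoretic assembly**, with the geometric input on a normal subgroup `I`. -/
theorem cnt_of_group [Finite Pi] [Finite Γ] [Finite G] {p : ℕ} [Fact p.Prime] {n : ℕ}
    (r : Pi →* Γ) (hr : Function.Injective r) [r.range.Normal] (hq : IsPGroup p (Γ ⧸ r.range))
    (I : Subgroup Γ) [I.Normal] (γ : Fin n → Pi) (c : G)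
    (hstab : ∀ (s : Γ) (i : Fin n), ∃ (j : Fin n) (k : Pi), s * r (γ i) * s⁻¹ = r (k * γ j * k⁻¹))
    (hcount : ∀ A : Subgroup G,
      Nat.card {ρ : Pi →* G // (∀ i, IsConj (ρ (γ i)) c) ∧ ρ.range ≤ A} =
        Nat.card (Tup A fun (_ : Fin n) (h : A) => IsConj (h : G) c))
    (hcore : ∀ ρ' : Γ →* G, (∀ i, IsConj (ρ' (r (γ i))) c) → HasOp p (I.map ρ')) :
    ((p * pPart p (Nat.card G) : ℕ) : ℤ) ∣
      ∑ᶠ w : Tup G (fun (_ : Fin n) (g : G) => IsConj g c), sA p (tcl w.1) :=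
  cnt_of_group' r hr hq γ c hstab hcount fun ρ' h => hasOp_range_of_map I ρ' (hcore ρ' h)

/-- transport of a normal `p`-subgroup along a homomorphism pair with the same kernel -/
theorem hasOp_of_ker_eq {H : Type*} [Group H] {p : ℕ} (ρ : Γ →* G) (π : Γ →* H)
    (hπ : Function.Surjective π) (hker : π.ker = ρ.ker)
    (h : ∃ Q : Subgroup H, Q.Normal ∧ Q ≠ ⊥ ∧ IsPGroup p Q) : HasOp p ρ.range := by
  obtain ⟨Q, hQ, hQ0, hQp⟩ := h
  let φ : H →* G := π.liftOfSurjective hπ ⟨ρ, hker.le⟩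
  have hφ : ∀ s, φ (π s) = ρ s := fun s => π.liftOfRightInverse_comp_apply _ _ _ s
  have hinj : Function.Injective φ := by
    refine (injective_iff_map_eq_one φ).mpr fun z hz => ?_
    obtain ⟨s, rfl⟩ := hπ z
    rw [hφ] at hz
    exact hker.ge hz
  refine ⟨Q.map φ, fun h0 => hQ0 ((Subgroup.map_eq_bot_iff_of_injective Q hinj).mp h0),
    hQp.map φ, ?_, ?_⟩
  · rintro _ ⟨z, -, rfl⟩
    obtain ⟨s, rfl⟩ := hπ z
    exact ⟨s, (hφ s).symm⟩
  · rintro _ ⟨s, rfl⟩
    rw [← hφ]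
    refine Subgroup.mem_normalizer_iff.mpr fun z => ⟨?_, ?_⟩
    · rintro ⟨t, ht, rfl⟩
      exact ⟨π s * t * (π s)⁻¹, hQ.conj_mem t ht _, by simp⟩
    · rintro ⟨t, ht, e⟩
      refine ⟨(π s)⁻¹ * t * (π s)⁻¹⁻¹, hQ.conj_mem t ht _, ?_⟩
      simp [e, mul_assoc]

theorem orderOf_eq_of_ker_eq {H : Type*} [Group H] (ρ : Γ →* G) (π : Γ →* H)
    (hker : π.ker = ρ.ker) (s : Γ) : orderOf (π s) = orderOf (ρ s) := by
  rw [orderOf_eq_orderOf_iff]
  intro n
  rw [← map_pow, ← map_pow, ← MonoidHom.mem_ker, ← MonoidHom.mem_ker, hker]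

theorem card_le_of_ker_eq [Finite G] {H : Type*} [Group H] (ρ : Γ →* G) (π : Γ →* H)
    (hπ : Function.Surjective π) (hker : π.ker = ρ.ker) : Nat.card H ≤ Nat.card G := by
  let φ : H →* G := π.liftOfSurjective hπ ⟨ρ, hker.le⟩
  have hφ : ∀ s, φ (π s) = ρ s := fun s => π.liftOfRightInverse_comp_apply _ _ _ s
  refine Nat.card_le_card_of_injective φ ((injective_iff_map_eq_one φ).mpr fun z hz => ?_)
  obtain ⟨s, rfl⟩ := hπ z
  rw [hφ] at hz
  exact hker.ge hz

end Group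

section Galois

variable {E L G : Type} [Field E] [Field L] [Algebra E L] [FiniteDimensional E L] [IsGalois E L]
  [Group G] (ρ : (L ≃ₐ[E] L) →* G)

instance isGalois_fixedField_ker : IsGalois E (IntermediateField.fixedField ρ.ker) :=
  IsGalois.of_fixedField_normal_subgroup ρ.ker

theorem ker_restrictNormalHom :
    (AlgEquiv.restrictNormalHom (IntermediateField.fixedField ρ.ker) :
      (L ≃ₐ[E] L) →* _).ker = ρ.ker := by
  rw [IntermediateField.restrictNormalHom_ker, IntermediateField.fixingSubgroup_fixedField]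

theorem finrank_fixedField_ker_le [Finite G] :
    Module.finrank E (IntermediateField.fixedField ρ.ker) ≤ Nat.card G := by
  rw [← IsGalois.card_aut_eq_finrank]
  exact card_le_of_ker_eq ρ _ (AlgEquiv.restrictNormalHom_surjective L) (ker_restrictNormalHom ρ)

theorem orderOf_restrictNormalHom (s : L ≃ₐ[E] L) :
    orderOf (AlgEquiv.restrictNormalHom (IntermediateField.fixedField ρ.ker) s) = orderOf (ρ s) :=
  orderOf_eq_of_ker_eq ρ _ (ker_restrictNormalHom ρ) s

/-- the conclusion of the core for the fixed field of the kernel gives `HasOp` for the image -/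
theorem hasOp_of_core {p : ℕ}
    (h : ∃ Q : Subgroup (IntermediateField.fixedField ρ.ker ≃ₐ[E]
      IntermediateField.fixedField ρ.ker), Q.Normal ∧ Q ≠ ⊥ ∧ IsPGroup p Q) : HasOp p ρ.range :=
  hasOp_of_ker_eq ρ _ (AlgEquiv.restrictNormalHom_surjective L) (ker_restrictNormalHom ρ) h

end Galois

/-- a power of `p` above the bound of the core -/
theorem exists_pow_gt {p : ℕ} (hp : p.Prime) (N : ℕ) :
    ∃ a : ℕ, 0 < a ∧ ∀ d ≤ N, d * (4 * d + 1) + 1 < p ^ a := by
  refine ⟨N * (4 * N + 1) + 1, Nat.succ_pos _, fun d hd => ?_⟩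
  refine lt_of_le_of_lt ?_ (Nat.lt_pow_self hp.one_lt)
  exact Nat.succ_le_succ (Nat.mul_le_mul hd (by omega))

/-- the `p`-part of an element of finite order is a power `g ^ m` with `m ≡ 1 mod p ^ a` -/
theorem exists_pPart_pow {Γ : Type*} [Monoid Γ] {p : ℕ} (hp : p.Prime) {g : Γ}
    (hg : IsOfFinOrder g) (a : ℕ) :
    ∃ m k : ℕ, 0 < m ∧ m ≡ 1 [MOD p ^ a] ∧ (g ^ m) ^ p ^ k = 1 := by
  obtain ⟨k, u, hu, e⟩ := Nat.exists_eq_pow_mul_and_not_dvd hg.orderOf_pos.ne' p hp.ne_one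
  have hc : Nat.Coprime u (p ^ a) :=
    Nat.Coprime.pow_right a ((Nat.Prime.coprime_iff_not_dvd hp).mpr hu).symm
  have hu0 : 0 < u := Nat.pos_of_ne_zero fun h => hu (h ▸ dvd_zero p)
  refine ⟨u ^ ((p ^ a).totient), k, pow_pos hu0 _, Nat.ModEq.pow_totient hc, ?_⟩
  rw [← pow_mul, ← orderOf_dvd_iff_pow_eq_one, e, mul_comm]
  exact Nat.mul_dvd_mul_right
    (dvd_pow_self u (Nat.totient_pos.mpr (pow_pos hp.pos a)).ne') _

end Crest.Agent.T170.Desc16
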