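import Crest.Agent.T170.Sl_79
import Crest.Agent.T170.GalVal_6

/-!
# Row 170 (helper79): admissible automorphisms of the world

* `X.B = ℂ(x, y)`, `X.xB`, `X.yB`, `X.Wc`, `X.aC`, `X.bC` and the hypotheses of `RetE`;
* `X.Adm k h` : `h` agrees with `g ^ k` on `F(x, y)`; `Adm.τ`, `Adm.gB`, `Adm.ξ`, `Adm.O`,
  `Adm.mov`;
* `X.RD G` : the output of `RetE`; `Adm.stable`, `Adm.cj`, `Adm.isConj_cj`;
* `RD.sum_T`, `RD.cnt_of_gamma` : reduction of the counting statement to a finite group `Γ`.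
-/

set_option autoImplicit false

namespace Crest.Agent.T170.Pl

/-- an element algebraic over an algebraically closed field belongs to it -/
theorem mem_range_of_isAlgebraic {A U : Type*} [Field A] [Field U] [Algebra A U] [IsAlgClosed A]
    {z : U} (hz : IsAlgebraic A z) : ∃ c : A, algebraMap A U c = z :=
  minpoly.mem_range_of_degree_eq_one A z
    (IsAlgClosed.degree_eq_one_of_irreducible A (minpoly.irreducible hz.isIntegral))

/-- restriction of an automorphism along an embedding -/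
theorem exists_restrict {A U : Type*} [Field A] [Field U] (i : A →+* U) (h : U ≃+* U)
    (h1 : ∀ a, ∃ a', i a' = h (i a)) (h2 : ∀ a, ∃ a', i a' = h.symm (i a)) :
    ∃ τ : A ≃+* A, ∀ a, h (i a) = i (τ a) := by
  choose f hf using h1
  choose f' hf' using h2
  exact ⟨{ toFun := f, invFun := f'
           left_inv := fun a => i.injective (by rw [hf', hf, h.symm_apply_apply])
           right_inv := fun a => i.injective (by rw [hf, hf', h.apply_symm_apply])
           map_mul' := fun a b => i.injective (by simp only [hf, map_mul])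
           map_add' := fun a b => i.injective (by simp only [hf, map_add]) },
    fun a => (hf a).symm⟩

end Crest.Agent.T170.Pl

noncomputable section

namespace Crest.Agent.T170.Fr.World

open scoped Classical NNReal
open WeierstrassCurve WeierstrassCurve.Affine Crest.Agent.R170
open Crest.Agent.T170.Ret (AV Ctr GenOver Rot ResW)
open Crest.Agent.T170.Pl Crest.Agent.T170.Smith13

variable {p n : ℕ} [NeZero n] {U : Type} [Field U] [Algebra ℂ U] (X : World p n U)

/-! ### The function field over `ℂ` -/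

/-- `B = ℂ(x, y)` -/
abbrev B : IntermediateField ℂ U := IntermediateField.adjoin ℂ {X.x, X.y}

theorem x_mem_B : X.x ∈ X.B := IntermediateField.subset_adjoin _ _ (Set.mem_insert _ _)

theorem y_mem_B : X.y ∈ X.B :=
  IntermediateField.subset_adjoin _ _ (Set.mem_insert_of_mem _ (Set.mem_singleton _))

/-- `x` in `B` -/
def xB : X.B := ⟨X.x, X.x_mem_B⟩

/-- `y` in `B` -/
def yB : X.B := ⟨X.y, X.y_mem_B⟩

@[simp] theorem coe_xB : (X.xB : U) = X.x := rfl

@[simp] theorem coe_yB : (X.yB : U) = X.y := rfl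

/-- the curve over `ℂ` -/
abbrev Wc : Affine ℂ := X.W⁄ℂ

instance ellW : X.W.IsElliptic := X.ell

instance ellWc : X.Wc.IsElliptic := Ell.isElliptic_baseChange ℂ

/-- the punctures in `ℂ` -/
def aC (i : Fin n) : ℂ := X.a i

/-- the punctures in `ℂ` -/
def bC (i : Fin n) : ℂ := X.b i

theorem algebraMap_aC (i : Fin n) : algebraMap ℂ U (X.aC i) = algebraMap X.F U (X.a i) := rfl

theorem algebraMap_bC (i : Fin n) : algebraMap ℂ U (X.bC i) = algebraMap X.F U (X.b i) := rfl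

theorem Wc_baseChange (A : Type*) [CommRing A] [Algebra ℂ A] : X.Wc⁄A = X.W⁄A :=
  WeierstrassCurve.map_map _ _ _

theorem nsB : (X.W⁄X.B).Nonsingular X.xB X.yB :=
  (baseChange_nonsingular (W := X.W) (f := X.B.val) X.B.val.injective X.xB X.yB).1 X.ns

theorem eqnB : (X.Wc⁄X.B).Equation X.xB X.yB := by
  rw [Wc_baseChange]; exact X.nsB.1

theorem transB : Transcendental ℂ X.xB := fun h => X.trans (h.algHom X.B.val)

theorem genB : IntermediateField.adjoin ℂ {X.xB, X.yB} = ⊤ := by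
  apply IntermediateField.lift_injective X.B
  rw [IntermediateField.lift_top, IntermediateField.lift_adjoin, Set.image_pair]
  rfl

theorem isGenB : Ell.IsGen X.W ℂ X.xB X.yB := ⟨X.nsB.1, X.transB, X.genB⟩

theorem isGenBc : Ell.IsGen X.Wc ℂ X.xB X.yB := ⟨X.eqnB, X.transB, X.genB⟩

instance algB : Algebra.IsAlgebraic X.B U := by
  have := X.alg
  have hle : IntermediateField.adjoin ℂ {X.x} ≤ X.B :=
    IntermediateField.adjoin_simple_le_iff.2 X.x_mem_B
  exact ⟨fun z => (Algebra.IsAlgebraic.isAlgebraic (R := IntermediateField.adjoin ℂ {X.x}) z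
    ).ringHom_of_comp_eq (IntermediateField.inclusion hle).toRingHom (RingHom.id U)
    (IntermediateField.inclusion hle).injective (RingHom.ext fun _ => rfl)⟩

instance algClosureB [IsAlgClosed U] : IsAlgClosure X.B U := ⟨inferInstance, inferInstance⟩

theorem nsC (i : Fin n) : X.Wc.Nonsingular (X.aC i) (X.bC i) :=
  (baseChange_nonsingular (W := X.W) (f := Algebra.ofId ℂ U) (algebraMap ℂ U).injective _ _).1
    (X.nsO i)

theorem bC_ne (i : Fin n) : X.bC i ≠ X.Wc.negY (X.aC i) (X.bC i) := by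
  intro h
  have h1 := X.vW i
  have h2 := baseChange_negY (W' := X.W) (Algebra.ofId ℂ U) (X.aC i) (X.bC i)
  rw [← h] at h2
  exact zero_ne_one (((congrArg X.v (sub_eq_zero.2 h2.symm)).trans X.v.map_zero).symm.trans h1)

theorem aC_injective : Function.Injective X.aC := fun i j h => by
  by_contra hij
  have h1 := X.big i
  rw [← algebraMap_aC, h, algebraMap_aC, X.Da j i hij, map_zero] at h1
  exact not_lt_bot h1

/-! ### Admissible automorphisms -/

/-- the generic point -/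
abbrev ξ : (X.W⁄U).Point := Point.some _ _ X.ns

/-- the punctures -/
abbrev O (i : Fin n) : (X.W⁄U).Point := Point.some _ _ (X.nsO i)

/-- the torsion point in `U` -/
abbrev PU : (X.W⁄U).Point := Point.baseChange X.C U X.P

theorem nPU : n • X.PU = 0 := by rw [← map_nsmul, X.nP, map_zero]

/-- `i + k` -/
def sh (k : ℕ) (i : Fin n) : Fin n := (fun j => j + 1)^[k] i

theorem sh_zero (i : Fin n) : sh 0 i = i := rfl

theorem sh_succ (k : ℕ) (i : Fin n) : sh (k + 1) i = sh k i + 1 :=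
  Function.iterate_succ_apply' _ _ _

theorem g_pow_F (k : ℕ) (z : X.F) :
    (X.g ^ k) (algebraMap X.F U z) = algebraMap X.F U ((X.σ ^ k) z) := by
  induction k with
  | zero => rfl
  | succ k ih => rw [pow_succ', pow_succ', AlgEquiv.mul_apply, ih, X.gσ]; rfl

theorem σ_C (k : ℕ) (c : X.C) :
    (X.σ ^ k) (Subfield.inclusion X.CF c) = Subfield.inclusion X.CF c :=
  (algebraMap X.F U).injective (by rw [← g_pow_F]; exact (X.g ^ k).commutes c)

theorem v_σ_pow (k : ℕ) (z : X.F) :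
    X.v (algebraMap X.F U ((X.σ ^ k) z)) = X.v (algebraMap X.F U z) := by
  induction k with
  | zero => rfl
  | succ k ih => rw [pow_succ', ← ih]; exact X.vσ _

theorem nontriv (hp : p ≠ 0) : ∃ z : X.F, z ≠ 0 ∧ X.v.comap (algebraMap X.F U) z ≠ 1 :=
  ⟨p, Nat.cast_ne_zero.2 hp, by rw [Valuation.comap_apply, map_natCast]; exact X.vp.ne⟩

theorem g_pow_ξ (k : ℕ) :
    Point.map ((X.g ^ k : U ≃ₐ[X.C] U) : U →ₐ[X.C] U) X.ξ = X.ξ - k • X.PU := by
  induction k with
  | zero => rw [zero_smul, sub_zero]; rfl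
  | succ k ih =>
    have h1 : Point.map ((X.g ^ (k + 1) : U ≃ₐ[X.C] U) : U →ₐ[X.C] U) X.ξ =
        Point.map (X.g : U →ₐ[X.C] U)
          (Point.map ((X.g ^ k : U ≃ₐ[X.C] U) : U →ₐ[X.C] U) X.ξ) := by
      rw [pow_succ']; rfl
    rw [h1, ih, map_sub, map_nsmul, X.gξ, Point.map_baseChange, succ_nsmul]
    abel

theorem g_pow_O (k : ℕ) (i : Fin n) :
    Point.map ((X.g ^ k : U ≃ₐ[X.C] U) : U →ₐ[X.C] U) (X.O i) + k • X.PU = X.O (sh k i) := by
  induction k with
  | zero => rw [zero_smul, add_zero]; rfl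
  | succ k ih =>
    have h1 : Point.map ((X.g ^ (k + 1) : U ≃ₐ[X.C] U) : U →ₐ[X.C] U) (X.O i) =
        Point.map (X.g : U →ₐ[X.C] U)
          (Point.map ((X.g ^ k : U ≃ₐ[X.C] U) : U →ₐ[X.C] U) (X.O i)) := by
      rw [pow_succ']; rfl
    rw [h1, sh_succ]
    change _ = Point.some _ _ (X.nsO (sh k i + 1))
    rw [← X.gO]
    change _ = Point.map _ (X.O _) + _
    rw [← ih, map_add, map_nsmul, Point.map_baseChange, succ_nsmul, add_assoc]

/-- `h` agrees with `g ^ k` on `F(x, y)` -/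
structure Adm (k : ℕ) (h : U ≃+* U) : Prop where
  hF : ∀ z : X.F, h (algebraMap X.F U z) = algebraMap X.F U ((X.σ ^ k) z)
  hx : h X.x = (X.g ^ k) X.x
  hy : h X.y = (X.g ^ k) X.y

variable {X}

theorem adm_zero {h : U ≃+* U} (hF : ∀ z : X.F, h (algebraMap X.F U z) = algebraMap X.F U z)
    (hx : h X.x = X.x) (hy : h X.y = X.y) : X.Adm 0 h := ⟨hF, hx, hy⟩

theorem adm_one {h : U ≃+* U}
    (hF : ∀ z : X.F, h (algebraMap X.F U z) = X.g (algebraMap X.F U z))
    (hx : h X.x = X.g X.x) (hy : h X.y = X.g X.y) : X.Adm 1 h :=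
  ⟨fun z => by rw [hF, X.gσ, pow_one], by rw [hx, pow_one], by rw [hy, pow_one]⟩

theorem adm_g_pow (k : ℕ) : X.Adm k ((X.g ^ k : U ≃ₐ[X.C] U) : U ≃+* U) :=
  ⟨X.g_pow_F k, rfl, rfl⟩

theorem adm_g : X.Adm 1 (X.g : U ≃+* U) := adm_one (fun _ => rfl) rfl rfl

theorem adm_refl : X.Adm 0 (1 : U ≃+* U) := adm_zero (fun _ => rfl) rfl rfl

namespace Adm

variable {k l : ℕ} {h h' : U ≃+* U}

theorem hC (H : X.Adm k h) (c : X.C) : h (algebraMap X.C U c) = algebraMap X.C U c := by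
  have h1 := H.hF (Subfield.inclusion X.CF c)
  rw [σ_C] at h1
  exact h1

/-- `h` as an algebra automorphism over the constants -/
def alg (H : X.Adm k h) : U ≃ₐ[X.C] U := AlgEquiv.ofRingEquiv (f := h) H.hC

@[simp] theorem alg_apply (H : X.Adm k h) (z : U) : H.alg z = h z := rfl

theorem ξ (H : X.Adm k h) : Point.map (H.alg : U →ₐ[X.C] U) X.ξ = X.ξ - k • X.PU := by
  rw [← g_pow_ξ, Point.map_some, Point.map_some, Point.some.injEq]
  exact ⟨H.hx, H.hy⟩

theorem O (H : X.Adm k h) (i : Fin n) :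
    Point.map (H.alg : U →ₐ[X.C] U) (X.O i) + k • X.PU = X.O (sh k i) := by
  rw [← g_pow_O, add_left_inj, Point.map_some, Point.map_some, Point.some.injEq]
  exact ⟨(H.hF _).trans (X.g_pow_F _ _).symm, (H.hF _).trans (X.g_pow_F _ _).symm⟩

theorem of_ξ {f : U ≃ₐ[X.C] U}
    (hF : ∀ z : X.F, f (algebraMap X.F U z) = algebraMap X.F U ((X.σ ^ k) z))
    (hξ : Point.map (f : U →ₐ[X.C] U) X.ξ = X.ξ - k • X.PU) : X.Adm k (f : U ≃+* U) := by
  rw [← g_pow_ξ, Point.map_some, Point.map_some, Point.some.injEq] at hξ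
  exact ⟨hF, hξ.1, hξ.2⟩

theorem mul (H : X.Adm k h) (H' : X.Adm l h') : X.Adm (k + l) (h * h') := by
  refine of_ξ (f := H.alg * H'.alg) (fun z => ?_) ?_
  · rw [AlgEquiv.mul_apply, alg_apply, alg_apply, H'.hF, H.hF, pow_add]; rfl
  · have h1 : Point.map ((H.alg * H'.alg : U ≃ₐ[X.C] U) : U →ₐ[X.C] U) X.ξ =
        Point.map (H.alg : U →ₐ[X.C] U) (Point.map (H'.alg : U →ₐ[X.C] U) X.ξ) := rfl
    rw [h1, H'.ξ, map_sub, map_nsmul, H.ξ, Point.map_baseChange, add_nsmul]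
    abel

theorem pow (H : X.Adm k h) (m : ℕ) : X.Adm (k * m) (h ^ m) := by
  induction m with
  | zero => exact adm_refl
  | succ m ih => rw [pow_succ, Nat.mul_succ]; exact ih.mul H

theorem of_modEq (H : X.Adm k h) (hkl : k ≡ l [MOD n]) : X.Adm l h := by
  have h1 : ∀ m : ℕ, X.σ ^ m = X.σ ^ (m % n) := fun m => (pow_eq_pow_mod m X.σn)
  have h2 : ∀ m : ℕ, m • X.PU = (m % n) • X.PU := fun m => by
    conv_lhs => rw [← Nat.mod_add_div m n, add_nsmul, mul_nsmul, X.nPU, nsmul_zero, add_zero]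
  refine of_ξ (f := H.alg) (fun z => ?_) ?_
  · rw [alg_apply, H.hF, h1 k, h1 l, hkl]
  · rw [H.ξ, h2 k, h2 l, hkl]

theorem symm (H : X.Adm k h) : X.Adm (k * (n - 1)) h.symm := by
  have hn : k * (n - 1) + k = n * k := by
    obtain ⟨m, hm⟩ := Nat.exists_eq_succ_of_ne_zero (NeZero.ne n)
    rw [hm, Nat.succ_sub_one, Nat.succ_eq_add_one]; ring
  refine of_ξ (f := H.alg.symm) (fun z => ?_) ?_
  · rw [AlgEquiv.symm_apply_eq, alg_apply, H.hF]
    change _ = algebraMap X.F U ((X.σ ^ k * X.σ ^ (k * (n - 1))) z)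
    rw [← pow_add, add_comm, hn, pow_mul, X.σn, one_pow]; rfl
  · refine Point.map_injective (W' := X.W) (H.alg : U →ₐ[X.C] U) ?_
    have h1 : Point.map (H.alg : U →ₐ[X.C] U)
        (Point.map (H.alg.symm : U →ₐ[X.C] U) X.ξ) = X.ξ := by
      rw [Point.map_some, Point.map_some, Point.some.injEq]
      exact ⟨H.alg.apply_symm_apply _, H.alg.apply_symm_apply _⟩
    rw [h1, map_sub, map_nsmul, H.ξ, Point.map_baseChange, sub_sub, ← add_nsmul, add_comm, hn,
      mul_nsmul, X.nPU, nsmul_zero, sub_zero]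

theorem inv (H : X.Adm k h) : X.Adm (k * (n - 1)) h⁻¹ := H.symm

theorem exists_const (H : X.Adm k h) (c : ℂ) : ∃ c', algebraMap ℂ U c' = h (algebraMap ℂ U c) := by
  have h1 : IsAlgebraic X.F (h (algebraMap ℂ U c)) :=
    ((X.algF c).algebraMap (A := U)).ringHom_of_comp_eq
      ((X.σ ^ k : X.F ≃+* X.F) : X.F →+* X.F) (h : U →+* U) (X.σ ^ k).injective
      (RingHom.ext fun z => (H.hF z).symm)
  exact mem_range_of_isAlgebraic (h1.tower_top ℂ)

/-- the restriction to `ℂ` -/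
def τ (H : X.Adm k h) : ℂ ≃+* ℂ :=
  (exists_restrict (algebraMap ℂ U) h H.exists_const H.symm.exists_const).choose

theorem hτ (H : X.Adm k h) (c : ℂ) : h (algebraMap ℂ U c) = algebraMap ℂ U (H.τ c) :=
  (exists_restrict (algebraMap ℂ U) h H.exists_const H.symm.exists_const).choose_spec c

theorem τ_F (H : X.Adm k h) (z : X.F) : H.τ z = (X.σ ^ k) z :=
  (algebraMap ℂ U).injective (by rw [← H.hτ]; exact H.hF z)

theorem τ_C (H : X.Adm k h) (c : X.C) : H.τ c = c :=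
  (algebraMap ℂ U).injective (by rw [← H.hτ]; exact H.hC c)

theorem τ_root (H : X.Adm k h) {ζ : ℂ} {m : ℕ} (hm : 0 < m) (hζ : ζ ^ m = 1) : H.τ ζ = ζ := by
  have := X.Cac
  have h1 : IsAlgebraic X.C ζ := IsAlgebraic.of_pow hm (by rw [hζ]; exact isAlgebraic_one)
  obtain ⟨c, rfl⟩ := mem_range_of_isAlgebraic h1
  exact H.τ_C c

theorem v_F (H : X.Adm k h) (z : X.F) :
    X.v (h (algebraMap X.F U z)) = X.v (algebraMap X.F U z) := by
  rw [H.hF, v_σ_pow]

/-- admissible automorphisms are isometries on `ℂ` -/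
theorem v_const (hp : p ≠ 0) (H : X.Adm k h) (c : ℂ) :
    X.v (h (algebraMap ℂ U c)) = X.v (algebraMap ℂ U c) := by
  have : Algebra.IsAlgebraic X.F ℂ := ⟨X.algF⟩
  rw [H.hτ]
  refine Gal.val_equiv (X.v.comap (algebraMap X.F U)) (X.nontriv hp) X.cpl
    (X.v.comap (algebraMap ℂ U)) (fun _ => rfl) (H.τ : ℂ →+* ℂ) (fun z => ?_) c
  change X.v (algebraMap ℂ U (H.τ z)) = _
  rw [← H.hτ]
  exact H.v_F z

theorem coord_mem (H : X.Adm k h) : h X.x ∈ X.B ∧ h X.y ∈ X.B := by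
  have h1 : Point.map ((X.B.val).restrictScalars X.C)
      (Point.some _ _ X.nsB - k • Point.baseChange X.C X.B X.P) = X.ξ - k • X.PU := by
    rw [map_sub, map_nsmul, Point.map_baseChange]; rfl
  rw [← H.ξ, Point.map_some] at h1
  generalize Point.some _ _ X.nsB - k • Point.baseChange X.C X.B X.P = T at h1
  rcases T with _ | ⟨s, t, hst⟩
  · exact absurd h1.symm (Point.some_ne_zero _)
  · rw [Point.map_some, Point.some.injEq] at h1
    exact ⟨h1.1 ▸ s.2, h1.2 ▸ t.2⟩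

theorem map_mem_B (H : X.Adm k h) {z : U} (hz : z ∈ X.B) : h z ∈ X.B := by
  have h1 : X.B ≤ (X.B.toSubfield.comap (h : U →+* U)).toIntermediateField fun c => by
      change h _ ∈ X.B
      rw [H.hτ]
      exact X.B.algebraMap_mem _ := by
    rw [IntermediateField.adjoin_le_iff, Set.insert_subset_iff, Set.singleton_subset_iff]
    exact H.coord_mem
  exact h1 hz

theorem mem_B (H : X.Adm k h) (z : U) : h z ∈ X.B ↔ z ∈ X.B :=
  ⟨fun hz => by simpa using H.symm.map_mem_B hz, H.map_mem_B⟩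

/-- the restriction to `B` -/
def gB (H : X.Adm k h) : X.B ≃+* X.B := resE' h H.mem_B

@[simp] theorem coe_gB (H : X.Adm k h) (f : X.B) : (H.gB f : U) = h f := rfl

theorem hgB (H : X.Adm k h) (f : X.B) : h (algebraMap X.B U f) = algebraMap X.B U (H.gB f) := rfl

theorem gB_const (H : X.Adm k h) (c : ℂ) :
    H.gB (algebraMap ℂ X.B c) = algebraMap ℂ X.B (H.τ c) := Subtype.ext (H.hτ c)

/-- `h` moves the place at `O i` to the place at `O (i + k)` -/
theorem mov (H : X.Adm k h) (i : Fin n) :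
    Mov H.gB X.xB X.yB (X.aC i) (X.bC i) (X.aC (sh k i)) (X.bC (sh k i)) := by
  have hQ : Point.baseChange ℂ U (k • Point.baseChange X.C ℂ X.P) = k • X.PU := by
    rw [map_nsmul]
    exact congrArg _ (Point.map_baseChange (W' := X.W) (IsScalarTower.toAlgHom X.C ℂ U) X.P)
  have h1 := H.ξ
  have h2 := H.O i
  rw [Point.map_some, eq_sub_iff_add_eq, ← hQ] at h1
  rw [Point.map_some, ← hQ] at h2
  refine mov_of_add' (W := X.W) (U := U) H.gB_const h1 (hab := ?_) (hab' := X.nsO _) ?_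
  · rw [← H.hτ, ← H.hτ]
    exact (baseChange_nonsingular (W := X.W) (f := (H.alg : U →ₐ[X.C] U)) H.alg.injective _ _).2
      (X.nsO i)
  · refine Eq.trans ?_ h2
    rw [add_left_inj, Point.some.injEq]
    exact ⟨(H.hτ _).symm, (H.hτ _).symm⟩

end Adm

/-! ### The output of `RetE` -/

variable (X) in
/-- the output of `RetE` for the world `X` -/
structure RD (G : Type) [Group G] where
  n₀ : ℕ
  ζ : ℂ
  M : IntermediateField X.B U
  pos : 0 < n₀
  prim : IsPrimitiveRoot ζ n₀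
  fin : FiniteDimensional X.B M
  gal : IsGalois X.B M
  res : ResW (M ≃ₐ[X.B] M) G
  unr : UnrE M X.xB X.yB X.aC X.bC
  max : ∀ N : IntermediateField X.B U, FiniteDimensional X.B N → IsGalois X.B N →
    ResW (N ≃ₐ[X.B] N) G → UnrE N X.xB X.yB X.aC X.bC → N ≤ M
  γ : Fin n → (M ≃ₐ[X.B] M)
  gen : ∀ i, ∃ u : AV X.B, AtPt u X.xB X.yB (X.aC i) (X.bC i) n₀ ∧
    GenOver u (algebraMap ℂ X.B ζ) (γ i)
  cnt : ∀ (A : Subgroup G) (c : G),
    Nat.card {ρ : (M ≃ₐ[X.B] M) →* G // (∀ i, IsConj (ρ (γ i)) c) ∧ ρ.range ≤ A} =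
      Nat.card (Tup A fun (_ : Fin n) (h : A) => IsConj (h : G) c)

attribute [instance] RD.fin RD.gal

variable (X) in
theorem exists_RD [IsAlgClosed U] (hR : RetE) (G : Type) [Group G] [Finite G] :
    Nonempty (X.RD G) := by
  obtain ⟨n₀, ζ, M, h1, h2, h3, h4, h5, h6, h7, γ, h8, h9⟩ :=
    hR X.B U X.Wc X.xB X.yB X.transB X.eqnB X.genB n X.aC X.bC X.aC_injective
      (fun i => (X.nsC i).1) X.bC_ne G
  exact ⟨⟨n₀, ζ, M, h1, h2, h3, h4, h5, h6, h7, γ, h8, h9⟩⟩

variable {G : Type} [Group G]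

theorem RD.exists_ζ (Y : X.RD G) : ∃ c : X.C, (c : ℂ) = Y.ζ := by
  have := X.Cac
  exact mem_range_of_isAlgebraic (A := X.C)
    (IsAlgebraic.of_pow Y.pos (by rw [Y.prim.pow_eq_one]; exact isAlgebraic_one))

namespace Adm

variable {k : ℕ} {h : U ≃+* U}

/-- **`M` is stable** -/
theorem stable (H : X.Adm k h) (Y : X.RD G) (z : U) : h z ∈ Y.M ↔ z ∈ Y.M :=
  stable_of_max H.gB_const H.hgB (fun i => ⟨_, H.mov i⟩) Y.res Y.unr Y.max z

/-- the restriction to `M` -/
def jM (H : X.Adm k h) (Y : X.RD G) : Y.M ≃+* Y.M := resE' h (H.stable Y)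

@[simp] theorem coe_jM (H : X.Adm k h) (Y : X.RD G) (z : Y.M) : (H.jM Y z : U) = h z := rfl

theorem jM_algebraMap (H : X.Adm k h) (Y : X.RD G) (f : X.B) :
    H.jM Y (algebraMap X.B Y.M f) = algebraMap X.B Y.M (H.gB f) := rfl

/-- conjugation by `h` on `Gal(M/B)` -/
def cj (H : X.Adm k h) (Y : X.RD G) : (Y.M ≃ₐ[X.B] Y.M) ≃* (Y.M ≃ₐ[X.B] Y.M) :=
  conjE (H.jM_algebraMap Y)

theorem cj_jM (H : X.Adm k h) (Y : X.RD G) (δ : Y.M ≃ₐ[X.B] Y.M) (z : Y.M) :
    H.cj Y δ (H.jM Y z) = H.jM Y (δ z) := conjE_map _ δ z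

/-- **conjugation permutes the classes of the canonical generators** -/
theorem isConj_cj (H : X.Adm k h) (Y : X.RD G) (i : Fin n) :
    IsConj (H.cj Y (Y.γ i)) (Y.γ (sh k i)) :=
  isConj_transport X.isGenB H.gB_const (H.jM_algebraMap Y) (H.mov i) (X.bC_ne _) (X.bC_ne _)
    Y.pos (Y.prim.ne_zero Y.pos.ne') (H.τ_root Y.pos Y.prim.pow_eq_one) (H.cj_jM Y _)
    (Y.gen i) (Y.gen _)

end Adm

/-- the sum over the labelled homomorphisms is the sum over the tuples -/
theorem RD.sum_T [Finite G] (Y : X.RD G) (c : G) :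
    ∑ᶠ ρ : {ρ : (Y.M ≃ₐ[X.B] Y.M) →* G // ∀ i, IsConj (ρ (Y.γ i)) c}, sA p ρ.1.range =
      ∑ᶠ w : Tup G (fun (_ : Fin n) (g : G) => IsConj g c), sA p (tcl w.1) := by
  have := finite_hom (Y.M ≃ₐ[X.B] Y.M) G
  rw [← tuple_sum_eq p (fun (_ : Fin n) (g : G) => IsConj g c), ← chain_sum_eq p
    (fun ρ : {ρ : (Y.M ≃ₐ[X.B] Y.M) →* G // ∀ i, IsConj (ρ (Y.γ i)) c} => ρ.1.range)]
  refine finsum_congr fun σ => ?_
  rw [← Y.cnt (st σ) c]
  exact congrArg (fun m : ℕ => sgn σ * (m : ℤ))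
    (Nat.card_congr (Equiv.subtypeSubtypeEquivSubtypeInter _
      fun ρ : (Y.M ≃ₐ[X.B] Y.M) →* G => ρ.range ≤ st σ))

/-- **reduction to a finite group** `Γ` containing `Gal(M/B)` with `p`-power index, acting through
admissible automorphisms -/
theorem RD.cnt_of_gamma [Finite G] [Fact p.Prime] (Y : X.RD G) (c : G) {Γ : Type} [Group Γ]
    [Finite Γ] (r : (Y.M ≃ₐ[X.B] Y.M) →* Γ) (hr : Function.Injective r) [r.range.Normal]
    (hq : IsPGroup p (Γ ⧸ r.range))
    (hΓ : ∀ t : Γ, ∃ (k : ℕ) (h : U ≃+* U) (H : X.Adm k h), ∀ δ, r (H.cj Y δ) = t * r δ * t⁻¹)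
    (hgeo : ∀ ρ' : Γ →* G, (∀ i, IsConj (ρ' (r (Y.γ i))) c) → HasOp p ρ'.range) :
    ((p * pPart p (Nat.card G) : ℕ) : ℤ) ∣
      ∑ᶠ w : Tup G (fun (_ : Fin n) (g : G) => IsConj g c), sA p (tcl w.1) := by
  let e : (Y.M ≃ₐ[X.B] Y.M) ≃* r.range := MonoidHom.ofInjective hr
  have he : ∀ δ, (e δ : Γ) = r δ := fun _ => rfl
  have h1 := smith r.range hq {ρ | ∀ i, IsConj (ρ (e (Y.γ i))) c}
    (fun g ρ hρ i => (isConj_iff.2 ⟨g, rfl⟩ : IsConj (ρ (e (Y.γ i))) _).symm.trans (hρ i))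
    (fun t ρ hρ i => by
      obtain ⟨k, h, H, hH⟩ := hΓ t
      have h2 : (MulAut.conjNormal t : MulAut r.range) (e (Y.γ i)) = e (H.cj Y (Y.γ i)) :=
        Subtype.ext (by rw [MulAut.conjNormal_apply, he, he, hH])
      change IsConj (ρ ((MulAut.conjNormal t : MulAut r.range) (e (Y.γ i)))) c
      rw [h2]
      exact ((ρ.comp e.toMonoidHom).map_isConj (H.isConj_cj Y i)).trans (hρ _))
    hgeo
  rw [← Y.sum_T c]
  let E : {ρ : r.range →* G | ∀ i, IsConj (ρ (e (Y.γ i))) c} ≃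
      {ρ : (Y.M ≃ₐ[X.B] Y.M) →* G // ∀ i, IsConj (ρ (Y.γ i)) c} :=
    { toFun := fun ρ => ⟨ρ.1.comp e.toMonoidHom, ρ.2⟩
      invFun := fun ρ => ⟨ρ.1.comp e.symm.toMonoidHom, fun i => by simpa using ρ.2 i⟩
      left_inv := fun ρ => Subtype.ext (MonoidHom.ext fun δ => by simp)
      right_inv := fun ρ => Subtype.ext (MonoidHom.ext fun δ => by simp) }
  rw [← finsum_comp_equiv E]
  refine h1.trans (dvd_of_eq (finsum_congr fun ρ => congrArg (sA p) ?_))
  change ρ.1.range = (ρ.1.comp e.toMonoidHom).range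
  rw [MonoidHom.range_comp, (MonoidHom.range_eq_top (f := e.toMonoidHom)).2 e.surjective,
    ← MonoidHom.range_eq_map]

end Crest.Agent.T170.Fr.World
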