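import Crest.Agent.T170.DsIn_6
import Crest.Agent.T170.GalConj_6
import Crest.Agent.T170.DescCnt_77

/-!
# Row 170, module F (helper6): the assembly of the descent
-/

set_option autoImplicit false

noncomputable section

namespace Crest.Agent.T170.Ds

open scoped NNReal Polynomial Classical IntermediateField
open WeierstrassCurve WeierstrassCurve.Affine Crest.Agent.R170 Crest.Agent.T170.Ret
open Crest.Agent.T170.Fr Crest.Agent.T170.Smith13

variable {p n : ℕ} [NeZero n] {U : Type} [Field U] [Algebra ℂ U] {X : World p n U}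
  {Θ : Finset U} (hΘ : ∀ (φ : Aut X) (j : ℕ), Lift X φ j → ∀ z ∈ Θ, φ z ∈ Θ)

/-- `F` inside `L` -/
def FL (X : World p n U) (Θ : Finset U) : IntermediateField X.C (LC X Θ) where
  carrier := {z | ∃ a : X.F, algebraMap X.F U a = z}
  mul_mem' := fun ⟨a, ha⟩ ⟨b, hb⟩ => ⟨a * b, by rw [map_mul, ha, hb]; rfl⟩
  add_mem' := fun ⟨a, ha⟩ ⟨b, hb⟩ => ⟨a + b, by rw [map_add, ha, hb]; rfl⟩
  algebraMap_mem' c := ⟨Subfield.inclusion X.CF c, rfl⟩
  inv_mem' := fun _ ⟨a, ha⟩ => ⟨a⁻¹, by rw [map_inv₀, ha]; rfl⟩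

/-- the isomorphism `F ≃ FL` -/
def eFL (X : World p n U) (Θ : Finset U) : X.F ≃+* FL X Θ :=
  RingEquiv.ofBijective
    (((algebraMap X.F U).codRestrict (LC X Θ) (F_mem_LC X Θ)).codRestrict (FL X Θ)
      fun a => ⟨a, rfl⟩)
    ⟨RingHom.injective _, fun z => by
      obtain ⟨a, ha⟩ := z.2
      exact ⟨a, Subtype.ext (Subtype.ext ha)⟩⟩

lemma coe_eFL (a : X.F) : (((eFL X Θ a : FL X Θ) : LC X Θ) : U) = algebraMap X.F U a := rfl

set_option maxHeartbeats 1600000 in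
include hΘ in
/-- a lift of `g` which stabilises a fine valuation ring of `L` -/
lemma exists_fine [IsAlgClosed U] (hf : FineStmt) :
    ∃ (V : ValuationSubring (LC X Θ)) (φ : Aut X), Lift X φ 1 ∧
      Fine (C := X.C) (X.v.comap (algebraMap (LC X Θ) U)) V ∧
      ∀ z z' : LC X Θ, (z' : U) = φ z → (z' ∈ V ↔ z ∈ V) := by
  have hst : ∀ φ ∈ Gam0 X, ∀ z ∈ LC X Θ, φ z ∈ LC X Θ := fun φ hφ z hz =>
    map_mem_LC hΘ (Gam0_le hφ) hz
  have hst' : ∀ φ ∈ Gam X, ∀ z ∈ LC X Θ, φ z ∈ LC X Θ := fun φ hφ z hz => map_mem_LC hΘ hφ hz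
  have := finite_range hΘ (Gam0 X) Gam0_le (LC X Θ) le_rfl hst
  have hCac := X.Cac
  have hg : X.g ∈ Gam X := ⟨1, (liftApi X).g⟩
  have hmem : ∀ a : X.F, eFL X Θ a ∈ X.V.comap ((eFL X Θ).symm : FL X Θ →+* X.F) ↔ a ∈ X.V := by
    intro a
    simp [ValuationSubring.mem_comap]
  obtain ⟨V, ⟨_, ψ, rfl⟩, h1, h2⟩ := hf X.C (LC X Θ) (resAut (Gam0 X) (LC X Θ) hst).range
    (X.v.comap (algebraMap (LC X Θ) U)) (FL X Θ)
    (fun z => ⟨by
      rintro ⟨a, ha⟩ ⟨_, φ, rfl⟩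
      refine Subtype.ext ?_
      change φ.1 z = z
      rw [← ha]
      exact Lift.fix φ.2 (F_mem_EF X a), fun h =>
        mem_F_of_fix (X := X) (isC_of_mem_LC X Θ z.2) fun φ hφ =>
          congrArg Subtype.val (h ⟨_, ⟨φ, hφ⟩, rfl⟩)⟩)
    (X.V.comap ((eFL X Θ).symm : FL X Θ →+* X.F))
    ⟨fun z hz => by
      obtain ⟨a, rfl⟩ := (eFL X Θ).surjective z
      exact X.Vle a ((hmem a).1 hz),
     fun c hc => (hmem (Subfield.inclusion X.CF c)).2 (X.Vconst c hc),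
     fun z hz => by
      obtain ⟨a, rfl⟩ := (eFL X Θ).surjective z
      obtain ⟨c, hc1, hc2⟩ := X.Vres a ((hmem a).1 hz)
      refine ⟨c, hc1, (Gal.val_comap_lt_one _ _ _).2 ?_⟩
      have h3 : algebraMap X.C (FL X Θ) c = eFL X Θ (Subfield.inclusion X.CF c) := rfl
      rw [h3, ← map_sub]
      simpa using hc2⟩
    (resAut (Gam X) (LC X Θ) hst' ⟨X.g, hg⟩)
    (fun z => ⟨by
      rintro ⟨a, ha⟩
      refine ⟨X.σ.symm a, X.g.injective ?_⟩
      rw [X.gσ, RingEquiv.apply_symm_apply]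
      exact ha, by
      rintro ⟨a, ha⟩
      refine ⟨X.σ a, ?_⟩
      rw [← X.gσ, ha]
      rfl⟩)
    (fun z z' h => by
      obtain ⟨a, ha⟩ := (eFL X Θ).surjective z
      obtain ⟨a', ha'⟩ := (eFL X Θ).surjective z'
      have h4 : (((z' : FL X Θ) : LC X Θ) : U) = X.g ((z : LC X Θ) : U) := by
        rw [h, resAut_apply]
      have e1 : ((z : LC X Θ) : U) = algebraMap X.F U a := by rw [← ha, coe_eFL]
      have e2 : ((z' : LC X Θ) : U) = algebraMap X.F U a' := by rw [← ha', coe_eFL]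
      have h3 : algebraMap X.F U a' = algebraMap X.F U (X.σ a) := by
        rw [← X.gσ, ← e1, ← e2, h4]
      have h5 : a' = X.σ a := (algebraMap X.F U).injective h3
      have h6 : z' ∈ X.V.comap ((eFL X Θ).symm : FL X Θ →+* X.F) ↔ a' ∈ X.V := ha' ▸ hmem a'
      have h7 : z ∈ X.V.comap ((eFL X Θ).symm : FL X Θ →+* X.F) ↔ a ∈ X.V := ha ▸ hmem a
      exact h6.trans (((iff_of_eq (congrArg (· ∈ X.V) h5)).trans (X.Vσ a)).trans h7.symm))
  refine ⟨V, ψ.1 * X.g, by simpa using Lift.mul ψ.2 (liftApi X).g, h1, fun z z' h => ?_⟩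
  rw [← h2 z]
  exact iff_of_eq (congrArg (· ∈ V) (Subtype.ext h))

include hΘ in
/-- the same with a lift of `p`-power order modulo `Lam`, and on `K` -/
lemma exists_gamma [IsAlgClosed U] (hf : FineStmt) (hp : p.Prime) {a : ℕ} (hn : n = p ^ a) :
    ∃ (V : ValuationSubring (KC X Θ)) (φ : Aut X) (k : ℕ), Lift X φ 1 ∧ φ ^ p ^ k ∈ Lam X Θ ∧
      Fine (C := X.C) (X.v.comap (algebraMap (KC X Θ) U)) V ∧
      ∀ z z' : KC X Θ, (z' : U) = φ z → (z' ∈ V ↔ z ∈ V) := by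
  obtain ⟨V, φ, h1, h2, h3⟩ := exists_fine hΘ hf
  obtain ⟨r, hr, hφr⟩ := exists_pow_mem_Lam hΘ (φ := φ) ⟨1, h1⟩
  obtain ⟨k, m, hm, rfl⟩ := Nat.exists_eq_pow_mul_and_not_dvd hr.ne' p hp.ne_one
  have hco : Nat.Coprime m n := by
    rw [hn]
    exact Nat.Coprime.pow_right _ ((Nat.Prime.coprime_iff_not_dvd hp).2 hm).symm
  obtain ⟨t, ht⟩ : ∃ t, m ^ (t + 1) ≡ 1 [MOD n] := by
    refine ⟨n.totient - 1, ?_⟩
    rw [Nat.sub_add_cancel (Nat.totient_pos.2 (Nat.pos_of_ne_zero (NeZero.ne n)))]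
    exact Nat.ModEq.pow_totient hco
  have hle : KC X Θ ≤ LC X Θ := fun _ h => h.1
  have hpow : ∀ (j : ℕ) (z z' : LC X Θ), (z' : U) = (φ ^ j) z → (z' ∈ V ↔ z ∈ V) := by
    intro j
    induction j with
    | zero =>
      intro z z' h
      rw [Subtype.ext h]
    | succ j ih =>
      intro z z' h
      rw [pow_succ', AlgEquiv.mul_apply] at h
      exact (h3 ⟨_, map_mem_LC hΘ ((Gam X).pow_mem ⟨1, h1⟩ j) z.2⟩ z' h).trans (ih z _ rfl)
  refine ⟨V.comap (IntermediateField.inclusion hle : KC X Θ →+* LC X Θ), φ ^ m ^ (t + 1), k,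
    (h1.pow _).mod (by rwa [one_mul]), ?_,
    ⟨fun z hz => h2.le _ hz, fun c hc => h2.const c hc, fun z hz => ?_⟩,
    fun z z' h => hpow _ _ _ h⟩
  · rw [← pow_mul, show m ^ (t + 1) * p ^ k = p ^ k * m * m ^ t by ring, pow_mul]
    exact (Lam X Θ).pow_mem hφr _
  · obtain ⟨c, hc1, hc2⟩ := h2.res _ hz
    exact ⟨c, hc1, (Gal.val_comap_lt_one _ _ _).2 hc2⟩

include hΘ in
/-- the group generated by the inertia group and `φ` -/
lemma exists_til {φ : Aut X} (h1 : φ ∈ Gam X) {k : ℕ} (hk : φ ^ p ^ k ∈ Inr X Θ) :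
    ∃ T : Subgroup (Aut X), T ≤ Gam X ∧ Inr X Θ ≤ T ∧ φ ∈ T ∧ ∀ ψ ∈ T, ψ ^ p ^ k ∈ Inr X Θ := by
  have hN : ((Inr X Θ).subgroupOf (Gam X)).Normal := ⟨fun ψ hψ χ => conj_Inr hΘ χ.2 hψ⟩
  let π := QuotientGroup.mk' ((Inr X Θ).subgroupOf (Gam X))
  refine ⟨((Subgroup.zpowers (π ⟨φ, h1⟩)).comap π).map (Gam X).subtype,
    Subgroup.map_subtype_le _, fun ψ hψ => ⟨⟨ψ, Gam0_le hψ.1⟩, ?_, rfl⟩,
    ⟨⟨φ, h1⟩, Subgroup.mem_zpowers _, rfl⟩, ?_⟩
  · have : π ⟨ψ, Gam0_le hψ.1⟩ = 1 := (QuotientGroup.eq_one_iff _).2 hψ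
    change π _ ∈ Subgroup.zpowers _
    rw [this]
    exact one_mem _
  · rintro _ ⟨ψ, ⟨j, hj⟩, rfl⟩
    have h2 : π ⟨φ, h1⟩ ^ p ^ k = 1 := by
      rw [← map_pow]
      exact (QuotientGroup.eq_one_iff _).2 hk
    have h3 : π (ψ ^ p ^ k) = 1 := by
      have hj' : π ⟨φ, h1⟩ ^ j = π ψ := hj
      rw [map_pow, ← hj', ← zpow_natCast, ← zpow_mul, mul_comm, zpow_mul, zpow_natCast, h2,
        one_zpow]
    exact (QuotientGroup.eq_one_iff (N := (Inr X Θ).subgroupOf (Gam X)) (ψ ^ p ^ k)).1 h3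

/-! ### automorphisms over `B` and over `E` -/

/-- geometric automorphisms as automorphisms over `B` -/
def toB (X : World p n U) : GeoS X →* (U ≃ₐ[B X] U) where
  toFun φ := AlgEquiv.ofRingEquiv (f := (φ.1 : U ≃+* U)) fun b => Geo.fix φ.2 b.2
  map_one' := rfl
  map_mul' _ _ := rfl

lemma toB_surj : Function.Surjective (toB X) := fun π =>
  ⟨⟨AlgEquiv.ofRingEquiv (f := (π : U ≃+* U))
      fun c => π.commutes (algebraMap ℂ (B X) (c : ℂ)),
    ⟨fun c => π.commutes (algebraMap ℂ (B X) c), π.commutes (xB X), π.commutes (yB X)⟩⟩, rfl⟩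

/-- `E = K(x, y)` -/
abbrev EK (X : World p n U) (Θ : Finset U) : IntermediateField (KC X Θ) U :=
  IntermediateField.adjoin (KC X Θ) {X.x, X.y}

lemma EK_le {S : Subfield U} (hK : ∀ z ∈ KC X Θ, z ∈ S) (hx : X.x ∈ S)
    (hy : X.y ∈ S) {z : U} (hz : z ∈ EK X Θ) : z ∈ S := by
  have h : (EK X Θ).toSubfield ≤ S := by
    rw [IntermediateField.adjoin_toSubfield, Subfield.closure_le]
    rintro w (⟨c, rfl⟩ | rfl | rfl)
    · exact hK c c.2
    · exact hx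
    · exact hy
  exact h hz

lemma x_mem_EK : X.x ∈ EK X Θ := IntermediateField.subset_adjoin _ _ (by simp)

lemma y_mem_EK : X.y ∈ EK X Θ := IntermediateField.subset_adjoin _ _ (by simp)

lemma K_mem_EK {z : U} (hz : z ∈ KC X Θ) : z ∈ EK X Θ := (EK X Θ).algebraMap_mem ⟨z, hz⟩

lemma alg_EK : Algebra.IsAlgebraic (EK X Θ) U := by
  have := alg_EF X
  refine ⟨fun z => ?_⟩
  obtain ⟨f, hf, hfz⟩ := Algebra.IsAlgebraic.isAlgebraic (R := EF X) z
  let ι : EF X →+* EK X Θ := (algebraMap (EF X) U).codRestrict (EK X Θ) fun w =>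
    EF_le X (S := (EK X Θ).toSubfield) (fun a => K_mem_EK (F_mem_KC X Θ a)) x_mem_EK y_mem_EK w.2
  refine ⟨f.map ι, (Polynomial.map_ne_zero_iff (RingHom.injective _)).2 hf, ?_⟩
  rw [Polynomial.aeval_def, Polynomial.eval₂_map]
  exact hfz

lemma isGalois_of_alg [IsAlgClosed U] (S : Type) [Field S] [Algebra S U]
    (h : Algebra.IsAlgebraic S U) : IsGalois S U := by
  have := charZero_U U
  have : CharZero S := (algebraMap S U).charZero
  have : IsAlgClosure S U := ⟨inferInstance, h⟩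
  infer_instance

/-- inert automorphisms as automorphisms over `E` -/
def toE (X : World p n U) (Θ : Finset U) : Inr X Θ →* (U ≃ₐ[EK X Θ] U) where
  toFun φ := AlgEquiv.ofRingEquiv (f := (φ.1 : U ≃+* U)) fun b =>
    EK_le (S := (φ.1 : U →+* U).eqLocusField (RingHom.id U)) (fun _ hz => hz.2 _ φ.2)
      (Lift.fix φ.2.1 (x_mem_EF X)) (Lift.fix φ.2.1 (y_mem_EF X)) b.2
  map_one' := rfl
  map_mul' _ _ := rfl

lemma toE_inj : Function.Injective (toE X Θ) := fun _ _ h =>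
  Subtype.ext (AlgEquiv.ext fun z => AlgEquiv.congr_fun h z)

include hΘ in
lemma toE_surj (hp : p.Prime) : Function.Surjective (toE X Θ) := fun π => by
  have hK : ∀ z ∈ KC X Θ, π z = z := fun z hz => π.commutes ⟨z, K_mem_EK hz⟩
  let φ : Aut X := AlgEquiv.ofRingEquiv (f := (π : U ≃+* U))
    fun c => hK _ ((KC X Θ).algebraMap_mem c)
  have h0 : φ ∈ Gam0 X := ⟨fun a => hK _ (F_mem_KC X Θ a), π.commutes ⟨_, x_mem_EK⟩,
    π.commutes ⟨_, y_mem_EK⟩⟩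
  refine ⟨⟨φ, mem_Inr_of_KC hΘ hp h0 fun z hz _ => ?_⟩, rfl⟩
  have : φ z = z := hK z hz
  simp [this]

/-! ### the geometric claim -/

include hΘ in
/-- the image of the inertia group has a non-trivial normal `p`-subgroup -/
theorem hasOp_Inr [IsAlgClosed U] (hp : p.Prime) (hgeo : GeoStmt p) (hcore : CoreStmt p)
    (M : IntermediateField (B X) U) [FiniteDimensional (B X) M] [IsGalois (B X) M]
    (hU : UnrE M (xB X) (yB X) (aC X) (bC X)) (hΘM : ∀ z ∈ Θ, z ∈ M)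
    {G : Type} [Group G] [Finite G] (hG : Nat.card G * (4 * Nat.card G + 1) + 1 < n)
    (ρ : Inr X Θ →* G) (hΛ : ∀ ψ : Inr X Θ, ψ.1 ∈ Lam X Θ → ρ ψ = 1)
    {φ : Aut X} (hφ : Lift X φ 1) {r : ℕ} (hr : 0 < r) (hφr : φ ^ r ∈ Lam X Θ)
    (hconj : ∀ χ : Aut X, χ = φ ∨ χ = φ⁻¹ → ∀ ψ ψ' : Inr X Θ, ψ'.1 = χ * ψ.1 * χ⁻¹ →
      ρ ψ = 1 → ρ ψ' = 1)
    (V : ValuationSubring (KC X Θ))
    (hV : Fine (C := X.C) (X.v.comap (algebraMap (KC X Θ) U)) V)
    (hVφ : ∀ z z' : KC X Θ, (z' : U) = φ z → (z' ∈ V ↔ z ∈ V))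
    {i₀ : Fin n} {n₀ : ℕ} {ζ : ℂ} {u : AV (B X)} {γ : M ≃ₐ[B X] M} (hn₀ : 0 < n₀)
    (hζ : IsPrimitiveRoot ζ n₀) (hu : AtPt u (xB X) (yB X) (aC X i₀) (bC X i₀) n₀)
    (hγ : GenOver u (algebraMap ℂ (B X) ζ) γ) (π : Inr X Θ)
    (hπ : ∀ z : M, ((γ z : M) : U) = π.1 z) (hpπ : p ∣ orderOf (ρ π)) : HasOp p ρ.range := by
  have hgE : IsGalois (EK X Θ) U := isGalois_of_alg _ alg_EK
  have hgB : IsGalois (B X) U := isGalois_of_alg _ (alg_B X)
  let e : Inr X Θ ≃* (U ≃ₐ[EK X Θ] U) :=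
    MulEquiv.ofBijective (toE X Θ) ⟨toE_inj, toE_surj hΘ hp⟩
  have he : ∀ (ψ : Inr X Θ) (z : U), e ψ z = ψ.1 z := fun _ _ => rfl
  let ρE : (U ≃ₐ[EK X Θ] U) →* G := ρ.comp e.symm.toMonoidHom
  have hρE : ∀ ψ, ρE (e ψ) = ρ ψ := fun ψ => congrArg ρ (e.symm_apply_apply ψ)
  have hopen : IsOpen (ρE.ker : Set (U ≃ₐ[EK X Θ] U)) := by
    have halg := alg_EK (X := X) (Θ := Θ)
    have : FiniteDimensional (EK X Θ) (IntermediateField.adjoin (EK X Θ) (Θ : Set U)) :=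
      IntermediateField.finiteDimensional_adjoin fun z _ => Algebra.IsIntegral.isIntegral z
    refine Subgroup.isOpen_mono ?_
      (IntermediateField.fixingSubgroup_isOpen (IntermediateField.adjoin (EK X Θ) (Θ : Set U)))
    intro σ hσ
    obtain ⟨ψ, rfl⟩ := e.surjective σ
    rw [MonoidHom.mem_ker, hρE]
    exact hΛ ψ ⟨ψ.2.1, fun z hz => (IntermediateField.mem_fixingSubgroup_iff _ _).1 hσ z
      (IntermediateField.subset_adjoin _ _ hz)⟩
  let N : IntermediateField (EK X Θ) U := IntermediateField.fixedField ρE.ker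
  have hfix : N.fixingSubgroup = ρE.ker :=
    InfiniteGalois.fixingSubgroup_fixedField ⟨ρE.ker, Subgroup.isClosed_of_isOpen _ hopen⟩
  have hfin : FiniteDimensional (EK X Θ) N :=
    (InfiniteGalois.isOpen_iff_finite N).1 (by rw [hfix]; exact hopen)
  have hgal : IsGalois (EK X Θ) N :=
    (InfiniteGalois.normal_iff_isGalois N).1 (by rw [hfix]; infer_instance)
  have hN : ∀ z, z ∈ N ↔ ∀ ψ : Inr X Θ, ρ ψ = 1 → ψ.1 z = z := fun z => by
    rw [IntermediateField.mem_fixedField_iff]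
    constructor
    · intro h ψ hψ
      exact h (e ψ) (by rw [MonoidHom.mem_ker, hρE, hψ])
    · intro h σ hσ
      obtain ⟨ψ, rfl⟩ := e.surjective σ
      exact h ψ (by rwa [MonoidHom.mem_ker, hρE] at hσ)
  let χ : Inr X Θ →* (N ≃ₐ[EK X Θ] N) := (AlgEquiv.restrictNormalHom N).comp e.toMonoidHom
  have hχs : Function.Surjective χ :=
    (AlgEquiv.restrictNormalHom_surjective U).comp e.surjective
  have hχ : ∀ ψ, χ ψ = 1 ↔ ρ ψ = 1 := fun ψ => by
    change AlgEquiv.restrictNormalHom N (e ψ) = 1 ↔ _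
    rw [← MonoidHom.mem_ker, IntermediateField.restrictNormalHom_ker, hfix, MonoidHom.mem_ker, hρE]
  have hχa : ∀ ψ (z : N), ((χ ψ z : N) : U) = ψ.1 z := fun ψ z =>
    AlgEquiv.restrictNormal_commutes (e ψ) N z
  have hker : χ.ker = ρ.ker := Subgroup.ext fun ψ => hχ ψ
  have hcard : Module.finrank (EK X Θ) N ≤ Nat.card G := by
    rw [← IsGalois.card_aut_eq_finrank,
      ← Nat.card_congr (QuotientGroup.quotientKerEquivOfSurjective χ hχs).toEquiv, hker,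
      Nat.card_congr (QuotientGroup.quotientKerEquivRange ρ).toEquiv]
    exact Subgroup.card_le_card_group _
  have hNM : ∀ z ∈ N, z ∈ M := by
    intro z hz
    rw [← InfiniteGalois.fixedField_fixingSubgroup M, IntermediateField.mem_fixedField_iff]
    intro σ hσ
    obtain ⟨ψ, rfl⟩ := toB_surj σ
    have h1 : ψ.1 ∈ Lam X Θ := ⟨Geo.lift ψ.2, fun w hw =>
      (IntermediateField.mem_fixingSubgroup_iff _ _).1 hσ w (hΘM w hw)⟩
    exact (hN z).1 hz ⟨ψ.1, Lam_le_Inr hΘ h1⟩ (hΛ _ h1)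
  have hφG : φ ∈ Gam X := ⟨1, hφ⟩
  have hst : ∀ κ : Aut X, κ = φ ∨ κ = φ⁻¹ → ∀ z ∈ N, κ⁻¹ z ∈ N := by
    intro κ hκ z hz
    have hκG : κ ∈ Gam X := by
      rcases hκ with rfl | rfl
      · exact hφG
      · exact (Gam X).inv_mem hφG
    refine (hN _).2 fun ψ hψ => ?_
    have h1 := (hN z).1 hz ⟨_, conj_Inr hΘ hκG ψ.2⟩ (hconj κ hκ ψ _ rfl hψ)
    change κ (ψ.1 (κ⁻¹ z)) = z at h1
    rw [← inv_apply_apply κ (ψ.1 (κ⁻¹ z)), h1]
  obtain ⟨Q, hQ1, hQ2, hQ3⟩ := hgeo hcore n U X M hU (KC X Θ) (F_mem_KC X Θ)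
    (fun _ => isC_of_mem_KC X Θ) (cpl_KC X Θ hp.ne_zero) (fun i _ => der_le_KC hΘ hp i) N hNM φ hφ
    (fun z => ⟨map_mem_KC hΘ hφG, fun h => by
      simpa [inv_apply_apply] using map_mem_KC hΘ ((Gam X).inv_mem hφG) h⟩)
    (fun z => ⟨fun h => by simpa using hst φ⁻¹ (Or.inr rfl) z h, fun h => by
      simpa [inv_apply_apply] using hst φ (Or.inl rfl) _ h⟩)
    ⟨r, hr, fun z hz => (hN z).1 hz ⟨_, Lam_le_Inr hΘ hφr⟩ (hΛ _ hφr)⟩ V hV hVφ i₀ n₀ ζ u γ (χ π)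
    hn₀ hζ hu hγ (fun z z' h => by rw [hπ, hχa, h])
    (by
      have : orderOf (χ π) = orderOf (ρ π) := by
        rw [orderOf_eq_orderOf_iff]
        intro k
        rw [← map_pow, hχ, map_pow]
      rwa [this])
    (lt_of_le_of_lt (by gcongr) hG)
  have h4 := Desc77.hasOp_map (⊤ : Subgroup (Inr X Θ)) ρ (χ.comp (Subgroup.subtype ⊤))
    (fun σ => by
      obtain ⟨ψ, rfl⟩ := hχs σ
      exact ⟨⟨ψ, trivial⟩, rfl⟩) (fun h => hχ h) Q hQ1 hQ2 hQ3
  rwa [← MonoidHom.range_eq_map] at h4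

/-! ### the descent -/

lemma exists_exponent {p : ℕ} (hp : p.Prime) (m : ℕ) : ∃ a, 0 < a ∧ m < p ^ a :=
  ⟨m + 1, Nat.succ_pos m, (Nat.lt_succ_self m).trans (Nat.lt_pow_self hp.one_lt)⟩

/-- **the descent** -/
theorem descent_of {p : ℕ} (hp : p.Prime) (hcan : CanStmt) (hlab : LabStmt) (hf : FineStmt)
    (hs : SmithStmt) (hth : ThetaStmt) (hgeo : GeoStmt p) : DescentStmt p := by
  intro hW hR hUq hcore
  rw [cnt_iff]
  intro G _ _ c hc
  have : Fact p.Prime := ⟨hp⟩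
  obtain ⟨a, ha, hG⟩ := exists_exponent hp (Nat.card G * (4 * Nat.card G + 1) + 1)
  have : NeZero (p ^ a) := ⟨pow_ne_zero _ hp.ne_zero⟩
  obtain ⟨U, _, _, hU, ⟨X⟩⟩ := hW a ha
  have hell := X.ell
  have halg := alg_B X
  have hcl : IsAlgClosure (B X) U := ⟨hU, halg⟩
  have hgB : IsGalois (B X) U := isGalois_of_alg _ halg
  have hinj : Function.Injective (algebraMap ℂ U) := (algebraMap ℂ U).injective
  have hO : ∀ i, (X.W⁄ℂ).Nonsingular (aC X i) (bC X i) := fun i =>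
    (baseChange_nonsingular X.W (f := IsScalarTower.toAlgHom X.R ℂ U) hinj _ _).1 (X.nsO i)
  obtain ⟨n₀, ζ, M, hn₀, hζ, hfin, hgal, hres, hunr, hmax, γ, hγ, hcount⟩ :=
    hR (B X) U (X.W⁄ℂ) (xB X) (yB X)
      (fun h => X.trans (h.algHom (B X).val))
      (by
        have h1 : (X.W⁄(B X)).Nonsingular (xB X) (yB X) :=
          (baseChange_nonsingular X.W (f := (B X).val.restrictScalars X.R)
            Subtype.val_injective _ _).1 X.ns
        have h2 : (X.W⁄ℂ)⁄(B X) = X.W⁄(B X) :=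
          WeierstrassCurve.map_baseChange X.W (IsScalarTower.toAlgHom X.R ℂ (B X))
        rw [h2]
        exact h1.1)
      (by
        apply IntermediateField.map_injective (B X).val
        rw [IntermediateField.adjoin_map, Set.image_pair, ← AlgHom.fieldRange_eq_map,
          IntermediateField.fieldRange_val]
        rfl)
      (p ^ a) (aC X) (bC X) (aC_inj X) (fun i => (hO i).1)
      (fun i h => by
        have h1 := X.vW i
        have h2 := baseChange_negY (W' := X.W) (IsScalarTower.toAlgHom X.R ℂ U) (aC X i) (bC X i)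
        rw [← h] at h2
        have h3 : (X.W⁄U).negY (algebraMap X.F U (X.a i)) (algebraMap X.F U (X.b i)) =
          algebraMap X.F U (X.b i) := h2
        rw [h3, sub_self, map_zero] at h1
        exact zero_ne_one h1) G
  have hM := hcan p (p ^ a) U X G M hfin hgal hres hunr hmax
  have hM' : ∀ φ ∈ Gam X, ∀ z, z ∈ M ↔ φ z ∈ M := fun φ ⟨j, hj⟩ z =>
    ⟨hM φ j hj z, fun h => by simpa [inv_apply_apply] using hM _ _ hj.inv _ h⟩
  obtain ⟨Θ, -, hΘM, hΘ, hdet, hpi⟩ := hth p (p ^ a) U X M hM ∅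
  obtain ⟨V, φ, k, hφ, hφk, hV, hVφ⟩ := exists_gamma hΘ hf hp rfl
  obtain ⟨T, hT1, hT2, hT3, hT4⟩ := exists_til hΘ (p := p) ⟨1, hφ⟩ (Lam_le_Inr hΘ hφk)
  have hGT : GeoS X ≤ T := (GeoS_le_Inr hΘ).trans hT2
  have hN : ((GeoS X).subgroupOf T).Normal := ⟨fun ψ hψ χ => conj_GeoS (hT1 χ.2) hψ⟩
  have hΛ : ((Lam X Θ).subgroupOf T).Normal := ⟨fun ψ hψ χ => conj_Lam hΘ (hT1 χ.2) hψ⟩
  have hΛf := finiteIndex_Lam hΘ T hT1
  let r : (GeoS X).subgroupOf T →* (M ≃ₐ[B X] M) :=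
    (AlgEquiv.restrictNormalHom M).comp
      ((toB X).comp (Subgroup.subgroupOfEquivOfLe hGT).toMonoidHom)
  have hr : ∀ (x : (GeoS X).subgroupOf T) (z : M), ((r x z : M) : U) = x.1.1 z := fun x z =>
    AlgEquiv.restrictNormal_commutes (toB X (Subgroup.subgroupOfEquivOfLe hGT x)) M z
  have hrs : Function.Surjective r :=
    (AlgEquiv.restrictNormalHom_surjective U).comp
      (toB_surj.comp (Subgroup.subgroupOfEquivOfLe hGT).surjective)
  have key := hs p T (M ≃ₐ[B X] M) G hp ((GeoS X).subgroupOf T) ((Lam X Θ).subgroupOf T) r hrs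
    (fun x => ⟨fun h => ⟨Geo.lift x.2, fun z hz => by
        have := hr x ⟨z, hΘM z hz⟩
        rw [h] at this
        exact this.symm⟩, fun h => AlgEquiv.ext fun z => Subtype.ext
          ((hr x z).trans (hdet _ x.2 h.2 z z.2))⟩)
    (fun t => by
      obtain ⟨l, hl⟩ := exists_pow_fix hΘ hp (hT4 t.1 t.2)
      have h0 : (t.1 ^ p ^ k) ^ p ^ l ∈ Gam0 X := (Gam0 X).pow_mem (hT4 t.1 t.2).1 _
      obtain ⟨π, hπ, hπΘ⟩ := hpi _ h0 fun z hz h1 =>
        hl z (IntermediateField.subset_adjoin X.F _ ⟨hz, h1⟩)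
      refine ⟨k + l, ?_⟩
      have h2 : t ^ p ^ (k + l) = ⟨π, hGT hπ⟩ * ((⟨π, hGT hπ⟩ : T)⁻¹ * t ^ p ^ (k + l)) := by
        rw [mul_inv_cancel_left]
      rw [h2]
      refine Subgroup.mul_mem_sup hπ ?_
      change π⁻¹ * t.1 ^ p ^ (k + l) ∈ Lam X Θ
      rw [pow_add, pow_mul]
      refine ⟨(Gam0 X).mul_mem ((Gam0 X).inv_mem (Geo.lift hπ)) h0, fun z hz => ?_⟩
      rw [AlgEquiv.mul_apply, hπΘ z hz, inv_apply_apply])
    {ρ | ∀ i, IsConj (ρ (γ i)) c}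
    (fun g ρ h i => (isConj_iff.2 ⟨g, rfl⟩ : IsConj (ρ (γ i)) (g * ρ (γ i) * g⁻¹)).symm.trans (h i))
    (fun t ρ ρ' h h' i => by
      obtain ⟨x, hx⟩ := hrs (γ i)
      obtain ⟨j, hj⟩ := hT1 t.2
      obtain ⟨i', hi'⟩ := hlab hUq p (p ^ a) U X M n₀ ζ hn₀ hζ γ hγ t.1 j hj (hM' _ (hT1 t.2)) i
        (r (MulAut.conjNormal t x)) fun z z' hz => by
          rw [hr, ← hx, hr, hz]
          change t.1 (x.1.1 (t.1⁻¹ (t.1 z))) = _
          rw [inv_apply_apply]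
      rw [← hx, h']
      exact (ρ.map_isConj hi').trans (h i'))
    (fun ρ' hΛρ ρ hρ hext => by
      obtain ⟨x, hx⟩ := hrs (γ 0)
      obtain ⟨u, hu, hgen⟩ := hγ 0
      have hI : ((Inr X Θ).subgroupOf T).Normal := ⟨fun ψ hψ χ => conj_Inr hΘ (hT1 χ.2) hψ⟩
      refine Desc77.hasOp_range ((Inr X Θ).subgroupOf T) ρ' ?_
      have h1 := hasOp_Inr hΘ hp hgeo hcore M hunr hΘM hG (ρ'.comp (Subgroup.inclusion hT2))
        (fun ψ hψ => hΛρ hψ) hφ (pow_pos hp.pos k) hφk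
        (fun χ hχ ψ ψ' he h => by
          have hχT : χ ∈ T := by
            rcases hχ with rfl | rfl
            · exact hT3
            · exact T.inv_mem hT3
          have h2 : Subgroup.inclusion hT2 ψ' =
              ⟨χ, hχT⟩ * Subgroup.inclusion hT2 ψ * (⟨χ, hχT⟩ : T)⁻¹ := Subtype.ext he
          rw [MonoidHom.comp_apply] at h ⊢
          rw [h2, map_mul, map_mul, h, mul_one, map_inv, mul_inv_cancel])
        V hV hVφ hn₀ hζ hu hgen ⟨x.1.1, GeoS_le_Inr hΘ x.2⟩ (fun z => by rw [← hx, hr])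
        (by
          have h2 : (ρ'.comp (Subgroup.inclusion hT2)) ⟨x.1.1, GeoS_le_Inr hΘ x.2⟩ = ρ (γ 0) := by
            rw [← hx, ← hext]
            rfl
          obtain ⟨g, hg⟩ := isConj_iff.1 (hρ 0)
          rw [h2]
          have h3 : orderOf c = orderOf (ρ (γ 0)) := by
            rw [← hg]
            exact (MulAut.conj g).orderOf_eq _
          rwa [← h3])
      rwa [← MonoidHom.map_range, Subgroup.inclusion_range] at h1)
  refine ⟨a, ?_⟩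
  have : Finite ((M ≃ₐ[B X] M) →* G) :=
    Finite.of_injective (fun ρ : (M ≃ₐ[B X] M) →* G => (ρ : (M ≃ₐ[B X] M) → G))
      DFunLike.coe_injective
  rw [← chain_sum_eq p (fun ρ : {ρ : (M ≃ₐ[B X] M) →* G | ∀ i, IsConj (ρ (γ i)) c} =>
    (ρ : (M ≃ₐ[B X] M) →* G).range)] at key
  convert key using 4 with σ
  rw [← hcount (st σ) c]
  exact congrArg _ (Nat.card_congr (Equiv.subtypeSubtypeEquivSubtypeInter
    (fun ρ : (M ≃ₐ[B X] M) →* G => ∀ i, IsConj (ρ (γ i)) c) fun ρ => ρ.range ≤ st σ).symm)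

end Crest.Agent.T170.Ds
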