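import Crest.Agent.T170.Pl_79

/-!
# Row 170 (helper79): semilinear images of the maximal field of `RetE`

* `conjE` : conjugation of Galois groups by a semilinear isomorphism;
* `img`, `imgE` : the image of an intermediate field under a semilinear automorphism;
* `stable_of_max` : the maximal field of `RetE` is stable;
* `resE` : the restriction of the automorphism to a stable intermediate field.
-/

set_option autoImplicit false

namespace Crest.Agent.T170.Pl

open scoped Classical
open WeierstrassCurve WeierstrassCurve.Affine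
open Crest.Agent.T170.Ret (AV Ctr GenOver Rot ResW)
open Crest.Agent.T170.Ell Crest.Agent.T170.Fr

section conj

variable {B B' N N' : Type*} [Field B] [Field B'] [Field N] [Field N'] [Algebra B N]
  [Algebra B' N'] {g : B ≃+* B'} {j : N ≃+* N'}

theorem symm_algebraMap' (hj : ∀ f, j (algebraMap B N f) = algebraMap B' N' (g f)) (f : B') :
    j.symm (algebraMap B' N' f) = algebraMap B N (g.symm f) := by
  rw [RingEquiv.symm_apply_eq, hj, RingEquiv.apply_symm_apply]

/-- `j γ j⁻¹` -/
def conjA (hj : ∀ f, j (algebraMap B N f) = algebraMap B' N' (g f)) (γ : N ≃ₐ[B] N) :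
    N' ≃ₐ[B'] N' :=
  AlgEquiv.ofRingEquiv (f := (j.symm.trans (γ : N ≃+* N)).trans j) fun f => by
    change j (γ (j.symm _)) = _
    rw [symm_algebraMap' hj, γ.commutes, hj, g.apply_symm_apply]

theorem conjA_apply (hj : ∀ f, j (algebraMap B N f) = algebraMap B' N' (g f)) (γ : N ≃ₐ[B] N)
    (z : N') : conjA hj γ z = j (γ (j.symm z)) := rfl

/-- conjugation by a semilinear isomorphism -/
def conjE (hj : ∀ f, j (algebraMap B N f) = algebraMap B' N' (g f)) :
    (N ≃ₐ[B] N) ≃* (N' ≃ₐ[B'] N') where
  toFun := conjA hj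
  invFun := conjA (g := g.symm) (j := j.symm) (symm_algebraMap' hj)
  left_inv γ := AlgEquiv.ext fun z => by simp [conjA_apply]
  right_inv γ := AlgEquiv.ext fun z => by simp [conjA_apply]
  map_mul' γ δ := AlgEquiv.ext fun z => by simp [conjA_apply]

theorem conjE_apply (hj : ∀ f, j (algebraMap B N f) = algebraMap B' N' (g f)) (γ : N ≃ₐ[B] N)
    (z : N') : conjE hj γ z = j (γ (j.symm z)) := rfl

theorem conjE_map (hj : ∀ f, j (algebraMap B N f) = algebraMap B' N' (g f)) (γ : N ≃ₐ[B] N)
    (z : N) : conjE hj γ (j z) = j (γ z) := by rw [conjE_apply, j.symm_apply_apply]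

theorem resW_of_equiv {Γ Γ' G : Type*} [Group Γ] [Group Γ'] [Group G] (e : Γ ≃* Γ')
    (h : ResW Γ G) : ResW Γ' G := fun γ hγ => by
  obtain ⟨γ, rfl⟩ := e.surjective γ
  rw [h γ fun ρ => by simpa using hγ (ρ.comp e.symm.toMonoidHom), map_one]

theorem comp_eq (hj : ∀ f, j (algebraMap B N f) = algebraMap B' N' (g f)) :
    (algebraMap B' N').comp (g : B →+* B') = (j : N →+* N').comp (algebraMap B N) :=
  RingHom.ext fun f => (hj f).symm

theorem finite_transport (hj : ∀ f, j (algebraMap B N f) = algebraMap B' N' (g f))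
    [FiniteDimensional B N] : FiniteDimensional B' N' :=
  Module.Finite.of_equiv_equiv g j (comp_eq hj)

theorem isGalois_transport (hj : ∀ f, j (algebraMap B N f) = algebraMap B' N' (g f))
    [IsGalois B N] : IsGalois B' N' :=
  IsGalois.of_equiv_equiv (F := B) (E := N) (comp_eq hj)

theorem finrank_transport (hj : ∀ f, j (algebraMap B N f) = algebraMap B' N' (g f)) :
    Module.finrank B N = Module.finrank B' N' :=
  Algebra.finrank_eq_of_equiv_equiv g j (comp_eq hj)

end conj

section img

variable {B U : Type*} [Field B] [Field U] [Algebra B U] {g : B ≃+* B} {h : U ≃+* U}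

/-- the image of an intermediate field under a semilinear automorphism -/
def img (hh : ∀ f, h (algebraMap B U f) = algebraMap B U (g f)) (M : IntermediateField B U) :
    IntermediateField B U :=
  (M.toSubfield.map (h : U →+* U)).toIntermediateField fun f =>
    ⟨algebraMap B U (g.symm f), M.algebraMap_mem _, by
      change h _ = _
      rw [hh, g.apply_symm_apply]⟩

theorem mem_img {hh : ∀ f, h (algebraMap B U f) = algebraMap B U (g f)}
    {M : IntermediateField B U} {z : U} : z ∈ img hh M ↔ h.symm z ∈ M :=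
  ⟨fun ⟨w, hw, e⟩ => by
    rw [← e]; change h.symm (h w) ∈ M; rwa [h.symm_apply_apply],
   fun hz => ⟨_, hz, h.apply_symm_apply z⟩⟩

/-- the restriction of `h` between two intermediate fields which correspond under `h` -/
def resE' (h : U ≃+* U) {M M' : IntermediateField B U} (hM : ∀ z, h z ∈ M' ↔ z ∈ M) :
    M ≃+* M' where
  toFun z := ⟨h z, (hM z).2 z.2⟩
  invFun z := ⟨h.symm z, (hM _).1 (by rw [h.apply_symm_apply]; exact z.2)⟩
  left_inv z := Subtype.ext (h.symm_apply_apply z)
  right_inv z := Subtype.ext (h.apply_symm_apply z)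
  map_mul' z w := Subtype.ext (map_mul h (z : U) w)
  map_add' z w := Subtype.ext (map_add h (z : U) w)

@[simp] theorem coe_resE' {M M' : IntermediateField B U} (hM : ∀ z, h z ∈ M' ↔ z ∈ M) (z : M) :
    (resE' h hM z : U) = h z := rfl

@[simp] theorem coe_resE'_symm {M M' : IntermediateField B U} (hM : ∀ z, h z ∈ M' ↔ z ∈ M)
    (z : M') : ((resE' h hM).symm z : U) = h.symm z := rfl

theorem resE'_algebraMap (hh : ∀ f, h (algebraMap B U f) = algebraMap B U (g f))
    {M M' : IntermediateField B U} (hM : ∀ z, h z ∈ M' ↔ z ∈ M) (f : B) :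
    resE' h hM (algebraMap B M f) = algebraMap B M' (g f) := Subtype.ext (hh f)

theorem map_mem_img (hh : ∀ f, h (algebraMap B U f) = algebraMap B U (g f))
    (M : IntermediateField B U) (z : U) : h z ∈ img hh M ↔ z ∈ M := by
  rw [mem_img, h.symm_apply_apply]

end img

section stable

variable {B U : Type} [Field B] [Field U] [Algebra ℂ B] [Algebra B U] {x y : B}

/-- **the maximal field of `RetE` is stable under semilinear automorphisms permuting the
punctures** -/
theorem stable_of_max {g : B ≃+* B} {τ : ℂ ≃+* ℂ} {h : U ≃+* U}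
    (hg : ∀ c, g (algebraMap ℂ B c) = algebraMap ℂ B (τ c))
    (hh : ∀ f, h (algebraMap B U f) = algebraMap B U (g f)) {n : ℕ} {a b : Fin n → ℂ}
    (hm : ∀ i, ∃ i', Mov g x y (a i) (b i) (a i') (b i')) {G : Type} [Group G]
    {M : IntermediateField B U} [FiniteDimensional B M] [IsGalois B M]
    (hW : ResW (M ≃ₐ[B] M) G) (hU : UnrE M x y a b)
    (hmax : ∀ N : IntermediateField B U, FiniteDimensional B N → IsGalois B N →
      ResW (N ≃ₐ[B] N) G → UnrE N x y a b → N ≤ M) (z : U) : h z ∈ M ↔ z ∈ M := by
  have hj := resE'_algebraMap hh (map_mem_img hh M)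
  have hle : img hh M ≤ M := hmax _ (finite_transport hj) (isGalois_transport hj)
    (resW_of_equiv (conjE hj) hW) (unrE_transport hg hj hm hU)
  have heq : img hh M = M :=
    IntermediateField.eq_of_le_of_finrank_eq hle (finrank_transport hj).symm
  nth_rewrite 1 [← heq]
  exact map_mem_img hh M z

end stable

end Crest.Agent.T170.Pl
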