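import Crest.Agent.T170.DsDef_6
import Crest.Agent.T170.Sl_79

/-!
# Row 170, task F1 (helper66): `CanStmt` and `LabStmt` from the basic properties of lifts
-/

set_option autoImplicit false

noncomputable section

namespace Crest.Agent.T170.Ds.Can66

open scoped NNReal Polynomial Classical
open WeierstrassCurve WeierstrassCurve.Affine Crest.Agent.R170 Crest.Agent.T170.Ret
open Crest.Agent.T170.Fr Crest.Agent.T170.Pl

variable {p n : ℕ} [NeZero n] {U : Type} [Field U] [Algebra ℂ U] {X : World p n U}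

/-- the restriction of a lift to `B` -/
def gB (api : LiftApi X) {φ : Aut X} {j : ℕ} (h : Lift X φ j) : B X ≃+* B X :=
  resE' (φ : U ≃+* U) (M := B X) (M' := B X) (api.memB φ j h)

theorem coe_gB (api : LiftApi X) {φ : Aut X} {j : ℕ} (h : Lift X φ j) (z : B X) :
    (gB api h z : U) = φ z := rfl

/-- the restriction of a lift to `ℂ` -/
theorem exists_tau (api : LiftApi X) {φ : Aut X} {j : ℕ} (h : Lift X φ j) :
    ∃ τ : ℂ ≃+* ℂ, ∀ c, φ (algebraMap ℂ U c) = algebraMap ℂ U (τ c) := by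
  have hb : ∀ z : U, (φ : U ≃+* U) z ∈ (⊥ : IntermediateField ℂ U) ↔
      z ∈ (⊥ : IntermediateField ℂ U) := fun z => by
    rw [IntermediateField.mem_bot, IntermediateField.mem_bot]
    exact api.isC φ j h z
  let e : (⊥ : IntermediateField ℂ U) ≃+* ℂ := (IntermediateField.botEquiv ℂ U).toRingEquiv
  have he : ∀ z : (⊥ : IntermediateField ℂ U), algebraMap ℂ U (e z) = z := fun z => by
    obtain ⟨c, rfl⟩ := e.symm.surjective z
    rw [e.apply_symm_apply]
    rfl
  refine ⟨(e.symm.trans (resE' (φ : U ≃+* U) hb)).trans e, fun c => ?_⟩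
  rw [RingEquiv.trans_apply, RingEquiv.trans_apply, he]
  rfl

theorem isGen (X : World p n U) : Ell.IsGen X.W ℂ (xB X) (yB X) where
  eqn := (baseChange_equation (W := X.W) (f := IsScalarTower.toAlgHom X.R (B X) U)
    (algebraMap (B X) U).injective (xB X) (yB X)).1 X.ns.1
  trans := fun h => X.trans (h.algHom (B X).val)
  gen := by
    apply IntermediateField.lift_injective (B X)
    rw [IntermediateField.lift_top, IntermediateField.lift_adjoin]
    simp only [Set.image_insert_eq, Set.image_singleton]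
    rfl

theorem ne_negY (X : World p n U) (i : Fin n) : bC X i ≠ (X.W⁄ℂ).negY (aC X i) (bC X i) := by
  intro h0
  have h1 := X.vW i
  have h2 : algebraMap X.F U (X.b i) =
      (X.W⁄U).negY (algebraMap X.F U (X.a i)) (algebraMap X.F U (X.b i)) := by
    have h3 := baseChange_negY (W' := X.W) (IsScalarTower.toAlgHom X.R ℂ U) (aC X i) (bC X i)
    rw [← h0] at h3
    exact h3.symm
  rw [← h2, sub_self, map_zero] at h1
  exact zero_ne_one h1

theorem hg_of (api : LiftApi X) {φ : Aut X} {j : ℕ} (h : Lift X φ j) {τ : ℂ ≃+* ℂ}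
    (hτ : ∀ c, φ (algebraMap ℂ U c) = algebraMap ℂ U (τ c)) (c : ℂ) :
    gB api h (algebraMap ℂ (B X) c) = algebraMap ℂ (B X) (τ c) := Subtype.ext (hτ c)

/-- lifts permute the punctures -/
theorem mov (api : LiftApi X) {φ : Aut X} {j : ℕ} (h : Lift X φ j) {τ : ℂ ≃+* ℂ}
    (hτ : ∀ c, φ (algebraMap ℂ U c) = algebraMap ℂ U (τ c)) (i : Fin n) :
    ∃ i', Mov (gB api h) (xB X) (yB X) (aC X i) (bC X i) (aC X i') (bC X i') := by
  obtain ⟨i', hi'⟩ := api.ptO φ j h i
  have := X.ell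
  have hQ : Point.baseChange ℂ U (Point.baseChange X.C ℂ (j • X.P)) =
      j • Point.baseChange X.C U X.P := by
    rw [← map_nsmul]
    exact Point.map_baseChange (W' := X.W) (IsScalarTower.toAlgHom X.C ℂ U) (j • X.P)
  have n1 : (X.W⁄U).Nonsingular (φ X.x) (φ X.y) :=
    (baseChange_nonsingular (W := X.W) (f := ((φ : U →ₐ[X.C] U).restrictScalars X.R))
      φ.injective X.x X.y).2 X.ns
  have n2 : (X.W⁄U).Nonsingular (φ (algebraMap X.F U (X.a i))) (φ (algebraMap X.F U (X.b i))) :=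
    (baseChange_nonsingular (W := X.W) (f := ((φ : U →ₐ[X.C] U).restrictScalars X.R))
      φ.injective _ _).2 (X.nsO i)
  have ea : φ (algebraMap X.F U (X.a i)) = algebraMap ℂ U (τ (aC X i)) := hτ (aC X i)
  have eb : φ (algebraMap X.F U (X.b i)) = algebraMap ℂ U (τ (bC X i)) := hτ (bC X i)
  have n3 : (X.W⁄U).Nonsingular (algebraMap ℂ U (τ (aC X i))) (algebraMap ℂ U (τ (bC X i))) := by
    rw [← ea, ← eb]; exact n2
  refine ⟨i', mov_of_add' (W := X.W) (U := U) (hg_of api h hτ)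
    (Q := Point.baseChange X.C ℂ (j • X.P)) (ns := X.ns) (ns' := n1) (hab := n3)
    (hab' := X.nsO i') ?_ ?_⟩
  · rw [hQ]
    exact eq_sub_iff_add_eq.1 (api.pt φ j h)
  · rw [hQ]
    refine Eq.trans ?_ hi'
    congr 1
    have e : Point.some _ _ n3 = Point.some _ _ n2 := by
      congr 1
      exacts [ea.symm, eb.symm]
    exact e

theorem can (api : LiftApi X) {G : Type} [Group G] {M : IntermediateField (B X) U}
    [FiniteDimensional (B X) M] [IsGalois (B X) M] (hW : ResW (M ≃ₐ[B X] M) G)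
    (hU : UnrE M (xB X) (yB X) (aC X) (bC X))
    (hmax : ∀ N : IntermediateField (B X) U, FiniteDimensional (B X) N → IsGalois (B X) N →
      ResW (N ≃ₐ[B X] N) G → UnrE N (xB X) (yB X) (aC X) (bC X) → N ≤ M)
    {φ : Aut X} {j : ℕ} (h : Lift X φ j) (z : U) : φ z ∈ M ↔ z ∈ M := by
  obtain ⟨τ, hτ⟩ := exists_tau api h
  exact stable_of_max (g := gB api h) (h := (φ : U ≃+* U)) (hg_of api h hτ) (fun _ => rfl)
    (mov api h hτ) hW hU hmax z

theorem lab (api : LiftApi X) {M : IntermediateField (B X) U}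
    [FiniteDimensional (B X) M] [IsGalois (B X) M] {n₀ : ℕ} {ζ : ℂ} (hn : 0 < n₀)
    (hζ : IsPrimitiveRoot ζ n₀) {γ : Fin n → (M ≃ₐ[B X] M)}
    (hγ : ∀ i, ∃ u : AV (B X), AtPt u (xB X) (yB X) (aC X i) (bC X i) n₀ ∧
      GenOver u (algebraMap ℂ (B X) ζ) (γ i))
    {φ : Aut X} {j : ℕ} (h : Lift X φ j) (hM : ∀ z, z ∈ M ↔ φ z ∈ M) (i : Fin n)
    (δ : M ≃ₐ[B X] M)
    (hδ : ∀ z z' : M, (z' : U) = φ z → ((δ z' : M) : U) = φ ((γ i z : M) : U)) :
    ∃ i', IsConj δ (γ i') := by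
  obtain ⟨τ, hτ⟩ := exists_tau api h
  obtain ⟨i', hi'⟩ := mov api h hτ i
  have hM' : ∀ z, (φ : U ≃+* U) z ∈ M ↔ z ∈ M := fun z => (hM z).symm
  have hζC : ζ ∈ X.C := api.root ζ n₀ hn hζ.pow_eq_one
  have hτζ : τ ζ = ζ := by
    refine (algebraMap ℂ U).injective ?_
    rw [← hτ]
    exact φ.commutes (⟨ζ, hζC⟩ : X.C)
  exact ⟨i', isConj_transport (isGen X) (hg_of api h hτ)
    (j := resE' (φ : U ≃+* U) hM') (resE'_algebraMap (g := gB api h) (fun _ => rfl) hM') hi'
    (ne_negY X i) (ne_negY X i') hn (hζ.ne_zero hn.ne') hτζ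
    (fun z => Subtype.ext (hδ z _ rfl)) (hγ i) (hγ i')⟩

/-- `CanStmt` from the basic properties of lifts -/
theorem canStmt_of (api : ∀ (p n : ℕ) [NeZero n] (U : Type) [Field U] [Algebra ℂ U]
    [IsAlgClosed U] (X : World p n U), LiftApi X) : CanStmt :=
  fun p n _ U _ _ _ X _ _ _ _ _ hW hU hmax _ _ h z hz =>
    (can (api p n U X) hW hU hmax h z).2 hz

/-- `LabStmt` from the basic properties of lifts -/
theorem labStmt_of (api : ∀ (p n : ℕ) [NeZero n] (U : Type) [Field U] [Algebra ℂ U]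
    [IsAlgClosed U] (X : World p n U), LiftApi X) : LabStmt :=
  fun _ p n _ U _ _ _ X _ _ _ _ _ hn hζ _ hγ _ _ h hM i δ hδ =>
    lab (api p n U X) hn hζ hγ h hM i δ hδ

end Crest.Agent.T170.Ds.Can66
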