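import Crest.Agent.T170.DsDef_6
import Crest.Agent.T170.GalConj_6

/-!
# Row 170, leaf F2 (helper95): fine valuation rings extend equivariantly
-/

set_option autoImplicit false

namespace Crest.Agent.T170.Ds

open scoped NNReal Polynomial Classical
open Crest.Agent.T170.Fr Crest.Agent.T170.Gal Polynomial

namespace Fine95

variable {F L : Type} [Field F] [Field L] [Algebra F L]

lemma lt_one_of_v (v : Valuation L ℝ≥0) (V : ValuationSubring F)
    (hle : ∀ z ∈ V, v (algebraMap F L z) ≤ 1) {a : F} (ha : v (algebraMap F L a) < 1) :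
    V.valuation a < 1 := by
  rw [← ValuationSubring.mem_nonunits_iff, ValuationSubring.mem_nonunits_iff_or]
  by_cases h0 : a = 0
  · exact Or.inl h0
  · refine Or.inr fun h => ?_
    have h1 := hle _ h
    have h2 : v (algebraMap F L a) * v (algebraMap F L a⁻¹) = 1 := by
      rw [← map_mul, ← map_mul, mul_inv_cancel₀ h0, map_one, map_one]
    exact absurd h2 (mul_lt_one_of_nonneg_of_lt_one_left zero_le ha h1).ne

/-- the ring `V + m_v` -/
def SS (v : Valuation L ℝ≥0) (V : ValuationSubring F)
    (hle : ∀ z ∈ V, v (algebraMap F L z) ≤ 1) : Subring L where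
  carrier := {z | ∃ a ∈ V, v (z - algebraMap F L a) < 1}
  mul_mem' := by
    rintro x y ⟨a, ha, hx⟩ ⟨b, hb, hy⟩
    refine ⟨a * b, V.mul_mem _ _ ha hb, ?_⟩
    have : x * y - algebraMap F L (a * b) = (x - algebraMap F L a) * (y - algebraMap F L b) +
        ((x - algebraMap F L a) * algebraMap F L b + algebraMap F L a * (y - algebraMap F L b)) := by
      rw [map_mul]; ring
    rw [this]
    refine v.map_add_lt ?_ (v.map_add_lt ?_ ?_)
    · rw [map_mul]; exact mul_lt_one_of_nonneg_of_lt_one_left zero_le hx hy.le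
    · rw [map_mul]; exact mul_lt_one_of_nonneg_of_lt_one_left zero_le hx (hle _ hb)
    · rw [map_mul, mul_comm]; exact mul_lt_one_of_nonneg_of_lt_one_left zero_le hy (hle _ ha)
  one_mem' := ⟨1, V.one_mem, by simp⟩
  add_mem' := by
    rintro x y ⟨a, ha, hx⟩ ⟨b, hb, hy⟩
    refine ⟨a + b, V.add_mem _ _ ha hb, ?_⟩
    have : x + y - algebraMap F L (a + b) = (x - algebraMap F L a) + (y - algebraMap F L b) := by
      rw [map_add]; ring
    rw [this]
    exact v.map_add_lt hx hy
  zero_mem' := ⟨0, V.zero_mem, by simp⟩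
  neg_mem' := by
    rintro x ⟨a, ha, hx⟩
    refine ⟨-a, V.neg_mem _ ha, ?_⟩
    have : -x - algebraMap F L (-a) = -(x - algebraMap F L a) := by rw [map_neg]; ring
    rwa [this, v.map_neg]

/-- the ideal `m_V + m_v` -/
def JJ (v : Valuation L ℝ≥0) (V : ValuationSubring F)
    (hle : ∀ z ∈ V, v (algebraMap F L z) ≤ 1) : Ideal (SS v V hle) where
  carrier := {z | ∃ a : F, V.valuation a < 1 ∧ v ((z : L) - algebraMap F L a) < 1}
  add_mem' := by
    rintro x y ⟨a, ha, hx⟩ ⟨b, hb, hy⟩
    refine ⟨a + b, V.valuation.map_add_lt ha hb, ?_⟩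
    have : ((x + y : SS v V hle) : L) - algebraMap F L (a + b) =
        (x - algebraMap F L a) + (y - algebraMap F L b) := by
      rw [map_add]; push_cast; ring
    rw [this]
    exact v.map_add_lt hx hy
  zero_mem' := ⟨0, by simp, by simp⟩
  smul_mem' := by
    rintro ⟨x, a, ha, hx⟩ y ⟨b, hb, hy⟩
    have hb' : b ∈ V := (V.valuation_le_one_iff _).1 hb.le
    refine ⟨a * b, ?_, ?_⟩
    · rw [map_mul, mul_comm]
      exact mul_lt_one_of_nonneg_of_lt_one_left zero_le hb ((V.valuation_le_one_iff _).2 ha)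
    · change v (x * (y : L) - algebraMap F L (a * b)) < 1
      have : x * y - algebraMap F L (a * b) = (x - algebraMap F L a) * (y - algebraMap F L b) +
          ((x - algebraMap F L a) * algebraMap F L b +
            algebraMap F L a * (y - algebraMap F L b)) := by
        rw [map_mul]; ring
      rw [this]
      refine v.map_add_lt ?_ (v.map_add_lt ?_ ?_)
      · rw [map_mul]; exact mul_lt_one_of_nonneg_of_lt_one_left zero_le hx hy.le
      · rw [map_mul]; exact mul_lt_one_of_nonneg_of_lt_one_left zero_le hx (hle _ hb')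
      · rw [map_mul, mul_comm]; exact mul_lt_one_of_nonneg_of_lt_one_left zero_le hy (hle _ ha)

/-- the composite extension -/
theorem exists_ext (v : Valuation L ℝ≥0) (V : ValuationSubring F)
    (hle : ∀ z ∈ V, v (algebraMap F L z) ≤ 1) :
    ∃ V' : ValuationSubring L, (∀ z ∈ V', v z ≤ 1) ∧
      (∀ a : F, algebraMap F L a ∈ V' ↔ a ∈ V) ∧
      ∀ a : F, V.valuation a < 1 → V'.valuation (algebraMap F L a) < 1 := by
  have hJ : JJ v V hle ≠ ⊤ := by
    rw [Ideal.ne_top_iff_one]
    rintro ⟨a, ha, h1⟩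
    have h2 : V.valuation (1 - a) < 1 := by
      refine lt_one_of_v v V hle ?_
      simpa using h1
    have h3 := V.valuation.map_add_lt h2 ha
    simp at h3
  obtain ⟨V', hS, hN⟩ := Ideal.image_subset_nonunits_valuationSubring (JJ v V hle) hJ
  have key : ∀ (z : L) (a : F), V.valuation a < 1 → v (z - algebraMap F L a) < 1 →
      V'.valuation z < 1 := by
    intro z a ha hz
    rw [← ValuationSubring.mem_nonunits_iff]
    exact hN ⟨⟨z, a, (V.valuation_le_one_iff _).1 ha.le, hz⟩, ⟨a, ha, hz⟩, rfl⟩
  have inv : ∀ z : L, z ∈ V' → z ≠ 0 → ¬ V'.valuation z⁻¹ < 1 := by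
    intro z hz h0 h
    rw [← ValuationSubring.mem_nonunits_iff, ValuationSubring.mem_nonunits_iff_or, inv_inv] at h
    rcases h with h | h
    · exact h0 (inv_eq_zero.1 h)
    · exact h hz
  refine ⟨V', fun z hz => ?_, fun a => ⟨fun h => ?_, fun h => hS ⟨a, h, by simp⟩⟩,
    fun a ha => key _ a ha (by simp)⟩
  · by_contra hc
    have h1 : 1 < v z := not_le.1 hc
    have h0 : z ≠ 0 := by
      rintro rfl
      simp at h1
    refine inv z hz h0 (key _ 0 (by simp) ?_)
    rw [map_zero, sub_zero, map_inv₀]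
    exact inv_lt_one_of_one_lt₀ h1
  · by_contra hc
    have h0 : a ≠ 0 := by
      rintro rfl
      exact hc V.zero_mem
    have h1 : V.valuation a⁻¹ < 1 := by
      rw [← ValuationSubring.mem_nonunits_iff, ValuationSubring.mem_nonunits_iff_or, inv_inv]
      exact Or.inr hc
    refine inv _ h (by simpa using h0) (key _ a⁻¹ h1 ?_)
    simp

/-- a root of a monic polynomial whose coefficients are congruent to constants is congruent to a
constant -/
theorem exists_const {C : Type} [Field C] [IsAlgClosed C] [Algebra C L] (W : ValuationSubring L)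
    (P : L[X]) (hP : P.Monic) (t : L) (ht : t ∈ W) (h0 : P.eval t = 0)
    (hc : ∀ i, ∃ c : C, W.valuation (P.coeff i - algebraMap C L c) < 1) :
    ∃ r : C, W.valuation (t - algebraMap C L r) < 1 := by
  choose c hc using hc
  set f : C[X] := X ^ P.natDegree + ∑ i : Fin P.natDegree, Polynomial.C (c i) * X ^ (i : ℕ)
    with hf
  have hm : f.Monic := monic_X_pow_add (degree_sum_fin_lt _)
  have h1 : W.valuation (aeval t f) < 1 := by
    have h2 : aeval t f = aeval t f - P.eval t := by rw [h0, sub_zero]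
    have h3 : P.eval t = t ^ P.natDegree + ∑ i : Fin P.natDegree, P.coeff i * t ^ (i : ℕ) := by
      rw [eval_eq_sum_range, Finset.sum_range_succ, hP.coeff_natDegree, one_mul, add_comm,
        Finset.sum_range fun i => P.coeff i * t ^ i]
    rw [h2, h3, hf]
    simp only [map_add, map_pow, aeval_X, map_sum, map_mul, aeval_C, add_sub_add_left_eq_sub]
    rw [← Finset.sum_sub_distrib]
    refine W.valuation.map_sum_lt one_ne_zero fun i _ => ?_
    rw [← sub_mul, map_mul, map_pow, ← W.valuation.map_neg, neg_sub]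
    exact mul_lt_one_of_nonneg_of_lt_one_left zero_le (hc i)
      (pow_le_one₀ zero_le ((W.valuation_le_one_iff _).2 ht))
  by_contra hcon
  push Not at hcon
  rw [(IsAlgClosed.splits f).eq_prod_roots_of_monic hm, map_multiset_prod, map_multiset_prod,
    Multiset.map_map, Multiset.map_map] at h1
  refine absurd h1 (not_lt.2 (Multiset.one_le_prod_of_one_le ?_))
  intro x hx
  obtain ⟨r, -, rfl⟩ := Multiset.mem_map.1 hx
  simpa using hcon r

end Fine95

open Fine95 in
theorem fineStmt : FineStmt := by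
  intro C L Q _ _ _ _ _ _ _ v F hF V hV τ hτ hτV
  have := Fintype.ofFinite Q
  obtain ⟨V', hle, htr, hm⟩ := exists_ext (F := F) v V hV.le
  let F₀ := FixedPoints.subfield Q L
  have hF₀ : ∀ a : F₀, (a : L) ∈ F := fun a => (hF _).2 a.2
  have hcong : ∀ t ∈ IC F₀ V', ∃ r : C, V'.valuation (t - algebraMap C L r) < 1 := by
    intro t ht
    have hq : ∀ q : Q, q • t ∈ V' := fun q =>
      ht (V'.comap (MulSemiringAction.toRingHom Q L q)) fun a ha => by
        rw [ValuationSubring.mem_comap]
        have : MulSemiringAction.toRingHom Q L q (algebraMap F₀ L a) = algebraMap F₀ L a := a.2 q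
        rwa [this]
    refine exists_const V' (MulSemiringAction.charpoly Q t) (MulSemiringAction.monic_charpoly Q t)
      t (by simpa using hq 1) (MulSemiringAction.eval_charpoly Q t) fun i => ?_
    have h1 : (MulSemiringAction.charpoly Q t).coeff i ∈ F :=
      (hF _).2 fun q => MulSemiringAction.smul_coeff_charpoly t i q
    have h2 : (MulSemiringAction.charpoly Q t).coeff i ∈ V' := by
      have : MulSemiringAction.charpoly Q t =
          (∏ q : Q, (X - Polynomial.C (⟨q • t, hq q⟩ : V'))).map V'.subtype := by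
        rw [MulSemiringAction.charpoly_eq, Polynomial.map_prod]
        simp
      rw [this, coeff_map]
      exact Subtype.property _
    obtain ⟨c, -, hc⟩ := hV.res ⟨_, h1⟩ ((htr ⟨_, h1⟩).1 h2)
    exact ⟨c, by simpa using hm _ hc⟩
  obtain ⟨g, hg⟩ := exists_conj (F := F₀) V' (V'.comap (τ.symm : L →+* L)) fun a => by
    have h1 : τ.symm (a : L) ∈ F := (hτ _).1 (by simpa using hF₀ a)
    have h2 := hτV ⟨_, h1⟩ ⟨_, hF₀ a⟩ (by simp)
    rw [← htr, ← htr] at h2
    exact h2
  obtain ⟨q, rfl⟩ := FixedPoints.toAlgAut_surjective Q L g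
  refine ⟨V', q, ⟨hle, fun c hc => ?_, fun z hz => ?_⟩, fun z => ?_⟩
  · exact (htr (algebraMap C F c)).2 (hV.const c hc)
  · obtain ⟨b, hb, hbz, a, ha, hba⟩ :=
      exists_denom (F := F₀) V' hz (Algebra.IsAlgebraic.isAlgebraic z)
    have hb1 := unit_of_sub ha hba
    obtain ⟨r₁, h1⟩ := hcong _ hbz
    obtain ⟨r₂, h2⟩ := hcong _ hb
    have hr₂ : V'.valuation (algebraMap C L r₂) = 1 :=
      unit_of_sub hb1 (by rwa [← V'.valuation.map_neg, neg_sub])
    have hr0 : algebraMap C L r₂ ≠ 0 := (val_one_iff.1 hr₂).1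
    have h3 : V'.valuation (z - algebraMap C L (r₁ / r₂)) < 1 := by
      have : z - algebraMap C L (r₁ / r₂) = ((b * z - algebraMap C L r₁) -
          (b - algebraMap C L r₂) * z) / algebraMap C L r₂ := by
        rw [map_div₀]; field_simp; ring
      rw [this, map_div₀, hr₂, div_one]
      refine V'.valuation.map_sub_lt h1 ?_
      rw [map_mul]
      exact mul_lt_one_of_nonneg_of_lt_one_left zero_le h2 ((V'.valuation_le_one_iff _).2 hz)
    refine ⟨r₁ / r₂, hle _ ?_, h3⟩
    have : algebraMap C L (r₁ / r₂) = z - (z - algebraMap C L (r₁ / r₂)) := by ring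
    rw [this]
    exact V'.toSubring.sub_mem hz ((V'.valuation_le_one_iff _).1 h3.le)
  · have := hg (τ z)
    rw [ValuationSubring.mem_comap] at this
    simpa using this.symm

end Crest.Agent.T170.Ds
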