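import Crest.Agent.T170.DsDef_6

/-!
# Row 170, task F3 (helper22): the Smith lemma for a group acting through a finite quotient
-/

set_option autoImplicit false

namespace Crest.Agent.T170.Ds

open Crest.Agent.R170

theorem smithStmt : SmithStmt := by
  intro p Γ H G _ _ _ _ _ hp N Λ hN hΛ _ r hr hker hpow T hG hΓ hgeo
  have : Fact p.Prime := ⟨hp⟩
  have : Finite (Γ ⧸ Λ) := Subgroup.finite_quotient_of_finiteIndex
  let π : Γ →* Γ ⧸ Λ := QuotientGroup.mk' Λ
  have hπ : Function.Surjective π := QuotientGroup.mk'_surjective Λ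
  have hπ1 : ∀ x ∈ Λ, π x = 1 := fun x hx => (QuotientGroup.eq_one_iff x).2 hx
  let Nb : Subgroup (Γ ⧸ Λ) := N.map π
  have hNb : Nb.Normal := hN.map π hπ
  let s : N →* Nb := π.subgroupMap N
  have hs : Function.Surjective s := π.subgroupMap_surjective N
  have hs1 : ∀ x : N, s x = 1 ↔ (x : Γ) ∈ Λ := by
    intro x
    rw [← QuotientGroup.eq_one_iff, Subtype.ext_iff]
    rfl
  let e₀ : H →* Nb := r.liftOfSurjective hr ⟨s, fun x hx => (hs1 x).2 ((hker x).1 hx)⟩
  have he₀ : ∀ x : N, e₀ (r x) = s x := fun x => r.liftOfRightInverse_comp_apply _ _ _ x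
  have hbij : Function.Bijective e₀ := by
    refine ⟨(injective_iff_map_eq_one e₀).2 fun h hh => ?_, fun y => ?_⟩
    · obtain ⟨x, rfl⟩ := hr h
      rw [he₀] at hh
      exact (hker x).2 ((hs1 x).1 hh)
    · obtain ⟨x, rfl⟩ := hs y
      exact ⟨r x, he₀ x⟩
  let e : H ≃* Nb := MulEquiv.ofBijective e₀ hbij
  let Tb : Set (Nb →* G) := {ρ | ρ.comp e₀ ∈ T}
  have hq : IsPGroup p ((Γ ⧸ Λ) ⧸ Nb) := by
    intro z
    obtain ⟨y, rfl⟩ := QuotientGroup.mk'_surjective Nb z
    obtain ⟨γ, rfl⟩ := hπ y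
    obtain ⟨k, hk⟩ := hpow γ
    refine ⟨k, ?_⟩
    rw [← map_pow, ← map_pow, QuotientGroup.mk'_apply, QuotientGroup.eq_one_iff]
    have h1 : N ⊔ Λ ≤ Nb.comap π := by
      refine sup_le (Subgroup.le_comap_map π N) fun x hx => ?_
      rw [Subgroup.mem_comap, hπ1 x hx]
      exact Nb.one_mem
    exact h1 hk
  have key := Smith13.smith (p := p) (G := G) Nb hq Tb (fun g ρ hρ => hG g _ hρ) ?_ ?_
  · refine key.trans (dvd_of_eq ?_)
    let E : Tb ≃ T :=
      { toFun := fun ρ => ⟨ρ.1.comp e₀, ρ.2⟩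
        invFun := fun ρ => ⟨ρ.1.comp e.symm.toMonoidHom, by
          have : (ρ.1.comp e.symm.toMonoidHom).comp e₀ = ρ.1 := by
            ext h
            exact congrArg ρ.1 (e.symm_apply_apply h)
          show (ρ.1.comp e.symm.toMonoidHom).comp e₀ ∈ T
          rw [this]
          exact ρ.2⟩
        left_inv := fun ρ => by
          ext y
          exact congrArg ρ.1 (e.apply_symm_apply y)
        right_inv := fun ρ => by
          ext h
          exact congrArg ρ.1 (e.symm_apply_apply h) }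
    rw [← finsum_comp_equiv E]
    refine finsum_congr fun ρ => ?_
    congr 1
    show ρ.1.range = (ρ.1.comp e₀).range
    rw [MonoidHom.range_comp, MonoidHom.range_eq_top.2 hbij.2, ← MonoidHom.range_eq_map]
  · intro γb ρ hρ
    obtain ⟨γ, rfl⟩ := hπ γb
    refine hΓ γ (ρ.comp e₀) _ hρ fun x => ?_
    simp only [MonoidHom.comp_apply, he₀]
    congr 1
  · intro ρ' hρ'
    have h1 := hgeo (ρ'.comp π) (fun x hx => by
      rw [MonoidHom.mem_ker, MonoidHom.comp_apply, hπ1 x hx, map_one])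
      _ hρ' (fun x => by simp only [MonoidHom.comp_apply, he₀]; rfl)
    rwa [MonoidHom.range_comp, MonoidHom.range_eq_top.2 hπ, ← MonoidHom.range_eq_map] at h1

end Crest.Agent.T170.Ds
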