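import Crest.Agent.T170.DsDef_6

/-!
# Row 170, descent leaf F4 (helper10): the finite level `ThetaStmt`.
-/

set_option autoImplicit false

noncomputable section

namespace Crest.Agent.T170.Ds.Th10

open scoped Polynomial Classical
open Crest.Agent.T170.Fr

theorem exists_finset_closure {C U : Type*} [Field C] [Field U] [Algebra C U] (S : Set U) {z : U}
    (hz : z ∈ Subfield.closure (Set.range (algebraMap C U) ∪ S)) :
    ∃ Z : Finset C, z ∈ Subfield.closure (algebraMap C U '' (Z : Set C) ∪ S) := by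
  have mono : ∀ {Z Z' : Finset C}, Z ⊆ Z' →
      Subfield.closure (algebraMap C U '' (Z : Set C) ∪ S) ≤
        Subfield.closure (algebraMap C U '' (Z' : Set C) ∪ S) := fun h =>
    Subfield.closure_mono (Set.union_subset_union_left _ (Set.image_mono h))
  induction hz using Subfield.closure_induction with
  | mem x hx =>
    rcases hx with ⟨c, rfl⟩ | hx
    · exact ⟨{c}, Subfield.subset_closure (Or.inl ⟨c, by simp, rfl⟩)⟩
    · exact ⟨∅, Subfield.subset_closure (Or.inr hx)⟩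
  | one => exact ⟨∅, one_mem _⟩
  | add x y _ _ hx hy =>
    obtain ⟨Z, hZ⟩ := hx
    obtain ⟨Z', hZ'⟩ := hy
    exact ⟨Z ∪ Z', add_mem (mono Finset.subset_union_left hZ) (mono Finset.subset_union_right hZ')⟩
  | neg x _ hx =>
    obtain ⟨Z, hZ⟩ := hx
    exact ⟨Z, neg_mem hZ⟩
  | inv x _ hx =>
    obtain ⟨Z, hZ⟩ := hx
    exact ⟨Z, inv_mem hZ⟩
  | mul x y _ _ hx hy =>
    obtain ⟨Z, hZ⟩ := hx
    obtain ⟨Z', hZ'⟩ := hy
    exact ⟨Z ∪ Z', mul_mem (mono Finset.subset_union_left hZ) (mono Finset.subset_union_right hZ')⟩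

theorem exists_finset_closure' {C U : Type*} [Field C] [Field U] [Algebra C U] (S : Set U)
    {T : Set U} (hT : T.Finite)
    (hz : ∀ z ∈ T, z ∈ Subfield.closure (Set.range (algebraMap C U) ∪ S)) :
    ∃ Z : Finset C, ∀ z ∈ T, z ∈ Subfield.closure (algebraMap C U '' (Z : Set C) ∪ S) := by
  choose! Z hZ using fun z (h : z ∈ T) => exists_finset_closure S (hz z h)
  refine ⟨hT.toFinset.biUnion Z, fun z h => Subfield.closure_mono
    (Set.union_subset_union_left _ (Set.image_mono ?_)) (hZ z h)⟩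
  intro c hc
  exact Finset.mem_coe.2 (Finset.mem_biUnion.2 ⟨z, hT.mem_toFinset.2 h, hc⟩)

variable {p n : ℕ} [NeZero n] {U : Type} [Field U] [Algebra ℂ U]

theorem eqOn_closure {X : World p n U} (φ ψ : Aut X) {S : Set U} (h : ∀ z ∈ S, φ z = ψ z) {z : U}
    (hz : z ∈ Subfield.closure S) : φ z = ψ z :=
  RingHom.eqOn_field_closure (f := (φ : U →+* U)) (g := (ψ : U →+* U)) h hz

theorem mem_B {X : World p n U} {z : U} (hz : z ∈ B X) :
    z ∈ Subfield.closure (Set.range (algebraMap ℂ U) ∪ {X.x, X.y}) := hz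

theorem theta [IsAlgClosed U] (X : World p n U) (api : LiftApi X)
    (hfin : ∀ z : U, {w | ∃ (φ : Aut X) (j : ℕ), Lift X φ j ∧ φ z = w}.Finite)
    (M : IntermediateField (B X) U) [FiniteDimensional (B X) M]
    (hM : ∀ (φ : Aut X) (j : ℕ), Lift X φ j → ∀ z ∈ M, φ z ∈ M) (Z : Finset ℂ) :
    ∃ Θ : Finset U, (∀ c ∈ Z, algebraMap ℂ U c ∈ Θ) ∧ (∀ z ∈ Θ, z ∈ M) ∧
      (∀ (φ : Aut X) (j : ℕ), Lift X φ j → ∀ z ∈ Θ, φ z ∈ Θ) ∧
      (∀ φ : Aut X, Geo X φ → (∀ z ∈ Θ, φ z = z) → ∀ z ∈ M, φ z = z) ∧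
      ∀ φ : Aut X, Lift X φ 0 → (∀ z ∈ Θ, IsC z → φ z = z) →
        ∃ π : Aut X, Geo X π ∧ ∀ z ∈ Θ, φ z = π z := by
  have : CharZero U := charZero_of_injective_algebraMap (algebraMap ℂ U).injective
  have := api.alg
  have : IsAlgClosure (B X) U := ⟨inferInstance, api.alg⟩
  obtain ⟨α, hα⟩ := Field.exists_primitive_element (B X) M
  obtain ⟨θ, hθ⟩ : ∃ θ : U, θ = (α : U) := ⟨_, rfl⟩
  have hθM : θ ∈ M := hθ ▸ α.2
  have hCM : ∀ c : ℂ, algebraMap ℂ U c ∈ M := fun c =>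
    M.algebraMap_mem (algebraMap ℂ (B X) c)
  have hMcl : ∀ z ∈ M, z ∈ Subfield.closure (Set.range (algebraMap ℂ U) ∪ {X.x, X.y, θ}) := by
    intro z hz
    have h1 : (⟨z, hz⟩ : M) ∈ IntermediateField.adjoin (B X) {α} := by rw [hα]; trivial
    have h2 : ∀ w : M, w ∈ IntermediateField.adjoin (B X) {α} →
        (w : U) ∈ Subfield.closure (Set.range (algebraMap ℂ U) ∪ {X.x, X.y, θ}) := by
      intro w hw
      induction hw using IntermediateField.adjoin_induction with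
      | mem x hx =>
        rw [Set.mem_singleton_iff.1 hx]
        exact Subfield.subset_closure (Or.inr (by simp [hθ]))
      | algebraMap b =>
        refine Subfield.closure_mono (Set.union_subset_union_right _ ?_) (mem_B b.2)
        intro t ht
        rcases ht with rfl | rfl <;> simp
      | add x y _ _ hx hy => exact add_mem hx hy
      | inv x _ hx => exact inv_mem hx
      | mul x y _ _ hx hy => exact mul_mem hx hy
    exact h2 _ h1
  obtain ⟨Z₁, hZ₁⟩ := exists_finset_closure' (C := ℂ) {X.x, X.y, θ} (hfin θ) (by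
    rintro _ ⟨φ, j, hφ, rfl⟩
    exact hMcl _ (hM φ j hφ _ hθM))
  obtain ⟨Z₂, hZ₂⟩ := exists_finset_closure' (C := ℂ) {X.x, X.y}
    (((minpoly (B X) θ).coeffs.finite_toSet).image fun b : B X => (b : U)) (by
      rintro _ ⟨b, -, rfl⟩
      exact mem_B b.2)
  let S : Finset U := insert θ ((Z ∪ Z₁ ∪ Z₂).image (algebraMap ℂ U))
  let Θ : Finset U := S.biUnion fun z => (hfin z).toFinset
  have hΘ : ∀ w, w ∈ Θ ↔ ∃ z ∈ S, ∃ (φ : Aut X) (j : ℕ), Lift X φ j ∧ φ z = w := by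
    intro w
    simp only [Θ, Finset.mem_biUnion, Set.Finite.mem_toFinset, Set.mem_ofPred_eq]
  have hSΘ : ∀ z ∈ S, z ∈ Θ := fun z hz => (hΘ z).2 ⟨z, hz, 1, 0, api.one, rfl⟩
  have hcS : ∀ c ∈ Z ∪ Z₁ ∪ Z₂, algebraMap ℂ U c ∈ S := fun c hc =>
    Finset.mem_insert_of_mem (Finset.mem_image_of_mem _ hc)
  refine ⟨Θ, fun c hc => hSΘ _ (hcS c (by simp [hc])), ?_, ?_, ?_, ?_⟩
  · intro w hw
    obtain ⟨z, hz, φ, j, hφ, rfl⟩ := (hΘ w).1 hw
    refine hM φ j hφ z ?_
    rcases Finset.mem_insert.1 hz with rfl | hz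
    · exact hθM
    · obtain ⟨c, -, rfl⟩ := Finset.mem_image.1 hz
      exact hCM c
  · intro ψ i hψ w hw
    obtain ⟨z, hz, φ, j, hφ, rfl⟩ := (hΘ w).1 hw
    exact (hΘ _).2 ⟨z, hz, ψ * φ, i + j, api.mul _ _ _ _ hψ hφ, rfl⟩
  · intro φ hφ hfix z hz
    refine eqOn_closure φ 1 ?_ (hMcl z hz)
    rintro t (⟨c, rfl⟩ | rfl | rfl | rfl)
    · exact hφ.C c
    · exact hφ.x
    · exact hφ.y
    · exact hfix _ (hSΘ _ (Finset.mem_insert_self _ _))
  · intro φ hφ hfix
    have hx : φ X.x = X.x := by simpa using hφ.x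
    have hy : φ X.y = X.y := by simpa using hφ.y
    have hc : ∀ c ∈ Z ∪ Z₁ ∪ Z₂, φ (algebraMap ℂ U c) = algebraMap ℂ U c := fun c hc =>
      hfix _ (hSΘ _ (hcS c hc)) ⟨c, rfl⟩
    have hcoef : ∀ i, φ (((minpoly (B X) θ).coeff i : B X) : U) = (minpoly (B X) θ).coeff i := by
      intro i
      by_cases h0 : (minpoly (B X) θ).coeff i = 0
      · rw [h0]; simp
      refine eqOn_closure φ 1 ?_ (hZ₂ _ ⟨_, Polynomial.coeff_mem_coeffs h0, rfl⟩)
      rintro t (⟨c, hc', rfl⟩ | rfl | rfl)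
      · exact hc c (by simp [Finset.mem_coe.1 hc'])
      · exact hx
      · exact hy
    have hroot : Polynomial.aeval (φ θ) (minpoly (B X) θ) = 0 := by
      have h1 := congrArg φ (minpoly.aeval (B X) θ)
      rw [map_zero, Polynomial.aeval_eq_sum_range, map_sum] at h1
      rw [Polynomial.aeval_eq_sum_range, ← h1]
      refine Finset.sum_congr rfl fun i _ => ?_
      rw [Algebra.smul_def, Algebra.smul_def, map_mul, map_pow]
      congr 1
      exact (hcoef i).symm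
    obtain ⟨π₀, hπ₀⟩ := minpoly.exists_algEquiv_of_root'
      (Algebra.IsAlgebraic.isAlgebraic (R := B X) θ) hroot
    have hπC : ∀ c : ℂ, π₀ (algebraMap ℂ U c) = algebraMap ℂ U c := fun c =>
      π₀.commutes (algebraMap ℂ (B X) c)
    let π : Aut X := AlgEquiv.ofRingEquiv (f := π₀.toRingEquiv) fun c => hπC c
    have hπ : ∀ z, π z = π₀ z := fun _ => rfl
    have hgeo : Geo X π := ⟨hπC, π₀.commutes (xB X), π₀.commutes (yB X)⟩
    refine ⟨π, hgeo, fun w hw => ?_⟩
    obtain ⟨z, hz, ψ, j, hψ, rfl⟩ := (hΘ w).1 hw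
    rcases Finset.mem_insert.1 hz with rfl | hz
    · refine eqOn_closure φ π ?_ (hZ₁ _ ⟨ψ, j, hψ, rfl⟩)
      rintro t (⟨c, hc', rfl⟩ | rfl | rfl | rfl)
      · rw [hc c (by simp [Finset.mem_coe.1 hc']), hgeo.C]
      · rw [hx, hgeo.x]
      · rw [hy, hgeo.y]
      · exact hπ₀.symm
    · obtain ⟨c, -, rfl⟩ := Finset.mem_image.1 hz
      have hC : IsC (ψ (algebraMap ℂ U c)) := (api.isC ψ j hψ _).2 ⟨c, rfl⟩
      rw [hfix _ hw hC]
      obtain ⟨c', hc'⟩ := hC
      rw [← hc', hgeo.C]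

/-- `F(x, y)` as a subfield of `U` -/
def E0 (X : World p n U) : Subfield U :=
  Subfield.closure (Set.range (algebraMap X.F U) ∪ {X.x, X.y})

theorem isAlgebraic_E0 (X : World p n U) (z : U) : IsAlgebraic (E0 X) z := by
  let A : IntermediateField (E0 X) U := algebraicClosure (E0 X) U
  have hF : ∀ c : X.F, algebraMap X.F U c ∈ E0 X := fun c =>
    Subfield.subset_closure (Or.inl ⟨c, rfl⟩)
  have hC : ∀ c : ℂ, algebraMap ℂ U c ∈ A := by
    intro c
    let f : X.F →+* E0 X := (algebraMap X.F U).codRestrict (E0 X) hF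
    rw [mem_algebraicClosure_iff]
    exact (X.algF c).ringHom_of_comp_eq f (algebraMap ℂ U) f.injective (by ext; rfl)
  have hx : X.x ∈ A := A.algebraMap_mem ⟨X.x, Subfield.subset_closure (Or.inr (by simp))⟩
  have hle : ∀ w : IntermediateField.adjoin ℂ {X.x}, (w : U) ∈ A := by
    intro w
    have : (IntermediateField.adjoin ℂ {X.x}).toSubfield ≤ A.toSubfield := by
      rw [IntermediateField.adjoin_toSubfield, Subfield.closure_le]
      rintro t (⟨c, rfl⟩ | rfl)
      · exact hC c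
      · exact hx
    exact this w.2
  let f : IntermediateField.adjoin ℂ {X.x} →+* A :=
    (algebraMap (IntermediateField.adjoin ℂ {X.x}) U).codRestrict A hle
  have h1 : IsAlgebraic A z :=
    (X.alg.isAlgebraic z).ringHom_of_comp_eq f (RingHom.id U) f.injective (by ext; rfl)
  exact h1.restrictScalars (E0 X)

theorem finite_orbit (X : World p n U) (api : LiftApi X) (z : U) :
    {w | ∃ (φ : Aut X) (j : ℕ), Lift X φ j ∧ φ z = w}.Finite := by
  obtain ⟨P, hP0, hP⟩ := isAlgebraic_E0 X z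
  let Q : U[X] := P.map (algebraMap (E0 X) U)
  have hQ0 : Q ≠ 0 := (Polynomial.map_ne_zero_iff (algebraMap (E0 X) U).injective).2 hP0
  have hQ : Q.eval z = 0 := by rwa [Polynomial.eval_map_algebraMap]
  refine ((Set.finite_lt_nat n).biUnion (t := fun j =>
    ((Q.map ((X.g ^ j : Aut X) : U →+* U)).roots.toFinset : Set U))
    fun j _ => Finset.finite_toSet _).subset ?_
  rintro _ ⟨φ, j, hφ, rfl⟩
  have hφ' := api.mod φ j (j % n) hφ (Nat.mod_modEq j n).symm
  refine Set.mem_biUnion (x := j % n) (Nat.mod_lt _ (Nat.pos_of_neZero n)) ?_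
  have e : Q.map ((X.g ^ (j % n) : Aut X) : U →+* U) = Q.map (φ : U →+* U) := by
    ext i
    simp only [Q, Polynomial.coeff_map]
    refine (eqOn_closure φ (X.g ^ (j % n)) ?_ (P.coeff i).2).symm
    rintro t (⟨c, rfl⟩ | rfl | rfl)
    · exact hφ'.F c
    · exact hφ'.x
    · exact hφ'.y
  rw [Finset.mem_coe, Multiset.mem_toFinset, e,
    Polynomial.mem_roots ((Polynomial.map_ne_zero_iff (φ : U →+* U).injective).2 hQ0)]
  have := Polynomial.eval₂_at_apply (p := Q) (φ : U →+* U) z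
  rw [hQ, map_zero] at this
  rw [Polynomial.IsRoot, Polynomial.eval_map]
  exact this

/-- **F4** from the API of lifts -/
theorem thetaStmt_of
    (api : ∀ (p n : ℕ) [NeZero n] (U : Type) [Field U] [Algebra ℂ U] [IsAlgClosed U]
      (X : World p n U), LiftApi X) : ThetaStmt :=
  fun p n _ U _ _ _ X M _ hM Z => theta X (api p n U X) (finite_orbit X (api p n U X)) M hM Z

end Crest.Agent.T170.Ds.Th10
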