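import Crest.Agent.T170.DsAsm_6
import Crest.Agent.T170.DsCan_79
import Crest.Agent.T170.DsFine_95
import Crest.Agent.T170.DsSmith_22
import Crest.Agent.T170.DsTheta_10
import Crest.Agent.T170.DsGeo_74

/-!
# Row 170, module F (helper6): the descent, unconditionally
-/

set_option autoImplicit false

namespace Crest.Agent.T170.Ds

/-- **the descent** -/
theorem descent {p : ℕ} (hp : p.Prime) : Fr.DescentStmt p :=
  descent_of hp Ds79.canStmt Ds79.labStmt fineStmt smithStmt
    (Th10.thetaStmt_of fun _ _ _ _ _ _ _ X => liftApi X) (Desc74.geoStmt hp)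

end Crest.Agent.T170.Ds
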