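import Crest.Agent.T170.DsDef_6
import Crest.Agent.T170.DescCore_74

/-!
# Row 170, descent (helper83): `GeoStmt` from the abstract construction of the `CoreData`

* `Plug p`     : the abstract construction (`Desc74.Emb`, fields `K ⊆ E ⊆ N` as types);
* `geo_abs`    : the geometric claim for abstract subfields of `U`;
* `geo_of_plug`: `Plug p → GeoStmt p`.
-/

set_option autoImplicit false

noncomputable section

namespace Crest.Agent.T170.Ds.Geo83

open scoped NNReal Polynomial Classical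
open WeierstrassCurve WeierstrassCurve.Affine Crest.Agent.R170 Crest.Agent.T170.Ret
open Crest.Agent.T170.Fr Crest.Agent.T170.Desc74

/-- the abstract construction of the core data -/
def Plug (p : ℕ) : Prop :=
  ∀ (n : ℕ) [NeZero n] (U : Type) [Field U] [Algebra ℂ U] [IsAlgClosed U] (X : World p n U)
    (K E N : Type) [Field K] [Field E] [Field N] [Algebra X.C K] [Algebra K E] [Algebra E N]
    [Algebra X.C E] [Algebra X.C N] [Algebra K N] [IsScalarTower X.C K E] [IsScalarTower K E N]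
    [IsScalarTower X.C E N] [IsScalarTower X.C K N] [Algebra X.F K] [Algebra.IsAlgebraic X.F K]
    [FiniteDimensional E N] [IsGalois E N] (J : Emb X K E N),
    Cpl (J.vE.comap (algebraMap K E)) →
    (∀ i (k : K), X.v (X.D i (J.jK k)) ≤ X.v (J.jK k)) →
    ∀ γ : N ≃ₐ[X.C] N, (∀ z : X.F, γ (algebraMap K N (algebraMap X.F K z)) =
      algebraMap K N (algebraMap X.F K (X.σ z))) →
    J.j (γ (algebraMap E N J.x)) = X.g X.x → J.j (γ (algebraMap E N J.y)) = X.g X.y →
    (∀ k : K, ∃ k' : K, γ (algebraMap K N k) = algebraMap K N k') → IsOfFinOrder γ →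
    ∀ V : ValuationSubring K, Fine (C := X.C) (J.vE.comap (algebraMap K E)) V →
    (∀ k k' : K, γ (algebraMap K N k) = algebraMap K N k' → (k' ∈ V ↔ k ∈ V)) →
    ∀ (M : IntermediateField (B X) U) [FiniteDimensional (B X) M] [IsGalois (B X) M],
    UnrE M (xB X) (yB X) (aC X) (bC X) → (∀ z, J.j z ∈ M) →
    ∀ (i₀ : Fin n) (n₀ : ℕ) (ζ : ℂ) (u : AV (B X)) (γ₀ : M ≃ₐ[B X] M) (g₀ : N ≃ₐ[E] N),
    0 < n₀ → IsPrimitiveRoot ζ n₀ →
    AtPt u (xB X) (yB X) (aC X i₀) (bC X i₀) n₀ → GenOver u (algebraMap ℂ (B X) ζ) γ₀ →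
    (∀ (z : N) (z' : M), (z' : U) = J.j z → ((γ₀ z' : M) : U) = J.j (g₀ z)) →
    p ∣ orderOf g₀ → Nonempty (CoreData p n X.R X.C K E N)

/-- restriction of an automorphism to a stable subfield -/
theorem exists_restrict {C N U : Type*} [Field C] [Field N] [Field U] [Algebra C N] [Algebra C U]
    (j : N →ₐ[C] U) (φ : U ≃ₐ[C] U) (h : ∀ z : U, (∃ w, j w = z) ↔ ∃ w, j w = φ z) :
    ∃ γ : N ≃ₐ[C] N, ∀ z, j (γ z) = φ (j z) := by
  have hi : Function.Injective j := j.toRingHom.injective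
  choose f hf using fun z : N => (h (j z)).1 ⟨z, rfl⟩
  let ψ : N →ₐ[C] N :=
    { toFun := f
      map_one' := hi (by rw [hf]; simp)
      map_mul' := fun a b => hi (by rw [hf, map_mul, map_mul, map_mul, hf, hf])
      map_zero' := hi (by rw [hf]; simp)
      map_add' := fun a b => hi (by rw [hf, map_add, map_add, map_add, hf, hf])
      commutes' := fun c => hi (by rw [hf, AlgHom.commutes, AlgEquiv.commutes]) }
  have hs : Function.Surjective ψ := fun w => by
    obtain ⟨z, hz⟩ := (h (φ.symm (j w))).2 ⟨w, by simp⟩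
    refine ⟨z, hi ?_⟩
    change j (f z) = j w
    rw [hf, hz]; simp
  exact ⟨AlgEquiv.ofBijective ψ ⟨ψ.toRingHom.injective, hs⟩, hf⟩

/-- the geometric claim for abstract subfields -/
theorem geo_abs {p : ℕ} (hP : Plug p) (hc : CoreStmt p) {n : ℕ} [NeZero n] {U : Type} [Field U]
    [Algebra ℂ U] [IsAlgClosed U] (X : World p n U)
    (M : IntermediateField (B X) U) [FiniteDimensional (B X) M] [IsGalois (B X) M]
    (hU : UnrE M (xB X) (yB X) (aC X) (bC X))
    (K E N : Type) [Field K] [Field E] [Field N] [Algebra X.C K] [Algebra K E] [Algebra E N]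
    [Algebra K U] [Algebra E U] [Algebra N U]
    (t1 : ∀ c : X.C, algebraMap K U (algebraMap X.C K c) = algebraMap X.C U c)
    (t2 : ∀ k : K, algebraMap E U (algebraMap K E k) = algebraMap K U k)
    (t3 : ∀ e : E, algebraMap N U (algebraMap E N e) = algebraMap E U e)
    [FiniteDimensional E N] [IsGalois E N]
    (hFK : ∀ z : X.F, ∃ k : K, algebraMap K U k = algebraMap X.F U z)
    (hKC : ∀ k : K, IsC (algebraMap K U k))
    (cpl : Cpl (X.v.comap (algebraMap K U)))
    (hvd : ∀ i (k : K), X.v (X.D i (algebraMap K U k)) ≤ X.v (algebraMap K U k))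
    (x y : E) (hx : algebraMap E U x = X.x) (hy : algebraMap E U y = X.y)
    (gen : IntermediateField.adjoin K {x, y} = ⊤)
    (hNM : ∀ z : N, algebraMap N U z ∈ M) (φ : Aut X) (hφ : Lift X φ 1)
    (hK : ∀ k : K, ∃ k' : K, algebraMap K U k' = φ (algebraMap K U k))
    (hN : ∀ z : U, (∃ w, algebraMap N U w = z) ↔ ∃ w, algebraMap N U w = φ z)
    (hfin : ∃ r : ℕ, 0 < r ∧ ∀ z : N, (φ ^ r) (algebraMap N U z) = algebraMap N U z)
    (V : ValuationSubring K) (fine : Fine (C := X.C) (X.v.comap (algebraMap K U)) V)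
    (hV : ∀ z z' : K, algebraMap K U z' = φ (algebraMap K U z) → (z' ∈ V ↔ z ∈ V))
    (i₀ : Fin n) (n₀ : ℕ) (ζ : ℂ) (u : AV (B X)) (γ₀ : M ≃ₐ[B X] M) (g₀ : N ≃ₐ[E] N)
    (hn : 0 < n₀) (hζ : IsPrimitiveRoot ζ n₀)
    (hu : AtPt u (xB X) (yB X) (aC X i₀) (bC X i₀) n₀)
    (hγ : GenOver u (algebraMap ℂ (B X) ζ) γ₀)
    (hg : ∀ (z : N) (z' : M), (z' : U) = algebraMap N U z →
      ((γ₀ z' : M) : U) = algebraMap N U (g₀ z))
    (hp : p ∣ orderOf g₀)
    (hbd : Module.finrank E N * (4 * Module.finrank E N + 1) + 1 < n) :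
    ∃ Q : Subgroup (N ≃ₐ[E] N), Q.Normal ∧ Q ≠ ⊥ ∧ IsPGroup p Q := by
  let _ : Algebra X.C E := ((algebraMap K E).comp (algebraMap X.C K)).toAlgebra
  let _ : Algebra K N := ((algebraMap E N).comp (algebraMap K E)).toAlgebra
  let _ : Algebra X.C N := ((algebraMap K N).comp (algebraMap X.C K)).toAlgebra
  have : IsScalarTower X.C K E := IsScalarTower.of_algebraMap_eq fun _ => rfl
  have : IsScalarTower K E N := IsScalarTower.of_algebraMap_eq fun _ => rfl
  have : IsScalarTower X.C E N := IsScalarTower.of_algebraMap_eq fun _ => rfl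
  have : IsScalarTower X.C K N := IsScalarTower.of_algebraMap_eq fun _ => rfl
  have t4 : ∀ k : K, algebraMap N U (algebraMap K N k) = algebraMap K U k := fun k =>
    (t3 _).trans (t2 k)
  have hiK := (algebraMap K U).injective
  have hiN := (algebraMap N U).injective
  choose f hf using hFK
  let ι : X.F →+* K :=
    { toFun := f
      map_one' := hiK (by rw [hf]; simp)
      map_mul' := fun a b => hiK (by rw [hf, map_mul, map_mul, hf, hf])
      map_zero' := hiK (by rw [hf]; simp)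
      map_add' := fun a b => hiK (by rw [hf, map_add, map_add, hf, hf]) }
  let _ : Algebra X.F K := ι.toAlgebra
  have hι : ∀ z : X.F, algebraMap K U (algebraMap X.F K z) = algebraMap X.F U z := hf
  have : IsScalarTower X.F K U := IsScalarTower.of_algebraMap_eq fun z => (hι z).symm
  have : Algebra.IsAlgebraic X.F K := ⟨fun k => by
    obtain ⟨c, hc⟩ := hKC k
    have h1 : IsAlgebraic X.F (algebraMap K U k) := by
      rw [← hc]; exact (X.algF c).algebraMap
    exact (isAlgebraic_algebraMap_iff hiK).1 h1⟩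
  let j : N →ₐ[X.C] U := { algebraMap N U with commutes' := fun c => (t4 _).trans (t1 c) }
  have hj : ∀ z, j z = algebraMap N U z := fun _ => rfl
  let J : Emb X K E N :=
    { j := j
      jF := fun z => (t4 _).trans (hι z)
      x := x
      y := y
      jx := (t3 x).trans hx
      jy := (t3 y).trans hy
      gen := gen }
  have hv : J.vE.comap (algebraMap K E) = X.v.comap (algebraMap K U) :=
    Valuation.ext fun k => by
      rw [Valuation.comap_apply, Emb.vE_K, Valuation.comap_apply]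
      exact congrArg X.v (t4 k)
  obtain ⟨γ, hγj⟩ := exists_restrict j φ hN
  have hγp : ∀ (m : ℕ) z, j ((γ ^ m) z) = (φ ^ m) (j z) := by
    intro m
    induction m with
    | zero => intro z; simp
    | succ m ih => intro z; rw [pow_succ', pow_succ', AlgEquiv.mul_apply, AlgEquiv.mul_apply, hγj, ih]
  have := X.Cac
  refine hc n X.R X.C K E N (hP n U X K E N J (by rw [hv]; exact cpl)
    (fun i k => by
      have : J.jK k = algebraMap K U k := t4 k
      rw [this]; exact hvd i k) γ (fun z => hiN ?_) ?_ ?_ (fun k => ?_) ?_ V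
    (by rw [hv]; exact fine) (fun k k' h => hV k k' ?_) M hU hNM i₀ n₀ ζ u γ₀ g₀ hn hζ hu hγ hg hp)
    hbd
  · rw [← hj, hγj, hj, t4, t4, hι, hι, hφ.F, pow_one, X.gσ]
  · change j _ = _
    rw [hγj, hj, t3, hx, hφ.x, pow_one]
  · change j _ = _
    rw [hγj, hj, t3, hy, hφ.y, pow_one]
  · obtain ⟨k', hk'⟩ := hK k
    exact ⟨k', hiN (by rw [← hj, hγj, hj, t4, t4, hk'])⟩
  · obtain ⟨r, hr, h⟩ := hfin
    refine isOfFinOrder_iff_pow_eq_one.2 ⟨r, hr, AlgEquiv.ext fun z => hiN ?_⟩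
    rw [← hj, hγp, hj, h]; rfl
  · rw [← t4, ← h, ← hj, hγj, hj, t4]

/-- `GeoStmt` from the abstract construction -/
theorem geo_of_plug {p : ℕ} (hP : Plug p) : GeoStmt p := by
  intro hc n _ U _ _ _ X M _ _ hU K hFK hKC cpl hvd N _ _ hNM φ hφ hK hN hfin V fine hV i₀ n₀ ζ u
    γ₀ g₀ hn hζ hu hγ hg hp hbd
  refine geo_abs hP hc X M hU K (IntermediateField.adjoin K {X.x, X.y}) N (fun _ => rfl)
    (fun _ => rfl) (fun _ => rfl) (fun z => ⟨⟨_, hFK z⟩, rfl⟩) (fun k => hKC k k.2) cpl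
    (fun i k => hvd i k k.2) ⟨X.x, IntermediateField.subset_adjoin _ _ (by simp)⟩
    ⟨X.y, IntermediateField.subset_adjoin _ _ (by simp)⟩ rfl rfl ?_ (fun z => hNM z z.2) φ hφ
    (fun k => ⟨⟨_, (hK k).1 k.2⟩, rfl⟩) (fun z => ⟨?_, ?_⟩) ?_ V fine hV i₀ n₀ ζ u γ₀ g₀ hn hζ hu
    hγ hg hp hbd
  · apply IntermediateField.lift_injective
    rw [IntermediateField.lift_adjoin, IntermediateField.lift_top, Set.image_pair]
  · rintro ⟨w, rfl⟩
    exact ⟨⟨_, (hN w).1 w.2⟩, rfl⟩
  · rintro ⟨w, hw⟩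
    exact ⟨⟨z, (hN z).2 (hw ▸ w.2)⟩, rfl⟩
  · obtain ⟨r, hr, h⟩ := hfin
    exact ⟨r, hr, fun z => h z z.2⟩

end Crest.Agent.T170.Ds.Geo83
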