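import Crest.Agent.T170.DsGeoA_83
import Crest.Agent.T170.DescCore2_74

/-!
# Row 170, descent (helper83): `geoStmt : Ds.GeoStmt p`
-/

set_option autoImplicit false

namespace Crest.Agent.T170.Ds.Geo83

open Crest.Agent.T170.Fr Crest.Agent.T170.Desc74

theorem gen_B {p n : ℕ} [NeZero n] {U : Type} [Field U] [Algebra ℂ U] (X : World p n U) :
    IntermediateField.adjoin ℂ {xB X, yB X} = ⊤ := by
  apply IntermediateField.lift_injective
  rw [IntermediateField.lift_adjoin, IntermediateField.lift_top, Set.image_pair]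
  rfl

theorem plug {p : ℕ} (hp : p.Prime) : Plug p := by
  intro n _ U _ _ _ X K E N _ _ _ _ _ _ _ _ _ _ _ _ _ _ _ _ _ J cpl hvd γ hF hx hy hK hfin V fine
    hV M _ _ hU hNM i₀ n₀ ζ u γ₀ g₀ hn hζ hu hγ hh hph
  exact J.coreData hp cpl hvd γ hF hx hy hK hfin V fine hV
    { x := xB X, y := yB X, hx := rfl, hy := rfl, gen := gen_B X } M hU hNM i₀ hn hζ hu hγ hh hph

/-- **the geometric claim** -/
theorem geoStmt {p : ℕ} (hp : p.Prime) : GeoStmt p := geo_of_plug (plug hp)

end Crest.Agent.T170.Ds.Geo83
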