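import Mathlib

/-!
# Row 170, module F (helper6): inertia is a `p`-group; the étale lemma

* `eq_one_of_inert`   : an automorphism of finite order prime to the residue characteristic which
  acts trivially on the graded pieces is trivial; `exists_pow_eq_one_of_inert`;
* `exists_unit_sub`   : the quotient by a `p`-group of inert elements acts faithfully on the
  residue field of the fixed field;
* `exists_sep`        : an integral element whose conjugates are pairwise incongruent;
* `der_le_one`        : a derivation which is integral on the invariants is integral.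
-/

set_option autoImplicit false

open Polynomial

namespace Crest.Agent.T170.Gal

variable {L Γ : Type*} [Field L] [LinearOrderedCommGroupWithZero Γ]

lemma val_natCast_le (w : Valuation L Γ) (m : ℕ) : w (m : L) ≤ 1 := by
  induction m with
  | zero => simp
  | succ m ih =>
    rw [Nat.cast_succ]
    exact w.map_add_le ih (by simp)

lemma val_intCast_le (w : Valuation L Γ) (m : ℤ) : w (m : L) ≤ 1 := by
  obtain ⟨m, rfl | rfl⟩ := m.eq_nat_or_neg
  · simpa using val_natCast_le w m
  · simpa using val_natCast_le w m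

lemma val_natCast_of_coprime (w : Valuation L Γ) {p m : ℕ} (hp : w (p : L) < 1)
    (h : Nat.Coprime m p) : w (m : L) = 1 := by
  refine le_antisymm (val_natCast_le w m) (not_lt.1 fun hm => ?_)
  obtain ⟨a, b, hab⟩ := Nat.isCoprime_iff_coprime.2 h
  have h1 : (a : L) * (m : L) + (b : L) * (p : L) = 1 := by exact_mod_cast congrArg (Int.cast : ℤ → L) hab
  have h2 : w ((a : L) * (m : L) + (b : L) * (p : L)) < 1 := by
    refine w.map_add_lt ?_ ?_
    · rw [map_mul]
      exact mul_lt_one_of_nonneg_of_lt_one_right (val_intCast_le w a) zero_le hm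
    · rw [map_mul]
      exact mul_lt_one_of_nonneg_of_lt_one_right (val_intCast_le w b) zero_le hp
  rw [h1, map_one] at h2
  exact lt_irrefl _ h2

section Inert

variable {Q : Type*} [Group Q] [MulSemiringAction Q L]

lemma val_smul_of_inert (w : Valuation L Γ) {g : Q}
    (hg : ∀ z : L, z ≠ 0 → w (g • z - z) < w z) (z : L) : w (g • z) = w z := by
  by_cases h0 : z = 0
  · simp [h0]
  have : g • z = z + (g • z - z) := by ring
  rw [this, w.map_add_eq_of_lt_left (hg z h0)]

lemma pow_inert (w : Valuation L Γ) {g : Q}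
    (hg : ∀ z : L, z ≠ 0 → w (g • z - z) < w z) (j : ℕ) (z : L) (hz : z ≠ 0) :
    w ((g ^ j) • z - z) < w z := by
  induction j with
  | zero =>
    simp only [pow_zero, one_smul, sub_self, map_zero]
    exact zero_lt_iff.2 (by simpa using hz)
  | succ j ih =>
    have : (g ^ (j + 1)) • z - z = g • ((g ^ j) • z - z) + (g • z - z) := by
      rw [pow_succ', mul_smul, smul_sub]
      ring
    rw [this]
    refine w.map_add_lt ?_ (hg z hz)
    rwa [val_smul_of_inert w hg]

/-- tame inert elements act trivially -/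
theorem eq_one_of_inert (w : Valuation L Γ) {g : Q} {r : ℕ} (hr : g ^ r = 1)
    (hw : w (r : L) = 1) (hg : ∀ z : L, z ≠ 0 → w (g • z - z) < w z) (z : L) : g • z = z := by
  by_contra hne
  have hb : g • z - z ≠ 0 := sub_ne_zero.2 hne
  set b := g • z - z with hbdef
  have h1 : ∑ j ∈ Finset.range r, (g ^ j) • b = 0 := by
    have : ∀ j, (g ^ j) • b = (g ^ (j + 1)) • z - (g ^ j) • z := by
      intro j
      rw [hbdef, smul_sub, pow_succ, mul_smul]
    simp only [this]
    rw [Finset.sum_range_sub (fun j => (g ^ j) • z), hr, pow_zero, sub_self]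
  have h2 : ∑ j ∈ Finset.range r, (g ^ j) • b =
      (r : L) * b + ∑ j ∈ Finset.range r, ((g ^ j) • b - b) := by
    rw [Finset.sum_sub_distrib, Finset.sum_const, Finset.card_range, nsmul_eq_mul]
    ring
  have hwb : w b ≠ 0 := by simpa using hb
  have h3 : w (∑ j ∈ Finset.range r, ((g ^ j) • b - b)) < w ((r : L) * b) := by
    rw [map_mul, hw, one_mul]
    exact w.map_sum_lt hwb fun j _ => pow_inert w hg j b hb
  have h4 := w.map_add_eq_of_lt_left h3
  rw [← h2, h1, map_zero, map_mul, hw, one_mul] at h4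
  exact hwb h4.symm

/-- inert elements of finite order have `p`-power order -/
theorem exists_pow_eq_one_of_inert [FaithfulSMul Q L] (w : Valuation L Γ) {p : ℕ} (hp : p.Prime)
    (hwp : w (p : L) < 1) {g : Q} (hfin : IsOfFinOrder g)
    (hg : ∀ z : L, z ≠ 0 → w (g • z - z) < w z) : ∃ k : ℕ, g ^ p ^ k = 1 := by
  obtain ⟨k, m, hm, he⟩ := Nat.exists_eq_pow_mul_and_not_dvd hfin.orderOf_pos.ne' p hp.ne_one
  refine ⟨k, eq_of_smul_eq_smul (α := L) fun z => ?_⟩
  rw [one_smul]
  refine eq_one_of_inert w (r := m) ?_ ?_ (pow_inert w hg _) z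
  · rw [← pow_mul, ← he, pow_orderOf_eq_one]
  · exact val_natCast_of_coprime w hwp ((Nat.Prime.coprime_iff_not_dvd hp).2 hm).symm

/-- from the residue field to the graded pieces, if every value is the value of an invariant -/
lemma inert_of_res (w : Valuation L Γ) {g : Q}
    (hv : ∀ z : L, ∃ c : L, g • c = c ∧ w z = w c)
    (hg : ∀ z : L, w z ≤ 1 → w (g • z - z) < 1) (z : L) (hz : z ≠ 0) : w (g • z - z) < w z := by
  obtain ⟨c, hc, he⟩ := hv z
  have hwz : w z ≠ 0 := by simpa using hz
  have hc0 : c ≠ 0 := by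
    rintro rfl
    exact hwz (by simpa using he)
  have h1 := hg (z / c) (by rw [map_div₀, ← he, div_self hwz])
  have h2 : g • (z / c) - z / c = (g • z - z) / c := by
    rw [div_eq_mul_inv, smul_mul', smul_inv'', hc]
    field_simp
  rw [h2, map_div₀, ← he] at h1
  exact (div_lt_one₀ (zero_lt_iff.2 hwz)).1 h1

lemma val_prod_sub_pow_lt (w : Valuation L Γ) {ι : Type*} (s : Finset ι) (f : ι → L) {z : L}
    (hz : w z ≤ 1) (hf : ∀ i ∈ s, w (f i - z) < 1) : w (∏ i ∈ s, f i - z ^ s.card) < 1 := by
  classical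
  induction s using Finset.induction_on with
  | empty => simp
  | insert a s ha ih =>
    rw [Finset.prod_insert ha, Finset.card_insert_of_notMem ha]
    have h1 := ih fun i hi => hf i (Finset.mem_insert_of_mem hi)
    have h2 := hf a (Finset.mem_insert_self _ _)
    have h3 : f a * ∏ i ∈ s, f i - z ^ (s.card + 1) =
        f a * (∏ i ∈ s, f i - z ^ s.card) + (f a - z) * z ^ s.card := by ring
    have h4 : w (f a) ≤ 1 := by
      have : f a = (f a - z) + z := by ring
      rw [this]
      exact w.map_add_le h2.le hz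
    rw [h3]
    refine w.map_add_lt ?_ ?_
    · rw [map_mul]
      exact mul_lt_one_of_nonneg_of_lt_one_right h4 zero_le h1
    · rw [map_mul, map_pow]
      exact mul_lt_one_of_nonneg_of_lt_one_left zero_le h2 (pow_le_one₀ zero_le hz)

lemma val_pow_sub_pow (w : Valuation L Γ) {p : ℕ} (hp : p.Prime) (hwp : w (p : L) < 1)
    {a b : L} (hb : w b ≤ 1) (hab : w (a - b) = 1) (k : ℕ) :
    w (a ^ p ^ k - b ^ p ^ k) = 1 := by
  obtain ⟨r, hr⟩ := exists_add_pow_prime_pow_eq hp
    (⟨a - b, hab.le⟩ : w.integer) (⟨b, hb⟩ : w.integer) k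
  have h1 : a ^ p ^ k = (a - b) ^ p ^ k + b ^ p ^ k + p * (a - b) * b * (r : L) := by
    have := congrArg (fun x : w.integer => (x : L)) hr
    simpa using this
  have h2 : a ^ p ^ k - b ^ p ^ k = (a - b) ^ p ^ k + p * (a - b) * b * (r : L) := by
    rw [h1]; ring
  have h3 : w ((a - b) ^ p ^ k) = 1 := by rw [map_pow, hab, one_pow]
  rw [h2, w.map_add_eq_of_lt_left, h3]
  rw [h3, map_mul, map_mul, map_mul, hab, mul_one]
  exact mul_lt_one_of_nonneg_of_lt_one_left zero_le
    (mul_lt_one_of_nonneg_of_lt_one_left zero_le hwp hb) r.2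

/-- if `I` is a finite `p`-group of inert elements and `q` moves a residue, it moves the residue of
an `I`-invariant element -/
theorem exists_unit_sub (w : Valuation L Γ) {p : ℕ} (hp : p.Prime) (hwp : w (p : L) < 1)
    (I : Subgroup Q) [Finite I] (hI : IsPGroup p I)
    (hin : ∀ g ∈ I, ∀ z : L, w z ≤ 1 → w (g • z - z) < 1)
    {q : Q} (hq : ∀ z : L, w (q • z) = w z) {z : L} (hz : w z ≤ 1) (hqz : w (q • z - z) = 1) :
    ∃ u : L, (∀ g ∈ I, g • u = u) ∧ w u ≤ 1 ∧ w (q • u - u) = 1 := by
  classical
  have := Fintype.ofFinite I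
  have : Fact p.Prime := ⟨hp⟩
  obtain ⟨k, hk⟩ := IsPGroup.iff_card.1 hI
  set u : L := ∏ g : I, (g : Q) • z with hu
  have h1 : w (u - z ^ p ^ k) < 1 := by
    have := val_prod_sub_pow_lt w (Finset.univ : Finset I) (fun g => (g : Q) • z) hz
      fun g _ => hin g g.2 z hz
    rwa [Finset.card_univ, ← Nat.card_eq_fintype_card, hk] at this
  have h2 : w (z ^ p ^ k) ≤ 1 := by
    rw [map_pow]
    exact pow_le_one₀ zero_le hz
  refine ⟨u, fun g hg => ?_, ?_, ?_⟩
  · rw [hu, Finset.smul_prod']
    refine Fintype.prod_equiv (Equiv.mulLeft (⟨g, hg⟩ : I)) _ _ fun h => ?_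
    simp [mul_smul]
  · have : u = (u - z ^ p ^ k) + z ^ p ^ k := by ring
    rw [this]
    exact w.map_add_le h1.le h2
  · have h3 := val_pow_sub_pow w hp hwp hz hqz k
    have h4 : q • u - u = ((q • z) ^ p ^ k - z ^ p ^ k) +
        (q • (u - z ^ p ^ k) - (u - z ^ p ^ k)) := by
      rw [smul_sub, smul_pow']
      ring
    rw [h4, w.map_add_eq_of_lt_left, h3]
    rw [h3]
    exact w.map_sub_lt (by rwa [hq]) h1

/-- an integral element which is moved modulo the maximal ideal by finitely many given elements -/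
theorem exists_sep (w : Valuation L Γ) (c : ℕ → L) (hc1 : ∀ i, w (c i) ≤ 1)
    (hc2 : ∀ i j, i ≠ j → w (c i - c j) = 1) (hc3 : ∀ (q : Q) i, q • c i = c i)
    (hiso : ∀ (q : Q) (z : L), w (q • z) = w z) (s : Finset Q)
    (hs : ∀ q ∈ s, ∃ z : L, w z ≤ 1 ∧ w (q • z - z) = 1) :
    ∃ α : L, w α ≤ 1 ∧ ∀ q ∈ s, w (q • α - α) = 1 := by
  classical
  have hle : ∀ (q : Q) (z : L), w z ≤ 1 → w (q • z - z) ≤ 1 := fun q z hz =>
    w.map_sub_le (by rwa [hiso]) hz
  induction s using Finset.induction_on with
  | empty => exact ⟨0, by simp, by simp⟩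
  | insert q s hq ih =>
    obtain ⟨α, hα, hαs⟩ := ih fun q' hq' => hs q' (Finset.mem_insert_of_mem hq')
    obtain ⟨z, hz, hqz⟩ := hs q (Finset.mem_insert_self _ _)
    have hexp : ∀ (q' : Q) i, q' • (α + c i * z) - (α + c i * z) =
        (q' • α - α) + c i * (q' • z - z) := by
      intro q' i
      rw [smul_add, smul_mul', hc3]
      ring
    have hint : ∀ i, w (α + c i * z) ≤ 1 := fun i =>
      w.map_add_le hα (by rw [map_mul]; exact mul_le_one' (hc1 i) hz)
    have hsub : ∀ q' ∈ insert q s,
        {i | w (q' • (α + c i * z) - (α + c i * z)) ≠ 1}.Subsingleton := by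
      intro q' hq' i hi j hj
      by_contra hij
      have hi' : w (q' • (α + c i * z) - (α + c i * z)) < 1 :=
        lt_of_le_of_ne (hle q' _ (hint i)) hi
      have hj' : w (q' • (α + c j * z) - (α + c j * z)) < 1 :=
        lt_of_le_of_ne (hle q' _ (hint j)) hj
      have h1 := w.map_sub_lt hi' hj'
      rw [hexp, hexp, add_sub_add_left_eq_sub, ← sub_mul, map_mul, hc2 i j hij, one_mul] at h1
      rcases Finset.mem_insert.1 hq' with rfl | h2
      · exact absurd hqz h1.ne
      · rw [hexp] at hi'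
        have h3 : w (c i * (q' • z - z)) < 1 := by
          rw [map_mul]
          exact mul_lt_one_of_nonneg_of_lt_one_right (hc1 i) zero_le h1
        have h4 := w.map_sub_lt hi' h3
        rw [add_sub_cancel_right] at h4
        exact absurd (hαs q' h2) h4.ne
    have hfin : (⋃ q' ∈ insert q s,
        {i | w (q' • (α + c i * z) - (α + c i * z)) ≠ 1}).Finite :=
      Set.Finite.biUnion (Finset.finite_toSet _) fun q' hq' => (hsub q' hq').finite
    obtain ⟨i, hi⟩ := hfin.exists_notMem
    refine ⟨α + c i * z, hint i, fun q' hq' => ?_⟩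
    by_contra h
    exact hi (Set.mem_biUnion (Finset.mem_coe.2 hq') h)

end Inert

section Der

variable (w : Valuation L Γ) (D : L →+ L) (hD : ∀ a b, D (a * b) = a * D b + b * D a)

include hD in
lemma der_one : D 1 = 0 := by
  have := hD 1 1
  simp only [mul_one, one_mul] at this
  exact left_eq_add.1 this

include hD in
lemma der_pow (a : L) (j : ℕ) : D (a ^ (j + 1)) = ((j : L) + 1) * a ^ j * D a := by
  induction j with
  | zero => simp
  | succ j ih =>
    rw [pow_succ, hD, ih]
    push_cast
    ring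

/-- integral elements with integral derivative -/
def dRing : Subring L where
  carrier := {z | w z ≤ 1 ∧ w (D z) ≤ 1}
  mul_mem' {a b} ha hb := ⟨by rw [map_mul]; exact mul_le_one' ha.1 hb.1, by
    rw [hD]
    exact w.map_add_le (by rw [map_mul]; exact mul_le_one' ha.1 hb.2)
      (by rw [map_mul]; exact mul_le_one' hb.1 ha.2)⟩
  one_mem' := ⟨by simp, by simp [der_one D hD]⟩
  add_mem' ha hb := ⟨w.map_add_le ha.1 hb.1, by rw [map_add]; exact w.map_add_le ha.2 hb.2⟩
  zero_mem' := ⟨by simp, by simp⟩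
  neg_mem' ha := ⟨by simpa using ha.1, by simpa using ha.2⟩

lemma mem_dRing {z : L} : z ∈ dRing w D hD ↔ w z ≤ 1 ∧ w (D z) ≤ 1 := Iff.rfl

lemma mem_dRing_of_mul {u z : L} (hu : u ∈ dRing w D hD) (hu1 : w u = 1) (hz : w z ≤ 1)
    (h : u * z ∈ dRing w D hD) : z ∈ dRing w D hD := by
  refine ⟨hz, ?_⟩
  have h1 : u * D z = D (u * z) - z * D u := by rw [hD]; ring
  have h2 : w (u * D z) ≤ 1 := by
    rw [h1]
    exact w.map_sub_le h.2 (by rw [map_mul]; exact mul_le_one' hz hu.2)
  rwa [map_mul, hu1, one_mul] at h2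

lemma eval_mem_subring (R : Subring L) {f : L[X]} (hf : ∀ j, f.coeff j ∈ R) {a : L}
    (ha : a ∈ R) : f.eval a ∈ R := by
  rw [eval_eq_sum_range]
  exact R.sum_mem fun j _ => R.mul_mem (hf j) (R.pow_mem ha j)

include hD in
lemma der_eval_sub (f : L[X]) (a : L) :
    D (f.eval a) = f.derivative.eval a * D a + f.sum fun j c => D c * a ^ j := by
  induction f using Polynomial.induction_on' with
  | add f g hf hg =>
    rw [eval_add, map_add, hf, hg, derivative_add, eval_add, Polynomial.sum_add_index]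
    · ring
    · simp
    · intro j b c
      rw [map_add, add_mul]
  | monomial j c =>
    rw [Polynomial.sum_monomial_index _ _ (by simp), eval_monomial, derivative_monomial,
      eval_monomial, hD]
    cases j with
    | zero => simp [der_one D hD]
    | succ j =>
      rw [der_pow D hD]
      simp only [Nat.add_sub_cancel]
      push_cast
      ring

/-- a simple root of an integral polynomial has an integral derivative -/
lemma root_mem_dRing {f : L[X]} (hf : ∀ j, f.coeff j ∈ dRing w D hD) {a : L} (ha : w a ≤ 1)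
    (h0 : f.eval a = 0) (h1 : w (f.derivative.eval a) = 1) : a ∈ dRing w D hD := by
  refine ⟨ha, ?_⟩
  have h2 := der_eval_sub D hD f a
  rw [h0, map_zero] at h2
  have h3 : w (f.derivative.eval a * D a) ≤ 1 := by
    rw [eq_neg_of_add_eq_zero_left h2.symm, Valuation.map_neg, Polynomial.sum_def]
    refine w.map_sum_le fun j _ => ?_
    rw [map_mul, map_pow]
    exact mul_le_one' (hf j).2 (pow_le_one₀ zero_le ha)
  rwa [map_mul, h1, one_mul] at h3

lemma coeff_le_one_of_lifts {f : L[X]} (hf : f ∈ lifts w.integer.subtype) (j : ℕ) :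
    w (f.coeff j) ≤ 1 := by
  obtain ⟨c, hc⟩ := (lifts_iff_coeff_lifts f).1 hf j
  rw [← hc]
  exact c.2

variable {Q : Type*} [Group Q] [Fintype Q] [MulSemiringAction Q L]

include hD in
/-- **the étale lemma** -/
theorem der_le_one (hiso : ∀ (q : Q) (z : L), w (q • z) = w z)
    (hF : ∀ z : L, (∀ q : Q, q • z = z) → w z ≤ 1 → w (D z) ≤ 1)
    {α : L} (hα : w α ≤ 1) (hsep : ∀ q : Q, q ≠ 1 → w (q • α - α) = 1)
    {z : L} (hz : w z ≤ 1) : w (D z) ≤ 1 := by
  classical
  have hlin : ∀ q : Q, (X - C (q • α) : L[X]) ∈ lifts w.integer.subtype := fun q =>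
    ⟨X - C ⟨q • α, by rw [Valuation.mem_integer_iff, hiso]; exact hα⟩, by simp⟩
  have hinv : ∀ f : L[X], f ∈ lifts w.integer.subtype → (∀ q : Q, q • f = f) →
      ∀ j, f.coeff j ∈ dRing w D hD := by
    intro f hf hq j
    refine ⟨coeff_le_one_of_lifts w hf j, hF _ (fun q => ?_) (coeff_le_one_of_lifts w hf j)⟩
    rw [← Polynomial.coeff_smul, hq]
  -- the polynomials `G u`
  let G : L → L[X] := fun u => ∑ q : Q, C (q • u) * ∏ q' ∈ Finset.univ.erase q, (X - C (q' • α))
  have hG1 : ∀ u, w u ≤ 1 → G u ∈ lifts w.integer.subtype := by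
    intro u hu
    refine Subsemiring.sum_mem _ fun q _ => Subsemiring.mul_mem _ ?_
      (Subsemiring.prod_mem _ fun q' _ => hlin q')
    exact ⟨C ⟨q • u, by rw [Valuation.mem_integer_iff, hiso]; exact hu⟩, by simp⟩
  have hG2 : ∀ u (g : Q), g • G u = G u := by
    intro u g
    simp only [G, Finset.smul_sum, smul_mul', Finset.smul_prod', smul_sub, Polynomial.smul_C,
      Polynomial.smul_X, ← mul_smul]
    refine Fintype.sum_equiv (Equiv.mulLeft g) _ _ fun q => ?_
    simp only [Equiv.coe_mulLeft]
    congr 1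
    refine Finset.prod_equiv (Equiv.mulLeft g) (fun q' => ?_) fun q' _ => rfl
    simp
  set e : L := ∏ q' ∈ Finset.univ.erase (1 : Q), (α - q' • α) with he
  have hG3 : ∀ u, (G u).eval α = u * e := by
    intro u
    simp only [G, eval_finsetSum, eval_mul, eval_C, eval_prod, eval_sub, eval_X]
    rw [Finset.sum_eq_single 1]
    · simp [he]
    · intro q _ hq
      rw [Finset.prod_eq_zero (i := 1) (by simp [hq.symm]) (by simp), mul_zero]
    · simp
  have he1 : w e = 1 := by
    rw [he, map_prod]
    refine Finset.prod_eq_one fun q hq => ?_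
    rw [Valuation.map_sub_swap]
    exact hsep q (Finset.ne_of_mem_erase hq)
  -- `α` has an integral derivative
  set f : L[X] := ∏ q : Q, (X - C (q • α)) with hf
  have hf1 : f ∈ lifts w.integer.subtype := Subsemiring.prod_mem _ fun q _ => hlin q
  have hf2 : ∀ g : Q, g • f = f := by
    intro g
    simp only [hf, Finset.smul_prod', smul_sub, Polynomial.smul_C, Polynomial.smul_X, ← mul_smul]
    exact Fintype.prod_equiv (Equiv.mulLeft g) _ _ fun q => rfl
  have hf3 : f.eval α = 0 := by
    rw [hf, eval_prod]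
    exact Finset.prod_eq_zero (Finset.mem_univ 1) (by simp)
  have hf4 : f.derivative = G 1 := by
    rw [hf, derivative_prod_finset]
    simp [G]
  have hαR : α ∈ dRing w D hD :=
    root_mem_dRing w D hD (hinv f hf1 hf2) hα hf3 (by rw [hf4, hG3, one_mul, he1])
  have hR : ∀ u, w u ≤ 1 → u * e ∈ dRing w D hD := fun u hu => by
    rw [← hG3]
    exact eval_mem_subring _ (hinv _ (hG1 u hu) (hG2 u)) hαR
  have heR : e ∈ dRing w D hD := by simpa using hR 1 (by simp)
  exact (mem_dRing_of_mul w D hD heR he1 hz (by rw [mul_comm]; exact hR z hz)).2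

end Der

end Crest.Agent.T170.Gal
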