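import Crest.Agent.T170.DsLift_6
import Crest.Agent.T170.GalEt_6

/-!
# Row 170, module F (helper6): the finite level, the inertia group and its field of invariants
-/

set_option autoImplicit false

noncomputable section

namespace Crest.Agent.T170.Ds

open scoped NNReal Polynomial Classical IntermediateField
open WeierstrassCurve WeierstrassCurve.Affine Crest.Agent.R170 Crest.Agent.T170.Ret
open Crest.Agent.T170.Fr

/-! ### generalities -/

lemma finiteIndex_of_map {A α : Type*} [Group A] (H : Subgroup A) [Finite α] (f : A → α)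
    (hf : ∀ a b, f a = f b → a⁻¹ * b ∈ H) : H.FiniteIndex := by
  have : Finite (A ⧸ H) := by
    refine Finite.of_injective (fun q : A ⧸ H => f q.out) fun q q' h => ?_
    rw [← q.out_eq, ← q'.out_eq]
    exact QuotientGroup.eq.2 (hf _ _ h)
  exact Subgroup.finiteIndex_of_finite_quotient

lemma exists_incongruent {C : Type*} [Field C] [IsAlgClosed C] (w : Valuation C ℝ≥0) :
    ∃ c : ℕ → C, (∀ i, w (c i) ≤ 1) ∧ ∀ i j, i ≠ j → w (c i - c j) = 1 := by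
  obtain ⟨c, h1, h2⟩ := exists_seq_of_forall_finset_exists (fun x : C => w x ≤ 1)
    (fun x y => w (x - y) = 1) (by
      intro s hs
      rcases s.eq_empty_or_nonempty with rfl | hne
      · exact ⟨0, by simp, by simp⟩
      have hm : (∏ a ∈ s, (Polynomial.X - Polynomial.C a) : C[X]).Monic :=
        Polynomial.monic_prod_of_monic _ _ fun a _ => Polynomial.monic_X_sub_C a
      have hd : (∏ a ∈ s, (Polynomial.X - Polynomial.C a) : C[X]).degree = s.card := by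
        rw [Polynomial.degree_prod]
        simp
      have hpos : 0 < s.card := hne.card_pos
      obtain ⟨y, hy⟩ := IsAlgClosed.exists_root
        ((∏ a ∈ s, (Polynomial.X - Polynomial.C a) : C[X]) - 1) (by
          rw [Polynomial.degree_sub_eq_left_of_degree_lt, hd]
          · exact_mod_cast hpos.ne'
          · rw [hd, Polynomial.degree_one]
            exact_mod_cast hpos)
      have h3 : ∏ a ∈ s, w (y - a) = 1 := by
        rw [← map_prod]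
        simp only [Polynomial.IsRoot.def, Polynomial.eval_sub, Polynomial.eval_prod,
          Polynomial.eval_X, Polynomial.eval_C, Polynomial.eval_one, sub_eq_zero] at hy
        rw [hy, map_one]
      have h4 : w y ≤ 1 := by
        by_contra h
        have h5 : ∀ a ∈ s, w (y - a) = w y := fun a ha =>
          w.map_sub_eq_of_lt_left ((hs a ha).trans_lt (not_le.1 h))
        rw [Finset.prod_congr rfl h5, Finset.prod_const] at h3
        exact absurd h3 (one_lt_pow₀ (not_le.1 h) hpos.ne').ne'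
      refine ⟨y, h4, fun a ha => ?_⟩
      rw [Valuation.map_sub_swap]
      have h6 : ∀ b ∈ s, w (y - b) ≤ 1 := fun b hb => w.map_sub_le h4 (hs b hb)
      refine le_antisymm (h6 a ha) (not_lt.1 fun h7 => ?_)
      rw [← Finset.mul_prod_erase _ _ ha] at h3
      exact absurd h3 (mul_lt_one_of_nonneg_of_lt_one_left zero_le h7
        (Finset.prod_le_one' fun b hb => h6 b (Finset.mem_of_mem_erase hb))).ne)
  refine ⟨c, h1, fun i j hij => ?_⟩
  rcases lt_or_gt_of_ne hij with h | h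
  · exact h2 i j h
  · rw [Valuation.map_sub_swap]
    exact h2 j i h

variable {p n : ℕ} [NeZero n] {U : Type} [Field U] [Algebra ℂ U] (X : World p n U)

/-- all lifts -/
def Gam : Subgroup (Aut X) where
  carrier := {φ | ∃ j, Lift X φ j}
  mul_mem' := fun ⟨_, h⟩ ⟨_, h'⟩ => ⟨_, h.mul h'⟩
  one_mem' := ⟨0, (liftApi X).one⟩
  inv_mem' := fun ⟨_, h⟩ => ⟨_, h.inv⟩

/-- the automorphisms over `F(x, y)` -/
def Gam0 : Subgroup (Aut X) where
  carrier := {φ | Lift X φ 0}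
  mul_mem' h h' := Lift.mul h h'
  one_mem' := (liftApi X).one
  inv_mem' h := by simpa using Lift.inv h

/-- the automorphisms over `ℂ(x, y)` -/
def GeoS : Subgroup (Aut X) where
  carrier := {φ | Geo X φ}
  mul_mem' {φ ψ} h h' := ⟨fun c => by rw [AlgEquiv.mul_apply, h'.C, h.C],
    by rw [AlgEquiv.mul_apply, h'.x, h.x], by rw [AlgEquiv.mul_apply, h'.y, h.y]⟩
  one_mem' := ⟨fun _ => rfl, rfl, rfl⟩
  inv_mem' {φ} h := ⟨fun c => φ.symm_apply_eq.2 (h.C c).symm, φ.symm_apply_eq.2 h.x.symm,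
    φ.symm_apply_eq.2 h.y.symm⟩

variable {X}

lemma inv_apply_apply (φ : Aut X) (z : U) : φ⁻¹ (φ z) = z := φ.symm_apply_apply z

lemma apply_inv_apply (φ : Aut X) (z : U) : φ (φ⁻¹ z) = z := φ.apply_symm_apply z

lemma conj_fix {φ ψ : Aut X} {z : U} (h : ψ (φ⁻¹ z) = φ⁻¹ z) : (φ * ψ * φ⁻¹) z = z := by
  rw [AlgEquiv.mul_apply, AlgEquiv.mul_apply, h, apply_inv_apply]

lemma Gam0_le : Gam0 X ≤ Gam X := fun _ h => ⟨0, h⟩

lemma conj_Gam0 {φ ψ : Aut X} (hφ : φ ∈ Gam X) (hψ : ψ ∈ Gam0 X) : φ * ψ * φ⁻¹ ∈ Gam0 X := by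
  obtain ⟨j, hj⟩ := hφ
  exact Lift.of_eq_on fun z hz => conj_fix (Lift.fix hψ (hj.inv.mem_EF hz))

lemma conj_GeoS {φ ψ : Aut X} (hφ : φ ∈ Gam X) (hψ : ψ ∈ GeoS X) : φ * ψ * φ⁻¹ ∈ GeoS X := by
  obtain ⟨j, hj⟩ := hφ
  have h : ∀ z ∈ B X, (φ * ψ * φ⁻¹) z = z := fun z hz =>
    conj_fix (Geo.fix hψ (hj.inv.mem_B hz))
  exact ⟨fun c => h _ ((B X).algebraMap_mem c), h _ (x_mem_B X), h _ (y_mem_B X)⟩

/-- restriction of a group of automorphisms to a stable subfield -/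
def resAut (Δ : Subgroup (Aut X)) (S : IntermediateField X.C U)
    (h : ∀ φ ∈ Δ, ∀ z ∈ S, φ z ∈ S) : Δ →* RingAut S where
  toFun φ :=
    { toFun := fun z => ⟨φ.1 z, h _ φ.2 _ z.2⟩
      invFun := fun z => ⟨φ.1⁻¹ z, h _ (Δ.inv_mem φ.2) _ z.2⟩
      left_inv := fun _ => Subtype.ext (inv_apply_apply _ _)
      right_inv := fun _ => Subtype.ext (apply_inv_apply _ _)
      map_mul' := fun z w => Subtype.ext (map_mul φ.1 (z : U) w)
      map_add' := fun z w => Subtype.ext (map_add φ.1 (z : U) w) }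
  map_one' := rfl
  map_mul' _ _ := rfl

lemma resAut_apply {Δ : Subgroup (Aut X)} {S : IntermediateField X.C U}
    (h : ∀ φ ∈ Δ, ∀ z ∈ S, φ z ∈ S) (φ : Δ) (z : S) : ((resAut Δ S h φ z : S) : U) = φ.1 z := rfl

/-- constants which are fixed by all automorphisms over `F(x, y)` belong to `F` -/
lemma mem_F_of_fix [IsAlgClosed U] {z : U} (hz : IsC z) (h : ∀ φ ∈ Gam0 X, φ z = z) :
    ∃ a : X.F, algebraMap X.F U a = z := by
  obtain ⟨c, rfl⟩ := hz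
  have halg : Algebra.IsAlgebraic X.F ℂ := ⟨X.algF⟩
  have hcl : IsAlgClosure X.F ℂ := ⟨inferInstance, halg⟩
  have hell := X.ell
  have := charZero_U U
  obtain ⟨a, ha⟩ := (InfiniteGalois.mem_range_algebraMap_iff_fixed (k := X.F) c).2 fun τ => by
    let τ' : ℂ ≃ₐ[X.C] ℂ := AlgEquiv.ofRingEquiv (f := (τ : ℂ ≃+* ℂ))
      fun a => τ.commutes (Subfield.inclusion X.CF a)
    obtain ⟨φ, h1, h2⟩ := W3.exists_g (F := ℂ) X.W X.ns X.trans X.alg 0 τ'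
    rw [map_zero, sub_zero, Point.map_some, Point.some.injEq] at h2
    have h3 : φ ∈ Gam0 X := ⟨fun a => (h1 a).trans (congrArg (algebraMap ℂ U) (τ.commutes a)),
      h2.1, h2.2⟩
    exact (algebraMap ℂ U).injective ((h1 c).symm.trans (h φ h3))
  exact ⟨a, congrArg (algebraMap ℂ U) ha⟩

/-! ### the finite level -/

variable (X) (Θ : Finset U)

/-- the kernel of the finite level -/
def Lam : Subgroup (Aut X) where
  carrier := {φ | φ ∈ Gam0 X ∧ ∀ z ∈ Θ, φ z = z}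
  mul_mem' {φ ψ} h h' := ⟨(Gam0 X).mul_mem h.1 h'.1, fun z hz => by
    rw [AlgEquiv.mul_apply, h'.2 z hz, h.2 z hz]⟩
  one_mem' := ⟨(Gam0 X).one_mem, fun _ _ => rfl⟩
  inv_mem' {φ} h := ⟨(Gam0 X).inv_mem h.1, fun z hz => φ.symm_apply_eq.2 (h.2 z hz).symm⟩

/-- the constants of the finite level, over `F` -/
def LF : IntermediateField X.F U := IntermediateField.adjoin X.F {z | z ∈ Θ ∧ IsC z}

/-- the constants of the finite level -/
def LC : IntermediateField X.C U :=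
  (LF X Θ).toSubfield.toIntermediateField fun c =>
    (LF X Θ).algebraMap_mem (Subfield.inclusion X.CF c)

lemma mem_LC {z : U} : z ∈ LC X Θ ↔ z ∈ LF X Θ := Iff.rfl

lemma F_mem_LC (a : X.F) : algebraMap X.F U a ∈ LC X Θ := (LF X Θ).algebraMap_mem a

lemma LC_le {S : Subfield U} (hF : ∀ z : X.F, algebraMap X.F U z ∈ S)
    (h : ∀ z ∈ Θ, IsC z → z ∈ S) {z : U} (hz : z ∈ LC X Θ) : z ∈ S := by
  have h1 : (LF X Θ).toSubfield ≤ S := by
    rw [LF, IntermediateField.adjoin_toSubfield, Subfield.closure_le]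
    rintro w (⟨c, rfl⟩ | ⟨h1, h2⟩)
    · exact hF c
    · exact h w h1 h2
  exact h1 hz

lemma isC_of_mem_LC {z : U} (hz : z ∈ LC X Θ) : IsC z :=
  LC_le X Θ (S := (algebraMap ℂ U).fieldRange) (fun a => ⟨a, rfl⟩) (fun _ _ h => h) hz

lemma finite_LF : FiniteDimensional X.F (LF X Θ) := by
  have : Finite {z | z ∈ Θ ∧ IsC z} := (Θ.finite_toSet.subset fun z hz => hz.1).to_subtype
  exact IntermediateField.finiteDimensional_adjoin fun z hz => ((isC_iff X).1 hz.2).isIntegral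

/-- the inertia group -/
def Inr : Subgroup (Aut X) where
  carrier := {φ | φ ∈ Gam0 X ∧ (∀ z ∈ LC X Θ, φ z ∈ LC X Θ) ∧ (∀ z ∈ LC X Θ, φ⁻¹ z ∈ LC X Θ) ∧
    ∀ z ∈ LC X Θ, X.v z ≤ 1 → X.v (φ z - z) < 1}
  mul_mem' {φ ψ} h h' := by
    refine ⟨(Gam0 X).mul_mem h.1 h'.1, fun z hz => h.2.1 _ (h'.2.1 z hz), fun z hz => ?_,
      fun z hz h1 => ?_⟩
    · rw [mul_inv_rev]
      exact h'.2.2.1 _ (h.2.2.1 z hz)
    · have h2 : (φ * ψ) z - z = (φ (ψ z) - ψ z) + (ψ z - z) := by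
        rw [AlgEquiv.mul_apply]; ring
      rw [h2]
      refine X.v.map_add_lt (h.2.2.2 _ (h'.2.1 z hz) ?_) (h'.2.2.2 z hz h1)
      rwa [Lift.val h'.1 (isC_of_mem_LC X Θ hz)]
  one_mem' := ⟨(Gam0 X).one_mem, fun _ h => h, fun _ h => h, fun z _ _ => by simp⟩
  inv_mem' {φ} h := by
    refine ⟨(Gam0 X).inv_mem h.1, h.2.2.1, by simpa using h.2.1, fun z hz h1 => ?_⟩
    have h2 := h.2.2.2 _ (h.2.2.1 z hz)
      (by rwa [Lift.val ((Gam0 X).inv_mem h.1) (isC_of_mem_LC X Θ hz)])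
    rwa [apply_inv_apply, Valuation.map_sub_swap] at h2

/-- the invariants of the inertia group -/
def KC : IntermediateField X.C U where
  carrier := {z | z ∈ LC X Θ ∧ ∀ φ ∈ Inr X Θ, φ z = z}
  mul_mem' ha hb := ⟨mul_mem ha.1 hb.1, fun φ h => by rw [map_mul, ha.2 φ h, hb.2 φ h]⟩
  add_mem' ha hb := ⟨add_mem ha.1 hb.1, fun φ h => by rw [map_add, ha.2 φ h, hb.2 φ h]⟩
  algebraMap_mem' c := ⟨(LC X Θ).algebraMap_mem c, fun φ _ => φ.commutes c⟩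
  inv_mem' z hz := ⟨inv_mem hz.1, fun φ h => by rw [map_inv₀, hz.2 φ h]⟩

lemma F_mem_KC (a : X.F) : algebraMap X.F U a ∈ KC X Θ :=
  ⟨F_mem_LC X Θ a, fun _ h => Lift.fix h.1 (F_mem_EF X a)⟩

lemma isC_of_mem_KC {z : U} (hz : z ∈ KC X Θ) : IsC z := isC_of_mem_LC X Θ hz.1

lemma nontriv_F (hp : p ≠ 0) : ∃ a : X.F, a ≠ 0 ∧ (X.v.comap (algebraMap X.F U)) a ≠ 1 :=
  ⟨p, Nat.cast_ne_zero.2 hp, by
    rw [Valuation.comap_apply, map_natCast]
    exact X.vp.ne⟩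

lemma cpl_KC (hp : p ≠ 0) : Fr.Cpl (X.v.comap (algebraMap (KC X Θ) U)) := by
  let KF : IntermediateField X.F U := (KC X Θ).toSubfield.toIntermediateField (F_mem_KC X Θ)
  have h1 := finite_LF X Θ
  have hle : KF ≤ LF X Θ := fun z hz => hz.1
  have h2 : FiniteDimensional X.F KF :=
    FiniteDimensional.of_injective (IntermediateField.inclusion hle).toLinearMap
      (IntermediateField.inclusion_injective hle)
  exact Gal.Cpl.finite (F := X.F) (L := KF) (v := X.v.comap (algebraMap X.F U)) X.cpl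
    (nontriv_F X hp) (X.v.comap (algebraMap KF U)) fun _ => rfl

variable {X Θ} (hΘ : ∀ (φ : Aut X) (j : ℕ), Lift X φ j → ∀ z ∈ Θ, φ z ∈ Θ)
include hΘ

lemma map_mem_LC {φ : Aut X} (hφ : φ ∈ Gam X) {z : U} (hz : z ∈ LC X Θ) : φ z ∈ LC X Θ := by
  obtain ⟨j, hj⟩ := hφ
  refine LC_le X Θ (S := (LC X Θ).toSubfield.comap (φ : U →+* U)) (fun a => ?_)
    (fun w h1 h2 => ?_) hz
  · change φ _ ∈ LC X Θ
    rw [hj.map_F]
    exact F_mem_LC X Θ _
  · exact IntermediateField.subset_adjoin X.F _ ⟨hΘ φ j hj w h1, hj.isC h2⟩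

lemma mem_Inr {φ : Aut X} (h0 : φ ∈ Gam0 X)
    (h : ∀ z ∈ LC X Θ, X.v z ≤ 1 → X.v (φ z - z) < 1) : φ ∈ Inr X Θ :=
  ⟨h0, fun _ hz => map_mem_LC hΘ (Gam0_le h0) hz,
    fun _ hz => map_mem_LC hΘ (Gam0_le ((Gam0 X).inv_mem h0)) hz, h⟩

lemma mem_Inr_of_fix {φ : Aut X} (h0 : φ ∈ Gam0 X) (h : ∀ z ∈ LC X Θ, φ z = z) :
    φ ∈ Inr X Θ :=
  mem_Inr hΘ h0 fun z hz _ => by simp [h z hz]

omit hΘ in
lemma fix_LC {φ : Aut X} (h0 : φ ∈ Gam0 X) (h : ∀ z ∈ Θ, IsC z → φ z = z) {z : U}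
    (hz : z ∈ LC X Θ) : φ z = z :=
  LC_le X Θ (S := (φ : U →+* U).eqLocusField (RingHom.id U))
    (fun a => Lift.fix h0 (F_mem_EF X a)) h hz

lemma Lam_le_Inr : Lam X Θ ≤ Inr X Θ := fun _ h =>
  mem_Inr_of_fix hΘ h.1 fun _ hz => fix_LC h.1 (fun w hw _ => h.2 w hw) hz

lemma GeoS_le_Inr : GeoS X ≤ Inr X Θ := fun _ h =>
  mem_Inr_of_fix hΘ (Geo.lift h) fun _ hz => Geo.fix h ((isC_of_mem_LC X Θ hz).mem_B X)

lemma conj_Lam {φ ψ : Aut X} (hφ : φ ∈ Gam X) (hψ : ψ ∈ Lam X Θ) : φ * ψ * φ⁻¹ ∈ Lam X Θ := by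
  obtain ⟨j, hj⟩ := hφ
  exact ⟨conj_Gam0 ⟨j, hj⟩ hψ.1, fun z hz => conj_fix (hψ.2 _ (hΘ _ _ hj.inv z hz))⟩

lemma conj_Inr {φ ψ : Aut X} (hφ : φ ∈ Gam X) (hψ : ψ ∈ Inr X Θ) : φ * ψ * φ⁻¹ ∈ Inr X Θ := by
  refine mem_Inr hΘ (conj_Gam0 hφ hψ.1) fun z hz h1 => ?_
  have h2 := map_mem_LC hΘ ((Gam X).inv_mem hφ) hz
  obtain ⟨j, hj⟩ := hφ
  have h3 := hψ.2.2.2 _ h2 (by rwa [hj.inv.val (isC_of_mem_LC X Θ hz)])
  have h4 : (φ * ψ * φ⁻¹) z - z = φ (ψ (φ⁻¹ z) - φ⁻¹ z) := by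
    rw [map_sub, apply_inv_apply]; rfl
  rwa [h4, hj.val (isC_of_mem_LC X Θ (sub_mem (hψ.2.1 _ h2) h2))]

lemma map_mem_KC {φ : Aut X} (hφ : φ ∈ Gam X) {z : U} (hz : z ∈ KC X Θ) : φ z ∈ KC X Θ := by
  refine ⟨map_mem_LC hΘ hφ hz.1, fun ψ hψ => ?_⟩
  have h := hz.2 _ (conj_Inr hΘ ((Gam X).inv_mem hφ) hψ)
  rw [inv_inv, AlgEquiv.mul_apply, AlgEquiv.mul_apply] at h
  rw [← apply_inv_apply φ (ψ (φ z)), h]

lemma finiteIndex_Lam (Δ : Subgroup (Aut X)) (hΔ : Δ ≤ Gam X) :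
    ((Lam X Θ).subgroupOf Δ).FiniteIndex := by
  have hn : 0 < n := Nat.pos_of_ne_zero (NeZero.ne n)
  have h1 : ∀ φ : Δ, ∃ j : Fin n, Lift X φ.1 j := fun φ => by
    obtain ⟨j, hj⟩ := hΔ φ.2
    exact ⟨⟨j % n, Nat.mod_lt j hn⟩, hj.mod (Nat.mod_modEq j n).symm⟩
  choose J hJ using h1
  refine finiteIndex_of_map _ (α := Fin n × (Θ → Θ))
    (fun φ => (J φ, fun z => ⟨φ.1 z, hΘ _ _ (hJ φ) z z.2⟩)) fun φ ψ h => ?_
  obtain ⟨h1, h2⟩ := Prod.mk.inj h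
  refine ⟨Lift.of_eq_on fun z hz => ?_, fun z hz => ?_⟩
  · change φ.1⁻¹ (ψ.1 z) = z
    rw [(hJ ψ).eq_on hz, ← h1, ← (hJ φ).eq_on hz, inv_apply_apply]
  · change φ.1⁻¹ (ψ.1 z) = z
    have h3 : φ.1 z = ψ.1 z := congrArg Subtype.val (congrFun h2 ⟨z, hz⟩)
    rw [← h3, inv_apply_apply]

lemma finite_range (Δ : Subgroup (Aut X)) (hΔ : Δ ≤ Gam X) (S : IntermediateField X.C U)
    (hS : S ≤ LC X Θ) (h : ∀ φ ∈ Δ, ∀ z ∈ S, φ z ∈ S) : Finite (resAut Δ S h).range := by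
  have h1 := finiteIndex_Lam hΘ Δ hΔ
  have h2 : (Lam X Θ).subgroupOf Δ ≤ (resAut Δ S h).ker := fun φ hφ =>
    RingEquiv.ext fun z => Subtype.ext (fix_LC hφ.1 (fun w hw _ => hφ.2 w hw) (hS z.2))
  have h3 : (resAut Δ S h).ker.FiniteIndex := Subgroup.finiteIndex_of_le h2
  have h4 := Subgroup.finite_quotient_of_finiteIndex (H := (resAut Δ S h).ker)
  exact Finite.of_equiv _ (QuotientGroup.quotientKerEquivRange _).toEquiv

lemma exists_pow_mem_Lam {φ : Aut X} (hφ : φ ∈ Gam X) : ∃ r, 0 < r ∧ φ ^ r ∈ Lam X Θ := by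
  have h1 := finiteIndex_Lam hΘ (Gam X) le_rfl
  have h2 : ((Lam X Θ).subgroupOf (Gam X)).Normal := ⟨fun ψ hψ χ => conj_Lam hΘ χ.2 hψ⟩
  exact ⟨_, Nat.pos_of_ne_zero h1.index_ne_zero,
    Subgroup.pow_index_mem ((Lam X Θ).subgroupOf (Gam X)) ⟨φ, hφ⟩⟩

omit hΘ in
lemma exists_const_val {z : U} (hz : IsC z) : ∃ c : X.C, X.v z = X.v (algebraMap X.C U c) := by
  obtain ⟨c, rfl⟩ := hz
  obtain ⟨d, hd⟩ := X.vgrp c
  exact ⟨d, hd.symm⟩

/-- the restriction of the inertia group to the constants is a `p`-group -/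
lemma isPGroup_Inr (hp : p.Prime) :
    IsPGroup p (resAut (Inr X Θ) (LC X Θ) fun _ h => h.2.1).range := by
  have := finite_range hΘ (Inr X Θ) (fun _ h => Gam0_le h.1) (LC X Θ) le_rfl fun _ h => h.2.1
  intro q
  obtain ⟨φ, hφ⟩ := q.2
  refine Gal.exists_pow_eq_one_of_inert (X.v.comap (algebraMap (LC X Θ) U)) hp
    (by rw [Valuation.comap_apply, map_natCast]; exact X.vp) (isOfFinOrder_of_finite q)
    (Gal.inert_of_res _ (fun z => ?_) fun z hz => ?_)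
  · obtain ⟨c, hc⟩ := exists_const_val (X := X) (isC_of_mem_LC X Θ z.2)
    refine ⟨algebraMap X.C _ c, Subtype.ext ?_, hc⟩
    change ((q.1 _ : LC X Θ) : U) = _
    rw [← hφ]
    exact φ.1.commutes c
  · change X.v (((q.1 z : LC X Θ) : U) - z) < 1
    rw [← hφ]
    exact φ.2.2.2.2 z z.2 hz

lemma exists_pow_fix (hp : p.Prime) {φ : Aut X} (hφ : φ ∈ Inr X Θ) :
    ∃ k : ℕ, ∀ z ∈ LC X Θ, (φ ^ p ^ k) z = z := by
  obtain ⟨k, hk⟩ := isPGroup_Inr hΘ hp ⟨_, ⟨φ, hφ⟩, rfl⟩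
  refine ⟨k, fun z hz => ?_⟩
  have h1 : resAut (Inr X Θ) (LC X Θ) (fun _ h => h.2.1) (⟨φ, hφ⟩ ^ p ^ k) = 1 := by
    rw [map_pow]
    exact congrArg Subtype.val hk
  exact congrArg Subtype.val (RingEquiv.congr_fun h1 ⟨z, hz⟩)

/-- an automorphism which is inert on `K` is inert -/
lemma mem_Inr_of_KC (hp : p.Prime) {φ : Aut X} (h0 : φ ∈ Gam0 X)
    (h : ∀ z ∈ KC X Θ, X.v z ≤ 1 → X.v (φ z - z) < 1) : φ ∈ Inr X Θ := by
  refine mem_Inr hΘ h0 fun z hz h1 => ?_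
  have := finite_range hΘ (Inr X Θ) (fun _ h => Gam0_le h.1) (LC X Θ) le_rfl fun _ h => h.2.1
  have hst : ∀ φ ∈ Gam0 X, ∀ z ∈ LC X Θ, φ z ∈ LC X Θ := fun φ hφ z hz =>
    map_mem_LC hΘ (Gam0_le hφ) hz
  by_contra hcon
  have h2 : X.v (φ z - z) = 1 := le_antisymm
    (X.v.map_sub_le (by rwa [Lift.val h0 (isC_of_mem_LC X Θ hz)]) h1) (not_lt.1 hcon)
  obtain ⟨u, hu1, hu2, hu3⟩ := Gal.exists_unit_sub (Q := RingAut (LC X Θ))
    (X.v.comap (algebraMap (LC X Θ) U)) hp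
    (by rw [Valuation.comap_apply, map_natCast]; exact X.vp)
    (resAut (Inr X Θ) (LC X Θ) fun _ h => h.2.1).range (isPGroup_Inr hΘ hp)
    (by
      rintro _ ⟨ψ, rfl⟩ w hw
      exact ψ.2.2.2.2 w w.2 hw)
    (q := resAut (Gam0 X) (LC X Θ) hst ⟨φ, h0⟩)
    (fun w => Lift.val h0 (isC_of_mem_LC X Θ w.2)) (z := ⟨z, hz⟩) h1 h2
  have h3 : (u : U) ∈ KC X Θ :=
    ⟨u.2, fun ψ hψ => congrArg Subtype.val (hu1 _ ⟨⟨ψ, hψ⟩, rfl⟩)⟩
  exact absurd hu3 (h u h3 hu2).ne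

/-- the derivations are bounded on `K` -/
theorem der_le_KC [IsAlgClosed U] (hp : p.Prime) (i : Fin n) {z : U} (hz : z ∈ KC X Θ) :
    X.v (X.D i z) ≤ X.v z := by
  have hst : ∀ φ ∈ Gam0 X, ∀ z ∈ KC X Θ, φ z ∈ KC X Θ := fun φ hφ z hz =>
    map_mem_KC hΘ (Gam0_le hφ) hz
  have := finite_range hΘ (Gam0 X) Gam0_le (KC X Θ) (fun _ h => h.1) hst
  have := Fintype.ofFinite (resAut (Gam0 X) (KC X Θ) hst).range
  have hCac := X.Cac
  have hD : ∀ z ∈ KC X Θ, X.D i z ∈ KC X Θ := fun z hz =>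
    der_mem X (KC X Θ).toSubfield (F_mem_KC X Θ) i hz (isC_of_mem_KC X Θ hz)
  let D : KC X Θ →+ KC X Θ :=
    { toFun := fun z => ⟨X.D i z, hD z z.2⟩
      map_zero' := Subtype.ext (map_zero (X.D i))
      map_add' := fun a b => Subtype.ext (map_add (X.D i) (a : U) b) }
  have hleib : ∀ a b, D (a * b) = a * D b + b * D a := fun a b =>
    Subtype.ext ((X.D i).leibniz (a : U) b)
  have hiso : ∀ (q : (resAut (Gam0 X) (KC X Θ) hst).range) (z : KC X Θ),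
      (X.v.comap (algebraMap (KC X Θ) U)) (q • z) = (X.v.comap (algebraMap (KC X Θ) U)) z := by
    rintro ⟨_, φ, rfl⟩ z
    exact Lift.val φ.2 (isC_of_mem_KC X Θ z.2)
  obtain ⟨c, hc1, hc2⟩ := exists_incongruent (X.v.comap (algebraMap X.C U))
  obtain ⟨α, hα, hsep⟩ := Gal.exists_sep (X.v.comap (algebraMap (KC X Θ) U))
    (fun j => algebraMap X.C (KC X Θ) (c j)) hc1
    (fun i j hij => by rw [← map_sub]; exact hc2 i j hij)
    (by
      rintro ⟨_, φ, rfl⟩ j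
      exact Subtype.ext (φ.1.commutes (c j))) hiso (Finset.univ.erase 1)
    (by
      rintro ⟨_, φ, rfl⟩ hq
      by_contra hcon
      push Not at hcon
      have h1 : φ.1 ∈ Inr X Θ := mem_Inr_of_KC hΘ hp φ.2 fun w hw h2 =>
        lt_of_le_of_ne (X.v.map_sub_le (by rwa [Lift.val φ.2 (isC_of_mem_KC X Θ hw)]) h2)
          (hcon ⟨w, hw⟩ h2)
      exact Finset.ne_of_mem_erase hq
        (Subtype.ext (RingEquiv.ext fun w => Subtype.ext (w.2.2 _ h1))))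
  have key : ∀ w ∈ KC X Θ, X.v w ≤ 1 → X.v (X.D i w) ≤ 1 := fun w hw h1 =>
    Gal.der_le_one (Q := (resAut (Gam0 X) (KC X Θ) hst).range)
      (X.v.comap (algebraMap (KC X Θ) U)) D hleib hiso
      (fun u hu h2 => by
        obtain ⟨a, ha⟩ := mem_F_of_fix (X := X) (isC_of_mem_KC X Θ u.2) fun φ hφ =>
          congrArg Subtype.val (hu ⟨_, ⟨φ, hφ⟩, rfl⟩)
        change X.v (X.D i u) ≤ 1
        change X.v u ≤ 1 at h2
        rw [← ha] at h2 ⊢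
        exact (X.vD i a).trans h2)
      hα (fun q hq => hsep q (by simp [hq])) (z := ⟨w, hw⟩) h1
  by_cases h0 : z = 0
  · simp [h0]
  obtain ⟨d, hd⟩ := exists_const_val (X := X) (isC_of_mem_KC X Θ hz)
  have hvz : X.v z ≠ 0 := by simpa using h0
  have hd0 : d ≠ 0 := by
    rintro rfl
    exact hvz (by simpa using hd)
  have h1 := key (d⁻¹ • z) ((KC X Θ).smul_mem hz) (by
    rw [Algebra.smul_def, map_mul, map_inv₀, map_inv₀, ← hd, inv_mul_cancel₀ hvz])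
  rw [Derivation.map_smul, Algebra.smul_def, map_mul, map_inv₀, map_inv₀, ← hd] at h1
  exact (inv_mul_le_one₀ (zero_lt_iff.2 hvz)).1 h1

end Crest.Agent.T170.Ds
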