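import Crest.Agent.T170.DsDef_6
import Crest.Agent.T170.GalVal_6
import Crest.Agent.T170.W3_90
import Crest.Agent.T170.LogB_89

/-!
# Row 170, module F (helper6): the basic properties of lifts

`EF X = F(x, y)`, `Lift.eq_on`, `liftApi`, `finite_orbit`.
-/

set_option autoImplicit false

noncomputable section

namespace Crest.Agent.T170.Ds

open scoped NNReal Polynomial Classical IntermediateField
open WeierstrassCurve WeierstrassCurve.Affine Crest.Agent.R170 Crest.Agent.T170.Ret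
open Crest.Agent.T170.Fr

variable {p n : ℕ} [NeZero n] {U : Type} [Field U] [Algebra ℂ U] (X : World p n U)

lemma algF_eq (z : X.F) : algebraMap X.F U z = algebraMap ℂ U (z : ℂ) := rfl

lemma algC_eq (z : X.C) : algebraMap X.C U z = algebraMap ℂ U (z : ℂ) := rfl

lemma algC_eq_algF (z : X.C) :
    algebraMap X.C U z = algebraMap X.F U (Subfield.inclusion X.CF z) := rfl

lemma charZero_U (U : Type) [Field U] [Algebra ℂ U] : CharZero U :=
  charZero_of_injective_algebraMap (algebraMap ℂ U).injective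

/-- `F(x, y)` -/
def EF : IntermediateField X.C U :=
  IntermediateField.adjoin X.C (Set.range (algebraMap X.F U) ∪ {X.x, X.y})

lemma F_mem_EF (z : X.F) : algebraMap X.F U z ∈ EF X :=
  IntermediateField.subset_adjoin _ _ (Or.inl ⟨z, rfl⟩)

lemma x_mem_EF : X.x ∈ EF X := IntermediateField.subset_adjoin _ _ (Or.inr (by simp))

lemma y_mem_EF : X.y ∈ EF X := IntermediateField.subset_adjoin _ _ (Or.inr (by simp))

lemma EF_le {S : Subfield U} (hF : ∀ z : X.F, algebraMap X.F U z ∈ S) (hx : X.x ∈ S)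
    (hy : X.y ∈ S) {z : U} (hz : z ∈ EF X) : z ∈ S := by
  have h : (EF X).toSubfield ≤ S := by
    rw [EF, IntermediateField.adjoin_toSubfield, Subfield.closure_le]
    rintro w (⟨c, rfl⟩ | ⟨c, rfl⟩ | rfl | rfl)
    · exact hF (Subfield.inclusion X.CF c)
    · exact hF c
    · exact hx
    · exact hy
  exact h hz

lemma B_le {S : Subfield U} (hC : ∀ c : ℂ, algebraMap ℂ U c ∈ S) (hx : X.x ∈ S)
    (hy : X.y ∈ S) {z : U} (hz : z ∈ B X) : z ∈ S := by
  have h : (B X).toSubfield ≤ S := by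
    rw [B, IntermediateField.adjoin_toSubfield, Subfield.closure_le]
    rintro w (⟨c, rfl⟩ | rfl | rfl)
    · exact hC c
    · exact hx
    · exact hy
  exact h hz

lemma x_mem_B : X.x ∈ B X := (xB X).2

lemma y_mem_B : X.y ∈ B X := (yB X).2

lemma EF_le_B {z : U} (hz : z ∈ EF X) : z ∈ B X :=
  EF_le X (S := (B X).toSubfield) (fun z => (B X).algebraMap_mem (z : ℂ)) (x_mem_B X)
    (y_mem_B X) hz

lemma IsC.mem_B {z : U} (hz : IsC z) : z ∈ B X := by
  obtain ⟨c, rfl⟩ := hz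
  exact (B X).algebraMap_mem c

lemma eq_on_EF {f g : U →+* U} (hF : ∀ z : X.F, f (algebraMap X.F U z) = g (algebraMap X.F U z))
    (hx : f X.x = g X.x) (hy : f X.y = g X.y) {z : U} (hz : z ∈ EF X) : f z = g z :=
  EF_le X (S := f.eqLocusField g) hF hx hy hz

lemma eq_on_B {f g : U →+* U} (hC : ∀ c : ℂ, f (algebraMap ℂ U c) = g (algebraMap ℂ U c))
    (hx : f X.x = g X.x) (hy : f X.y = g X.y) {z : U} (hz : z ∈ B X) : f z = g z :=
  B_le X (S := f.eqLocusField g) hC hx hy hz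

variable {X} in
lemma Lift.eq_on {φ : Aut X} {j : ℕ} (h : Lift X φ j) {z : U} (hz : z ∈ EF X) :
    φ z = (X.g ^ j) z :=
  eq_on_EF X (f := (φ : U →+* U)) (g := ((X.g ^ j : Aut X) : U →+* U)) h.F h.x h.y hz

variable {X} in
lemma Lift.of_eq_on {φ : Aut X} {j : ℕ} (h : ∀ z ∈ EF X, φ z = (X.g ^ j) z) : Lift X φ j :=
  ⟨fun z => h _ (F_mem_EF X z), h _ (x_mem_EF X), h _ (y_mem_EF X)⟩

lemma g_pow_F (j : ℕ) (z : X.F) :
    (X.g ^ j) (algebraMap X.F U z) = algebraMap X.F U ((X.σ ^ j) z) := by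
  induction j with
  | zero => rfl
  | succ j ih => rw [pow_succ', AlgEquiv.mul_apply, ih, X.gσ, pow_succ']; rfl

lemma g_pow_pt (j : ℕ) : Point.map ((X.g ^ j : Aut X) : U →ₐ[X.C] U) (Point.some _ _ X.ns) =
    Point.some _ _ X.ns - j • Point.baseChange X.C U X.P := by
  induction j with
  | zero => simp [Point.map_some]
  | succ j ih =>
    have h1 : ((X.g ^ (j + 1) : Aut X) : U →ₐ[X.C] U) =
        (X.g : U →ₐ[X.C] U).comp ((X.g ^ j : Aut X) : U →ₐ[X.C] U) := by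
      rw [pow_succ']; rfl
    rw [h1, ← Point.map_map, ih, map_sub, X.gξ, map_nsmul, Point.map_baseChange, succ_nsmul]
    abel

lemma g_xy_mem (K : IntermediateField X.C U) (hx : X.x ∈ K) (hy : X.y ∈ K) :
    X.g X.x ∈ K ∧ X.g X.y ∈ K := by
  have := X.ell
  have h := X.gξ
  rw [Point.map_some] at h
  exact W3.coord_mem X.W X.ns X.P K hx hy h

lemma g_mem_EF {z : U} (hz : z ∈ EF X) : X.g z ∈ EF X := by
  have h := g_xy_mem X (EF X) (x_mem_EF X) (y_mem_EF X)
  refine EF_le X (S := (EF X).toSubfield.comap (X.g : U →+* U)) (fun z => ?_) h.1 h.2 hz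
  change X.g _ ∈ EF X
  rw [X.gσ]
  exact F_mem_EF X _

lemma g_pow_mem_EF (j : ℕ) {z : U} (hz : z ∈ EF X) : (X.g ^ j) z ∈ EF X := by
  induction j with
  | zero => exact hz
  | succ j ih => rw [pow_succ', AlgEquiv.mul_apply]; exact g_mem_EF X ih

lemma g_pow_n {z : U} (hz : z ∈ EF X) : (X.g ^ n) z = z := by
  have h := g_pow_pt X n
  rw [← map_nsmul, X.nP, map_zero, sub_zero, Point.map_some, Point.some.injEq] at h
  refine eq_on_EF X (f := ((X.g ^ n : Aut X) : U →+* U)) (g := RingHom.id U) (fun z => ?_)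
    h.1 h.2 hz
  change (X.g ^ n) _ = _
  rw [g_pow_F, X.σn]
  rfl

lemma g_pow_mul_n (q : ℕ) {z : U} (hz : z ∈ EF X) : (X.g ^ (n * q)) z = z := by
  induction q with
  | zero => rfl
  | succ q ih => rw [Nat.mul_succ, pow_add, AlgEquiv.mul_apply, g_pow_n X hz, ih]

lemma g_pow_mod (j : ℕ) {z : U} (hz : z ∈ EF X) : (X.g ^ (j % n)) z = (X.g ^ j) z := by
  conv_rhs => rw [← Nat.mod_add_div j n, pow_add, AlgEquiv.mul_apply, g_pow_mul_n X _ hz]

lemma lift_pow (j : ℕ) : Lift X (X.g ^ j) j := ⟨fun _ => rfl, rfl, rfl⟩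

variable {X}

lemma Lift.mem_EF {φ : Aut X} {j : ℕ} (h : Lift X φ j) {z : U} (hz : z ∈ EF X) :
    φ z ∈ EF X := by
  rw [h.eq_on hz]
  exact g_pow_mem_EF X j hz

lemma Lift.mul {φ ψ : Aut X} {i j : ℕ} (h : Lift X φ i) (h' : Lift X ψ j) :
    Lift X (φ * ψ) (i + j) :=
  Lift.of_eq_on fun z hz => by
    rw [AlgEquiv.mul_apply, h'.eq_on hz, h.eq_on (g_pow_mem_EF X j hz), pow_add,
      AlgEquiv.mul_apply]

lemma Lift.mod {φ : Aut X} {i j : ℕ} (h : Lift X φ i) (hij : i ≡ j [MOD n]) : Lift X φ j :=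
  Lift.of_eq_on fun z hz => by
    rw [h.eq_on hz, ← g_pow_mod X i hz, ← g_pow_mod X j hz, hij]

lemma Lift.inv {φ : Aut X} {j : ℕ} (h : Lift X φ j) : Lift X φ⁻¹ ((n - 1) * j) :=
  Lift.of_eq_on fun z hz => by
    apply φ.injective
    rw [← AlgEquiv.mul_apply, mul_inv_cancel, AlgEquiv.one_apply,
      h.eq_on (g_pow_mem_EF X _ hz), ← AlgEquiv.mul_apply, ← pow_add]
    have h1 : j + (n - 1) * j = n * j := by
      obtain ⟨m, hm⟩ := Nat.exists_eq_succ_of_ne_zero (NeZero.ne n)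
      rw [hm, Nat.succ_sub_one, Nat.succ_mul, add_comm]
    rw [h1, g_pow_mul_n X j hz]

lemma Lift.pow {φ : Aut X} {j : ℕ} (h : Lift X φ j) (m : ℕ) : Lift X (φ ^ m) (j * m) := by
  induction m with
  | zero => exact ⟨fun _ => rfl, rfl, rfl⟩
  | succ m ih => rw [pow_succ, Nat.mul_succ]; exact ih.mul h

lemma Geo.lift {φ : Aut X} (h : Geo X φ) : Lift X φ 0 := ⟨fun z => h.C z, h.x, h.y⟩

lemma Geo.fix {φ : Aut X} (h : Geo X φ) {z : U} (hz : z ∈ B X) : φ z = z :=
  eq_on_B X (f := (φ : U →+* U)) (g := RingHom.id U) h.C h.x h.y hz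

lemma Lift.fix {φ : Aut X} (h : Lift X φ 0) {z : U} (hz : z ∈ EF X) : φ z = z := h.eq_on hz

lemma Lift.map_F {φ : Aut X} {j : ℕ} (h : Lift X φ j) (z : X.F) :
    φ (algebraMap X.F U z) = algebraMap X.F U ((X.σ ^ j) z) := by
  rw [h.F, g_pow_F]

variable (X) in
lemma isC_iff {z : U} : IsC z ↔ IsAlgebraic X.F z := by
  constructor
  · rintro ⟨c, rfl⟩
    exact (X.algF c).algebraMap
  · intro h
    have h1 : IsAlgebraic ℂ z := h.tower_top ℂ
    have h2 := IsAlgClosed.degree_eq_one_of_irreducible ℂ (minpoly.irreducible h1.isIntegral)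
    exact minpoly.mem_range_of_degree_eq_one ℂ z h2

lemma Lift.isC {φ : Aut X} {j : ℕ} (h : Lift X φ j) {z : U} (hz : IsC z) : IsC (φ z) := by
  rw [isC_iff X] at hz ⊢
  obtain ⟨f, hf, hfz⟩ := hz
  refine ⟨f.map ((X.σ ^ j : X.F ≃+* X.F) : X.F →+* X.F),
    (Polynomial.map_ne_zero_iff (RingHom.injective _)).2 hf, ?_⟩
  have h1 := congrArg (φ : U →+* U) hfz
  rw [Polynomial.aeval_def, Polynomial.hom_eval₂, map_zero] at h1
  rw [Polynomial.aeval_def, Polynomial.eval₂_map, ← h1]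
  congr 1
  ext c
  exact (h.map_F c).symm

lemma Lift.isC_iff {φ : Aut X} {j : ℕ} (h : Lift X φ j) (z : U) : IsC (φ z) ↔ IsC z :=
  ⟨fun hz => by simpa [← AlgEquiv.mul_apply] using h.inv.isC hz, h.isC⟩

lemma Lift.mem_B {φ : Aut X} {j : ℕ} (h : Lift X φ j) {z : U} (hz : z ∈ B X) : φ z ∈ B X :=
  B_le X (S := (B X).toSubfield.comap (φ : U →+* U)) (fun c => (h.isC ⟨c, rfl⟩).mem_B X)
    (EF_le_B X (h.mem_EF (x_mem_EF X))) (EF_le_B X (h.mem_EF (y_mem_EF X))) hz

lemma Lift.mem_B_iff {φ : Aut X} {j : ℕ} (h : Lift X φ j) (z : U) : φ z ∈ B X ↔ z ∈ B X :=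
  ⟨fun hz => by simpa [← AlgEquiv.mul_apply] using h.inv.mem_B hz, h.mem_B⟩

variable (X) in
lemma v_σ_pow (j : ℕ) (z : X.F) :
    X.v (algebraMap X.F U ((X.σ ^ j) z)) = X.v (algebraMap X.F U z) := by
  induction j with
  | zero => rfl
  | succ j ih => rw [pow_succ']; exact (X.vσ _).trans ih

lemma Lift.val {φ : Aut X} {j : ℕ} (h : Lift X φ j) {z : U} (hz : IsC z) :
    X.v (φ z) = X.v z := by
  obtain ⟨c, rfl⟩ := hz
  have halg : Algebra.IsAlgebraic X.F ℂ := ⟨X.algF⟩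
  by_cases hn : ∃ a : X.F, a ≠ 0 ∧ (X.v.comap (algebraMap X.F U)) a ≠ 1
  · have := Gal.ext_unique (L := ℂ) (X.v.comap (algebraMap X.F U)) hn X.cpl
      (X.v.comap ((φ : U →+* U).comp (algebraMap ℂ U))) (X.v.comap (algebraMap ℂ U))
      (fun a => by
        change X.v (φ (algebraMap X.F U a)) = X.v (algebraMap X.F U a)
        rw [h.map_F, v_σ_pow]) (fun _ => rfl)
    exact congrArg (fun u : Valuation ℂ ℝ≥0 => u c) this
  · push Not at hn
    have h1 : ∀ z : U, IsC z → z ≠ 0 → X.v z = 1 := by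
      rintro _ ⟨c, rfl⟩ h0
      obtain ⟨z, hz⟩ := X.vgrp c
      rw [← hz, algC_eq_algF]
      refine hn _ fun h2 => ?_
      rw [algC_eq_algF, h2, map_zero, map_zero] at hz
      exact h0 (by simpa using hz.symm)
    by_cases h0 : algebraMap ℂ U c = 0
    · rw [h0, map_zero]
    · rw [h1 _ ⟨c, rfl⟩ h0, h1 _ (h.isC ⟨c, rfl⟩) (by simpa using h0)]

variable (X) in
lemma alg_Fx : Algebra.IsAlgebraic X.F⟮X.x⟯ U := W3.alg_adjoin X.algF X.alg

variable (X) in
lemma alg_EF : Algebra.IsAlgebraic (EF X) U := by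
  have := alg_Fx X
  refine ⟨fun z => ?_⟩
  have hle : X.F⟮X.x⟯.toSubfield ≤ (EF X).toSubfield := by
    rw [IntermediateField.adjoin_toSubfield, Subfield.closure_le]
    rintro w (⟨c, rfl⟩ | rfl)
    · exact F_mem_EF X c
    · exact x_mem_EF X
  obtain ⟨f, hf, hfz⟩ := Algebra.IsAlgebraic.isAlgebraic (R := X.F⟮X.x⟯) z
  let ι : X.F⟮X.x⟯ →+* EF X := (algebraMap X.F⟮X.x⟯ U).codRestrict (EF X) fun w => hle w.2
  refine ⟨f.map ι, (Polynomial.map_ne_zero_iff (RingHom.injective _)).2 hf, ?_⟩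
  rw [Polynomial.aeval_def, Polynomial.eval₂_map]
  exact hfz

variable (X) in
lemma alg_B : Algebra.IsAlgebraic (B X) U := by
  have := X.alg
  refine ⟨fun z => ?_⟩
  have hle : ℂ⟮X.x⟯ ≤ B X := IntermediateField.adjoin.mono _ _ _ (by simp)
  obtain ⟨f, hf, hfz⟩ := Algebra.IsAlgebraic.isAlgebraic (R := ℂ⟮X.x⟯) z
  refine ⟨f.map (IntermediateField.inclusion hle : ℂ⟮X.x⟯ →+* B X),
    (Polynomial.map_ne_zero_iff (RingHom.injective _)).2 hf, ?_⟩
  rw [Polynomial.aeval_def, Polynomial.eval₂_map]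
  exact hfz

/-- intertwining of two derivations by a homomorphism can be checked on `F` and `x` -/
lemma der_conj (τ : U →+* U) (i i' : Fin n)
    (hF : ∀ z : X.F, τ (X.D i (algebraMap X.F U z)) = X.D i' (τ (algebraMap X.F U z)))
    (hx : X.D i' (τ X.x) = 0) (z : U) : τ (X.D i z) = X.D i' (τ z) := by
  have := charZero_U U
  have h := W3.leib_zero (W3.trans_of (K := ℂ) X.trans) (alg_Fx X) τ
    (τ.toAddMonoidHom.comp (X.D i).toLinearMap.toAddMonoidHom -
      (X.D i').toLinearMap.toAddMonoidHom.comp τ.toAddMonoidHom)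
    (fun a b => by
      simp only [AddMonoidHom.sub_apply, AddMonoidHom.comp_apply, RingHom.toAddMonoidHom_eq_coe,
        AddMonoidHom.coe_coe, LinearMap.toAddMonoidHom_coe, Derivation.coeFn_coe,
        Derivation.leibniz, map_add, map_mul, smul_eq_mul]
      ring)
    (fun c => sub_eq_zero.2 (hF c))
    (by
      change τ (X.D i X.x) - X.D i' (τ X.x) = 0
      rw [X.Dx, map_zero, hx, sub_zero]) z
  exact sub_eq_zero.1 h

lemma Lift.der {φ : Aut X} (h : Lift X φ 1) (i : Fin n) (z : U) :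
    φ (X.D i z) = X.D (i + 1) (φ z) := by
  refine der_conj (φ : U →+* U) i (i + 1) (fun c => ?_) ?_ z
  · obtain ⟨c', hc'⟩ := X.DF i c
    change φ _ = X.D (i + 1) (φ _)
    rw [h.F c, pow_one, ← X.gD, hc', h.F, pow_one]
  · change X.D (i + 1) (φ _) = 0
    rw [h.x, pow_one, ← X.gD, X.Dx, map_zero]

lemma Lift.der_zero {φ : Aut X} (h : Lift X φ 0) (i : Fin n) (z : U) :
    φ (X.D i z) = X.D i (φ z) := by
  refine der_conj (φ : U →+* U) i i (fun c => ?_) ?_ z
  · obtain ⟨c', hc'⟩ := X.DF i c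
    change φ _ = X.D i (φ _)
    rw [h.fix (F_mem_EF X c), hc', h.fix (F_mem_EF X c')]
  · change X.D i (φ _) = 0
    rw [h.fix (x_mem_EF X), X.Dx]

variable (X) in
/-- subfields between `F` and `ℂ` are stable under the derivations -/
lemma der_mem (S : Subfield U) (hF : ∀ z : X.F, algebraMap X.F U z ∈ S) (i : Fin n) {z : U}
    (hz : z ∈ S) (hc : IsC z) : X.D i z ∈ S := by
  refine Log.deriv_mem (K := X.F) (X.D i) (S.toIntermediateField hF) (fun a => ?_) hz ?_
  · obtain ⟨a', ha'⟩ := X.DF i a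
    rw [ha']
    exact hF a'
  · exact PerfectField.separable_of_irreducible
      (minpoly.irreducible ((isC_iff X).1 hc).isIntegral)

variable (X) in
lemma der_isC (i : Fin n) {z : U} (hz : IsC z) : IsC (X.D i z) :=
  der_mem X (algebraMap ℂ U).fieldRange (fun z => ⟨z, rfl⟩) i hz hz

lemma Lift.pt {φ : Aut X} {j : ℕ} (h : Lift X φ j) :
    Point.map (φ : U →ₐ[X.C] U) (Point.some _ _ X.ns) =
      Point.some _ _ X.ns - j • Point.baseChange X.C U X.P := by
  rw [← g_pow_pt, Point.map_some, Point.map_some, Point.some.injEq]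
  exact ⟨h.x, h.y⟩

variable (X) in
lemma g_pow_ptO (j : ℕ) (i : Fin n) : ∃ i',
    Point.map ((X.g ^ j : Aut X) : U →ₐ[X.C] U) (Point.some _ _ (X.nsO i)) +
      j • Point.baseChange X.C U X.P = Point.some _ _ (X.nsO i') := by
  induction j with
  | zero => exact ⟨i, by simp [Point.map_some]⟩
  | succ j ih =>
    obtain ⟨i', hi'⟩ := ih
    refine ⟨i' + 1, ?_⟩
    have h1 : ((X.g ^ (j + 1) : Aut X) : U →ₐ[X.C] U) =
        (X.g : U →ₐ[X.C] U).comp ((X.g ^ j : Aut X) : U →ₐ[X.C] U) := by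
      rw [pow_succ']; rfl
    rw [h1, ← Point.map_map, ← X.gO i', ← hi', map_add, map_nsmul, Point.map_baseChange,
      succ_nsmul, add_assoc]

lemma Lift.ptO {φ : Aut X} {j : ℕ} (h : Lift X φ j) (i : Fin n) : ∃ i',
    Point.map (φ : U →ₐ[X.C] U) (Point.some _ _ (X.nsO i)) +
      j • Point.baseChange X.C U X.P = Point.some _ _ (X.nsO i') := by
  obtain ⟨i', hi'⟩ := g_pow_ptO X j i
  refine ⟨i', ?_⟩
  rw [← hi', Point.map_some, Point.map_some]
  congr 2
  · exact h.F _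
  · exact h.F _

variable (X) in
lemma root_mem (ζ : ℂ) (m : ℕ) (hm : 0 < m) (hζ : ζ ^ m = 1) : ζ ∈ X.C := by
  have := X.Cac
  have h1 : IsIntegral X.C ζ := by
    refine ⟨Polynomial.X ^ m - 1, Polynomial.monic_X_pow_sub_C 1 hm.ne', ?_⟩
    simp [hζ]
  obtain ⟨c, hc⟩ := minpoly.mem_range_of_degree_eq_one X.C ζ
    (IsAlgClosed.degree_eq_one_of_irreducible X.C (minpoly.irreducible h1))
  rw [← hc]
  exact c.2

variable (X) in
lemma aC_inj : Function.Injective (aC X) := by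
  intro i j hij
  by_contra hne
  have h1 : X.a i = X.a j := Subtype.ext hij
  have h2 := X.big i
  rw [h1, X.Da j i hne, map_zero] at h2
  exact not_lt_zero h2

variable (X) in
/-- **the basic properties of lifts** -/
theorem liftApi : LiftApi X where
  one := ⟨fun _ => rfl, rfl, rfl⟩
  g := by simpa using lift_pow X 1
  mul _ _ _ _ := Lift.mul
  mod _ _ _ := Lift.mod
  inv _ _ := Lift.inv
  geo _ := Geo.lift
  isC _ _ := Lift.isC_iff
  memB _ _ := Lift.mem_B_iff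
  val _ _ h _ := h.val
  der _ := Lift.der
  derC i _ := der_isC X i
  pt _ _ := Lift.pt
  ptO _ _ := Lift.ptO
  root := root_mem X
  alg := alg_B X
  inj := aC_inj X

variable (X) in
/-- the orbits of the lifts are finite -/
theorem finite_orbit (z : U) : {w : U | ∃ (φ : Aut X) (j : ℕ), Lift X φ j ∧ φ z = w}.Finite := by
  have := alg_EF X
  obtain ⟨f, hf, hfz⟩ := Algebra.IsAlgebraic.isAlgebraic (R := EF X) z
  let F : ℕ → U[X] := fun j =>
    f.map (((X.g ^ j : Aut X) : U →+* U).comp (algebraMap (EF X) U))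
  have hF : ∀ j, F j ≠ 0 := fun j => (Polynomial.map_ne_zero_iff (RingHom.injective _)).2 hf
  refine ((Set.finite_Iio n).biUnion fun j _ => (F j).roots.toFinset.finite_toSet).subset ?_
  rintro _ ⟨φ, j, h, rfl⟩
  have h' : Lift X φ (j % n) := h.mod (Nat.mod_modEq j n).symm
  refine Set.mem_biUnion (Nat.mod_lt j (Nat.pos_of_ne_zero (NeZero.ne n))) ?_
  rw [Finset.mem_coe, Multiset.mem_toFinset, Polynomial.mem_roots (hF _), Polynomial.IsRoot.def,
    Polynomial.eval_map]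
  have h1 := congrArg (φ : U →+* U) hfz
  rw [Polynomial.aeval_def, Polynomial.hom_eval₂, map_zero] at h1
  rw [← h1]
  congr 1
  ext c
  exact (h'.eq_on c.2).symm

end Crest.Agent.T170.Ds
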