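import Crest.Agent.T170.DsCan_79
import Crest.Agent.T170.W3_90
import Crest.Agent.T170.LogB_89

/-!
# Row 170 (helper79): `LiftApi` for every world
-/

set_option autoImplicit false

namespace Crest.Agent.T170.Ds79

open Crest.Agent.T170.Fr Crest.Agent.T170.Pl Crest.Agent.T170.Ds

variable {p n : ℕ} [NeZero n] {U : Type} [Field U] [Algebra ℂ U] {X : World p n U}

/-- admissible automorphisms are isometries on `ℂ` (no hypothesis on `p`) -/
theorem adm_v_const {h : U ≃+* U} {k : ℕ} (H : X.Adm k h) (c : ℂ) :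
    X.v (h (algebraMap ℂ U c)) = X.v (algebraMap ℂ U c) := by
  have : Algebra.IsAlgebraic X.F ℂ := ⟨X.algF⟩
  by_cases hn : ∃ z : X.F, z ≠ 0 ∧ X.v.comap (algebraMap X.F U) z ≠ 1
  · rw [H.hτ]
    refine Gal.val_equiv (X.v.comap (algebraMap X.F U)) hn X.cpl
      (X.v.comap (algebraMap ℂ U)) (fun _ => rfl) (H.τ : ℂ →+* ℂ) (fun z => ?_) c
    change X.v (algebraMap ℂ U (H.τ z)) = _
    rw [← H.hτ]
    exact H.v_F z
  · have h1 : ∀ c : ℂ, c ≠ 0 → X.v (algebraMap ℂ U c) = 1 := fun c hc => by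
      obtain ⟨m, hm, a, ha⟩ := Gal.exists_pow_val_eq (X.v.comap (algebraMap ℂ U)) (X.algF c)
      have ha0 : a ≠ 0 := by
        rintro rfl
        rw [map_zero, map_zero] at ha
        exact hc (by simpa [hm.ne'] using ha)
      have h2 : X.v.comap (algebraMap X.F U) a = 1 := by
        by_contra h3
        exact hn ⟨a, ha0, h3⟩
      exact (pow_eq_one_iff_of_nonneg zero_le hm.ne').1 (ha.trans h2)
    by_cases hc : c = 0
    · rw [hc, map_zero, map_zero]
    · rw [H.hτ, h1 c hc, h1 _ ((map_ne_zero _).2 hc)]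

theorem adm_der {h : U ≃+* U} (H : X.Adm 1 h) (i : Fin n) (z : U) :
    h (X.D i z) = X.D (i + 1) (h z) := by
  have : CharZero U := charZero_of_injective_algebraMap (algebraMap ℂ U).injective
  have hF : ∀ z : X.F, h (algebraMap X.F U z) = X.g (algebraMap X.F U z) := fun z => by
    rw [H.hF, pow_one, X.gσ]
  have hx : h X.x = X.g X.x := by rw [H.hx, pow_one]
  rw [← sub_eq_zero]
  refine W3.leib_zero (W3.trans_of (F := X.F) X.trans) (W3.alg_adjoin X.algF X.alg)
    (h : U →+* U)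
    (((h : U →+* U).toAddMonoidHom.comp (X.D i).toLinearMap.toAddMonoidHom) -
      (X.D (i + 1)).toLinearMap.toAddMonoidHom.comp (h : U →+* U).toAddMonoidHom)
    (fun a b => ?_) (fun c => ?_) ?_ z
  · change h (X.D i (a * b)) - X.D (i + 1) (h (a * b)) =
      h a * (h (X.D i b) - X.D (i + 1) (h b)) + h b * (h (X.D i a) - X.D (i + 1) (h a))
    simp only [map_mul, map_add, Derivation.leibniz, smul_eq_mul]
    ring
  · change h (X.D i _) - X.D (i + 1) (h _) = 0
    obtain ⟨c', hc'⟩ := X.DF i c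
    rw [hF, ← X.gD, hc', hF, sub_self]
  · change h (X.D i _) - X.D (i + 1) (h _) = 0
    rw [hx, ← X.gD, X.Dx, map_zero, map_zero, sub_self]

theorem der_const (X : World p n U) (i : Fin n) (c : ℂ) :
    ∃ c' : ℂ, algebraMap ℂ U c' = X.D i (algebraMap ℂ U c) := by
  have : Algebra.IsAlgebraic X.F ℂ := ⟨X.algF⟩
  refine Log.deriv_mem (X.D i) (IsScalarTower.toAlgHom X.F ℂ U).fieldRange (fun a => ?_)
    ⟨c, rfl⟩ ((Algebra.IsSeparable.isSeparable X.F c).map (IsScalarTower.toAlgHom X.F ℂ U)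
      (algebraMap ℂ U).injective)
  obtain ⟨a', ha'⟩ := X.DF i a
  exact ⟨a', ha'.symm⟩

theorem liftApi (X : World p n U) : LiftApi X where
  one := lift_of_adm World.adm_refl
  g := lift_of_adm World.adm_g
  mul _ _ _ _ h h' := lift_of_adm ((adm_of_lift h).mul (adm_of_lift h'))
  mod _ _ _ h e := lift_of_adm ((adm_of_lift h).of_modEq e)
  inv _ _ h := by rw [mul_comm]; exact lift_of_adm (adm_of_lift h).symm
  geo _ h := ⟨fun z => h.C z, h.x, h.y⟩
  isC _ _ h z := ⟨fun ⟨c, hc⟩ => by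
      obtain ⟨c', hc'⟩ := (adm_of_lift h).symm.exists_const c
      exact ⟨c', by rw [hc', hc]; exact RingEquiv.symm_apply_apply _ z⟩,
    fun ⟨c, hc⟩ => hc ▸ (adm_of_lift h).exists_const c⟩
  memB _ _ h := (adm_of_lift h).mem_B
  val _ _ h _ := fun ⟨c, hc⟩ => hc ▸ adm_v_const (adm_of_lift h) c
  der _ h := adm_der (adm_of_lift h)
  derC i _ := fun ⟨c, hc⟩ => hc ▸ der_const X i c
  pt _ _ h := (adm_of_lift h).ξ
  ptO _ _ h i := ⟨_, (adm_of_lift h).O i⟩
  root ζ m hm hζ := by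
    have := X.Cac
    obtain ⟨c, rfl⟩ := mem_range_of_isAlgebraic (A := X.C)
      (IsAlgebraic.of_pow hm (by rw [hζ]; exact isAlgebraic_one))
    exact c.2
  alg := X.algB
  inj := X.aC_injective

end Crest.Agent.T170.Ds79
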