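import Crest.Agent.T170.RetGDefs_90

/-!
# Row 170, module C (helper83): valuations from meromorphic germs

* `exists_ext`  : extension of a ring homomorphism to a field of quotients;
* `Gm`, `ordG`, `rot` : germs at `0`, their order, the rotation `q ↦ ζ q`;
* `exists_val`  : a Puiseux parametrisation `(X, T)` of a model gives a valuation with `Rot`.
-/

set_option autoImplicit false

open Polynomial Filter Topology

noncomputable section

namespace Crest.Agent.T170.Ret.Loc83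

lemma exists_ext {R N F : Type*} [CommRing R] [Field N] [CommRing F] (φ : R →+* N) (ψ : R →+* F)
    (hker : ∀ r, φ r = 0 → ψ r = 0)
    (hgen : ∀ f, ∃ b a : R, IsUnit (ψ b) ∧ φ b * f = φ a) :
    ∃ ι : N →+* F, ∀ r, ι (φ r) = ψ r := by
  choose b a hb hab using hgen
  let J : N → F := fun f => ((hb f).unit⁻¹ : Fˣ) * ψ (a f)
  have key : ∀ f b' a', φ b' * f = φ a' → ψ b' * J f = ψ a' := by
    intro f b' a' h
    have h1 : ψ (b' * a f - b f * a') = 0 := by
      apply hker
      rw [map_sub, map_mul, map_mul, ← hab f, ← h]; ring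
    rw [map_sub, map_mul, map_mul, sub_eq_zero] at h1
    have h2 : (((hb f).unit⁻¹ : Fˣ) : F) * ψ (b f) = 1 := (hb f).val_inv_mul
    calc ψ b' * J f = (((hb f).unit⁻¹ : Fˣ) : F) * (ψ b' * ψ (a f)) := by simp only [J]; ring
      _ = ((((hb f).unit⁻¹ : Fˣ) : F) * ψ (b f)) * ψ a' := by rw [h1]; ring
      _ = ψ a' := by rw [h2, one_mul]
  have k1 : ∀ r, J (φ r) = ψ r := fun r => by
    have := key (φ r) 1 r (by simp)
    simpa using this
  refine ⟨{ toFun := J
            map_one' := by simpa using k1 1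
            map_zero' := by simpa using k1 0
            map_mul' := fun f f' => ?_
            map_add' := fun f f' => ?_ }, k1⟩
  · have h := key (f * f') (b f * b f') (a f * a f') (by
      rw [map_mul, map_mul, ← hab f, ← hab f']; ring)
    apply ((hb f).mul (hb f')).mul_left_cancel
    rw [← map_mul, h, map_mul, map_mul, ← key f _ _ (hab f), ← key f' _ _ (hab f')]; ring
  · have h := key (f + f') (b f * b f') (a f * b f' + a f' * b f) (by
      rw [map_add, map_mul, map_mul, map_mul, ← hab f, ← hab f']; ring)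
    apply ((hb f).mul (hb f')).mul_left_cancel
    rw [← map_mul, h, map_add, map_mul, map_mul, map_mul, ← key f _ _ (hab f),
      ← key f' _ _ (hab f')]; ring

/-- germs of functions on punctured neighbourhoods of `0` -/
abbrev Gm : Type := Filter.Germ (𝓝[≠] (0 : ℂ)) ℂ

/-- the order of a germ -/
def ordG (γ : Gm) : WithTop ℤ :=
  γ.liftOn (fun F => meromorphicOrderAt F 0) (fun _ _ h => meromorphicOrderAt_congr h)

@[simp] lemma ordG_coe (F : ℂ → ℂ) : ordG (F : Gm) = meromorphicOrderAt F 0 := rfl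

/-- meromorphic germs -/
def IsMer (γ : Gm) : Prop := ∃ F : ℂ → ℂ, MeromorphicAt F 0 ∧ (F : Gm) = γ

lemma tendsto_rot {ζ : ℂ} (hζ : ζ ≠ 0) :
    Tendsto (fun q : ℂ => ζ * q) (𝓝[≠] (0 : ℂ)) (𝓝[≠] (0 : ℂ)) := by
  apply tendsto_nhdsWithin_of_tendsto_nhds_of_eventually_within
  · have : Tendsto (fun q : ℂ => ζ * q) (𝓝 0) (𝓝 (ζ * 0)) :=
      (continuous_const.mul continuous_id).tendsto 0
    rw [mul_zero] at this
    exact this.mono_left nhdsWithin_le_nhds
  · filter_upwards [self_mem_nhdsWithin] with q hq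
    exact mul_ne_zero hζ hq

/-- the rotation of germs -/
def rot {ζ : ℂ} (hζ : ζ ≠ 0) : Gm →+* Gm where
  toFun γ := γ.compTendsto (fun q => ζ * q) (tendsto_rot hζ)
  map_one' := rfl
  map_zero' := rfl
  map_mul' γ γ' := by
    induction γ using Filter.Germ.inductionOn
    induction γ' using Filter.Germ.inductionOn
    rfl
  map_add' γ γ' := by
    induction γ using Filter.Germ.inductionOn
    induction γ' using Filter.Germ.inductionOn
    rfl

lemma rot_coe {ζ : ℂ} (hζ : ζ ≠ 0) (F : ℂ → ℂ) :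
    rot hζ (F : Gm) = ((fun q => F (ζ * q) : ℂ → ℂ) : Gm) := rfl

/-- the valuation of an embedding into meromorphic germs -/
def mkVal {N : Type*} [Field N] (ι : N →+* Gm) (h : ∀ f, IsMer (ι f)) : AV N :=
  AddValuation.of (fun f => ordG (ι f))
    (by
      rw [map_zero]
      change meromorphicOrderAt (fun _ : ℂ => (0 : ℂ)) 0 = ⊤
      rw [meromorphicOrderAt_eq_top_iff]; simp)
    (by
      classical
      rw [map_one]
      change meromorphicOrderAt (fun _ : ℂ => (1 : ℂ)) 0 = 0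
      rw [meromorphicOrderAt_const]; simp)
    (fun f f' => by
      obtain ⟨F, hF, e⟩ := h f
      obtain ⟨F', hF', e'⟩ := h f'
      rw [map_add, ← e, ← e']
      exact meromorphicOrderAt_add hF hF')
    (fun f f' => by
      obtain ⟨F, hF, e⟩ := h f
      obtain ⟨F', hF', e'⟩ := h f'
      rw [map_mul, ← e, ← e']
      exact meromorphicOrderAt_mul hF hF')

lemma mkVal_apply {N : Type*} [Field N] (ι : N →+* Gm) (h : ∀ f, IsMer (ι f)) (f : N) :
    mkVal ι h f = ordG (ι f) := rfl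

/-- the rotation acts on the leading term by `ζ ^ k` -/
lemma lt_ord_rot {ζ : ℂ} (hζ : ζ ≠ 0) {F : ℂ → ℂ} (hF : MeromorphicAt F 0) {k : ℤ}
    (hk : meromorphicOrderAt F 0 = (k : WithTop ℤ)) :
    (k : WithTop ℤ) < meromorphicOrderAt (fun q => F (ζ * q) - ζ ^ k * F q) 0 := by
  obtain ⟨G, hG, -, hFG⟩ := (meromorphicOrderAt_eq_int_iff hF).1 hk
  have hG2 : AnalyticAt ℂ (fun q => G (ζ * q)) 0 := by
    refine AnalyticAt.comp (g := G) (f := fun q : ℂ => ζ * q) ?_ (by fun_prop)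
    simpa using hG
  have hH : AnalyticAt ℂ (fun q => ζ ^ k * (G (ζ * q) - G q)) 0 :=
    analyticAt_const.mul (hG2.sub hG)
  have hpos : 0 < meromorphicOrderAt (fun q => ζ ^ k * (G (ζ * q) - G q)) 0 := by
    rw [← tendsto_zero_iff_meromorphicOrderAt_pos hH.meromorphicAt]
    have := hH.continuousAt.tendsto
    simp only [mul_zero, sub_self] at this
    exact this.mono_left nhdsWithin_le_nhds
  have he : (fun q => F (ζ * q) - ζ ^ k * F q) =ᶠ[𝓝[≠] (0 : ℂ)]
      (fun q : ℂ => (q - 0) ^ k) * fun q => ζ ^ k * (G (ζ * q) - G q) := by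
    filter_upwards [hFG, (tendsto_rot hζ).eventually hFG] with q h1 h2
    simp only [Pi.mul_apply, sub_zero, smul_eq_mul] at h1 h2 ⊢
    rw [h1, h2, mul_zpow]; ring
  have hm : MeromorphicAt (fun q : ℂ => (q - 0) ^ k) 0 := by fun_prop
  rw [meromorphicOrderAt_congr he, meromorphicOrderAt_mul hm hH.meromorphicAt,
    fun_meromorphicOrderAt_zpow_id_sub_const]
  conv_lhs => rw [← add_zero (k : WithTop ℤ)]
  exact WithTop.add_lt_add_left WithTop.coe_ne_top hpos

lemma mer_eval {X : ℂ → ℂ} (hX : MeromorphicAt X 0) (B : ℂ[X]) :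
    MeromorphicAt (fun q => B.eval (X q)) 0 := by
  induction B using Polynomial.induction_on' with
  | add p q hp hq => simp only [eval_add]; exact hp.add hq
  | monomial n a =>
    simp only [eval_monomial]
    exact (MeromorphicAt.const a 0).mul (hX.pow n)

lemma mer_evalEval {X T : ℂ → ℂ} (hX : MeromorphicAt X 0) (hT : MeromorphicAt T 0)
    (B : ℂ[X][X]) : MeromorphicAt (fun q => B.evalEval (X q) (T q)) 0 := by
  induction B using Polynomial.induction_on' with
  | add p q hp hq => simp only [evalEval_add]; exact hp.add hq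
  | monomial n a =>
    simp only [← C_mul_X_pow_eq_monomial, evalEval_mul, evalEval_C, evalEval_pow, evalEval_X]
    exact (mer_eval hX a).mul (hT.pow n)

lemma eventually_eval_ne {X : ℂ → ℂ} (hX : ∀ b, ∀ᶠ q in 𝓝[≠] (0 : ℂ), X q ≠ b) {B : ℂ[X]}
    (hB : B ≠ 0) : ∀ᶠ q in 𝓝[≠] (0 : ℂ), B.eval (X q) ≠ 0 := by
  classical
  have := (Filter.eventually_all_finset B.roots.toFinset).2 fun b _ => hX b
  filter_upwards [this] with q hq h0
  exact hq (X q) (by rw [Multiset.mem_toFinset, mem_roots hB]; exact h0) rfl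

variable {K N : Type} [Field K] [Field N] [Algebra ℂ K] [Algebra K N] [FiniteDimensional K N]
  {x : K} {S : Finset ℂ}

/-- **a Puiseux parametrisation gives a valuation on which `g` acts by the rotation** -/
theorem exists_val (M : Model N x S) (g : N ≃ₐ[K] N) {ζ : ℂ}
    (hζ : ζ ≠ 0) {X T : ℂ → ℂ} (hX : MeromorphicAt X 0) (hT : MeromorphicAt T 0)
    (hXb : ∀ b, ∀ᶠ q in 𝓝[≠] (0 : ℂ), X q ≠ b)
    (hP : ∀ᶠ q in 𝓝[≠] (0 : ℂ), M.P.evalEval (X q) (T q) = 0)
    (hrX : ∀ᶠ q in 𝓝[≠] (0 : ℂ), X (ζ * q) = X q)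
    (hrT : ∀ᶠ q in 𝓝[≠] (0 : ℂ), T (ζ * q) = M.act g (X q) (T q)) :
    ∃ v : AV N, (∀ B : ℂ[X], v (xh N x B) = meromorphicOrderAt (fun q => B.eval (X q)) 0) ∧
      Rot v (algebraMap K N (algebraMap ℂ K ζ)) g := by
  let φ : ℂ[X][X] →+* N := eval₂RingHom (xh N x) M.θ
  let ψ : ℂ[X][X] →+* Gm := (Filter.Germ.coeRingHom (𝓝[≠] (0 : ℂ))).comp
    (RingHom.pi fun q => evalEvalRingHom (X q) (T q))
  have hψ : ∀ B, ψ B = ((fun q => B.evalEval (X q) (T q) : ℂ → ℂ) : Gm) := fun B => rfl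
  have hφC : ∀ B : ℂ[X], φ (C B) = xh N x B := fun B => by simp [φ]
  have hψC : ∀ B : ℂ[X], ψ (C B) = ((fun q => B.eval (X q) : ℂ → ℂ) : Gm) := fun B => by
    rw [hψ]; simp only [evalEval_C]
  have hker : ∀ r, φ r = 0 → ψ r = 0 := by
    intro r hr
    obtain ⟨c, rfl⟩ := M.ker r hr
    rw [hψ]
    apply Filter.Germ.coe_eq.2
    filter_upwards [hP] with q hq
    simp [evalEval_mul, hq]
  have hinv : ∀ B : ℂ[X], B ≠ 0 →
      ((fun q => (B.eval (X q))⁻¹ : ℂ → ℂ) : Gm) * ψ (C B) = 1 := by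
    intro B hB
    rw [hψC]
    apply Filter.Germ.coe_eq.2
    filter_upwards [eventually_eval_ne hXb hB] with q hq
    simp [hq]
  have hgen : ∀ f, ∃ B : ℂ[X], B ≠ 0 ∧ ∃ a, φ (C B) * f = φ a := by
    intro f
    obtain ⟨B, hB, A', h⟩ := M.gen f
    exact ⟨B, hB, A', by rw [hφC]; exact h⟩
  obtain ⟨ι, hι⟩ := exists_ext φ ψ hker (fun f => by
    obtain ⟨B, hB, a, h⟩ := hgen f
    exact ⟨C B, a, IsUnit.of_mul_eq_one_right _ (hinv B hB), h⟩)
  have hrep : ∀ (f : N) (B : ℂ[X]) (a : ℂ[X][X]), B ≠ 0 → φ (C B) * f = φ a →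
      ι f = ((fun q => (B.eval (X q))⁻¹ * a.evalEval (X q) (T q) : ℂ → ℂ) : Gm) := by
    intro f B a hB h
    have h1 := congrArg ι h
    rw [map_mul, hι, hι] at h1
    calc ι f = (((fun q => (B.eval (X q))⁻¹ : ℂ → ℂ) : Gm) * ψ (C B)) * ι f := by
          rw [hinv B hB, one_mul]
      _ = ((fun q => (B.eval (X q))⁻¹ : ℂ → ℂ) : Gm) * ψ a := by rw [mul_assoc, h1]
      _ = _ := by rw [hψ]; rfl
  have hmer : ∀ f, IsMer (ι f) := by
    intro f
    obtain ⟨B, hB, a, h⟩ := hgen f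
    exact ⟨_, (mer_eval hX B).inv.mul (mer_evalEval hX hT a), (hrep f B a hB h).symm⟩
  -- `g` is the rotation
  have hgC : ∀ B : ℂ[X], g (xh N x B) = xh N x B := fun B => g.commutes _
  have hrotφ : ∀ r, ι (g (φ r)) = rot hζ (ι (φ r)) := by
    have h1 : (ι.comp (g : N →+* N)).comp φ = ((rot hζ).comp ι).comp φ := by
      apply Polynomial.ringHom_ext
      · intro B
        simp only [RingHom.comp_apply, RingHom.coe_coe]
        rw [hι, hφC, hgC, ← hφC, hι, hψC, rot_coe]
        apply Filter.Germ.coe_eq.2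
        filter_upwards [hrX] with q hq
        rw [hq]
      · simp only [RingHom.comp_apply, RingHom.coe_coe]
        have h2 : φ Polynomial.X = M.θ := by simp [φ]
        rw [hι, h2, hrep (g M.θ) M.d (M.A g) M.d_ne (by rw [hφC]; exact M.act_eq g), hψ, rot_coe]
        apply Filter.Germ.coe_eq.2
        filter_upwards [hrT] with q hq
        rw [evalEval_X, hq, Model.act, div_eq_inv_mul]
    intro r
    exact congrArg (fun (χ : ℂ[X][X] →+* Gm) => χ r) h1
  have hrot : ∀ f, ι (g f) = rot hζ (ι f) := by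
    intro f
    obtain ⟨B, hB, a, h⟩ := hgen f
    have hu : IsUnit (ψ (C B)) := IsUnit.of_mul_eq_one_right _ (hinv B hB)
    have h1 : ψ (C B) * ι (g f) = ι (g (φ a)) := by
      rw [← h, map_mul, map_mul, hφC, hgC, ← hφC, hι]
    have h2 : rot hζ (ψ (C B)) = ψ (C B) := by
      rw [← hι, ← hrotφ, hφC, hgC]
    have h3 : ψ (C B) * rot hζ (ι f) = ι (g (φ a)) := by
      rw [hrotφ, ← h, map_mul, map_mul, hι, h2]
    exact hu.mul_left_cancel (h1.trans h3.symm)
  refine ⟨mkVal ι hmer, fun B => ?_, fun f k hk => ?_⟩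
  · rw [mkVal_apply, ← hφC, hι, hψC, ordG_coe]
  · obtain ⟨F, hF, e⟩ := hmer f
    rw [mkVal_apply, ← e, ordG_coe] at hk
    have h1 : (algebraMap K N (algebraMap ℂ K ζ)) ^ k = xh N x (C (ζ ^ k)) := by
      rw [← map_zpow₀, ← map_zpow₀]
      simp [xh]
    rw [mkVal_apply, map_sub, map_mul, hrot, h1, ← hφC, hι, hψC, ← e, rot_coe]
    have := lt_ord_rot hζ hF hk
    simp only [eval_C]
    exact this

end Crest.Agent.T170.Ret.Loc83
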