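import Crest.Agent.T170.GLocA_83
import Crest.Agent.R257.AJ2_387

/-!
# Row 170, module C (helper83): the local monodromy is a canonical inertia generator

`locFin_of : CovStmt → LocFinStmt`, `locInf_of : CovStmt → LocInfStmt`.
-/

set_option autoImplicit false

open Polynomial Filter Topology Function.Periodic

noncomputable section

namespace Crest.Agent.T170.Ret.Loc83

lemma norm_root_le {p : ℂ[X]} (hp : p.Monic) {t : ℂ} (ht : p.eval t = 0) :
    ‖t‖ ≤ 1 + ∑ j ∈ Finset.range p.natDegree, ‖p.coeff j‖ := by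
  have h := Polynomial.IsRoot.norm_lt_cauchyBound hp.ne_zero ht
  rw [Polynomial.cauchyBound, hp.leadingCoeff, nnnorm_one, div_one] at h
  have h2 : (Finset.range p.natDegree).sup (fun j => ‖p.coeff j‖₊) ≤
      ∑ j ∈ Finset.range p.natDegree, ‖p.coeff j‖₊ :=
    Finset.sup_le fun j hj =>
      Finset.single_le_sum (f := fun j => ‖p.coeff j‖₊) (fun _ _ => zero_le) hj
  have h3 : ‖t‖₊ ≤ ∑ j ∈ Finset.range p.natDegree, ‖p.coeff j‖₊ + 1 :=
    h.le.trans (by gcongr)
  have h4 := NNReal.coe_le_coe.2 h3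
  simp only [coe_nnnorm, NNReal.coe_add, NNReal.coe_sum, NNReal.coe_one] at h4
  linarith

lemma eventually_tendsto_pow_mul {c : ℂ → ℂ} (hc : MeromorphicAt c 0) :
    ∀ᶠ k : ℕ in atTop, Tendsto (fun q : ℂ => q ^ k * c q) (𝓝[≠] 0) (𝓝 0) := by
  obtain ⟨n, hn⟩ := hc
  filter_upwards [eventually_gt_atTop n] with k hk
  obtain ⟨j, rfl⟩ := Nat.exists_eq_add_of_lt hk
  have h1 : Tendsto (fun q : ℂ => q ^ (j + 1) * ((q - 0) ^ n • c q)) (𝓝 0)
      (𝓝 ((0 : ℂ) ^ (j + 1) * (((0 : ℂ) - 0) ^ n • c 0))) :=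
    ((continuous_pow (j + 1)).tendsto 0).mul hn.continuousAt.tendsto
  rw [zero_pow (Nat.succ_ne_zero j), zero_mul] at h1
  refine (h1.mono_left nhdsWithin_le_nhds).congr fun q => ?_
  simp only [sub_zero, smul_eq_mul]; ring

/-- a holomorphic root of a monic polynomial with meromorphic coefficients is meromorphic -/
lemma mer_of_root {Q : ℂ → ℂ[X]} {D : ℕ} (hm : ∀ q, (Q q).Monic) (hd : ∀ q, (Q q).natDegree = D)
    (hc : ∀ j, MeromorphicAt (fun q => (Q q).coeff j) 0) {T : ℂ → ℂ}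
    (hT : ∀ᶠ q in 𝓝[≠] (0 : ℂ), DifferentiableAt ℂ T q)
    (hr : ∀ᶠ q in 𝓝[≠] (0 : ℂ), (Q q).eval (T q) = 0) : MeromorphicAt T 0 := by
  have h1 : ∀ᶠ k : ℕ in atTop, 0 < k ∧ ∀ j ∈ Finset.range D,
      Tendsto (fun q : ℂ => q ^ k * (Q q).coeff j) (𝓝[≠] 0) (𝓝 0) :=
    (eventually_gt_atTop 0).and
      ((Filter.eventually_all_finset _).2 fun j _ => eventually_tendsto_pow_mul (hc j))
  obtain ⟨k, hk, hj⟩ := h1.exists
  refine ⟨k, ?_⟩
  apply Complex.analyticAt_of_differentiable_on_punctured_nhds_of_continuousAt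
  · filter_upwards [hT] with q hq
    exact (((differentiableAt_id.sub_const 0).pow k)).smul hq
  · rw [continuousAt_iff_punctured_nhds]
    simp only [sub_zero, smul_eq_mul, zero_pow hk.ne', zero_mul]
    have h2 : Tendsto (fun q : ℂ => ‖q ^ k‖ + ∑ j ∈ Finset.range D, ‖q ^ k * (Q q).coeff j‖)
        (𝓝[≠] 0) (𝓝 (‖(0 : ℂ) ^ k‖ + ∑ _j ∈ Finset.range D, ‖(0 : ℂ)‖)) :=
      ((((continuous_pow k).tendsto 0).mono_left nhdsWithin_le_nhds).norm).add
        (tendsto_finsetSum _ fun j hj' => (hj j hj').norm)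
    simp only [zero_pow hk.ne', norm_zero, Finset.sum_const_zero, add_zero] at h2
    refine squeeze_zero_norm' ?_ h2
    filter_upwards [hr] with q hq
    have h3 := norm_root_le (hm q) hq
    rw [hd q] at h3
    rw [norm_mul]
    calc ‖q ^ k‖ * ‖T q‖ ≤ ‖q ^ k‖ * (1 + ∑ j ∈ Finset.range D, ‖(Q q).coeff j‖) := by gcongr
      _ = _ := by simp only [mul_add, mul_one, Finset.mul_sum, norm_mul]

lemma ee_add_one (w : ℂ) : ee (w + 1) = ee w := by
  rw [ee, ee, mul_add, Complex.exp_add, mul_one, Complex.exp_two_pi_mul_I, mul_one]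

lemma qParam_pow {n : ℕ} (hn : 0 < n) (w : ℂ) : qParam (n : ℝ) w ^ n = ee w := by
  rw [qParam, ee, ← Complex.exp_nat_mul]
  congr 1
  have : (n : ℂ) ≠ 0 := Nat.cast_ne_zero.2 hn.ne'
  push_cast
  field_simp

lemma zt_mul_qParam (n : ℕ) (w : ℂ) : zt n * qParam (n : ℝ) w = qParam (n : ℝ) (w + 1) := by
  rw [qParam, qParam, zt, ← Complex.exp_add]
  congr 1
  push_cast
  ring

lemma zt_pow {n : ℕ} (hn : 0 < n) : zt n ^ n = 1 := by
  rw [zt, ← Complex.exp_nat_mul]
  have : (n : ℂ) ≠ 0 := Nat.cast_ne_zero.2 hn.ne'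
  rw [mul_div_cancel₀ _ this, Complex.exp_two_pi_mul_I]

lemma zt_ne (n : ℕ) : zt n ≠ 0 := Complex.exp_ne_zero _

lemma IsCov.act_one {H : Type} [Group H] {Z : Set ℂ} {D : ℕ} {Q : ℂ → ℂ[X]}
    {act : H → ℂ → ℂ → ℂ} (h : IsCov Z D Q act) {z t : ℂ} (hz : z ∉ Z) (ht : (Q z).eval t = 0) :
    act 1 z t = t := by
  obtain ⟨g, hg⟩ := h.trans z t t hz ht ht
  have h1 : act g z t = act (g * g) z t := by
    rw [← h.act_mul g g z t hz ht, ← hg, ← hg]
  have h2 := h.free _ _ z t hz ht h1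
  have h3 : g = 1 := by simpa using h2
  rw [← h3, ← hg]

lemma analyticAt_eval {E : ℂ → ℂ} {w : ℂ} (hE : AnalyticAt ℂ E w) (B : ℂ[X]) :
    AnalyticAt ℂ (fun q => B.eval (E q)) w :=
  AnalyticAt.comp (g := fun z => B.eval z) (B.differentiable.analyticAt _) hE

variable {K N : Type} [Field K] [Field N] [Algebra ℂ K] [Algebra K N] [FiniteDimensional K N]
  {x : K} {S : Finset ℂ}

/-- the Puiseux parametrisation given by a periodic root -/
theorem exists_val_of_per (M : Model N x S) (hcov : IsCov M.Z M.P.natDegree M.Q M.act)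
    {n : ℕ} (hn : 0 < n) {g : N ≃ₐ[K] N} (hg : g ^ n = 1) {p : ℂ → ℂ}
    (hp : ∀ e, e ≠ 0 → AnalyticAt ℂ p e) (hX : MeromorphicAt (fun q => p (q ^ n)) 0)
    (hXb : ∀ b, ∀ᶠ q in 𝓝[≠] (0 : ℂ), p (q ^ n) ≠ b) (hper : Per M.Z M.Q M.act p g) :
    ∃ v : AV N, (∀ B : ℂ[X], v (xh N x B) = meromorphicOrderAt (fun q => B.eval (p (q ^ n))) 0) ∧
      Rot v (algebraMap K N (algebraMap ℂ K (zt n))) g := by
  classical
  obtain ⟨ρ, τ, h⟩ := hper
  have hnR : (0 : ℝ) < n := Nat.cast_pos.2 hn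
  have hQ : ∀ z t, (M.Q z).eval t = M.P.evalEval z t := fun z t => map_evalRingHom_eval z t M.P
  -- iteration
  have hit : ∀ w : ℂ, ρ < w.im → ∀ k : ℕ, ee (w + k) = ee w ∧
      τ (w + k) = M.act (g ^ k) (p (ee w)) (τ w) := by
    intro w hw k
    obtain ⟨-, hZ, hr, -⟩ := h w hw
    induction k with
    | zero => simpa using (IsCov.act_one hcov hZ hr).symm
    | succ k ih =>
      have hw' : ρ < (w + k).im := by simpa using hw
      obtain ⟨-, -, -, h4⟩ := h (w + k) hw'
      rw [Nat.cast_succ, ← add_assoc, ee_add_one, h4, ih.1, ih.2, hcov.act_mul _ _ _ _ hZ hr,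
        pow_succ]
      exact ⟨rfl, rfl⟩
  let τ' : ℂ → ℂ := fun w => if ρ < w.im then τ w else 0
  have hτ' : ∀ w : ℂ, ρ < w.im → τ' w = τ w := fun w hw => if_pos hw
  have hperiod : Function.Periodic τ' ((n : ℝ) : ℂ) := by
    intro w
    have him : (w + ((n : ℝ) : ℂ)).im = w.im := by simp
    by_cases hw : ρ < w.im
    · rw [hτ' w hw, hτ' _ (by rwa [him]), Complex.ofReal_natCast, (hit w hw n).2, hg]
      exact IsCov.act_one hcov (h w hw).2.1 (h w hw).2.2.1
    · simp only [τ', him, if_neg hw]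
  have hopen : ∀ w : ℂ, ρ < w.im → ∀ᶠ w' in 𝓝 w, ρ < w'.im := fun w hw =>
    (isOpen_lt continuous_const Complex.continuous_im).mem_nhds hw
  have hdiff : ∀ w : ℂ, ρ < w.im → DifferentiableAt ℂ τ' w := by
    intro w hw
    have hE : AnalyticAt ℂ (fun w => p (ee w)) w := by
      refine AnalyticAt.comp (g := p) (hp _ (Complex.exp_ne_zero _)) ?_
      unfold ee; fun_prop
    have h1 : AnalyticAt ℂ τ w := by
      refine R257.AJ387.analyticAt_root (Q := fun w => M.Q (p (ee w))) (d := M.P.natDegree)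
        (Eventually.of_forall fun t => (hcov.deg _).le) (fun i => ?_) (h w hw).1 ?_ ?_
      · simp only [Model.Q, coeff_map, coe_evalRingHom]
        exact analyticAt_eval hE _
      · filter_upwards [hopen w hw] with w' hw' using (h w' hw').2.2.1
      · rw [Model.Q, derivative_map, map_evalRingHom_eval]
        exact M.simple _ _ (h w hw).2.1 (by rw [← hQ]; exact (h w hw).2.2.1)
    refine h1.differentiableAt.congr_of_eventuallyEq ?_
    filter_upwards [hopen w hw] with w' hw' using hτ' w' hw'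
  have hinf : ∀ᶠ w in comap Complex.im atTop, ρ < w.im :=
    preimage_mem_comap (Ioi_mem_atTop ρ)
  let T : ℂ → ℂ := cuspFunction (n : ℝ) τ'
  have hq : ∀ᶠ q in 𝓝[≠] (0 : ℂ), ∃ w : ℂ, ρ < w.im ∧ qParam (n : ℝ) w = q := by
    filter_upwards [(invQParam_tendsto hnR).eventually hinf, self_mem_nhdsWithin] with q h1 h2
    exact ⟨_, h1, qParam_right_inv hnR.ne' h2⟩
  have hT : ∀ w : ℂ, ρ < w.im → T (qParam (n : ℝ) w) = τ w := fun w hw => by
    rw [← hτ' w hw]; exact eq_cuspFunction hnR.ne' hperiod w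
  have hroot : ∀ᶠ q in 𝓝[≠] (0 : ℂ), (M.Q (p (q ^ n))).eval (T q) = 0 := by
    filter_upwards [hq] with q ⟨w, hw, e⟩
    rw [← e, hT w hw, qParam_pow hn]
    exact (h w hw).2.2.1
  have hTm : MeromorphicAt T 0 := by
    refine mer_of_root (Q := fun q => M.Q (p (q ^ n))) (D := M.P.natDegree)
      (fun q => hcov.monic _) (fun q => hcov.deg _) (fun j => ?_) ?_ hroot
    · simp only [Model.Q, coeff_map, coe_evalRingHom]
      exact mer_eval hX _
    · exact eventually_differentiableAt_cuspFunction_nhds_ne_zero hnR hperiod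
        (hinf.mono fun w hw => hdiff w hw)
  refine exists_val M g (zt_ne n) (X := fun q => p (q ^ n)) (T := T) hX hTm hXb ?_ ?_ ?_
  · filter_upwards [hroot] with q hq using by rwa [← hQ]
  · exact Eventually.of_forall fun q => by simp only [mul_pow, zt_pow hn, one_mul]
  · filter_upwards [hq] with q ⟨w, hw, e⟩
    rw [← e, zt_mul_qParam, hT _ (by simpa using hw), hT w hw, qParam_pow hn]
    exact (h w hw).2.2.2

lemma ord_const {c : ℂ} (hc : c ≠ 0) : meromorphicOrderAt (fun _ : ℂ => c) 0 = 0 := by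
  classical
  rw [meromorphicOrderAt_const, if_neg hc]

lemma ord_mul_zpow {μ : ℂ} (hμ : μ ≠ 0) (k : ℤ) :
    meromorphicOrderAt (fun q : ℂ => μ * q ^ k) 0 = (k : WithTop ℤ) := by
  have hm : MeromorphicAt (fun q : ℂ => μ * q ^ k) 0 := by fun_prop
  rw [meromorphicOrderAt_eq_int_iff hm]
  exact ⟨fun _ => μ, analyticAt_const, hμ, Eventually.of_forall fun q => by
    simp [mul_comm]⟩

lemma eventually_pow_ne {n : ℕ} (hn : 0 < n) {μ c : ℂ} (h : μ ≠ 0 ∨ c ≠ 0) :
    ∀ᶠ q in 𝓝[≠] (0 : ℂ), μ * q ^ n ≠ c := by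
  by_cases hc : c = 0
  · have hμ : μ ≠ 0 := h.resolve_right (not_not.2 hc)
    filter_upwards [self_mem_nhdsWithin] with q hq
    rw [hc]
    exact mul_ne_zero hμ (pow_ne_zero _ hq)
  · have h1 : Tendsto (fun q : ℂ => μ * q ^ n) (𝓝 0) (𝓝 (μ * 0 ^ n)) :=
      (continuous_const.mul (continuous_pow n)).tendsto 0
    rw [zero_pow hn.ne', mul_zero] at h1
    exact (h1.mono_left nhdsWithin_le_nhds).eventually_ne (Ne.symm hc)

omit [FiniteDimensional K N] in
lemma xh_C (c : ℂ) : xh N x (C c) = algebraMap K N (algebraMap ℂ K c) := by simp [xh]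

omit [FiniteDimensional K N] in
lemma xh_X : xh N x X = algebraMap K N x := by simp [xh]

omit [Algebra ℂ K] [FiniteDimensional K N] in
lemma comap_app (v : AV N) (f : K) : v.comap (algebraMap K N) f = v (algebraMap K N f) := rfl

/-- **local monodromy at a finite point** -/
theorem locFin_of (hcov : CovStmt) : LocFinStmt := by
  intro K N _ _ _ _ _ _ x hx S M n hn g hg a μ hμ hper
  obtain ⟨v, hv, hrot⟩ := exists_val_of_per M (hcov K N x hx S M) hn hg
    (p := fun e => a + μ * e) (fun e _ => by fun_prop) (by fun_prop) (fun b => by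
      filter_upwards [eventually_pow_ne hn (μ := μ) (c := b - a) (Or.inl hμ)] with q hq h
      exact hq (by rw [← h]; ring)) hper
  refine ⟨v.comap (algebraMap K N), ⟨fun c hc => ?_, ?_⟩, v, fun f => rfl, hrot⟩
  · rw [comap_app, ← xh_C (x := x), hv]
    simp only [eval_C]
    exact ord_const hc
  · have : algebraMap K N (x - algebraMap ℂ K a) = xh N x (X - C a) := by
      rw [map_sub, map_sub, xh_X, xh_C]
    rw [comap_app, this, hv, ← ord_mul_zpow hμ (n : ℤ)]
    congr 1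
    funext q
    simp

/-- **local monodromy at infinity** -/
theorem locInf_of (hcov : CovStmt) : LocInfStmt := by
  intro K N _ _ _ _ _ _ x hx S M n hn g hg μ hμ hper
  obtain ⟨v, hv, hrot⟩ := exists_val_of_per M (hcov K N x hx S M) hn hg
    (p := fun e => μ * e⁻¹) (fun e he => analyticAt_const.mul (analyticAt_id.inv he))
    (by fun_prop) (fun b => by
      filter_upwards [eventually_pow_ne hn (μ := b) (c := μ) (Or.inr hμ), self_mem_nhdsWithin]
        with q hq hq0 h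
      have : q ^ n ≠ 0 := pow_ne_zero _ hq0
      exact hq (by rw [← h]; field_simp)) hper
  refine ⟨v.comap (algebraMap K N), ⟨fun c hc => ?_, ?_⟩, v, fun f => rfl, hrot⟩
  · rw [comap_app, ← xh_C (x := x), hv]
    simp only [eval_C]
    exact ord_const hc
  · have h1 : v (algebraMap K N x) = ((-(n : ℤ) : ℤ) : WithTop ℤ) := by
      rw [← xh_X, hv, ← ord_mul_zpow hμ (-(n : ℤ))]
      congr 1
      funext q
      simp
    rw [comap_app, map_inv₀, AddValuation.map_inv, h1, ← WithTop.LinearOrderedAddCommGroup.coe_neg,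
      neg_neg]

end Crest.Agent.T170.Ret.Loc83

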