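import Crest.Agent.T170.Gaga_13
import Crest.Agent.T170.DM2_38

/-!
# Row 170 (T170): GAGA in the form `DM.Gaga` (helper13)

* `gaga'` : `gaga` without the hypothesis that the second sequence commutes with `x`;
* `dm_gaga` : `DM.Gaga ϖ L B₀ B₁` for a tower `K ≤ F = K(x) ≤ Φ ≤ N`;
* `dm_gaga_curve` : the same with `x ∈ Φ` (no separate type for `K(x)`).
-/

set_option autoImplicit false
open scoped BigOperators NNReal Topology IntermediateField
open Polynomial Filter

namespace Crest.Agent.T170.Gaga13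

section Main
variable {K F N : Type*} [Field K] [Field F] [Field N] [Algebra K F] [Algebra F N]
  [FiniteDimensional F N] [Algebra.IsSeparable F N]
  {v : Valuation K ℝ≥0} {w : Valuation F ℝ≥0} {x : F}

/-- **GAGA for operators** -/
theorem gaga' (hc : Cpl v) (hg : Gauss v w x) (hx : IntermediateField.adjoin K {x} = ⊤)
    (q q' : ℕ → N →+ N) (hq : ∀ k z, IsInt K x z → IsInt K x (q k z))
    (hq' : ∀ k z, IsInt K x⁻¹ z → IsInt K x⁻¹ (q' k z))
    (h1 : ∀ z, Null w (fun k => q k z - q' k z))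
    (h2 : ∀ z, Null w (fun k => q (k + 1) z - q k z))
    (h3 : ∀ (a : F) z, Null w (fun k => q k (a • z) - a • q k z)) :
    ∃ ε : N →ₗ[F] N, ∀ z, Null w (fun k => q k z - ε z) := by
  classical
  obtain ⟨b, hb⟩ := exists_basis (K := K) (N := N) hg.transcendental hx
  have hlim : ∀ i, ∃ z0 : N, Null w (fun k => q k (b i) - z0) := by
    intro i
    obtain ⟨m, hm⟩ := (hb i).exists_inv_pow hg.ne_zero
    have e0 : b i = x ^ m • (algebraMap F N (x⁻¹ ^ m) * b i) := by
      rw [Algebra.smul_def, ← mul_assoc, ← map_mul, ← mul_pow, mul_inv_cancel₀ hg.ne_zero, one_pow,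
        map_one, one_mul]
    refine exists_limit hc hg hx m (fun k => q k (b i))
      (fun k => x ^ m • q' k (algebraMap F N (x⁻¹ ^ m) * b i))
      (fun k => hq k _ (hb i)) (fun k => ?_) ?_ (h2 _)
    · have h4 := hq' k _ hm
      rw [Algebra.smul_def, ← mul_assoc, ← map_mul, ← mul_pow, inv_mul_cancel₀ hg.ne_zero, one_pow,
        map_one, one_mul]
      exact h4
    · refine ((h3 (x ^ m) (algebraMap F N (x⁻¹ ^ m) * b i)).add
        ((h1 (algebraMap F N (x⁻¹ ^ m) * b i)).smul (x ^ m))).congr (fun k => ?_)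
      rw [← e0, smul_sub]
      abel
  choose z0 hz0 using hlim
  refine ⟨b.constr F z0, fun z => ?_⟩
  have h5 := Null.sum (w := w) Finset.univ (z := fun i k =>
    (q k (b.repr z i • b i) - b.repr z i • q k (b i)) + b.repr z i • (q k (b i) - z0 i))
    (fun i _ => (h3 _ _).add ((hz0 i).smul _))
  refine h5.congr (fun k => ?_)
  conv_rhs => rw [← b.sum_repr z]
  rw [map_sum, map_sum, ← Finset.sum_sub_distrib]
  refine Finset.sum_congr rfl (fun i _ => ?_)
  rw [LinearMap.map_smul, Module.Basis.constr_basis, smul_sub]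
  abel

end Main

theorem exists_pow_mul_le {Φ : Type*} [Field Φ] (η : Valuation Φ ℝ≥0) {t : Φ} (ht : η t < 1)
    (z : Φ) : ∃ j : ℕ, η (t ^ j * z) ≤ 1 := by
  have h1 : Tendsto (fun j : ℕ => η t ^ j * η z) atTop (𝓝 0) := by
    have := (NNReal.tendsto_pow_atTop_nhds_zero_of_lt_one ht).mul_const (η z)
    simpa using this
  obtain ⟨j, hj⟩ := (h1.eventually (gt_mem_nhds zero_lt_one)).exists
  exact ⟨j, by rw [map_mul, map_pow]; exact hj.le⟩

theorem arch_of_integers {R Φ : Type*} [CommRing R] [Field Φ] [Algebra R Φ]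
    {η : Valuation Φ ℝ≥0} (hR : η.Integers R) : DM.Arch R := by
  intro a ha b hb
  have h1 : η (algebraMap R Φ a) < 1 :=
    lt_of_le_of_ne (hR.map_le_one a) (mt hR.isUnit_iff_valuation_eq_one.2 ha)
  have hb' : algebraMap R Φ b ≠ 0 := fun h => hb (hR.hom_inj (h.trans (map_zero _).symm))
  obtain ⟨j, hj⟩ := exists_pow_mul_le η h1 (algebraMap R Φ b)⁻¹
  refine ⟨j, hR.dvd_iff_le.2 ?_⟩
  have hpos : 0 < η (algebraMap R Φ b) := pos_iff_ne_zero.2 ((_root_.map_ne_zero η).2 hb')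
  rw [map_mul, map_inv₀, mul_inv_le_iff₀ hpos, one_mul] at hj
  rw [map_pow]
  exact hj

section DM
variable {K F Φ N R : Type*} [Field K] [Field F] [Field Φ] [Field N] [CommRing R]
  [Algebra K F] [Algebra F Φ] [Algebra F N] [Algebra Φ N] [IsScalarTower F Φ N]
  [Algebra R Φ] [Module R N] [IsScalarTower R Φ N]
  [FiniteDimensional F N] [Algebra.IsSeparable F N]

/-- **GAGA**, interface form -/
theorem dm_gaga {v : Valuation K ℝ≥0} {η : Valuation Φ ℝ≥0} {x : F} (hc : Cpl v)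
    (hg : Gauss v (η.comap (algebraMap F Φ)) x) (hx : IntermediateField.adjoin K {x} = ⊤)
    (hR : η.Integers R)
    (hB : Bdd (η.comap (algebraMap F Φ)) {z : N | ∃ a : Φ, η a ≤ 1 ∧ z = algebraMap Φ N a})
    (L : Submodule R N) (hL : L.IsLattice Φ) (ϖ : R) (hϖ : ¬ IsUnit ϖ) (hϖ0 : ϖ ≠ 0)
    (t : F) (ht : algebraMap R Φ ϖ = algebraMap F Φ t) :
    DM.Gaga ϖ L {z | IsInt K x z} {z | IsInt K x⁻¹ z} := by
  classical
  intro q q' hq hq' hcq hcq' _ h1 h2 h3
  set w := η.comap (algebraMap F Φ) with hw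
  have hsm : ∀ (r : R) (z : N), r • z = algebraMap Φ N (algebraMap R Φ r) * z := fun r z => by
    rw [← algebraMap_smul Φ r z, Algebra.smul_def]
  have hsmt : ∀ (j : ℕ) (z : N), ϖ ^ j • z = t ^ j • z := fun j z => by
    rw [hsm, map_pow, ht, ← map_pow, ← IsScalarTower.algebraMap_apply, Algebra.smul_def]
  have hηϖ : η (algebraMap R Φ ϖ) < 1 :=
    lt_of_le_of_ne (hR.map_le_one ϖ) (mt hR.isUnit_iff_valuation_eq_one.2 hϖ)
  have hwt : w t < 1 := by rw [hw, Valuation.comap_apply, ← ht]; exact hηϖ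
  have ht0 : t ≠ 0 := by
    rintro rfl
    rw [map_zero] at ht
    exact hϖ0 (hR.hom_inj (ht.trans (map_zero _).symm))
  have : IsFractionRing R Φ := hR.isFractionRing
  have : IsDomain R := hR.hom_inj.isDomain
  have hA := arch_of_integers hR
  obtain ⟨s, hs⟩ := hL.fg
  have hLs : ∀ z ∈ L, ∃ c : s → R, ∑ i, c i • (i : N) = z := by
    intro z hz
    rw [← hs] at hz
    exact (Submodule.mem_span_finset' ).1 hz
  have hsL : ∀ i : s, (i : N) ∈ L := fun i => hs ▸ Submodule.subset_span i.2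
  have hbdd : Bdd w (L : Set N) := by
    refine hB.span (fun i : s => (i : N)) (fun z hz => ?_)
    obtain ⟨c, rfl⟩ := hLs z hz
    exact ⟨fun i => algebraMap Φ N (algebraMap R Φ (c i)), fun i => ⟨_, hR.map_le_one _, rfl⟩,
      Finset.sum_congr rfl (fun i _ => hsm _ _)⟩
  have habs : ∀ z : N, ∃ j : ℕ, ϖ ^ j • z ∈ L := DM.exists_pow_smul_mem (K := Φ) hA hϖ L hL
  -- small operators give null sequences
  have hnull : ∀ T : ℕ → AddMonoid.End N, (∀ k, DM.Comm ϖ (T k)) → (∀ k, DM.Small ϖ L k (T k)) →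
      ∀ z, Null w (fun k => T k z) := by
    intro T hT hS z
    obtain ⟨j, hj⟩ := habs z
    have h4 : Null w (fun k => T k (ϖ ^ j • z)) := by
      refine null_of_bdd hbdd hwt (fun i => ⟨i, fun k hk => ?_⟩)
      obtain ⟨l, hl, e⟩ := DM.mem_pw.1 (DM.pw_anti ϖ L hk (hS k _ hj))
      exact ⟨l, hl, by rw [← e, hsmt]⟩
    refine (h4.smul (t ^ j)⁻¹).congr (fun k => ?_)
    rw [DM.comm_pow (hT k), hsmt, smul_smul, inv_mul_cancel₀ (pow_ne_zero _ ht0), one_smul]
  have h3' : ∀ (r : R) z, Null w (fun k => q k (r • z) - r • q k z) := fun r z =>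
    hnull (fun k => q k * DM.sc N r - DM.sc N r * q k)
      (fun k => ((hcq k).mul (DM.Comm.sc _ _)).sub ((DM.Comm.sc _ _).mul (hcq k)))
      (fun k => h3 k r) z
  obtain ⟨ε, hε⟩ := gaga' (N := N) hc hg hx q q' hq hq'
    (hnull (fun k => q k - q' k) (fun k => (hcq k).sub (hcq' k)) h1)
    (hnull (fun k => q (k + 1) - q k) (fun k => (hcq _).sub (hcq k)) h2) (by
      intro a z
      obtain ⟨j, hj⟩ := exists_pow_mul_le w hwt a
      obtain ⟨r, hr⟩ := hR.exists_of_le_one (r := algebraMap F Φ (t ^ j * a)) hj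
      have e : ∀ y : N, r • y = ϖ ^ j • a • y := fun y => by
        rw [hsm, hr, hsmt, smul_smul, ← IsScalarTower.algebraMap_apply, Algebra.smul_def]
      refine ((h3' r z).smul (t ^ j)⁻¹).congr (fun k => ?_)
      rw [e, e, DM.comm_pow (hcq k), ← smul_sub, hsmt, smul_smul,
        inv_mul_cancel₀ (pow_ne_zero _ ht0), one_smul]
      rfl)
  have hεR : ∀ (r : R) z, ε (r • z) = r • ε z := by
    intro r z
    rw [hsm, hsm]
    refine limit_mul hε _ _ ((h3' r z).congr (fun k => ?_))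
    rw [hsm, hsm]
    rfl
  -- a basis inside the lattice
  have hbas : ∃ b : Module.Basis (Fin (Module.finrank F N)) F N, ∀ i, b i ∈ L := by
    let b0 := Module.finBasis F N
    choose j hj using fun i => habs (b0 i)
    refine ⟨b0.unitsSMul (fun i => Units.mk0 _ (pow_ne_zero (j i) ht0)), fun i => ?_⟩
    rw [Module.Basis.unitsSMul_apply, Units.smul_def, Units.val_mk0, ← hsmt]
    exact hj i
  obtain ⟨b, hb⟩ := hbas
  have hev : ∀ z : ℕ → N, Null w z → ∀ j, ∃ k₀, ∀ k, k₀ ≤ k → z k ∈ DM.pw ϖ L j := by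
    intro z hz j
    obtain ⟨k₀, hk⟩ := hz.eventually_coord b (pow_ne_zero j ht0)
    refine ⟨k₀, fun k hk' => ?_⟩
    obtain ⟨c, hc1, e⟩ := hk k hk'
    rw [e, ← hsmt]
    refine DM.smul_mem_pw j (L.sum_mem (fun i _ => ?_))
    obtain ⟨r, hr⟩ := hR.exists_of_le_one (r := algebraMap F Φ (c i)) (hc1 i)
    have : c i • b i = r • b i := by
      rw [hsm, hr, ← IsScalarTower.algebraMap_apply, Algebra.smul_def]
    rw [this]
    exact L.smul_mem _ (hb i)
  let ε' : AddMonoid.End N := ε.toAddMonoidHom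
  refine ⟨ε', fun z => hεR ϖ z, fun j => ?_⟩
  choose k₀ hk₀ using fun i : s => hev _ (hε (i : N)).neg j
  refine ⟨max j (Finset.univ.sup k₀), fun k hk z hz => ?_⟩
  obtain ⟨c, rfl⟩ := hLs z hz
  rw [map_sum]
  refine Submodule.sum_mem _ (fun i _ => ?_)
  have h5 := hk₀ i k ((Finset.le_sup (f := k₀) (Finset.mem_univ i)).trans ((le_max_right _ _).trans hk))
  have h6 := DM.pw_anti ϖ L ((le_max_left _ _).trans hk) (h3 k (c i) _ (hsL i))
  have e : (ε' - q k) (c i • (i : N)) =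
      c i • (-(q k (i : N) - ε (i : N))) - (q k * DM.sc N (c i) - DM.sc N (c i) * q k) (i : N) := by
    show ε (c i • (i : N)) - q k (c i • (i : N)) =
      c i • (-(q k (i : N) - ε (i : N))) - (q k (c i • (i : N)) - c i • q k (i : N))
    rw [hεR, smul_neg, smul_sub]
    abel
  rw [e]
  exact Submodule.sub_mem _ (Submodule.smul_mem _ _ h5) h6

end DM

section Curve
variable {K Φ N R : Type*} [Field K] [Field Φ] [Field N] [CommRing R]
  [Algebra K Φ] [Algebra Φ N] [Algebra R Φ] [Module R N] [IsScalarTower R Φ N]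

theorem adjoin_gen (x : Φ) :
    IntermediateField.adjoin K {IntermediateField.AdjoinSimple.gen K x} = ⊤ := by
  rw [eq_top_iff]
  rintro ⟨z, hz⟩ _
  obtain ⟨r, s, e⟩ := (IntermediateField.mem_adjoin_simple_iff K z).1 hz
  refine (IntermediateField.mem_adjoin_simple_iff K _).2 ⟨r, s, ?_⟩
  apply (algebraMap K⟮x⟯ Φ).injective
  rw [map_div₀, ← aeval_algebraMap_apply, ← aeval_algebraMap_apply,
    IntermediateField.AdjoinSimple.algebraMap_gen]
  exact e

theorem ev_gen (x : Φ) :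
    ev N K (IntermediateField.AdjoinSimple.gen K x) = ev N K x := by
  refine RingHom.ext (fun g => ?_)
  rw [ev_apply, ev_apply, IsScalarTower.algebraMap_apply K⟮x⟯ Φ N, ← aeval_algebraMap_apply,
    IntermediateField.AdjoinSimple.algebraMap_gen]

theorem ev_gen_inv (x : Φ) :
    ev N K (IntermediateField.AdjoinSimple.gen K x)⁻¹ = ev N K x⁻¹ := by
  refine RingHom.ext (fun g => ?_)
  rw [ev_apply, ev_apply, IsScalarTower.algebraMap_apply K⟮x⟯ Φ N, ← aeval_algebraMap_apply,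
    map_inv₀, IntermediateField.AdjoinSimple.algebraMap_gen]

/-- **GAGA**, with `x ∈ Φ`; the valuation ring of `η` is spanned by a finite family over the
valuation ring of `K(x)` -/
theorem dm_gaga_curve [FiniteDimensional Φ N] [CharZero K]
    {v : Valuation K ℝ≥0} {η : Valuation Φ ℝ≥0} {x : Φ} (hc : Cpl v) (hg : Gauss v η x)
    {ι : Type*} [Fintype ι] (e : ι → Φ)
    (he : ∀ z : Φ, η z ≤ 1 → ∃ c : ι → Φ, (∀ i, c i ∈ K⟮x⟯ ∧ η (c i) ≤ 1) ∧ z = ∑ i, c i * e i)
    (hR : η.Integers R) (L : Submodule R N) (hL : L.IsLattice Φ) (ϖ : R) (hϖ : ¬ IsUnit ϖ)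
    (hϖ0 : ϖ ≠ 0) (t : K) (ht : algebraMap R Φ ϖ = algebraMap K Φ t) :
    DM.Gaga ϖ L {z | IsInt K x z} {z | IsInt K x⁻¹ z} := by
  classical
  have hηϖ : η (algebraMap K Φ t) < 1 :=
    ht ▸ lt_of_le_of_ne (hR.map_le_one ϖ) (mt hR.isUnit_iff_valuation_eq_one.2 hϖ)
  have ht0 : algebraMap K Φ t ≠ 0 := fun h =>
    hϖ0 (hR.hom_inj ((ht.trans h).trans (map_zero _).symm))
  have hfin : FiniteDimensional K⟮x⟯ Φ := by
    refine Module.Finite.of_fg_top ((Submodule.fg_def).2 ⟨Set.range e, Set.finite_range e, ?_⟩)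
    rw [eq_top_iff]
    intro z _
    obtain ⟨j, hj⟩ := exists_pow_mul_le η hηϖ z
    obtain ⟨c, hc1, hz⟩ := he _ hj
    have e1 : z = ((algebraMap K K⟮x⟯ t) ^ j)⁻¹ • ∑ i, (⟨c i, (hc1 i).1⟩ : K⟮x⟯) • e i := by
      have : ∑ i, (⟨c i, (hc1 i).1⟩ : K⟮x⟯) • e i = ∑ i, c i * e i :=
        Finset.sum_congr rfl (fun i _ => rfl)
      rw [this, ← hz, Algebra.smul_def, map_inv₀, map_pow, ← IsScalarTower.algebraMap_apply,
        inv_mul_cancel_left₀ (pow_ne_zero _ ht0)]
    rw [e1]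
    exact Submodule.smul_mem _ _ (Submodule.sum_mem _ (fun i _ =>
      Submodule.smul_mem _ _ (Submodule.subset_span ⟨i, rfl⟩)))
  have : FiniteDimensional K⟮x⟯ N := Module.Finite.trans Φ N
  have : CharZero K⟮x⟯ := charZero_of_injective_algebraMap (algebraMap K K⟮x⟯).injective
  have h := dm_gaga (K := K) (F := K⟮x⟯) (Φ := Φ) (N := N) (R := R) (v := v) (η := η)
    (x := IntermediateField.AdjoinSimple.gen K x) hc ?_ ?_ hR ?_ L hL ϖ hϖ hϖ0
    (algebraMap K K⟮x⟯ t) (by rw [ht, ← IsScalarTower.algebraMap_apply])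
  · unfold IsInt at h ⊢
    rwa [ev_gen, ev_gen_inv] at h
  · refine ⟨fun a => ?_, hg.2.1, fun f i => ?_⟩
    · rw [Valuation.comap_apply, ← IsScalarTower.algebraMap_apply]; exact hg.1 a
    · rw [Valuation.comap_apply, ← aeval_algebraMap_apply,
        IntermediateField.AdjoinSimple.algebraMap_gen]
      exact hg.2.2 f i
  · exact adjoin_gen x
  · refine bdd_of_coord (fun i => algebraMap Φ N (e i)) ?_
    rintro _ ⟨a, ha, rfl⟩
    obtain ⟨c, hc1, rfl⟩ := he a ha
    refine ⟨fun i => ⟨c i, (hc1 i).1⟩, fun i => (hc1 i).2, ?_⟩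
    rw [map_sum]
    refine Finset.sum_congr rfl (fun i _ => ?_)
    rw [map_mul, Algebra.smul_def]
    rfl

end Curve

end Crest.Agent.T170.Gaga13
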