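import Crest.Agent.T170.Gaga2_13
import Crest.Agent.T170.Fr_20

/-!
# Row 170 (T170): GAGA for an arbitrary pseudo-uniformiser, and for `CoreData` (helper13)

* `dm_gaga'`, `dm_gaga_curve'` : `DM.Gaga ϖ L B₀ B₁` for every non-unit `ϖ ≠ 0`;
* `intGrp K ξ` : the additive group of the elements of `N` integral over `K[ξ]`;
* `core_gaga` : the statement for `Fr.CoreData`.
-/

set_option autoImplicit false
open scoped BigOperators NNReal Topology IntermediateField
open Polynomial Filter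

namespace Crest.Agent.T170.Gaga13

section DM
variable {K F Φ N R : Type*} [Field K] [Field F] [Field Φ] [Field N] [CommRing R]
  [Algebra K F] [Algebra F Φ] [Algebra F N] [Algebra Φ N] [IsScalarTower F Φ N]
  [Algebra R Φ] [Module R N] [IsScalarTower R Φ N]
  [FiniteDimensional F N] [Algebra.IsSeparable F N]

/-- **GAGA**, interface form -/
theorem dm_gaga' {v : Valuation K ℝ≥0} {η : Valuation Φ ℝ≥0} {x : F} (hc : Cpl v)
    (hg : Gauss v (η.comap (algebraMap F Φ)) x) (hx : IntermediateField.adjoin K {x} = ⊤)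
    (hR : η.Integers R)
    (hB : Bdd (η.comap (algebraMap F Φ)) {z : N | ∃ a : Φ, η a ≤ 1 ∧ z = algebraMap Φ N a})
    (t : F) (ht0 : t ≠ 0) (hwt : η (algebraMap F Φ t) < 1)
    (L : Submodule R N) (hL : L.IsLattice Φ) (ϖ : R) (hϖ : ¬ IsUnit ϖ) (hϖ0 : ϖ ≠ 0) :
    DM.Gaga ϖ L {z | IsInt K x z} {z | IsInt K x⁻¹ z} := by
  classical
  intro q q' hq hq' hcq hcq' _ h1 h2 h3
  set w := η.comap (algebraMap F Φ) with hw
  obtain ⟨τ, hτ⟩ := hR.exists_of_le_one hwt.le
  have hτu : ¬ IsUnit τ := fun h => by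
    have := hR.one_of_isUnit h
    rw [hτ] at this
    exact hwt.ne this
  have hτ0 : τ ≠ 0 := by
    rintro rfl
    rw [map_zero] at hτ
    exact ht0 ((algebraMap F Φ).injective (hτ.symm.trans (map_zero _).symm))
  have hsm : ∀ (r : R) (z : N), r • z = algebraMap Φ N (algebraMap R Φ r) * z := fun r z => by
    rw [← algebraMap_smul Φ r z, Algebra.smul_def]
  have hsmt : ∀ (j : ℕ) (z : N), τ ^ j • z = t ^ j • z := fun j z => by
    rw [hsm, map_pow, hτ, ← map_pow, ← IsScalarTower.algebraMap_apply, Algebra.smul_def]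
  have hηϖ : η (algebraMap R Φ ϖ) < 1 :=
    lt_of_le_of_ne (hR.map_le_one ϖ) (mt hR.isUnit_iff_valuation_eq_one.2 hϖ)
  have : IsFractionRing R Φ := hR.isFractionRing
  have : IsDomain R := hR.hom_inj.isDomain
  have hϖN : ∀ j : ℕ, algebraMap Φ N (algebraMap R Φ (ϖ ^ j)) ≠ 0 := fun j h =>
    pow_ne_zero j hϖ0 (hR.hom_inj (((algebraMap Φ N).injective
      (h.trans (map_zero _).symm)).trans (map_zero _).symm))
  have hA := arch_of_integers hR
  obtain ⟨s, hs⟩ := hL.fg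
  have hLs : ∀ z ∈ L, ∃ c : s → R, ∑ i, c i • (i : N) = z := by
    intro z hz
    rw [← hs] at hz
    exact (Submodule.mem_span_finset' ).1 hz
  have hsL : ∀ i : s, (i : N) ∈ L := fun i => hs ▸ Submodule.subset_span i.2
  have hbdd : Bdd w (L : Set N) := by
    refine hB.span (fun i : s => (i : N)) (fun z hz => ?_)
    obtain ⟨c, rfl⟩ := hLs z hz
    exact ⟨fun i => algebraMap Φ N (algebraMap R Φ (c i)), fun i => ⟨_, hR.map_le_one _, rfl⟩,
      Finset.sum_congr rfl (fun i _ => hsm _ _)⟩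
  have habs : ∀ z : N, ∃ j : ℕ, ϖ ^ j • z ∈ L := DM.exists_pow_smul_mem (K := Φ) hA hϖ L hL
  have habs' : ∀ z : N, ∃ j : ℕ, τ ^ j • z ∈ L := DM.exists_pow_smul_mem (K := Φ) hA hτu L hL
  have hcancel : ∀ (j : ℕ) (z : ℕ → N), Null w (fun k => ϖ ^ j • z k) → Null w z := by
    intro j z h
    refine (h.mul_left (algebraMap Φ N (algebraMap R Φ (ϖ ^ j)))⁻¹).congr (fun k => ?_)
    rw [hsm, inv_mul_cancel_left₀ (hϖN j)]
  -- small operators give null sequences
  have hnull : ∀ T : ℕ → AddMonoid.End N, (∀ k, DM.Comm ϖ (T k)) → (∀ k, DM.Small ϖ L k (T k)) →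
      ∀ z, Null w (fun k => T k z) := by
    intro T hT hS z
    obtain ⟨j, hj⟩ := habs z
    have h4 : Null w (fun k => T k (ϖ ^ j • z)) := by
      refine null_of_bdd hbdd (t := t) hwt (fun i => ?_)
      obtain ⟨m, hm⟩ := hA ϖ hϖ (τ ^ i) (pow_ne_zero i hτ0)
      refine ⟨m, fun k hk => ?_⟩
      obtain ⟨l, hl, e⟩ := DM.mem_pw.1
        (DM.pw_le_pw_of_dvd hm L (DM.pw_anti ϖ L hk (hS k _ hj)))
      exact ⟨l, hl, by rw [← e, hsmt]⟩
    exact hcancel j _ (h4.congr (fun k => DM.comm_pow (hT k) j z))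
  have h3' : ∀ (r : R) z, Null w (fun k => q k (r • z) - r • q k z) := fun r z =>
    hnull (fun k => q k * DM.sc N r - DM.sc N r * q k)
      (fun k => ((hcq k).mul (DM.Comm.sc _ _)).sub ((DM.Comm.sc _ _).mul (hcq k)))
      (fun k => h3 k r) z
  obtain ⟨ε, hε⟩ := gaga' (N := N) hc hg hx q q' hq hq'
    (hnull (fun k => q k - q' k) (fun k => (hcq k).sub (hcq' k)) h1)
    (hnull (fun k => q (k + 1) - q k) (fun k => (hcq _).sub (hcq k)) h2) (by
      intro a z
      obtain ⟨j, hj⟩ := exists_pow_mul_le η hηϖ (algebraMap F Φ a)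
      obtain ⟨r, hr⟩ := hR.exists_of_le_one hj
      have e : ∀ y : N, r • y = ϖ ^ j • a • y := fun y => by
        rw [hsm, hsm, hr, map_mul, ← IsScalarTower.algebraMap_apply, Algebra.smul_def, mul_assoc,
          map_pow (algebraMap R Φ)]
      refine hcancel j _ ((h3' r z).congr (fun k => ?_))
      rw [e, e, DM.comm_pow (hcq k), ← smul_sub]
      rfl)
  have hεR : ∀ (r : R) z, ε (r • z) = r • ε z := by
    intro r z
    rw [hsm, hsm]
    refine limit_mul hε _ _ ((h3' r z).congr (fun k => ?_))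
    rw [hsm, hsm]
    rfl
  -- a basis inside the lattice
  have hbas : ∃ b : Module.Basis (Fin (Module.finrank F N)) F N, ∀ i, b i ∈ L := by
    let b0 := Module.finBasis F N
    choose j hj using fun i => habs' (b0 i)
    refine ⟨b0.unitsSMul (fun i => Units.mk0 _ (pow_ne_zero (j i) ht0)), fun i => ?_⟩
    rw [Module.Basis.unitsSMul_apply, Units.smul_def, Units.val_mk0, ← hsmt]
    exact hj i
  obtain ⟨b, hb⟩ := hbas
  have hev : ∀ z : ℕ → N, Null w z → ∀ j, ∃ k₀, ∀ k, k₀ ≤ k → z k ∈ DM.pw ϖ L j := by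
    intro z hz j
    obtain ⟨m, hm⟩ := hA τ hτu (ϖ ^ j) (pow_ne_zero j hϖ0)
    obtain ⟨k₀, hk⟩ := hz.eventually_coord b (pow_ne_zero m ht0)
    refine ⟨k₀, fun k hk' => DM.pw_le_pw_of_dvd hm L ?_⟩
    obtain ⟨c, hc1, e⟩ := hk k hk'
    rw [e, ← hsmt]
    refine DM.smul_mem_pw m (L.sum_mem (fun i _ => ?_))
    obtain ⟨r, hr⟩ := hR.exists_of_le_one (r := algebraMap F Φ (c i)) (hc1 i)
    have : c i • b i = r • b i := by
      rw [hsm, hr, ← IsScalarTower.algebraMap_apply, Algebra.smul_def]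
    rw [this]
    exact L.smul_mem _ (hb i)
  let ε' : AddMonoid.End N := ε.toAddMonoidHom
  refine ⟨ε', fun z => hεR ϖ z, fun j => ?_⟩
  choose k₀ hk₀ using fun i : s => hev _ (hε (i : N)).neg j
  refine ⟨max j (Finset.univ.sup k₀), fun k hk z hz => ?_⟩
  obtain ⟨c, rfl⟩ := hLs z hz
  rw [map_sum]
  refine Submodule.sum_mem _ (fun i _ => ?_)
  have h5 := hk₀ i k ((Finset.le_sup (f := k₀) (Finset.mem_univ i)).trans
    ((le_max_right _ _).trans hk))
  have h6 := DM.pw_anti ϖ L ((le_max_left _ _).trans hk) (h3 k (c i) _ (hsL i))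
  have e : (ε' - q k) (c i • (i : N)) =
      c i • (-(q k (i : N) - ε (i : N))) - (q k * DM.sc N (c i) - DM.sc N (c i) * q k) (i : N) := by
    show ε (c i • (i : N)) - q k (c i • (i : N)) =
      c i • (-(q k (i : N) - ε (i : N))) - (q k (c i • (i : N)) - c i • q k (i : N))
    rw [hεR, smul_neg, smul_sub]
    abel
  rw [e]
  exact Submodule.sub_mem _ (Submodule.smul_mem _ _ h5) h6

end DM

section Curve
variable {K Φ N R : Type*} [Field K] [Field Φ] [Field N] [CommRing R]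
  [Algebra K Φ] [Algebra Φ N] [Algebra R Φ] [Module R N] [IsScalarTower R Φ N]

theorem finite_of_span {η : Valuation Φ ℝ≥0} {x : Φ} {ι : Type*} [Fintype ι] (e : ι → Φ)
    (he : ∀ z : Φ, η z ≤ 1 → ∃ c : ι → Φ, (∀ i, c i ∈ K⟮x⟯ ∧ η (c i) ≤ 1) ∧ z = ∑ i, c i * e i)
    (t : K) (ht0 : t ≠ 0) (ht : η (algebraMap K Φ t) < 1) : FiniteDimensional K⟮x⟯ Φ := by
  have ht0' : algebraMap K Φ t ≠ 0 := (_root_.map_ne_zero _).2 ht0
  refine Module.Finite.of_fg_top ((Submodule.fg_def).2 ⟨Set.range e, Set.finite_range e, ?_⟩)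
  rw [eq_top_iff]
  intro z _
  obtain ⟨j, hj⟩ := exists_pow_mul_le η ht z
  obtain ⟨c, hc1, hz⟩ := he _ hj
  have e1 : z = ((algebraMap K K⟮x⟯ t) ^ j)⁻¹ • ∑ i, (⟨c i, (hc1 i).1⟩ : K⟮x⟯) • e i := by
    have : ∑ i, (⟨c i, (hc1 i).1⟩ : K⟮x⟯) • e i = ∑ i, c i * e i :=
      Finset.sum_congr rfl (fun i _ => rfl)
    rw [this, ← hz, Algebra.smul_def, map_inv₀, map_pow, ← IsScalarTower.algebraMap_apply,
      inv_mul_cancel_left₀ (pow_ne_zero _ ht0')]
  rw [e1]
  exact Submodule.smul_mem _ _ (Submodule.sum_mem _ (fun i _ =>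
    Submodule.smul_mem _ _ (Submodule.subset_span ⟨i, rfl⟩)))

theorem Gauss.gen {v : Valuation K ℝ≥0} {η : Valuation Φ ℝ≥0} {x : Φ} (hg : Gauss v η x) :
    Gauss v (η.comap (algebraMap K⟮x⟯ Φ)) (IntermediateField.AdjoinSimple.gen K x) := by
  refine ⟨fun a => ?_, hg.2.1, fun f i => ?_⟩
  · rw [Valuation.comap_apply, ← IsScalarTower.algebraMap_apply]; exact hg.1 a
  · rw [Valuation.comap_apply, ← aeval_algebraMap_apply,
      IntermediateField.AdjoinSimple.algebraMap_gen]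
    exact hg.2.2 f i

/-- **GAGA**, with `x ∈ Φ`, for every pseudo-uniformiser -/
theorem dm_gaga_curve' [FiniteDimensional Φ N] [CharZero K]
    {v : Valuation K ℝ≥0} {η : Valuation Φ ℝ≥0} {x : Φ} (hc : Cpl v) (hg : Gauss v η x)
    {ι : Type*} [Fintype ι] (e : ι → Φ)
    (he : ∀ z : Φ, η z ≤ 1 → ∃ c : ι → Φ, (∀ i, c i ∈ K⟮x⟯ ∧ η (c i) ≤ 1) ∧ z = ∑ i, c i * e i)
    (t : K) (ht0 : t ≠ 0) (ht : v t < 1)
    (hR : η.Integers R) (L : Submodule R N) (hL : L.IsLattice Φ) (ϖ : R) (hϖ : ¬ IsUnit ϖ)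
    (hϖ0 : ϖ ≠ 0) :
    DM.Gaga ϖ L {z | IsInt K x z} {z | IsInt K x⁻¹ z} := by
  classical
  have ht' : η (algebraMap K Φ t) < 1 := by rw [hg.1]; exact ht
  have hfin := finite_of_span e he t ht0 ht'
  have : FiniteDimensional K⟮x⟯ N := Module.Finite.trans Φ N
  have : CharZero K⟮x⟯ := charZero_of_injective_algebraMap (algebraMap K K⟮x⟯).injective
  have h := dm_gaga' (K := K) (F := K⟮x⟯) (Φ := Φ) (N := N) (R := R) (v := v) (η := η)
    (x := IntermediateField.AdjoinSimple.gen K x) hc hg.gen (adjoin_gen x) hR ?_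
    (algebraMap K K⟮x⟯ t) ((_root_.map_ne_zero _).2 ht0)
    (by rw [← IsScalarTower.algebraMap_apply]; exact ht') L hL ϖ hϖ hϖ0
  · unfold IsInt at h ⊢
    rwa [ev_gen, ev_gen_inv] at h
  · refine bdd_of_coord (fun i => algebraMap Φ N (e i)) ?_
    rintro _ ⟨a, ha, rfl⟩
    obtain ⟨c, hc1, rfl⟩ := he a ha
    refine ⟨fun i => ⟨c i, (hc1 i).1⟩, fun i => (hc1 i).2, ?_⟩
    rw [map_sum]
    refine Finset.sum_congr rfl (fun i _ => ?_)
    rw [map_mul, Algebra.smul_def]
    rfl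

end Curve

section IntGrp
variable (K : Type*) {N : Type*} [Field K] [Field N] [Algebra K N]

/-- the additive group of the elements integral over `K[ξ]` -/
def intGrp (ξ : N) : AddSubgroup N :=
  (integralClosure (Algebra.adjoin K {ξ}) N).toSubring.toAddSubgroup

variable {K}

theorem mem_intGrp {ξ z : N} : z ∈ intGrp K ξ ↔ IsIntegral (Algebra.adjoin K {ξ}) z := Iff.rfl

theorem isInt_iff {Φ : Type*} [Field Φ] [Algebra K Φ] [Algebra Φ N] [IsScalarTower K Φ N]
    (x : Φ) (z : N) : IsInt K x z ↔ IsIntegral (Algebra.adjoin K {algebraMap Φ N x}) z := by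
  have hmem : ∀ g : K[X], aeval (algebraMap Φ N x) g ∈ Algebra.adjoin K {algebraMap Φ N x} :=
    fun g => aeval_mem_adjoin_singleton K _
  let φ : K[X] →+* Algebra.adjoin K {algebraMap Φ N x} :=
    (aeval (algebraMap Φ N x) : K[X] →ₐ[K] N).toRingHom.codRestrict _ hmem
  have hφ : (algebraMap (Algebra.adjoin K {algebraMap Φ N x}) N).comp φ = ev N K x := by
    refine RingHom.ext (fun g => ?_)
    rw [ev_apply, ← aeval_algebraMap_apply]
    rfl
  have hsurj : Function.Surjective φ := by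
    rintro ⟨a, ha⟩
    rw [Algebra.adjoin_singleton_eq_range_aeval] at ha
    obtain ⟨g, rfl⟩ := ha
    exact ⟨g, rfl⟩
  constructor
  · rintro ⟨P, hP, h⟩
    refine ⟨P.map φ, hP.map φ, ?_⟩
    rw [eval₂_map, hφ]; exact h
  · rintro ⟨P, hP, h⟩
    obtain ⟨Q, hQ, -, hm⟩ := lifts_and_natDegree_eq_and_monic
      (mem_lifts_of_surjective hsurj P) hP
    refine ⟨Q, hm, ?_⟩
    rw [← hφ, ← eval₂_map, hQ]; exact h

theorem coe_intGrp {Φ : Type*} [Field Φ] [Algebra K Φ] [Algebra Φ N] [IsScalarTower K Φ N]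
    (x : Φ) : (intGrp K (algebraMap Φ N x) : Set N) = {z | IsInt K x z} :=
  Set.ext (fun z => (isInt_iff x z).symm)

end IntGrp

theorem cpl_of_fr {K : Type*} [Field K] {v : Valuation K ℝ≥0} (h : Fr.Cpl v) : Cpl v := by
  intro a ha
  obtain ⟨l, hl⟩ := h a (by
    intro ε hε
    obtain ⟨M, hM⟩ := eventually_atTop.1 (ha.eventually (gt_mem_nhds hε))
    have key : ∀ m, M ≤ m → v (a m - a M) < ε := by
      intro m hm
      induction m, hm using Nat.le_induction with
      | base => simpa using hε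
      | succ m hm ih =>
        have e : a (m + 1) - a M = (a (m + 1) - a m) + (a m - a M) := by ring
        rw [e]
        exact v.map_add_lt (hM m hm) ih
    refine ⟨M, fun m hm m' hm' => ?_⟩
    have e : a m - a m' = (a m - a M) - (a m' - a M) := by ring
    rw [e]
    exact v.map_sub_lt (key m hm) (key m' hm'))
  refine ⟨l, tendsto_order.2 ⟨fun b hb => absurd hb (not_lt.2 zero_le), fun ε hε => ?_⟩⟩
  obtain ⟨M, hM⟩ := hl ε hε
  exact eventually_atTop.2 ⟨M, hM⟩

section Core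
variable {p n : ℕ} [NeZero n] {R C K E N : Type} [CommRing R] [Field C] [Field K]
  [Field E] [Field N] [Algebra C K] [Algebra K E] [Algebra E N] [Algebra C E] [Algebra C N]
  [Algebra K N] [Algebra R C] [Algebra R E] [IsScalarTower R C E]

theorem core_gauss (X : Fr.CoreData p n R C K E N) :
    Gauss (X.v.comap (algebraMap K E)) X.v X.x := by
  refine ⟨fun _ => rfl, ?_, fun f i => ?_⟩
  · have := X.gauss Polynomial.X
    rw [aeval_X, support_X, Finset.sup_singleton, coeff_X_one, map_one, map_one] at this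
    exact this
  · rw [X.gauss]
    by_cases hi : i ∈ f.support
    · exact Finset.le_sup (f := fun i => X.v (algebraMap K E (f.coeff i))) hi
    · rw [notMem_support_iff.1 hi, map_zero]; exact zero_le

/-- the spanning property of `1, y` from the normal form of integral elements -/
theorem span_of_div {K E : Type*} [Field K] [Field E] [Algebra K E] {η : Valuation E ℝ≥0}
    {x y : E} (hb : ∀ z : E, η z ≤ 1 → ∃ f g r : K[X], η (aeval x f) ≤ 1 ∧ η (aeval x g) ≤ 1 ∧
      η (aeval x r) = 1 ∧ z = (aeval x f + aeval x g * y) / aeval x r) (z : E) (hz : η z ≤ 1) :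
    ∃ c : Fin 2 → E, (∀ i, c i ∈ K⟮x⟯ ∧ η (c i) ≤ 1) ∧ z = ∑ i, c i * ![1, y] i := by
  obtain ⟨f, g, r, hf, hg, hr, rfl⟩ := hb z hz
  refine ⟨![aeval x f / aeval x r, aeval x g / aeval x r], fun i => ?_, ?_⟩
  · fin_cases i
    · exact ⟨(IntermediateField.mem_adjoin_simple_iff K _).2 ⟨f, r, rfl⟩, by
        simpa [map_div₀, hr] using hf⟩
    · exact ⟨(IntermediateField.mem_adjoin_simple_iff K _).2 ⟨g, r, rfl⟩, by
        simpa [map_div₀, hr] using hg⟩
  · simp only [Fin.sum_univ_two, Matrix.cons_val_zero, Matrix.cons_val_one]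
    ring

/-- **GAGA for the core** (`hb` is K1(b)) -/
theorem core_gaga [IsScalarTower K E N] [CharZero C] [FiniteDimensional E N] (hp : p ≠ 0)
    (X : Fr.CoreData p n R C K E N)
    (hb : ∀ z : E, X.v z ≤ 1 → ∃ f g r : K[X], X.v (aeval X.x f) ≤ 1 ∧ X.v (aeval X.x g) ≤ 1 ∧
      X.v (aeval X.x r) = 1 ∧ z = (aeval X.x f + aeval X.x g * X.y) / aeval X.x r)
    {O : Type*} [CommRing O] [Algebra O E] [Module O N] [IsScalarTower O E N]
    (hO : X.v.Integers O) (L : Submodule O N) (hL : L.IsLattice E) (ϖ : O) (hϖ0 : ϖ ≠ 0)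
    (hϖ : ¬ IsUnit ϖ) :
    DM.Gaga ϖ L (intGrp K (algebraMap E N X.x)) (intGrp K (algebraMap E N X.x)⁻¹) := by
  have : CharZero K := charZero_of_injective_algebraMap (algebraMap C K).injective
  rw [← map_inv₀, coe_intGrp, coe_intGrp]
  refine dm_gaga_curve' (cpl_of_fr X.cpl) (core_gauss X) ![1, X.y] (span_of_div hb) (p : K)
    (Nat.cast_ne_zero.2 hp) ?_ hO L hL ϖ hϖ hϖ0
  rw [Valuation.comap_apply, map_natCast]
  exact X.vp

end Core

end Crest.Agent.T170.Gaga13
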