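import Mathlib

/-!
# Row 170 (T170): GAGA on the line by the trace form (helper13)

`K` is a complete valued field, `F = K(x)` carries the Gauss valuation `w`, `N / F` is finite
separable.

* `Cpl v`, `Gauss v w x`, `IsInt N x z` (`z` integral over `K[x]`), `Null w z` (the sequence `z`
  of `N` tends to zero weakly, i.e. for all lattices);
* `poly_limit` : polynomials which are Gauss-Cauchy and close to `x^M K[1/x]` converge to a
  polynomial;
* `exists_limit` : the same for sequences of `N`;
* `gaga` : two asymptotically equal, asymptotically linear Cauchy sequences of additive operators,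
  preserving the integral closures of `K[x]`, resp. `K[1/x]`, converge to an `F`-linear operator;
* `Bdd`, `null_of_bdd`, `Null.eventually_coord` : comparison with lattices.
-/

set_option autoImplicit false
open scoped BigOperators NNReal Topology
open Polynomial Filter

namespace Crest.Agent.T170.Gaga13

section Poly
variable {K F : Type*} [Field K] [Field F] [Algebra K F]

/-- sequential completeness of a valued field -/
def Cpl (v : Valuation K ℝ≥0) : Prop :=
  ∀ a : ℕ → K, Tendsto (fun k => v (a (k + 1) - a k)) atTop (𝓝 0) →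
    ∃ b, Tendsto (fun k => v (a k - b)) atTop (𝓝 0)

/-- `w` is a Gauss valuation over `v` with respect to `x` -/
def Gauss (v : Valuation K ℝ≥0) (w : Valuation F ℝ≥0) (x : F) : Prop :=
  (∀ a, w (algebraMap K F a) = v a) ∧ w x = 1 ∧ ∀ (f : K[X]) (i : ℕ), v (f.coeff i) ≤ w (aeval x f)

theorem tendsto_zero_of_le {f g : ℕ → ℝ≥0} (hg : Tendsto g atTop (𝓝 0)) (h : ∀ k, f k ≤ g k) :
    Tendsto f atTop (𝓝 0) :=
  tendsto_of_tendsto_of_tendsto_of_le_of_le tendsto_const_nhds hg (fun _ => zero_le) h

variable {v : Valuation K ℝ≥0} {w : Valuation F ℝ≥0} {x : F}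

theorem Gauss.ne_zero (hg : Gauss v w x) : x ≠ 0 := by
  rintro rfl
  have := hg.2.1
  rw [map_zero] at this
  exact zero_ne_one this

theorem Gauss.transcendental (hg : Gauss v w x) : Transcendental K x := by
  rintro ⟨f, hf, h⟩
  apply hf
  ext i
  have := hg.2.2 f i
  rw [h, map_zero, nonpos_iff_eq_zero] at this
  simpa using this

theorem Gauss.aeval_le (hg : Gauss v w x) (f : K[X]) (t : ℝ≥0) (h : ∀ i, v (f.coeff i) ≤ t) :
    w (aeval x f) ≤ t := by
  rw [aeval_eq_sum_range]
  refine Valuation.map_sum_le _ (fun i _ => ?_)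
  rw [Algebra.smul_def, map_mul, map_pow, hg.1, hg.2.1, one_pow, mul_one]
  exact h i

theorem aeval_reflect (hx : x ≠ 0) (d : ℕ) (g : K[X]) (hd : g.natDegree ≤ d) :
    aeval x (reflect d g) = x ^ d * aeval x⁻¹ g := by
  let _ : Invertible x⁻¹ := invertibleOfNonzero (inv_ne_zero hx)
  have h := eval₂_reflect_mul_pow (algebraMap K F) x⁻¹ d g hd
  rw [invOf_eq_inv, inv_inv] at h
  rw [aeval_def, aeval_def, ← h, mul_comm, mul_assoc, ← mul_pow, inv_mul_cancel₀ hx, one_pow,
    mul_one]

theorem Gauss.inv (hg : Gauss v w x) : Gauss v w x⁻¹ := by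
  refine ⟨hg.1, by rw [map_inv₀, hg.2.1, inv_one], fun f i => ?_⟩
  by_cases hi : i ≤ f.natDegree
  · have h := hg.2.2 (reflect f.natDegree f) (f.natDegree - i)
    rw [aeval_reflect hg.ne_zero _ _ le_rfl, map_mul, map_pow, hg.2.1, one_pow, one_mul,
      coeff_reflect, revAt_le (Nat.sub_le _ _), Nat.sub_sub_self hi] at h
    exact h
  · rw [coeff_eq_zero_of_natDegree_lt (not_le.1 hi), map_zero]
    exact zero_le

/-- the high coefficients are controlled by the distance to `x ^ M K[1/x]` -/
theorem Gauss.coeff_le (hg : Gauss v w x) (M : ℕ) (f g : K[X]) (i : ℕ) (hi : M < i) :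
    v (f.coeff i) ≤ w (aeval x f - x ^ M * aeval x⁻¹ g) := by
  have h := hg.2.2 (f * X ^ g.natDegree - X ^ M * reflect g.natDegree g) (i + g.natDegree)
  have h1 : (X ^ M * reflect g.natDegree g : K[X]).coeff (i + g.natDegree) = 0 := by
    apply coeff_eq_zero_of_natDegree_lt
    have h2 : (reflect g.natDegree g).natDegree ≤ g.natDegree :=
      natDegree_reflect_le.trans (max_le le_rfl le_rfl)
    have h3 : (X ^ M * reflect g.natDegree g : K[X]).natDegree ≤ M + g.natDegree :=
      natDegree_mul_le.trans (add_le_add (natDegree_X_pow_le M) h2)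
    omega
  rw [coeff_sub, h1, sub_zero, coeff_mul_X_pow] at h
  have e : aeval x (f * X ^ g.natDegree - X ^ M * reflect g.natDegree g) =
      x ^ g.natDegree * (aeval x f - x ^ M * aeval x⁻¹ g) := by
    rw [map_sub, map_mul, map_mul, map_pow, map_pow, aeval_X,
      aeval_reflect hg.ne_zero _ _ le_rfl]
    ring
  rw [e, map_mul, map_pow, hg.2.1, one_pow, one_mul] at h
  exact h

/-- **GAGA for polynomials** -/
theorem poly_limit (hc : Cpl v) (hg : Gauss v w x) (M : ℕ) (f g : ℕ → K[X])
    (h1 : Tendsto (fun k => w (aeval x (f k) - x ^ M * aeval x⁻¹ (g k))) atTop (𝓝 0))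
    (h2 : Tendsto (fun k => w (aeval x (f (k + 1)) - aeval x (f k))) atTop (𝓝 0)) :
    ∃ f0 : K[X], f0.natDegree ≤ M ∧
      Tendsto (fun k => w (aeval x (f k) - aeval x f0)) atTop (𝓝 0) := by
  have hb : ∀ i, ∃ b, Tendsto (fun k => v ((f k).coeff i - b)) atTop (𝓝 0) := by
    intro i
    refine hc (fun k => (f k).coeff i) (tendsto_zero_of_le h2 (fun k => ?_))
    rw [← coeff_sub, ← map_sub]
    exact hg.2.2 _ i
  choose b hb using hb
  refine ⟨∑ i ∈ Finset.range (M + 1), monomial i (b i), ?_, ?_⟩
  · refine natDegree_sum_le_of_forall_le _ _ (fun i hi => ?_)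
    exact (natDegree_monomial_le _).trans (Nat.lt_succ_iff.1 (Finset.mem_range.1 hi))
  · have h3 : Tendsto (fun k => w (aeval x (f k) - x ^ M * aeval x⁻¹ (g k)) +
        ∑ i ∈ Finset.range (M + 1), v ((f k).coeff i - b i)) atTop (𝓝 0) := by
      have := h1.add (tendsto_finsetSum (Finset.range (M + 1)) (fun i _ => hb i))
      simpa using this
    refine tendsto_zero_of_le h3 (fun k => ?_)
    rw [← map_sub]
    refine hg.aeval_le _ _ (fun i => ?_)
    rw [coeff_sub, finsetSum_coeff]
    simp only [coeff_monomial]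
    rw [Finset.sum_ite_eq']
    split_ifs with hi
    · exact le_add_left (Finset.single_le_sum (f := fun i => v ((f k).coeff i - b i))
        (fun _ _ => zero_le) hi)
    · rw [sub_zero]
      exact le_add_right (hg.coeff_le M _ _ i (by
        rw [Finset.mem_range] at hi; omega))

end Poly

section Int
variable {K F : Type*} (N : Type*) [Field K] [Field F] [Field N] [Algebra K F] [Algebra F N]

/-- `g ↦ g(x)` in `N` -/
noncomputable def ev (K : Type*) [Field K] [Algebra K F] (x : F) : K[X] →+* N :=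
  (algebraMap F N).comp (aeval x : K[X] →ₐ[K] F).toRingHom

theorem ev_apply (x : F) (g : K[X]) : ev N K x g = algebraMap F N (aeval x g) := rfl

variable {N}

/-- `z` is integral over `K[x]` -/
def IsInt (K : Type*) [Field K] [Algebra K F] (x : F) (z : N) : Prop := (ev N K x).IsIntegralElem z

theorem IsInt.mul {x : F} {z z' : N} (h : IsInt K x z) (h' : IsInt K x z') : IsInt K x (z * z') :=
  RingHom.IsIntegralElem.mul _ h h'

theorem IsInt.add {x : F} {z z' : N} (h : IsInt K x z) (h' : IsInt K x z') : IsInt K x (z + z') :=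
  RingHom.IsIntegralElem.add _ h h'

theorem isInt_aeval (x : F) (g : K[X]) : IsInt K x (algebraMap F N (aeval x g)) :=
  RingHom.isIntegralElem_map _

theorem isFractionRing {x : F} (ht : Transcendental K x)
    (hx : IntermediateField.adjoin K {x} = ⊤) :
    letI := (aeval x : K[X] →ₐ[K] F).toRingHom.toAlgebra
    IsFractionRing K[X] F := by
  let _ := (aeval x : K[X] →ₐ[K] F).toRingHom.toAlgebra
  have : FaithfulSMul K[X] F := by
    rw [faithfulSMul_iff_algebraMap_injective]
    exact transcendental_iff_injective.1 ht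
  refine IsFractionRing.of_field K[X] F (fun z => ?_)
  have hz : z ∈ IntermediateField.adjoin K {x} := by rw [hx]; trivial
  exact (IntermediateField.mem_adjoin_simple_iff K z).1 hz

theorem adjoin_inv {x : F} (hx : IntermediateField.adjoin K {x} = ⊤) :
    IntermediateField.adjoin K {x⁻¹} = ⊤ := by
  rw [eq_top_iff, ← hx, IntermediateField.adjoin_simple_le_iff]
  have := (IntermediateField.adjoin K {x⁻¹}).inv_mem (IntermediateField.mem_adjoin_simple_self K x⁻¹)
  rwa [inv_inv] at this

theorem IsInt.trace [FiniteDimensional F N] {x : F} (ht : Transcendental K x)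
    (hx : IntermediateField.adjoin K {x} = ⊤) {z : N} (h : IsInt K x z) :
    ∃ g : K[X], Algebra.trace F N z = aeval x g := by
  let _ := (aeval x : K[X] →ₐ[K] F).toRingHom.toAlgebra
  have := isFractionRing ht hx
  let _ : Algebra K[X] N := (ev N K x).toAlgebra
  have : IsScalarTower K[X] F N := IsScalarTower.of_algebraMap_eq (fun _ => rfl)
  have h1 : IsIntegral K[X] z := h
  obtain ⟨g, hg⟩ := IsIntegrallyClosed.isIntegral_iff.1 (Algebra.isIntegral_trace (L := F) h1)
  exact ⟨g, hg.symm⟩

theorem exists_isInt_mul [FiniteDimensional F N] {x : F} (ht : Transcendental K x)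
    (hx : IntermediateField.adjoin K {x} = ⊤) (z : N) :
    ∃ g : K[X], g ≠ 0 ∧ IsInt K x (algebraMap F N (aeval x g) * z) := by
  let _ := (aeval x : K[X] →ₐ[K] F).toRingHom.toAlgebra
  have := isFractionRing ht hx
  let _ : Algebra K[X] N := (ev N K x).toAlgebra
  have : IsScalarTower K[X] F N := IsScalarTower.of_algebraMap_eq (fun _ => rfl)
  have h1 : IsAlgebraic K[X] z :=
    (IsFractionRing.isAlgebraic_iff K[X] F N).2 (Algebra.IsAlgebraic.isAlgebraic z)
  obtain ⟨g, hg, h2⟩ := h1.exists_integral_multiple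
  exact ⟨g, hg, h2⟩

/-- an element integral over `K[x]` has a pole of bounded order at infinity -/
theorem IsInt.exists_inv_pow {x : F} (hx : x ≠ 0) {z : N} (h : IsInt K x z) :
    ∃ M : ℕ, IsInt K x⁻¹ (algebraMap F N (x⁻¹ ^ M) * z) := by
  obtain ⟨P, hP, hz⟩ := h
  let M : ℕ := (Finset.range (P.natDegree + 1)).sup (fun i => (P.coeff i).natDegree)
  let Q : K[X][X] := ∑ i ∈ Finset.range (P.natDegree + 1), monomial i (reflect M (P.coeff i))
  have hQc : ∀ i, Q.coeff i = reflect M (P.coeff i) := by
    intro i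
    simp only [Q, finsetSum_coeff, coeff_monomial]
    rw [Finset.sum_ite_eq']
    split_ifs with hi
    · rfl
    · rw [Finset.mem_range] at hi
      rw [coeff_eq_zero_of_natDegree_lt (by omega), reflect_zero]
  have hQd : Q.natDegree = P.natDegree := by
    apply natDegree_eq_of_le_of_coeff_ne_zero
    · rw [natDegree_le_iff_coeff_eq_zero]
      intro i hi
      rw [hQc, coeff_eq_zero_of_natDegree_lt hi, reflect_zero]
    · rw [hQc, Ne, reflect_eq_zero_iff]
      exact hP.coeff_natDegree ▸ one_ne_zero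
  have hQl : Q.leadingCoeff = X ^ M := by
    rw [leadingCoeff, hQd, hQc, hP.coeff_natDegree, reflect_one]
  have hQz : Q.eval₂ (ev N K x⁻¹) z = 0 := by
    rw [eval₂_eq_sum_range] at hz ⊢
    rw [hQd]
    have : ∀ i ∈ Finset.range (P.natDegree + 1), ev N K x⁻¹ (Q.coeff i) * z ^ i =
        algebraMap F N (x⁻¹ ^ M) * (ev N K x (P.coeff i) * z ^ i) := by
      intro i hi
      rw [hQc, ev_apply, ev_apply, aeval_reflect (inv_ne_zero hx) M _
        (Finset.le_sup (f := fun i => (P.coeff i).natDegree) hi), inv_inv, map_mul, mul_assoc]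
    rw [Finset.sum_congr rfl this, ← Finset.mul_sum, hz, mul_zero]
  have h1 := RingHom.isIntegralElem_leadingCoeff_mul (ev N K x⁻¹) Q z hQz
  rw [hQl, ev_apply, map_pow, aeval_X] at h1
  exact ⟨M, h1⟩

theorem IsInt.inv_pow_mono {x : F} {z : N} {M M' : ℕ} (hM : M ≤ M')
    (h : IsInt K x⁻¹ (algebraMap F N (x⁻¹ ^ M) * z)) :
    IsInt K x⁻¹ (algebraMap F N (x⁻¹ ^ M') * z) := by
  obtain ⟨d, rfl⟩ := Nat.exists_eq_add_of_le hM
  have h1 := (isInt_aeval (K := K) (N := N) x⁻¹ (X ^ d)).mul h
  rw [map_pow, aeval_X, ← mul_assoc, ← map_mul, ← pow_add, add_comm] at h1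
  exact h1

/-- a basis consisting of elements integral over `K[x]` -/
theorem exists_basis [FiniteDimensional F N] {x : F} (ht : Transcendental K x)
    (hx : IntermediateField.adjoin K {x} = ⊤) :
    ∃ b : Module.Basis (Fin (Module.finrank F N)) F N, ∀ i, IsInt K x (b i) := by
  let b0 := Module.finBasis F N
  choose g hg hi using fun i => exists_isInt_mul (K := K) ht hx (b0 i)
  have hne : ∀ i, aeval x (g i) ≠ 0 := fun i h =>
    hg i (transcendental_iff_injective.1 ht (h.trans (map_zero _).symm))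
  refine ⟨b0.unitsSMul (fun i => Units.mk0 _ (hne i)), fun i => ?_⟩
  rw [Module.Basis.unitsSMul_apply, Units.smul_def, Units.val_mk0, Algebra.smul_def]
  exact hi i

end Int

section Null
variable {F N : Type*} [Field F] [Field N] [Algebra F N]

/-- the sequence tends to zero weakly -/
def Null (w : Valuation F ℝ≥0) (z : ℕ → N) : Prop :=
  ∀ b : N, Tendsto (fun k => w (Algebra.trace F N (b * z k))) atTop (𝓝 0)

variable {w : Valuation F ℝ≥0}

theorem Null.zero : Null w (fun _ => (0 : N)) := fun b => by simp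

theorem Null.congr {z z' : ℕ → N} (h : Null w z) (e : ∀ k, z k = z' k) : Null w z' := by
  rw [← funext e]; exact h

theorem Null.add {z z' : ℕ → N} (h : Null w z) (h' : Null w z') :
    Null w (fun k => z k + z' k) := by
  intro b
  have := (h b).add (h' b)
  rw [add_zero] at this
  refine tendsto_zero_of_le this (fun k => ?_)
  rw [mul_add, map_add]
  exact (w.map_add _ _).trans (max_le le_self_add le_add_self)

theorem Null.mul_left {z : ℕ → N} (h : Null w z) (c : N) : Null w (fun k => c * z k) := by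
  intro b
  simpa only [mul_assoc] using h (b * c)

theorem Null.neg {z : ℕ → N} (h : Null w z) : Null w (fun k => - z k) :=
  (h.mul_left (-1)).congr (fun k => by simp)

theorem Null.sub {z z' : ℕ → N} (h : Null w z) (h' : Null w z') :
    Null w (fun k => z k - z' k) :=
  (h.add h'.neg).congr (fun k => by rw [sub_eq_add_neg])

theorem Null.smul {z : ℕ → N} (h : Null w z) (a : F) : Null w (fun k => a • z k) :=
  (h.mul_left (algebraMap F N a)).congr (fun k => by rw [Algebra.smul_def])

theorem Null.sum {ι : Type*} (s : Finset ι) {z : ι → ℕ → N} (h : ∀ i ∈ s, Null w (z i)) :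
    Null w (fun k => ∑ i ∈ s, z i k) := by
  classical
  induction s using Finset.induction_on with
  | empty => simpa using Null.zero
  | insert a s ha ih =>
    refine ((h a (Finset.mem_insert_self _ _)).add
      (ih fun i hi => h i (Finset.mem_insert_of_mem hi))).congr (fun k => ?_)
    rw [Finset.sum_insert ha]

theorem Null.comp {z : ℕ → N} (h : Null w z) {φ : ℕ → ℕ} (hφ : Tendsto φ atTop atTop) :
    Null w (fun k => z (φ k)) := fun b => (h b).comp hφ

theorem Null.eq_zero [FiniteDimensional F N] [Algebra.IsSeparable F N] {z : N}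
    (h : Null w (fun _ => z)) : z = 0 := by
  apply (traceForm_nondegenerate F N).2
  intro b
  have := tendsto_nhds_unique (h b) tendsto_const_nhds
  rw [eq_comm, map_eq_zero] at this
  exact this

/-- it suffices to test on a basis -/
theorem null_of_basis {ι : Type*} [Fintype ι] (b : Module.Basis ι F N) {z : ℕ → N}
    (h : ∀ i, Tendsto (fun k => w (Algebra.trace F N (b i * z k))) atTop (𝓝 0)) : Null w z := by
  intro c
  have h1 : Tendsto (fun k => ∑ i, w (b.repr c i) * w (Algebra.trace F N (b i * z k))) atTop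
      (𝓝 0) := by
    have := tendsto_finsetSum Finset.univ (fun i _ => (h i).const_mul (w (b.repr c i)))
    simpa using this
  refine tendsto_zero_of_le h1 (fun k => ?_)
  conv_lhs => rw [← b.sum_repr c]
  rw [Finset.sum_mul, map_sum]
  refine Valuation.map_sum_le _ (fun i _ => ?_)
  rw [smul_mul_assoc, map_smul, smul_eq_mul, map_mul]
  exact Finset.single_le_sum
    (f := fun i => w (b.repr c i) * w (Algebra.trace F N (b i * z k))) (fun _ _ => zero_le)
    (Finset.mem_univ i)

/-- the coordinates of a null sequence tend to zero -/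
theorem Null.coord [FiniteDimensional F N] [Algebra.IsSeparable F N] {ι : Type*} [Fintype ι]
    (b : Module.Basis ι F N) {z : ℕ → N} (h : Null w z) (i : ι) :
    Tendsto (fun k => w (b.repr (z k) i)) atTop (𝓝 0) := by
  classical
  refine (h (b.traceDual i)).congr (fun k => ?_)
  have := b.traceDual.traceDual_repr_apply (z k) i
  rw [Module.Basis.traceDual_traceDual, Algebra.traceForm_apply, mul_comm] at this
  rw [this]

theorem null_of_coord {ι : Type*} [Fintype ι] (b : Module.Basis ι F N) {z : ℕ → N}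
    (h : ∀ i, Tendsto (fun k => w (b.repr (z k) i)) atTop (𝓝 0)) : Null w z := by
  intro c
  have h1 : Tendsto (fun k => ∑ i, w (b.repr (z k) i) * w (Algebra.trace F N (c * b i))) atTop
      (𝓝 0) := by
    have := tendsto_finsetSum Finset.univ
      (fun i _ => (h i).mul_const (w (Algebra.trace F N (c * b i))))
    simpa using this
  refine tendsto_zero_of_le h1 (fun k => ?_)
  conv_lhs => rw [← b.sum_repr (z k)]
  rw [Finset.mul_sum, map_sum]
  refine Valuation.map_sum_le _ (fun i _ => ?_)
  rw [mul_smul_comm, map_smul, smul_eq_mul, map_mul]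
  exact Finset.single_le_sum
    (f := fun i => w (b.repr (z k) i) * w (Algebra.trace F N (c * b i))) (fun _ _ => zero_le)
    (Finset.mem_univ i)

/-- a null sequence lies eventually in `t L` for the lattice `L` spanned by a basis -/
theorem Null.eventually_coord [FiniteDimensional F N] [Algebra.IsSeparable F N] {ι : Type*}
    [Fintype ι] (b : Module.Basis ι F N) {z : ℕ → N} (h : Null w z) {t : F} (ht : t ≠ 0) :
    ∃ k₀, ∀ k, k₀ ≤ k → ∃ c : ι → F, (∀ i, w (c i) ≤ 1) ∧ z k = t • ∑ i, c i • b i := by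
  have hpos : 0 < w t := pos_iff_ne_zero.2 ((map_ne_zero w).2 ht)
  have h1 : ∀ᶠ k in atTop, ∀ i, w (b.repr (z k) i) < w t :=
    eventually_all.2 (fun i => (h.coord b i).eventually (gt_mem_nhds hpos))
  obtain ⟨k₀, hk⟩ := eventually_atTop.1 h1
  refine ⟨k₀, fun k hk' => ⟨fun i => t⁻¹ * b.repr (z k) i, fun i => ?_, ?_⟩⟩
  · rw [map_mul, map_inv₀, inv_mul_le_iff₀ hpos, mul_one]
    exact (hk k hk' i).le
  · rw [Finset.smul_sum]
    conv_lhs => rw [← b.sum_repr (z k)]
    refine Finset.sum_congr rfl (fun i _ => ?_)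
    rw [smul_smul, mul_inv_cancel_left₀ ht]

/-- weakly bounded sets -/
def Bdd (w : Valuation F ℝ≥0) (L : Set N) : Prop :=
  ∀ b : N, ∃ c : ℝ≥0, ∀ z ∈ L, w (Algebra.trace F N (b * z)) ≤ c

theorem Bdd.mono {L L' : Set N} (h : Bdd w L') (hL : L ⊆ L') : Bdd w L := fun b =>
  let ⟨c, hc⟩ := h b
  ⟨c, fun z hz => hc z (hL hz)⟩

/-- the `R`-span of a finite family is bounded if `R` is -/
theorem Bdd.span {ι : Type*} [Fintype ι] {R : Set N} (hR : Bdd w R) (e : ι → N) {L : Set N}
    (hL : ∀ z ∈ L, ∃ c : ι → N, (∀ i, c i ∈ R) ∧ z = ∑ i, c i * e i) : Bdd w L := by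
  intro b
  choose c hc using fun i => hR (b * e i)
  refine ⟨∑ i, c i, fun z hz => ?_⟩
  obtain ⟨r, hr, rfl⟩ := hL z hz
  rw [Finset.mul_sum, map_sum]
  refine Valuation.map_sum_le _ (fun i _ => ?_)
  rw [mul_comm (r i), ← mul_assoc]
  exact (hc i _ (hr i)).trans
    (Finset.single_le_sum (f := c) (fun _ _ => zero_le) (Finset.mem_univ i))

/-- the valuation ring of `w` is bounded -/
theorem bdd_integer : Bdd w {z : N | ∃ a : F, w a ≤ 1 ∧ z = algebraMap F N a} := by
  intro b
  refine ⟨w (Algebra.trace F N b), ?_⟩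
  rintro _ ⟨a, ha, rfl⟩
  rw [mul_comm, ← Algebra.smul_def, map_smul, smul_eq_mul, map_mul]
  exact mul_le_of_le_one_left' ha

theorem bdd_of_coord {ι : Type*} [Fintype ι] (e : ι → N) {L : Set N}
    (hL : ∀ z ∈ L, ∃ c : ι → F, (∀ i, w (c i) ≤ 1) ∧ z = ∑ i, c i • e i) : Bdd w L := by
  refine bdd_integer.span e (fun z hz => ?_)
  obtain ⟨c, hc, rfl⟩ := hL z hz
  exact ⟨fun i => algebraMap F N (c i), fun i => ⟨c i, hc i, rfl⟩,
    Finset.sum_congr rfl (fun i _ => Algebra.smul_def _ _)⟩

/-- a sequence which lies eventually in `t ^ j L` for every `j`, `L` bounded, is null -/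
theorem null_of_bdd {L : Set N} (hL : Bdd w L) {t : F} (ht : w t < 1) {z : ℕ → N}
    (h : ∀ j : ℕ, ∃ k₀, ∀ k, k₀ ≤ k → ∃ l ∈ L, z k = t ^ j • l) : Null w z := by
  intro b
  obtain ⟨c, hc⟩ := hL b
  have h1 : Tendsto (fun j : ℕ => w t ^ j * c) atTop (𝓝 0) := by
    have := (NNReal.tendsto_pow_atTop_nhds_zero_of_lt_one ht).mul_const c
    simpa using this
  rw [tendsto_order]
  refine ⟨fun a ha => absurd ha (not_lt.2 zero_le), fun ε hε => ?_⟩
  obtain ⟨j, hj⟩ := (h1.eventually (gt_mem_nhds hε)).exists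
  obtain ⟨k₀, hk⟩ := h j
  refine eventually_atTop.2 ⟨k₀, fun k hk' => ?_⟩
  obtain ⟨l, hl, e⟩ := hk k hk'
  rw [e, mul_smul_comm, map_smul, smul_eq_mul, map_mul, map_pow]
  exact lt_of_le_of_lt (mul_le_mul_right (hc l hl) _) hj

end Null

section Main
variable {K F N : Type*} [Field K] [Field F] [Field N] [Algebra K F] [Algebra F N]
  [FiniteDimensional F N] [Algebra.IsSeparable F N]
  {v : Valuation K ℝ≥0} {w : Valuation F ℝ≥0} {x : F}

/-- **GAGA for sequences** -/
theorem exists_limit (hc : Cpl v) (hg : Gauss v w x) (hx : IntermediateField.adjoin K {x} = ⊤)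
    (M : ℕ) (z z' : ℕ → N) (hz : ∀ k, IsInt K x (z k))
    (hz' : ∀ k, IsInt K x⁻¹ (algebraMap F N (x⁻¹ ^ M) * z' k))
    (h1 : Null w (fun k => z k - z' k)) (h2 : Null w (fun k => z (k + 1) - z k)) :
    ∃ z0 : N, Null w (fun k => z k - z0) := by
  classical
  obtain ⟨b, hb⟩ := exists_basis (K := K) (N := N) hg.transcendental hx
  have hlim : ∀ i, ∃ f0 : K[X],
      Tendsto (fun k => w (Algebra.trace F N (b i * z k) - aeval x f0)) atTop (𝓝 0) := by
    intro i
    obtain ⟨m, hm⟩ := (hb i).exists_inv_pow hg.ne_zero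
    choose f hf using fun k => ((hb i).mul (hz k)).trace hg.transcendental hx
    choose g hg' using fun k => (hm.mul (hz' k)).trace hg.inv.transcendental (adjoin_inv hx)
    have e : ∀ k, Algebra.trace F N (b i * z' k) = x ^ (m + M) * aeval x⁻¹ (g k) := by
      intro k
      rw [← hg' k, ← smul_eq_mul (x ^ (m + M)), ← map_smul, Algebra.smul_def]
      congr 1
      have hx0 : algebraMap F N x ≠ 0 := (_root_.map_ne_zero _).2 hg.ne_zero
      simp only [map_pow, map_inv₀, inv_pow]
      field_simp
      ring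
    obtain ⟨f0, -, h0⟩ := poly_limit hc hg (m + M) f g
      ((h1 (b i)).congr (fun k => by rw [mul_sub, map_sub, hf, e]))
      ((h2 (b i)).congr (fun k => by rw [mul_sub, map_sub, hf, hf]))
    exact ⟨f0, h0.congr (fun k => by rw [hf])⟩
  choose f0 hf0 using hlim
  refine ⟨∑ j, aeval x (f0 j) • b.traceDual j, null_of_basis b (fun i => ?_)⟩
  refine (hf0 i).congr (fun k => ?_)
  congr 1
  rw [mul_sub, map_sub, Finset.mul_sum, map_sum]
  congr 1
  simp only [mul_smul_comm, map_smul, Module.Basis.trace_mul_traceDual, smul_eq_mul, mul_ite,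
    mul_one, mul_zero]
  rw [Finset.sum_ite_eq]
  simp

/-- **GAGA for operators** -/
theorem gaga (hc : Cpl v) (hg : Gauss v w x) (hx : IntermediateField.adjoin K {x} = ⊤)
    (q q' : ℕ → N →+ N) (hq : ∀ k z, IsInt K x z → IsInt K x (q k z))
    (hq' : ∀ k z, IsInt K x⁻¹ z → IsInt K x⁻¹ (q' k z))
    (hqx : ∀ k z, q' k (algebraMap F N x * z) = algebraMap F N x * q' k z)
    (h1 : ∀ z, Null w (fun k => q k z - q' k z))
    (h2 : ∀ z, Null w (fun k => q (k + 1) z - q k z))
    (h3 : ∀ (a : F) z, Null w (fun k => q k (a • z) - a • q k z)) :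
    ∃ ε : N →ₗ[F] N, ∀ z, Null w (fun k => q k z - ε z) := by
  classical
  obtain ⟨b, hb⟩ := exists_basis (K := K) (N := N) hg.transcendental hx
  have hx0 : algebraMap F N x ≠ 0 := (_root_.map_ne_zero _).2 hg.ne_zero
  have hpow : ∀ k (m : ℕ) z, q' k (algebraMap F N x ^ m * z) = algebraMap F N x ^ m * q' k z := by
    intro k m
    induction m with
    | zero => intro z; simp
    | succ m ih => intro z; rw [pow_succ', mul_assoc, hqx, ih, mul_assoc]
  have hlim : ∀ i, ∃ z0 : N, Null w (fun k => q k (b i) - z0) := by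
    intro i
    obtain ⟨m, hm⟩ := (hb i).exists_inv_pow hg.ne_zero
    refine exists_limit hc hg hx m (fun k => q k (b i)) (fun k => q' k (b i))
      (fun k => hq k _ (hb i)) (fun k => ?_) (h1 _) (h2 _)
    have h4 := hq' k _ hm
    have e : q' k (b i) = algebraMap F N x ^ m * q' k (algebraMap F N (x⁻¹ ^ m) * b i) := by
      rw [← hpow, ← mul_assoc, map_pow, map_inv₀, ← mul_pow, mul_inv_cancel₀ hx0, one_pow, one_mul]
    have e2 : algebraMap F N (x⁻¹ ^ m) * algebraMap F N x ^ m = 1 := by
      rw [map_pow, map_inv₀, ← mul_pow, inv_mul_cancel₀ hx0, one_pow]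
    rw [e, ← mul_assoc, e2, one_mul]
    exact h4
  choose z0 hz0 using hlim
  refine ⟨b.constr F z0, fun z => ?_⟩
  have h5 := Null.sum (w := w) Finset.univ (z := fun i k =>
    (q k (b.repr z i • b i) - b.repr z i • q k (b i)) + b.repr z i • (q k (b i) - z0 i))
    (fun i _ => (h3 _ _).add ((hz0 i).smul _))
  refine h5.congr (fun k => ?_)
  conv_rhs => rw [← b.sum_repr z]
  rw [map_sum, map_sum, ← Finset.sum_sub_distrib]
  refine Finset.sum_congr rfl (fun i _ => ?_)
  rw [LinearMap.map_smul, Module.Basis.constr_basis, smul_sub]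
  abel

/-- the limit operator commutes with every element of `N` with which the sequence commutes
asymptotically -/
theorem limit_mul {q : ℕ → N →+ N} {ε : N →ₗ[F] N} (h : ∀ z, Null w (fun k => q k z - ε z))
    (a z : N) (h3 : Null w (fun k => q k (a * z) - a * q k z)) : ε (a * z) = a * ε z := by
  rw [← sub_eq_zero]
  refine Null.eq_zero (w := w) ?_
  refine ((h3.sub (h (a * z))).add ((h z).mul_left a)).congr (fun k => ?_)
  ring

end Main

end Crest.Agent.T170.Gaga13
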