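import Crest.Agent.T170.Idem_38
import Crest.Agent.T170.DMStm_38

/-!
Row 170: the global idempotent and the dimension of the space of topologically nilpotent vectors.
-/

namespace Crest.Agent.T170.DM

open Module

section LinAlg

variable {F : Type*} [Field F] {W : Type*} [AddCommGroup W] [Module F W] [FiniteDimensional F W]

omit [FiniteDimensional F W] in
theorem maxGen_zero_of_idem {P : Module.End F W} (hP : P * P = P) :
    P.maxGenEigenspace 0 = LinearMap.ker P := by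
  ext z
  rw [Module.End.mem_maxGenEigenspace]
  simp only [zero_smul, sub_zero, LinearMap.mem_ker]
  constructor
  · rintro ⟨k, hk⟩
    rcases k with _ | k
    · rw [pow_zero, Module.End.one_apply] at hk
      rw [hk, map_zero]
    · rwa [(show IsIdempotentElem P from hP).pow_succ_eq] at hk
  · intro h
    exact ⟨1, by simpa using h⟩

theorem finrank_ker_add_of_idem {P : Module.End F W} (hP : P * P = P) :
    finrank F (LinearMap.ker P) + finrank F (LinearMap.ker (1 - P)) = finrank F W := by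
  have : LinearMap.ker (1 - P) = LinearMap.range P := by
    ext z
    simp only [LinearMap.mem_ker, LinearMap.sub_apply, Module.End.one_apply, LinearMap.mem_range]
    constructor
    · intro h; exact ⟨z, (sub_eq_zero.1 h).symm⟩
    · rintro ⟨y, rfl⟩
      rw [← Module.End.mul_apply, hP, sub_self]
  rw [this, add_comm]
  exact LinearMap.finrank_range_add_finrank_ker P

/-- a high `p`-power of a pre-projector is the projector -/
theorem IsPre.exists_pow {p : ℕ} [Fact p.Prime] [CharP F p] {n : Type*}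
    {δb : n → Module.End F W} {Eb : Module.End F W} (h : IsPre δb Eb) :
    ∃ s : ℕ, Eb ^ s * Eb ^ s = Eb ^ s ∧ LinearMap.ker (1 - Eb ^ s) = V0 δb := by
  rcases subsingleton_or_nontrivial W with hW | hW
  · refine ⟨0, by simp, ?_⟩
    ext z; simp [Subsingleton.elim z 0]
  have : CharP (Module.End F W) p := charP_of_injective_algebraMap
    (FaithfulSMul.algebraMap_injective F (Module.End F W)) p
  obtain ⟨⟨k, hk⟩, h2⟩ := h
  set t := max k (finrank F W)
  have hp : 1 < p := (Fact.out : p.Prime).one_lt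
  have ht : t ≤ p ^ t := (Nat.lt_pow_self hp).le
  refine ⟨p ^ t, ?_, ?_⟩
  · have hc : Commute (Eb * Eb) Eb := (Commute.refl Eb).mul_left (Commute.refl Eb)
    have h3 : (Eb * Eb - Eb) ^ p ^ t = 0 :=
      pow_eq_zero_of_le (le_trans (le_max_left _ _) ht) hk
    rw [sub_pow_char_pow_of_commute p t hc, (Commute.refl Eb).mul_pow, sub_eq_zero] at h3
    exact h3
  · rw [← h2]
    have hc : Commute Eb 1 := Commute.one_right Eb
    have h3 : (Eb - 1) ^ p ^ t = Eb ^ p ^ t - 1 := by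
      rw [sub_pow_char_pow_of_commute p t hc, one_pow]
    have h4 : LinearMap.ker (1 - Eb ^ p ^ t) = LinearMap.ker ((Eb - 1) ^ p ^ t) := by
      rw [h3, ← LinearMap.ker_neg, neg_sub]
    rw [h4, Module.End.maxGenEigenspace_eq_genEigenspace_finrank, Module.End.genEigenspace_nat,
      one_smul]
    exact Module.End.ker_pow_eq_ker_pow_finrank_of_le (le_trans (le_max_right _ _) ht)

theorem pow_finrank_eq_zero_of_mem_V0 {n : Type*} {δb : n → Module.End F W} {z : W}
    (hz : z ∈ V0 δb) (i : n) : (δb i ^ finrank F W) z = 0 := by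
  have := (Submodule.mem_iInf _).1 hz i
  rw [Module.End.maxGenEigenspace_eq_genEigenspace_finrank, Module.End.genEigenspace_nat] at this
  simpa using this

end LinAlg

section Main

variable {R K : Type*} [CommRing R] [IsDomain R] [Field K] [Algebra R K] [IsFractionRing R K]
variable {V : Type*} [AddCommGroup V] [Module K V] [Module R V] [IsScalarTower R K V]
variable {ι : Type*} [Fintype ι] {F : Type*} [Field F] {res : R →+* F}

theorem eq_zero_of_small (hR : Arch R) {ϖ : R} (h0 : ϖ ≠ 0) (hϖ : ¬ IsUnit ϖ) (b : Basis ι K V)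
    {T : AddMonoid.End V} (hc : Comm ϖ T) (h : ∀ j, Small ϖ (lat R b) j T) : T = 0 := by
  refine AddMonoidHom.ext fun z => ?_
  obtain ⟨t, ht⟩ := exists_pow_smul_mem (K := K) hR hϖ (lat R b) (isLattice_lat b) z
  have := eq_zero_of_mem_pw hR hϖ b fun j => h j _ ht
  rw [comm_pow hc] at this
  change T z = 0
  exact smul_cancel (K := K) (pow_ne_zero t h0) (by rw [this, smul_zero])

/-- an `R`-linear additive operator is `K`-linear -/
def toLinK (K : Type*) [Field K] [Algebra R K] [IsFractionRing R K] [Module K V]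
    [IsScalarTower R K V] (e : AddMonoid.End V) (he : ∀ a : R, Comm a e) : V →ₗ[K] V where
  toFun := e
  map_add' := map_add e
  map_smul' := by
    intro a z
    obtain ⟨r, d, hd, rfl⟩ := IsFractionRing.div_surjective R a
    have hd0 : d ≠ 0 := nonZeroDivisors.ne_zero hd
    have hne : algebraMap R K d ≠ 0 := by simpa using hd0
    have key : ∀ w : V, d • (algebraMap R K r / algebraMap R K d) • w = r • w := by
      intro w
      rw [← algebraMap_smul K d, smul_smul, mul_div_cancel₀ _ hne, algebraMap_smul]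
    refine smul_cancel (K := K) hd0 ?_
    rw [← he d, key, he r, RingHom.id_apply, key]

theorem finrank_maxGen_le [DecidableEq ι] (b : Basis ι K V) (φ : V →ₗ[K] V) (G : Matrix ι ι R)
    (hG : ∀ j, φ (b j) = ∑ i, G i j • b i) :
    finrank K (Module.End.maxGenEigenspace φ 0) ≤
      finrank F (Module.End.maxGenEigenspace (Matrix.toLin' (G.map res)) 0) := by
  have : FiniteDimensional K V := Module.Finite.of_basis b
  rw [LinearMap.finrank_maxGenEigenspace_zero_eq, LinearMap.finrank_maxGenEigenspace_zero_eq]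
  have h1 : LinearMap.toMatrix b b φ = G.map (algebraMap R K) := by
    ext i j
    rw [LinearMap.toMatrix_apply, hG, map_sum]
    simp only [← algebraMap_smul K (G _ j), map_smul, Basis.repr_self, Matrix.map_apply]
    rw [Finsupp.finsetSum_apply, Finset.sum_eq_single i]
    · simp [Algebra.smul_def]
    · intro k _ hk; simp [Finsupp.single_eq_of_ne hk.symm]
    · simp
  rw [← LinearMap.charpoly_toMatrix φ b, h1, Matrix.charpoly_map, Matrix.charpoly_toLin',
    Matrix.charpoly_map]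
  have hm : (G.charpoly.map res) ≠ 0 := (G.charpoly_monic.map res).ne_zero
  refine Polynomial.le_natTrailingDegree hm fun m hm' => ?_
  have := Polynomial.coeff_eq_zero_of_lt_natTrailingDegree hm'
  rw [Polynomial.coeff_map] at this ⊢
  rw [(map_eq_zero_iff _ (IsFractionRing.injective R K)).1 this, map_zero]

omit [IsDomain R] in
theorem TNil.cancel (hR : Arch R) {ϖ : R} (hϖ : ¬ IsUnit ϖ) {L : Submodule R V}
    {T : AddMonoid.End V} {c : R} (hc0 : c ≠ 0) (hc : Comm c T) {z : V}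
    (K : Type*) [Field K] [Algebra R K] [IsFractionRing R K] [Module K V] [IsScalarTower R K V]
    (h : TNil ϖ L T (c • z)) : TNil ϖ L T z := by
  intro j
  obtain ⟨t, c', hc'⟩ := hR ϖ hϖ c hc0
  obtain ⟨k₀, hk⟩ := h (j + t)
  refine ⟨k₀, fun k hk' => ?_⟩
  obtain ⟨w, hw, e⟩ := mem_pw.1 (hk k hk')
  rw [hc.pow k, pow_add, hc', mul_left_comm, mul_smul] at e
  rw [← smul_cancel (K := K) hc0 e, mul_smul]
  exact smul_mem_pw j (L.smul_mem _ hw)

omit [IsDomain R] in
theorem TNil.smul_cst {ϖ : R} {L : Submodule R V} {T : AddMonoid.End V} {c : R} (hc : Comm c T)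
    {z : V} (h : TNil ϖ L T z) : TNil ϖ L T (c • z) := by
  intro j
  obtain ⟨k₀, hk⟩ := h j
  exact ⟨k₀, fun k hk' => by rw [hc.pow k]; exact Submodule.smul_mem _ _ (hk k hk')⟩

variable [ValuationRing R] {n : Type*} {δ : n → AddMonoid.End V} {π : R}

/-- An operator which reduces to zero is small. -/
theorem exists_small_of_red_zero (hker : ∀ a, res a = 0 ↔ ¬ IsUnit a) (hπ0 : π ≠ 0)
    (hπ : ¬ IsUnit π) (hcst : CstDense R δ) (b : Basis ι K V) {T : AddMonoid.End V}
    (hlin : ∀ (a : R), ∀ z ∈ lat R b, T (a • z) - a • T z ∈ pw π (lat R b) 1)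
    (hT : Red res b T 0) :
    ∃ ϖ : R, (ϖ ≠ 0 ∧ ¬ IsUnit ϖ ∧ (∀ i, Comm ϖ (δ i)) ∧ ϖ ∣ π) ∧ Small ϖ (lat R b) 1 T := by
  classical
  choose c hc1 hc2 using fun j : ι => hT (Pi.single j 1)
  have hnu : ∀ x ∈ (Finset.univ : Finset (ι × ι)), ¬ IsUnit (c x.1 x.2) := by
    intro x _
    rw [← hker]
    exact congrFun (hc2 x.1) x.2
  obtain ⟨ϖ₀, h1, h2, h3⟩ := exists_common_dvd Finset.univ (fun x : ι × ι => c x.1 x.2) hnu hπ
  obtain ⟨ϖ, hϖc, hass⟩ := hcst ϖ₀
  have hd : ϖ ∣ π := hass.symm.dvd.trans h2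
  refine ⟨ϖ, ⟨fun h => hπ0 (by simpa [h] using hd), fun h => h1 (hass.symm.isUnit h), hϖc, hd⟩, ?_⟩
  intro z hz
  obtain ⟨a, rfl⟩ := mem_lat.1 hz
  have e : T (vec b a) = ∑ j, (T (a j • b j) - a j • T (b j)) + ∑ j, a j • T (b j) := by
    rw [vec_apply, map_sum, ← Finset.sum_add_distrib]
    simp
  rw [e]
  refine Submodule.add_mem _ (Submodule.sum_mem _ fun j _ => ?_)
    (Submodule.sum_mem _ fun j _ => Submodule.smul_mem _ _ ?_)
  · exact pw_le_pw_of_dvd (by simpa using hd) _ (hlin _ _ (self_mem_lat b j))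
  · rw [← vec_single (R := R) b j, hc1, vec_apply]
    refine Submodule.sum_mem _ fun i _ => ?_
    obtain ⟨u, hu⟩ := hass.symm.dvd.trans (h3 (j, i) (Finset.mem_univ _))
    rw [hu, mul_smul]
    simpa using smul_mem_pw (π := ϖ) 1 (Submodule.smul_mem _ u (self_mem_lat b i))

omit [IsDomain R] [ValuationRing R] in
theorem Small.of_dvd {ϖ ϖ' : R} (h : ϖ ∣ ϖ') {L : Submodule R V} {T : AddMonoid.End V}
    (hT : Small ϖ' L 1 T) : Small ϖ L 1 T :=
  fun z hz => pw_le_pw_of_dvd (by simpa using h) L (hT z hz)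

theorem exists_good_dvd {P : R → Prop} {a b : R} (ha : P a) (hb : P b) :
    ∃ c, P c ∧ c ∣ a ∧ c ∣ b := by
  rcases ValuationRing.dvd_total a b with h | h
  exacts [⟨a, ha, dvd_rfl, h⟩, ⟨b, hb, h, dvd_rfl⟩]

/-- The global idempotent. -/
theorem exists_idem (hR : Arch R)
    (hker : ∀ a, res a = 0 ↔ ¬ IsUnit a) (hπ0 : π ≠ 0) (hπ : ¬ IsUnit π)
    (hδ : ∀ i, IsConn π 1 (δ i)) (hc : ∀ i j, δ i * δ j = δ j * δ i) (hcst : CstDense R δ)
    (b : Basis ι K V) (hL : ∀ i, Stab (lat R b) (δ i)) (B₀ B₁ : AddSubgroup V)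
    (hG : ∀ ϖ : R, ϖ ≠ 0 → ¬ IsUnit ϖ → (∀ i, Comm ϖ (δ i)) → Gaga ϖ (lat R b) B₀ B₁)
    {E₀ E₁ : AddMonoid.End V} {P : Module.End F (ι → F)} (m₀ : E₀ ∈ opRing R δ)
    (m₁ : E₁ ∈ opRing R δ) (p₀ : Set.MapsTo E₀ B₀ B₀) (p₁ : Set.MapsTo E₁ B₁ B₁)
    (r₀ : Red res b E₀ P) (r₁ : Red res b E₁ P) (hP : P * P = P) :
    ∃ e : AddMonoid.End V, e * e = e ∧ (∀ x ∈ opRing R δ, e * x = x * e) ∧ Red res b e P := by
  have lin : ∀ {T}, T ∈ opRing R δ → ∀ (a : R), ∀ z ∈ lat R b,
      T (a • z) - a • T z ∈ pw π (lat R b) 1 := fun hT a z hz => opRing_lin hδ hc hL hT a hz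
  obtain ⟨ϖ₁, g₁, s₁⟩ := exists_small_of_red_zero hker hπ0 hπ hcst b
    (lin (sub_mem (mul_mem m₀ m₀) m₀)) (by simpa [hP] using (r₀.mul r₀).sub r₀)
  obtain ⟨ϖ₂, g₂, s₂⟩ := exists_small_of_red_zero hker hπ0 hπ hcst b
    (lin (sub_mem (mul_mem m₁ m₁) m₁)) (by simpa [hP] using (r₁.mul r₁).sub r₁)
  obtain ⟨ϖ₃, g₃, s₃⟩ := exists_small_of_red_zero hker hπ0 hπ hcst b
    (lin (sub_mem m₀ m₁)) (by simpa using r₀.sub r₁)
  obtain ⟨ϖ₄, g₄, d₁, d₂⟩ := exists_good_dvd
    (P := fun ϖ => ϖ ≠ 0 ∧ ¬ IsUnit ϖ ∧ (∀ i, Comm ϖ (δ i)) ∧ ϖ ∣ π) g₁ g₂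
  obtain ⟨ϖ, ⟨h0, hu, hϖ, hd⟩, d₄, d₃⟩ := exists_good_dvd
    (P := fun ϖ => ϖ ≠ 0 ∧ ¬ IsUnit ϖ ∧ (∀ i, Comm ϖ (δ i)) ∧ ϖ ∣ π) g₄ g₃
  replace s₁ := s₁.of_dvd (d₄.trans d₁)
  replace s₂ := s₂.of_dvd (d₄.trans d₂)
  replace s₃ := s₃.of_dvd d₃
  have S : ∀ {x}, x ∈ opRing R δ → Stab (lat R b) x := fun hx => Stab.of_mem hL hx
  have C : ∀ {x}, x ∈ opRing R δ → Comm ϖ x := fun hx => Comm.of_mem hϖ hx
  have q₀ : ∀ k, nw^[k] E₀ ∈ opRing R δ := nw_iter_mem _ m₀
  have q₁ : ∀ k, nw^[k] E₁ ∈ opRing R δ := nw_iter_mem _ m₁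
  have u₀ := small_nw_sq hL hϖ m₀ s₁
  have u₁ := small_nw_sq hL hϖ m₁ s₂
  obtain ⟨e, hec, he⟩ := hG ϖ h0 hu hϖ (fun k => nw^[k] E₀) (fun k => nw^[k] E₁)
    (fun k => nw_iter_mem (presRing B₀) p₀ k) (fun k => nw_iter_mem (presRing B₁) p₁ k)
    (fun k => C (q₀ k)) (fun k => C (q₁ k)) (fun k => S (q₀ k))
    (fun k => by
      refine (small_unique hδ hc hL hϖ hd (q₀ k) (q₁ k) (u₀ k) (u₁ k) ?_).mono (Nat.le_succ k)
      have := ((small_nw_sub hL hϖ m₀ s₁ k).add s₃).sub (small_nw_sub hL hϖ m₁ s₂ k)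
      simpa using this)
    (fun k => (small_nw_succ hL hϖ m₀ s₁ k).mono (Nat.le_succ k))
    (fun k a => (small_central hδ hc hL hϖ hd (q₀ k) (u₀ k) (sc_mem_opRing δ a)).mono
      (Nat.le_succ k))
  have approx : ∀ j, ∃ q ∈ opRing R δ, Small ϖ (lat R b) j (e - q) ∧
      Small ϖ (lat R b) j (q * q - q) ∧ Small ϖ (lat R b) 1 (q - E₀) := by
    intro j
    obtain ⟨k₀, hk⟩ := he j
    exact ⟨nw^[max k₀ j] E₀, q₀ _, hk _ (le_max_left _ _),
      (u₀ _).mono (le_trans (le_max_right _ _) (Nat.le_succ _)), small_nw_sub hL hϖ m₀ s₁ _⟩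
  have hes : Stab (lat R b) e := by
    obtain ⟨q, hq, h1, -⟩ := approx 0
    simpa using h1.stab.add (S hq)
  refine ⟨e, ?_, fun x hx => ?_, ?_⟩
  · rw [← sub_eq_zero]
    refine eq_zero_of_small hR h0 hu b ((hec.mul hec).sub hec) fun j => ?_
    obtain ⟨q, hq, h1, h2, -⟩ := approx j
    have : e * e - e = e * (e - q) + (e - q) * q + (q * q - q) - (e - q) := by noncomm_ring
    rw [this]
    exact (((Small.stab_mul hes hec h1).add (h1.mul_stab (S hq))).add h2).sub h1
  · rw [← sub_eq_zero]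
    refine eq_zero_of_small hR h0 hu b ((hec.mul (C hx)).sub ((C hx).mul hec)) fun j => ?_
    obtain ⟨q, hq, h1, h2, -⟩ := approx j
    have : e * x - x * e = (e - q) * x + (q * x - x * q) - x * (e - q) := by noncomm_ring
    rw [this]
    exact ((h1.mul_stab (S hx)).add (small_central hδ hc hL hϖ hd hq h2 hx)).sub
      (Small.stab_mul (S hx) (C hx) h1)
  · obtain ⟨q, hq, h1, -, h3⟩ := approx 1
    refine r₀.of_small ((hker ϖ).2 hu) ?_
    simpa using h1.add h3

/-- a vector fixed by the idempotent is topologically nilpotent -/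
theorem tnil_of_fixed (hR : Arch R)
    (hker : ∀ a, res a = 0 ↔ ¬ IsUnit a) (hπ0 : π ≠ 0) (hπ : ¬ IsUnit π)
    (hδ : ∀ i, IsConn π 1 (δ i)) (hc : ∀ i j, δ i * δ j = δ j * δ i) (hcst : CstDense R δ)
    (b : Basis ι K V) {δb : n → Module.End F (ι → F)} (hred : ∀ i, Red res b (δ i) (δb i))
    {e : AddMonoid.End V} {P : Module.End F (ι → F)} (hee : e * e = e)
    (hex : ∀ x ∈ opRing R δ, e * x = x * e) (hr : Red res b e P) (hP : P * P = P)
    (hP0 : LinearMap.ker (1 - P) = V0 δb) {z : V} (hz : e z = z) (i : n) :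
    TNil π (lat R b) (δ i) z := by
  have hL : ∀ i, Stab (lat R b) (δ i) := fun i => (hred i).stab
  have hlin : ∀ a : R, Comm a e := fun a => Comm.iff.2 (hex _ (sc_mem_opRing δ a))
  set h := finrank F (ι → F) + 1 with hh
  have hm : δ i ^ h ∈ opRing R δ := pow_mem (self_mem_opRing δ i) h
  have hzero : δb i ^ h * P = 0 := by
    refine LinearMap.ext fun w => ?_
    have : P w ∈ V0 δb := by
      rw [← hP0, LinearMap.mem_ker, LinearMap.sub_apply, ← Module.End.mul_apply P P, hP]; simp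
    rw [Module.End.mul_apply, hh, pow_succ', Module.End.mul_apply,
      pow_finrank_eq_zero_of_mem_V0 this i, map_zero]
    rfl
  obtain ⟨ϖ, ⟨h0, hu, hϖ, -⟩, hs⟩ := exists_small_of_red_zero (T := δ i ^ h * e) hker hπ0 hπ hcst b
    (fun a w hw => by
      rw [End_mul_apply, End_mul_apply, hlin a]
      exact opRing_lin hδ hc hL hm a (hr.stab w hw))
    (by simpa [hzero] using ((hred i).pow h).mul hr)
  have hpow : ∀ k, (δ i ^ h * e) ^ (k + 1) = δ i ^ (h * (k + 1)) * e := by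
    intro k
    induction k with
    | zero => simp
    | succ k ih =>
      rw [pow_succ, ih, mul_assoc, ← mul_assoc e, hex _ hm, mul_assoc, hee, ← mul_assoc,
        ← pow_add]
      congr 2
  refine TNil.change_pi hR hπ0 hu ?_
  obtain ⟨t, ht⟩ := exists_pow_smul_mem (K := K) hR hu (lat R b) (isLattice_lat b) z
  refine TNil.cancel hR hu (pow_ne_zero t h0) ((hϖ i).pow_left t) K ?_
  intro j
  refine ⟨h * (j + 1), fun k hk => ?_⟩
  obtain ⟨r, rfl⟩ := Nat.exists_eq_add_of_le' hk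
  have h1 := (hs.pow (((hϖ i).pow h).mul (hlin ϖ)) (j + 1)) _ ht
  rw [hpow, End_mul_apply, hlin, hz] at h1
  rw [End_pow_add_apply]
  exact pw_anti ϖ _ (Nat.le_succ j) ((((hL i).pow r).pw ((hϖ i).pow r) _) _ h1)

/-- a topologically nilpotent vector is fixed by the idempotent -/
theorem fixed_of_tnil (hR : Arch R)
    (hker : ∀ a, res a = 0 ↔ ¬ IsUnit a) (hπ : ¬ IsUnit π) (hcst : CstDense R δ)
    (b : Basis ι K V) {δb : n → Module.End F (ι → F)} (hred : ∀ i, Red res b (δ i) (δb i))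
    {e : AddMonoid.End V} {P : Module.End F (ι → F)} (hee : e * e = e)
    (hex : ∀ x ∈ opRing R δ, e * x = x * e) (hr : Red res b e P)
    (hP0 : LinearMap.ker (1 - P) = V0 δb) {z : V} (hz : ∀ i, TNil π (lat R b) (δ i) z) :
    e z = z := by
  classical
  have hlin : ∀ a : R, Comm a e := fun a => Comm.iff.2 (hex _ (sc_mem_opRing δ a))
  have hez : ∀ i, TNil π (lat R b) (δ i) (e z) := by
    intro i j
    obtain ⟨k₀, hk⟩ := hz i j
    refine ⟨k₀, fun k hk' => ?_⟩
    rw [← End_mul_apply, ← hex _ (pow_mem (self_mem_opRing δ i) k), End_mul_apply]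
    exact hr.stab.pw (hlin π) j _ (hk k hk')
  by_contra hne
  have hz'0 : z - e z ≠ 0 := fun h => hne (sub_eq_zero.1 h).symm
  have hz' : ∀ i, TNil π (lat R b) (δ i) (z - e z) := fun i => by
    rw [sub_eq_add_neg]; exact (hz i).add (hez i).neg
  have hez' : e (z - e z) = 0 := by rw [map_sub, ← End_mul_apply e e, hee, sub_self]
  obtain ⟨a₀, ha₀, ha⟩ := exists_smul_mem (K := K) (lat R b) (isLattice_lat b) (z - e z)
  obtain ⟨a, hac, u, hu⟩ := hcst a₀
  have ha0 : a ≠ 0 := by rw [← hu]; exact mul_ne_zero ha₀ u.ne_zero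
  have ha' : a • (z - e z) ∈ lat R b := by
    rw [← hu, mul_comm, mul_smul]; exact Submodule.smul_mem _ _ ha
  obtain ⟨c, hc⟩ := mem_lat.1 ha'
  have hc0 : c ≠ 0 := by
    rintro rfl
    rw [map_zero] at hc
    exact hz'0 (smul_cancel (K := K) ha0 (by rw [← hc, smul_zero]))
  obtain ⟨i₁, hi₁⟩ := Function.ne_iff.1 hc0
  -- a coordinate dividing all the others
  have : Nonempty ι := ⟨i₁⟩
  obtain ⟨i₀, hi₀⟩ : ∃ i₀, ∀ i, c i₀ ∣ c i := by
    have key : ∀ s : Finset ι, ∃ i₀, ∀ i ∈ s, c i₀ ∣ c i := by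
      intro s
      induction s using Finset.induction_on with
      | empty => exact ⟨i₁, by simp⟩
      | insert x s _ ih =>
        obtain ⟨j, hj⟩ := ih
        rcases ValuationRing.dvd_total (c j) (c x) with h | h
        · exact ⟨j, fun i hi => by
            rcases Finset.mem_insert.1 hi with rfl | hi
            exacts [h, hj i hi]⟩
        · exact ⟨x, fun i hi => by
            rcases Finset.mem_insert.1 hi with rfl | hi
            exacts [dvd_rfl, h.trans (hj i hi)]⟩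
    obtain ⟨i₀, h⟩ := key Finset.univ
    exact ⟨i₀, fun i => h i (Finset.mem_univ i)⟩
  obtain ⟨γ, hγc, w, hw⟩ := hcst (c i₀)
  have hci₀ : c i₀ ≠ 0 := fun h => hi₁ (by simpa [h] using hi₀ i₁)
  have hγ0 : γ ≠ 0 := by rw [← hw]; exact mul_ne_zero hci₀ w.ne_zero
  have hdiv : ∀ i, γ ∣ c i := fun i =>
    (Associated.dvd (Associated.symm ⟨w, hw⟩)).trans (hi₀ i)
  choose c' hc' using hdiv
  have hcc : c = γ • c' := funext hc'
  have hunit : IsUnit (c' i₀) := by
    have : γ * (c' i₀ * w) = γ * 1 := by rw [← mul_assoc, ← hc', hw, mul_one]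
    exact IsUnit.of_mul_eq_one _ (mul_left_cancel₀ hγ0 this)
  have hv : γ • vec b c' = a • (z - e z) := by rw [← map_smul, ← hcc, hc]
  have ht : ∀ i, TNil π (lat R b) (δ i) (vec b c') := fun i =>
    TNil.cancel hR hπ hγ0 (hγc i) K (hv ▸ (hz' i).smul_cst (hac i))
  have he0 : e (vec b c') = 0 := by
    refine smul_cancel (K := K) hγ0 ?_
    rw [← hlin γ, hv, hlin a, hez', smul_zero, smul_zero]
  have hP1 : P (fun i => res (c' i)) = 0 := by
    obtain ⟨c'', h1, h2⟩ := hr c'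
    have : c'' = 0 := vec_injective b (by rw [← h1, he0, map_zero])
    rw [← h2, this]; ext i; simp
  have hV : (fun i => res (c' i)) ∈ V0 δb := by
    refine (Submodule.mem_iInf _).2 fun i => ?_
    rw [Module.End.mem_maxGenEigenspace]
    obtain ⟨k, hk⟩ := ht i 1
    refine ⟨k, ?_⟩
    obtain ⟨c'', h1, h2⟩ := (hred i).pow k c'
    obtain ⟨c₃, h3⟩ := mem_pw_lat.1 (hk k le_rfl)
    have : c'' = π ^ 1 • c₃ := vec_injective b (by rw [← h1, h3])
    rw [zero_smul, sub_zero, ← h2, this]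
    ext i; simp [(hker π).2 hπ]
  rw [← hP0, LinearMap.mem_ker, LinearMap.sub_apply, hP1, sub_zero] at hV
  exact (hker _).1 (congrFun hV i₀) hunit

end Main

theorem idemStmt : IdemStmt := by
  intro p _ R K V F ι n _ _ _ _ _ _ _ _ _ _ _ _ _ res π δ S b δb hred B₀ B₁ hG E₀ E₁ Eb₀ Eb₁
    m₀ m₁ p₀ p₁ r₀ r₁ i₀ i₁
  classical
  have := S.char
  have : FiniteDimensional K V := Module.Finite.of_basis b
  have hL : ∀ i, Stab (lat R b) (δ i) := fun i => (hred i).stab
  obtain ⟨s₀, hP₀, hk₀⟩ := i₀.exists_pow (p := p)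
  obtain ⟨s₁, hP₁, hk₁⟩ := i₁.exists_pow (p := p)
  have hπ : res π = 0 := (S.ker π).2 S.pi_nonunit
  have hcomm := red_comm S.surj (vec_injective b) hπ S.conn S.comm hL (pow_mem m₀ s₀)
    (pow_mem m₁ s₁) (r₀.pow s₀) (r₁.pow s₁)
  have hfix : ∀ {P Q : Module.End F (ι → F)}, Q * Q = Q → LinearMap.ker (1 - P) = V0 δb →
      LinearMap.ker (1 - Q) = V0 δb → P * Q = Q := by
    intro P Q hQ h1 h2
    refine LinearMap.ext fun w => ?_
    have : Q w ∈ LinearMap.ker (1 - P) := by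
      rw [h1, ← h2, LinearMap.mem_ker, LinearMap.sub_apply, ← Module.End.mul_apply Q Q, hQ]; simp
    rw [LinearMap.mem_ker, LinearMap.sub_apply, sub_eq_zero] at this
    exact this.symm
  have hEq : Eb₁ ^ s₁ = Eb₀ ^ s₀ := by rw [← hfix hP₁ hk₀ hk₁, hcomm, hfix hP₀ hk₁ hk₀]
  obtain ⟨e, hee, hex, hr⟩ := exists_idem S.arch S.ker S.pi_ne S.pi_nonunit S.conn S.comm S.cst b
    hL B₀ B₁ hG (pow_mem m₀ s₀) (pow_mem m₁ s₁) (pow_mem (S := presRing B₀) p₀ s₀)
    (pow_mem (S := presRing B₁) p₁ s₁) (r₀.pow s₀) (hEq ▸ r₁.pow s₁) hP₀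
  set P := Eb₀ ^ s₀
  have hlin : ∀ a : R, Comm a e := fun a => Comm.iff.2 (hex _ (sc_mem_opRing δ a))
  let φ : Module.End K V := toLinK K e hlin
  have hφ : φ * φ = φ := LinearMap.ext fun z => DFunLike.congr_fun hee z
  refine ⟨LinearMap.ker (1 - φ), fun z => ?_, ?_⟩
  · rw [LinearMap.mem_ker, LinearMap.sub_apply, sub_eq_zero]
    exact ⟨fun h i => tnil_of_fixed S.arch S.ker S.pi_ne S.pi_nonunit S.conn S.comm S.cst b hred
        hee hex hr hP₀ hk₀ h.symm i,
      fun h => (fixed_of_tnil S.arch S.ker S.pi_nonunit S.cst b hred hee hex hr hk₀ h).symm⟩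
  · have key : ∀ (ψ : Module.End K V) (T : AddMonoid.End V) (Q : Module.End F (ι → F)),
        (∀ z, ψ z = T z) → ψ * ψ = ψ → Q * Q = Q → Red res b T Q →
        finrank K (LinearMap.ker ψ) ≤ finrank F (LinearMap.ker Q) := by
      intro ψ T Q h1 h2 h3 h4
      obtain ⟨G, hG⟩ := exists_isMat h4.stab
      have hconn : IsConn π 1 T := by
        have hl : ∀ (a : R) z, T (a • z) = a • T z := fun a z => by
          rw [← h1, ← h1, ← algebraMap_smul K a, map_smul, algebraMap_smul]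
        exact ⟨hl π, fun a => ⟨0, fun z => by simp [hl]⟩⟩
      have hQ := h4.unique S.surj (vec_injective b) (hG.red hconn hπ)
      have := finrank_maxGen_le (res := res) b ψ G (fun j => by rw [h1, hG j])
      rwa [← hQ, maxGen_zero_of_idem h2, maxGen_zero_of_idem h3] at this
    have k1 := key φ e P (fun _ => rfl) hφ hP₀ hr
    have k2 := key (1 - φ) (1 - e) (1 - P) (fun _ => rfl)
      (by rw [sub_mul, mul_sub, mul_sub, hφ]; simp) (by rw [sub_mul, mul_sub, mul_sub, hP₀]; simp)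
      ((Red.one res b).sub hr)
    have k3 := finrank_ker_add_of_idem hφ
    have k4 := finrank_ker_add_of_idem hP₀
    rw [finrank_eq_card_basis b] at k3
    rw [Module.finrank_fintype_fun_eq_card] at k4
    rw [← hk₀]
    omega

end Crest.Agent.T170.DM
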