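import Crest.Agent.T170.LogB_89
import Crest.Agent.T170.RetApi_81

/-!
# Row 170, module LOG (helper89), part C: `ℤ`-valued valuations

* `wild`      : a canonical generator of order divisible by `p` gives a value with `p` in the
  denominator;
* `logd_line` : the logarithmic derivative at a place over the line;
* `exists_av` : the normalised additive valuation of a discrete valuation.
-/

set_option autoImplicit false

namespace Crest.Agent.T170.Log

open Polynomial Crest.Agent.T170.Ret Crest.Agent.T170.RetU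

section Wild

variable {K E N : Type*} [Field K] [Field E] [Field N] [Algebra K E] [Algebra E N] [Algebra K N]
  [IsScalarTower K E N]

theorem rot_pow {u : AV N} {z : N} (hz : u z = 0) {g : N ≃ₐ[E] N} (hg : Rot u z g)
    (hgz : g z = z) (m : ℕ) : Rot u (z ^ m) (g ^ m : N ≃ₐ[E] N) := by
  have hz0 : z ≠ 0 := by
    intro h; rw [h, u.map_zero] at hz; exact WithTop.top_ne_zero hz
  induction m with
  | zero =>
    intro f k _
    simp
  | succ m ih =>
    intro f k hf
    have e : (g ^ (m + 1) : N ≃ₐ[E] N) f - (z ^ (m + 1)) ^ k * f =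
        g ((g ^ m : N ≃ₐ[E] N) f - (z ^ m) ^ k * f) + (z ^ m) ^ k * (g f - z ^ k * f) := by
      rw [pow_succ' g, AlgEquiv.mul_apply, map_sub, map_mul, map_zpow₀, map_pow, hgz, pow_succ,
        mul_zpow]
      ring
    rw [e]
    apply u.map_lt_add
    · rw [hg.val_map hz (map_zero g)]; exact ih f k hf
    · have h1 : u (z ^ m) = 0 := by rw [u.map_pow, hz, smul_zero]
      rw [u.map_mul, val_zpow_unit u h1, zero_add]
      exact hg f k hf

theorem den_dvd_of_dvd {n₀ : ℕ} (hn : 0 < n₀) {k : ℤ} {j : ℕ} (hj : 0 < j)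
    (h : (n₀ : ℤ) ∣ j * k) : ((k : ℚ) / n₀).den ∣ j := by
  obtain ⟨w, hw⟩ := h
  have h1 : (k : ℚ) / n₀ = Rat.divInt w j := by
    rw [Rat.divInt_eq_div, div_eq_div_iff (by positivity) (by positivity)]
    have : ((j : ℤ) : ℚ) * k = (n₀ : ℤ) * w := by exact_mod_cast hw
    push_cast at this ⊢
    linarith
  rw [h1]
  exact_mod_cast Rat.den_dvd w j

theorem dvd_of_den_dvd {n₀ : ℕ} (hn : 0 < n₀) {k : ℤ} {j : ℕ}
    (h : ((k : ℚ) / n₀).den ∣ j) : (n₀ : ℤ) ∣ j * k := by
  obtain ⟨e, he⟩ := h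
  refine ⟨e * ((k : ℚ) / n₀).num, ?_⟩
  have h1 := Rat.mul_den_eq_num ((k : ℚ) / n₀)
  have h2 : (n₀ : ℚ) ≠ 0 := by positivity
  have h3 : ((j : ℤ) : ℚ) * k = (n₀ : ℤ) * (e * ((k : ℚ) / n₀).num) := by
    rw [← h1]
    conv_lhs => rw [he]
    push_cast
    field_simp
  exact_mod_cast h3

/-- **wild ramification** -/
theorem wild [CharZero K] {p : ℕ} (hp : p.Prime) (u : AV N)
    (uK : ∀ z : K, z ≠ 0 → u (algebraMap K N z) = 0) {ζ : K} {n₀ : ℕ}
    (hζ : IsPrimitiveRoot ζ n₀) (hn : 0 < n₀) {g : N ≃ₐ[E] N}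
    (hg : Rot u (algebraMap K N ζ) g) (hfin : IsOfFinOrder g) (hpg : p ∣ orderOf g) :
    ∃ (z : N) (k : ℤ), u z = (k : WithTop ℤ) ∧ p ∣ ((k : ℚ) / n₀).den := by
  by_contra hne
  push Not at hne
  obtain ⟨m, hm⟩ := hpg
  have hopos : 0 < orderOf g := hfin.orderOf_pos
  have hm0 : 0 < m := Nat.pos_of_ne_zero fun h => by rw [h, mul_zero] at hm; omega
  have hζ0 : ζ ≠ 0 := hζ.ne_zero hn.ne'
  have hz : u (algebraMap K N ζ) = 0 := uK ζ hζ0
  have hgz : g (algebraMap K N ζ) = algebraMap K N ζ := by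
    rw [IsScalarTower.algebraMap_apply K E N, AlgEquiv.commutes]
  have h1 := rot_pow hz hg hgz (orderOf g)
  have h2 := rot_pow hz hg hgz m
  rw [pow_orderOf_eq_one] at h1
  have hgm : g ^ m = 1 := by
    refine eq_one_of_val u (fun r hr => ?_) (hfin.pow) fun f k hf => ?_
    · rw [← map_natCast (algebraMap K N)]; exact uK _ (Nat.cast_ne_zero.2 hr)
    · have h3 := h1 f k hf
      have h4 : (ζ ^ orderOf g) ^ k = 1 := by
        by_contra h5
        have e : (1 : N ≃ₐ[E] N) f - (algebraMap K N ζ ^ orderOf g) ^ k * f =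
            algebraMap K N (1 - (ζ ^ orderOf g) ^ k) * f := by
          rw [AlgEquiv.one_apply, map_sub, map_one, map_zpow₀, map_pow]; ring
        rw [e, u.map_mul, uK _ (sub_ne_zero.2 (Ne.symm h5)), zero_add, hf] at h3
        exact lt_irrefl _ h3
      rw [← zpow_natCast, ← zpow_mul, hζ.zpow_eq_one_iff_dvd] at h4
      have h5 := den_dvd_of_dvd hn hopos h4
      rw [hm] at h5
      have h6 : ((k : ℚ) / n₀).den ∣ m :=
        (Nat.Coprime.dvd_mul_left ((Nat.coprime_comm.1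
          ((Nat.Prime.coprime_iff_not_dvd hp).2 (hne f k hf))))).1 h5
      have h7 := dvd_of_den_dvd hn h6
      rw [← hζ.zpow_eq_one_iff_dvd, zpow_mul, zpow_natCast] at h7
      have h8 := h2 f k hf
      rwa [← map_pow, ← map_zpow₀, h7, map_one, one_mul] at h8
  have := orderOf_dvd_of_pow_eq_one hgm
  have h9 := Nat.le_of_dvd hm0 this
  have := hp.two_le
  nlinarith

end Wild

section AVal

variable {N : Type*} [Field N]

/-- the multiplicative valuation of an additive one -/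
noncomputable abbrev mv (v : AV N) : Valuation N (Multiplicative (WithTop ℤ)ᵒᵈ) :=
  AddValuation.toValuation v

theorem mv_le_one (v : AV N) (y : N) : mv v y ≤ 1 ↔ 0 ≤ v y := Iff.rfl
theorem mv_lt_one (v : AV N) (y : N) : mv v y < 1 ↔ 0 < v y := Iff.rfl
theorem mv_le (v : AV N) (y z : N) : mv v y ≤ mv v z ↔ v z ≤ v y := Iff.rfl

/-- the normalised additive valuation. -/
theorem exists_av {Γ : Type*} [LinearOrderedCommGroupWithZero Γ] (v : Valuation N Γ) {π : N}
    (hπ0 : π ≠ 0) (hπ : v π < 1) (h : ∀ y : N, y ≠ 0 → ∃ k : ℤ, v y = v π ^ k) :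
    ∃ u : AV N, u π = 1 ∧ (∀ y, 0 ≤ u y ↔ v y ≤ 1) ∧ (∀ y, 0 < u y ↔ v y < 1) := by
  classical
  choose! κ hκ using h
  have hvπ : v π ≠ 0 := (Valuation.ne_zero_iff v).2 hπ0
  have hpos : 0 < v π := zero_lt_iff.2 hvπ
  have hanti : ∀ k l : ℤ, v π ^ k ≤ v π ^ l ↔ l ≤ k := fun k l =>
    zpow_le_zpow_iff_right_of_lt_one₀ hpos hπ
  have huniq : ∀ y, y ≠ 0 → ∀ k : ℤ, v y = v π ^ k → κ y = k := by
    intro y hy k hk
    have := (hκ y hy).symm.trans hk
    exact le_antisymm ((hanti _ _).1 this.ge) ((hanti _ _).1 this.le)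
  let f : N → WithTop ℤ := fun y => if y = 0 then ⊤ else (κ y : WithTop ℤ)
  have hf : ∀ y, y ≠ 0 → f y = κ y := fun y hy => if_neg hy
  have hf0 : f 0 = ⊤ := if_pos rfl
  have hle : ∀ x y, f x ≤ f y ↔ v y ≤ v x := by
    intro x y
    by_cases hy : y = 0
    · rw [hy, hf0, map_zero]; simp
    by_cases hx : x = 0
    · rw [hx, hf0, hf y hy, map_zero]
      simp [hy]
    rw [hf x hx, hf y hy, WithTop.coe_le_coe, hκ x hx, hκ y hy, hanti]
  have hf1 : f 1 = 0 := by
    rw [hf 1 one_ne_zero, huniq 1 one_ne_zero 0 (by simp)]; rfl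
  refine ⟨AddValuation.of f hf0 hf1 (fun x y => ?_) (fun x y => ?_), ?_, fun y => ?_, fun y => ?_⟩
  · rcases le_max_iff.1 (v.map_add x y) with h | h
    · exact min_le_of_left_le ((hle _ _).2 h)
    · exact min_le_of_right_le ((hle _ _).2 h)
  · by_cases hx : x = 0
    · rw [hx, zero_mul, hf0, top_add]
    by_cases hy : y = 0
    · rw [hy, mul_zero, hf0, add_top]
    rw [hf x hx, hf y hy, hf _ (mul_ne_zero hx hy), huniq _ (mul_ne_zero hx hy) (κ x + κ y)
      (by rw [map_mul, zpow_add₀ hvπ, ← hκ x hx, ← hκ y hy]), WithTop.coe_add]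
  · rw [AddValuation.of_apply, hf π hπ0, huniq π hπ0 1 (by simp)]; rfl
  · rw [AddValuation.of_apply, ← hf1, hle, map_one]
  · rw [AddValuation.of_apply, ← hf1, ← not_le, hle, map_one, not_le]

end AVal

section Logd

open IntermediateField

variable {R₀ C M : Type*} [CommRing R₀] [Field C] [Field M] [Algebra C M] [Algebra R₀ M]

theorem mv_const {v : AV M} (hv : ∀ c : C, c ≠ 0 → v (algebraMap C M c) = 0) (c : C) :
    mv v (algebraMap C M c) ≤ 1 := by
  rw [mv_le_one]
  by_cases hc : c = 0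
  · rw [hc, map_zero, v.map_zero]; exact le_top
  · rw [hv c hc]

/-- **logarithmic derivative** at a place with `v t = n₀`. -/
theorem logd_line [IsAlgClosed C] [CharZero C] (v : AV M)
    (hv : ∀ c : C, c ≠ 0 → v (algebraMap C M c) = 0) {t : M} {n₀ : ℕ} (hn : 0 < n₀)
    (ht : v t = ((n₀ : ℤ) : WithTop ℤ)) [FiniteDimensional (adjoin C {t}) M]
    (D : Derivation R₀ M M) (hDC : ∀ c : C, ∃ c' : C, D (algebraMap C M c) = algebraMap C M c')
    {e : M} (he : 0 ≤ v e) (hDt : D t = -e) (z : M) (k : ℤ) (hz : v z = (k : WithTop ℤ)) :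
    (k : WithTop ℤ) < v (t * D z + (((k : ℚ) / n₀ : ℚ) : M) * e * z) := by
  have : CharZero M := charZero_of_injective_algebraMap (algebraMap C M).injective
  have hC := mv_const hv
  have ht0 : t ≠ 0 := by
    intro h; rw [h, v.map_zero] at ht; exact WithTop.top_ne_coe ht
  have hz0 : z ≠ 0 := by
    intro h; rw [h, v.map_zero] at hz; exact WithTop.top_ne_coe hz
  have htpos : 0 < v t := by
    rw [ht]; exact_mod_cast hn
  have hlog := log_p1 (v := mv v) (t := t) (t • D) (Q := fun g => g < 1) (fun _ h => le_of_lt h)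
    (fun _ h => h) (fun _ _ h h' => lt_of_le_of_lt h h') hC ht0 htpos
    (fun c => by
      obtain ⟨c', hc'⟩ := hDC c
      rw [Derivation.smul_apply, hc', smul_eq_mul, map_mul]
      calc mv v t * mv v (algebraMap C M c') ≤ mv v t * 1 := mul_le_mul_right (hC c') _
        _ < 1 := by rw [mul_one]; exact htpos)
    (by
      rw [Derivation.smul_apply, hDt, smul_eq_mul, map_mul, Valuation.map_neg]
      exact mul_le_of_le_one_right' ((mv_le_one v e).2 he))
  set w := z ^ n₀ / t ^ k with hw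
  have hw0 : w ≠ 0 := div_ne_zero (pow_ne_zero _ hz0) (zpow_ne_zero _ ht0)
  have hvw : v w = 0 := by
    have h1 := val_pow v hz n₀
    have h2 := val_inv v (val_zpow v ht k)
    rw [hw, div_eq_mul_inv, v.map_mul, h1, h2, ← WithTop.coe_add, ← WithTop.coe_zero]
    congr 1; ring
  have h1 : 0 < v (t * D w) := hlog w (by rw [mv_le_one, hvw])
  have hn0 : (n₀ : M) ≠ 0 := Nat.cast_ne_zero.2 hn.ne'
  have e1 : z ^ n₀ = t ^ k * w := by rw [hw]; field_simp
  have e2 := congrArg D e1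
  obtain ⟨m, rfl⟩ : ∃ m, n₀ = m + 1 := ⟨n₀ - 1, by omega⟩
  rw [deriv_pow, deriv_mul, Derivation.leibniz_zpow, hDt, Nat.add_sub_cancel, zpow_sub_one₀ ht0,
    smul_eq_mul, zsmul_eq_mul] at e2
  have e3 : t * D z + (((k : ℚ) / (m + 1 : ℕ) : ℚ) : M) * e * z =
      z * (t * D w) * (((m + 1 : ℕ) : M) * w)⁻¹ := by
    have hzm : z ^ m ≠ 0 := pow_ne_zero _ hz0
    have e4 : t ^ k = z ^ m * z / w := by rw [← pow_succ, e1]; field_simp
    rw [e4] at e2
    have e5 : D z = (z * D w / w - k * e * z / t) / ((m + 1 : ℕ) : M) := by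
      rw [eq_div_iff hn0]
      apply mul_left_cancel₀ hzm
      clear_value w
      linear_combination (exp := 1) e2 - (z ^ m * z * k * e / t) * (mul_inv_cancel₀ hw0)
    rw [e5, Rat.cast_div, Rat.cast_intCast, Rat.cast_natCast]
    field_simp
    ring
  have h2 : v (((m + 1 : ℕ) : M) * w) = ((0 : ℤ) : WithTop ℤ) := by
    rw [v.map_mul, hvw, ← map_natCast (algebraMap C M), hv _ (Nat.cast_ne_zero.2 hn.ne')]
    simp
  rw [e3, v.map_mul, v.map_mul, val_inv v h2, hz, neg_zero, WithTop.coe_zero, add_zero]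
  conv_lhs => rw [← add_zero (k : WithTop ℤ)]
  exact WithTop.add_lt_add_left WithTop.coe_ne_top h1

end Logd

end Crest.Agent.T170.Log
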