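import Crest.Agent.T170.LogD_89

/-!
# Row 170, module LOG (helper89), part E: the fields `pres₀`, `pres₁`, `uK`, `uh`, `logd` of
`CoreData`

`B = ℂ(x, y) ⊆ M ⊆ U`, `D` a derivation of `U`, `j : N →+* M`, `D'` the restriction of `D`.
-/

set_option autoImplicit false

namespace Crest.Agent.T170.Log

open Polynomial IntermediateField WeierstrassCurve WeierstrassCurve.Affine
open Crest.Agent.T170.Ret Crest.Agent.T170.RetU Crest.Agent.T170.Fr

/-- integrality over `K[t]` through valuation rings -/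
theorem isIntegral_adjoin_iff {K N : Type*} [Field K] [Field N] [Algebra K N] (t z : N) :
    IsIntegral (Algebra.adjoin K {t}) z ↔
      ∀ V : ValuationSubring N, (∀ k : K, algebraMap K N k ∈ V) → t ∈ V → z ∈ V := by
  rw [isIntegral_iff_forall_vs]
  refine ⟨fun h V hK ht => h V fun a => ?_, fun h V hV => h V (fun k => hV (algebraMap K _ k))
    (hV ⟨t, Algebra.self_mem_adjoin_singleton K t⟩)⟩
  obtain ⟨a, ha⟩ := a
  rw [Algebra.adjoin_singleton_eq_range_aeval] at ha
  obtain ⟨r, rfl⟩ := ha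
  exact (V.valuation_le_one_iff _).1 (val_aeval_le (fun c => (V.valuation_le_one_iff _).2 (hK c))
    ((V.valuation_le_one_iff _).2 ht) r)

/-- transfer along an embedding into a field which is algebraic over the constants -/
theorem transfer {K N M : Type*} [Field K] [Field N] [Field M] [Algebra K N] [Algebra ℂ M]
    (j : N →+* M)
    (halg : ∀ c : ℂ, ∃ f : K[X], f ≠ 0 ∧ f.eval₂ (j.comp (algebraMap K N)) (algebraMap ℂ M c) = 0)
    {t z w : N} (hz : IsIntegral (Algebra.adjoin K {t}) z)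
    (h : ∀ V : ValuationSubring M, (∀ c : ℂ, algebraMap ℂ M c ∈ V) → j t ∈ V → j z ∈ V →
      j w ∈ V) : IsIntegral (Algebra.adjoin K {t}) w := by
  rw [isIntegral_adjoin_iff] at hz ⊢
  intro V hK ht
  obtain ⟨V', hV'⟩ := exists_vs_ext j V
  refine (hV' w).1 (h V' (fun c => ?_) ((hV' t).2 ht) ((hV' z).2 (hz V hK ht)))
  let _ : Algebra K M := (j.comp (algebraMap K N)).toAlgebra
  obtain ⟨f, hf, hfc⟩ := halg c
  exact vs_mem_of_isIntegral (A := K) V' (fun k => (hV' _).2 (hK k))
    (IsAlgebraic.isIntegral ⟨f, hf, hfc⟩)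

section Up

variable {R₀ R₁ B U K E N : Type} [CommRing R₀] [CommRing R₁] [Field B] [Field U] [Field K]
  [Field E] [Field N] [Algebra ℂ B] [Algebra B U] [Algebra ℂ U] [IsScalarTower ℂ B U]
  [Algebra R₀ U] [Algebra K E] [Algebra E N] [Algebra K N] [IsScalarTower K E N] [Algebra R₁ N]
  {W : Affine ℂ} {x y : B} {n : ℕ} {a b : Fin n → ℂ}
  {M : IntermediateField B U} [FiniteDimensional B M] [IsGalois B M]

omit [FiniteDimensional B M] in
/-- the derivation restricts to `M` -/
theorem exists_derM (hgen : adjoin ℂ {x, y} = ⊤) (D : Derivation R₀ U U)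
    (hDx : D (algebraMap B U x) = 0) (hDy : D (algebraMap B U y) = 0)
    (hDc : ∀ c : ℂ, ∃ c' : ℂ, D (algebraMap ℂ U c) = algebraMap ℂ U c') :
    ∃ DM : Derivation ℤ M M, ∀ z : M, (DM z : U) = D z :=
  exists_restrictDer D (algebraMap M U) (algebraMap M U).injective fun z =>
    ⟨⟨D z, deriv_mem D M (fun f => by
      obtain ⟨f', hf'⟩ := deriv_mem_range hgen D hDx hDy hDc f
      rw [hf']; exact M.algebraMap_mem f') z.2 (isSeparable_of_mem_isSeparable B U z.2)⟩, rfl⟩

omit [FiniteDimensional B M] [IsGalois B M] in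
theorem coe_algebraMap_C (c : ℂ) : ((algebraMap ℂ M c : M) : U) = algebraMap ℂ U c := by
  rw [IsScalarTower.algebraMap_apply ℂ B M, IsScalarTower.algebraMap_apply ℂ B U]; rfl

omit [Algebra ℂ B] [Algebra ℂ U] [IsScalarTower ℂ B U] [FiniteDimensional B M] [IsGalois B M] in
theorem coe_algebraMap_B (f : B) : ((algebraMap B M f : M) : U) = algebraMap B U f := rfl

variable (hE : (W⁄B).Equation x y) (hgen : adjoin ℂ {x, y} = ⊤)
  (D : Derivation R₀ U U) (hDx : D (algebraMap B U x) = 0) (hDy : D (algebraMap B U y) = 0)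
  (hDc : ∀ c : ℂ, ∃ c' : ℂ, D (algebraMap ℂ U c) = algebraMap ℂ U c')
  (j : N →+* M) (D' : Derivation R₁ N N) (hD' : ∀ z, (j (D' z) : U) = D (j z)) (i : Fin n)
  {x' y' : E} {a' b' : K}
  (hx' : (j (algebraMap E N x') : U) = algebraMap B U x)
  (hy' : (j (algebraMap E N y') : U) = algebraMap B U y)
  (ha' : (j (algebraMap K N a') : U) = algebraMap ℂ U (a i))
  (hb' : (j (algebraMap K N b') : U) = algebraMap ℂ U (b i))

section

variable [W.IsElliptic] (hx : Transcendental ℂ x)
  (hab : ∀ i, W.Equation (a i) (b i)) (hneg : ∀ i, b i ≠ W.negY (a i) (b i))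
  (hU : UnrE M x y a b)
  (hDW : ∀ c ∈ ({W.a₁, W.a₂, W.a₃, W.a₄, W.a₆} : Set ℂ), D (algebraMap ℂ U c) = 0)
  (hDa : ∀ l, l ≠ i → D (algebraMap ℂ U (a l)) = 0)
  (halg : ∀ c : ℂ, ∃ f : K[X], f ≠ 0 ∧
    f.eval₂ ((algebraMap M U).comp (j.comp (algebraMap K N))) (algebraMap ℂ U c) = 0)

include hE hgen hDx hDy hDc hD' hx' hy' ha' hb' hx hab hneg hU hDW hDa halg

/-- both fields `pres₀`, `pres₁` at the index `i` -/
theorem pres_both :
    (∀ h ∈ ({x' - algebraMap K E a', y' - algebraMap K E b'} : Set E), ∀ z : N,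
      IsIntegral (Algebra.adjoin K {algebraMap E N x'}) z →
      IsIntegral (Algebra.adjoin K {algebraMap E N x'}) (h • D' z)) ∧
    (∀ h ∈ ({1 - algebraMap K E a' / x', (y' - algebraMap K E b') / x' ^ 2} : Set E), ∀ z : N,
      IsIntegral (Algebra.adjoin K {(algebraMap E N x')⁻¹}) z →
      IsIntegral (Algebra.adjoin K {(algebraMap E N x')⁻¹}) (h • D' z)) := by
  obtain ⟨DM, hDM⟩ := exists_derM (M := M) hgen D hDx hDy hDc
  have h := (eqn_iff W x y).1 hE
  have jx : j (algebraMap E N x') = algebraMap B M x := Subtype.ext hx'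
  have jy : j (algebraMap E N y') = algebraMap B M y := Subtype.ext hy'
  have ja : j (algebraMap E N (algebraMap K E a')) = algebraMap ℂ M (a i) := by
    rw [← IsScalarTower.algebraMap_apply]; exact Subtype.ext (ha'.trans (coe_algebraMap_C _).symm)
  have jb : j (algebraMap E N (algebraMap K E b')) = algebraMap ℂ M (b i) := by
    rw [← IsScalarTower.algebraMap_apply]; exact Subtype.ext (hb'.trans (coe_algebraMap_C _).symm)
  have jD : ∀ z, j (D' z) = DM (j z) := fun z => Subtype.ext ((hD' z).trans (hDM _).symm)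
  have h1 : DM (algebraMap B M x) = 0 := Subtype.ext ((hDM _).trans hDx)
  have h2 : DM (algebraMap B M y) = 0 := Subtype.ext ((hDM _).trans hDy)
  have h3 : ∀ c : ℂ, ∃ c' : ℂ, DM (algebraMap ℂ M c) = algebraMap ℂ M c' := fun c => by
    obtain ⟨c', hc'⟩ := hDc c
    exact ⟨c', Subtype.ext (by rw [hDM, coe_algebraMap_C, coe_algebraMap_C, hc'])⟩
  have h4 : ∀ c ∈ ({W.a₁, W.a₂, W.a₃, W.a₄, W.a₆} : Set ℂ), DM (algebraMap ℂ M c) = 0 :=
    fun c hc => Subtype.ext (by rw [hDM, coe_algebraMap_C, hDW c hc]; rfl)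
  have h5 : ∀ l, l ≠ i → DM (algebraMap ℂ M (a l)) = 0 :=
    fun l hl => Subtype.ext (by rw [hDM, coe_algebraMap_C, hDa l hl]; rfl)
  have halg' : ∀ c : ℂ, ∃ f : K[X], f ≠ 0 ∧
      f.eval₂ (j.comp (algebraMap K N)) (algebraMap ℂ M c) = 0 := fun c => by
    obtain ⟨f, hf, hfc⟩ := halg c
    refine ⟨f, hf, (algebraMap M U).injective ?_⟩
    rw [hom_eval₂, map_zero, ← hfc]
    exact congrArg (fun t => f.eval₂ _ t) (coe_algebraMap_C (M := M) c)
  refine ⟨fun f hf z hz => transfer j halg' hz fun V hC ht hzV => ?_,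
    fun f hf z hz => transfer j halg' hz fun V hC ht hzV => ?_⟩
  · rw [← V.valuation_le_one_iff] at ht hzV ⊢
    rw [Algebra.smul_def, map_mul j, jD]
    rw [jx] at ht
    refine pres_val hx h hgen hab hneg hU DM h1 h2 h3 h4 i h5
      (fun c => (V.valuation_le_one_iff _).2 (hC c)) ht ?_ hzV
    rcases hf with rfl | rfl
    · left; rw [map_sub, map_sub, jx, ja]
    · right; rw [map_sub, map_sub, jy, jb]
  · rw [← V.valuation_le_one_iff] at ht hzV ⊢
    rw [Algebra.smul_def, map_mul j, jD]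
    rw [map_inv₀ j, jx] at ht
    refine pres_val_inf hx h hgen hab hneg hU DM h1 h2 h3 h4 i h5
      (fun c => (V.valuation_le_one_iff _).2 (hC c)) ht ?_ hzV
    rcases hf with rfl | rfl
    · left; rw [map_sub, map_sub, map_one, map_one, map_div₀, map_div₀, jx, ja]
    · right; rw [map_div₀, map_div₀, map_sub, map_sub, map_pow, map_pow, jx, jy, jb]

theorem pres_zero :
    ∀ h ∈ ({x' - algebraMap K E a', y' - algebraMap K E b'} : Set E), ∀ z : N,
      IsIntegral (Algebra.adjoin K {algebraMap E N x'}) z →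
      IsIntegral (Algebra.adjoin K {algebraMap E N x'}) (h • D' z) :=
  (pres_both hE hgen D hDx hDy hDc j D' hD' i hx' hy' ha' hb' hx hab hneg hU hDW hDa halg).1

theorem pres_inf :
    ∀ h ∈ ({1 - algebraMap K E a' / x', (y' - algebraMap K E b') / x' ^ 2} : Set E), ∀ z : N,
      IsIntegral (Algebra.adjoin K {(algebraMap E N x')⁻¹}) z →
      IsIntegral (Algebra.adjoin K {(algebraMap E N x')⁻¹}) (h • D' z) :=
  (pres_both hE hgen D hDx hDy hDc j D' hD' i hx' hy' ha' hb' hx hab hneg hU hDW hDa halg).2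

end

omit [Algebra ℂ B] [Algebra ℂ U] [IsScalarTower ℂ B U] [FiniteDimensional B M] [IsGalois B M] in
theorem comap_apply' (v : AV M) (z : N) : v.comap j z = v (j z) := rfl

include hE hgen hDx hDy hDc hD' hx' ha' in
/-- the fields `uK`, `uh`, `logd` for `u := v.comap j` -/
theorem logd (hK : ∀ k : K, ∃ c : ℂ, (j (algebraMap K N k) : U) = algebraMap ℂ U c)
    {u₀ : AV B} {n₀ : ℕ} (hu₀ : AtPt u₀ x y (a i) (b i) n₀) (hn : 0 < n₀) (v : AV M)
    (hv : ∀ f : B, v (algebraMap B M f) = u₀ f) {da : K}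
    (hda : D' (algebraMap K N a') = algebraMap K N da) :
    (∀ z : K, z ≠ 0 → v.comap j (algebraMap K N z) = 0) ∧
    v.comap j (algebraMap E N (x' - algebraMap K E a')) = ((n₀ : ℤ) : WithTop ℤ) ∧
    ∀ (z : N) (k : ℤ), v.comap j z = (k : WithTop ℤ) →
      (k : WithTop ℤ) < v.comap j ((x' - algebraMap K E a') • D' z +
        (((k : ℚ) / n₀ : ℚ) : N) * algebraMap K N da * z) := by
  obtain ⟨DM, hDM⟩ := exists_derM (M := M) hgen D hDx hDy hDc
  have h := (eqn_iff W x y).1 hE
  have jx : j (algebraMap E N x') = algebraMap B M x := Subtype.ext hx'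
  have ja' : j (algebraMap K N a') = algebraMap ℂ M (a i) :=
    Subtype.ext (ha'.trans (coe_algebraMap_C _).symm)
  have ja : j (algebraMap E N (algebraMap K E a')) = algebraMap ℂ M (a i) := by
    rw [← IsScalarTower.algebraMap_apply]; exact ja'
  have jD : ∀ z, j (D' z) = DM (j z) := fun z => Subtype.ext ((hD' z).trans (hDM _).symm)
  have h1 : DM (algebraMap B M x) = 0 := Subtype.ext ((hDM _).trans hDx)
  have h3 : ∀ c : ℂ, ∃ c' : ℂ, DM (algebraMap ℂ M c) = algebraMap ℂ M c' := fun c => by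
    obtain ⟨c', hc'⟩ := hDc c
    exact ⟨c', Subtype.ext (by rw [hDM, coe_algebraMap_C, coe_algebraMap_C, hc'])⟩
  have hvC : ∀ c : ℂ, c ≠ 0 → v (algebraMap ℂ M c) = 0 := fun c hc => by
    rw [IsScalarTower.algebraMap_apply ℂ B M, hv, hu₀.1.1 c hc]
  have jK : ∀ k : K, ∃ c : ℂ, j (algebraMap K N k) = algebraMap ℂ M c := fun k => by
    obtain ⟨c, hc⟩ := hK k
    exact ⟨c, Subtype.ext (hc.trans (coe_algebraMap_C _).symm)⟩
  have jt : j (algebraMap E N (x' - algebraMap K E a')) =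
      algebraMap B M x - algebraMap ℂ M (a i) := by rw [map_sub, map_sub, jx, ja]
  have hvt : v (algebraMap B M x - algebraMap ℂ M (a i)) = ((n₀ : ℤ) : WithTop ℤ) := by
    rw [IsScalarTower.algebraMap_apply ℂ B M, ← map_sub, hv, hu₀.1.2]
  refine ⟨fun z hz => ?_, by rw [comap_apply', jt, hvt], fun z k hz => ?_⟩
  · obtain ⟨c, hc⟩ := jK z
    rw [comap_apply', hc]
    refine hvC c fun h0 => ?_
    rw [h0, map_zero, map_eq_zero, map_eq_zero] at hc
    exact hz hc
  · have : FiniteDimensional (adjoin ℂ {algebraMap B M x - algebraMap ℂ M (a i)}) M :=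
      finDim_line h hgen _ (mem_adjoin_sub _ _)
    have he : 0 ≤ v (j (algebraMap K N da)) := by
      obtain ⟨c, hc⟩ := jK da
      rw [hc]; exact (mv_le_one v _).1 (mv_const hvC c)
    have hDt : DM (algebraMap B M x - algebraMap ℂ M (a i)) = -j (algebraMap K N da) := by
      rw [map_sub, h1, zero_sub, ← ja', ← jD, hda]
    have := logd_line v hvC hn hvt DM h3 he hDt (j z) k hz
    rw [comap_apply', Algebra.smul_def, map_add j, map_mul j, map_mul j, map_mul j, jt, jD,
      map_ratCast]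
    exact this

end Up

end Crest.Agent.T170.Log
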