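import Crest.Agent.T170.EllB_61

/-!
# Row 170, module D4 (helper16), part A: multiplication by `n` on points

* `exists_ratfun` : the `x`-coordinate of `n • T` is a rational function of the `x`-coordinate
  of `T` (a weak form of the division polynomials);
* `nsmul_surjective` : over an algebraically closed field, `[n]` is onto unless it is zero.
-/

set_option autoImplicit false

namespace Crest.Agent.T170.Ord

open WeierstrassCurve WeierstrassCurve.Affine Polynomial Crest.Agent.T170.Ell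
  Crest.Agent.T170.Ell.Place

/-- Over an algebraically closed field every `x` is the abscissa of a point. -/
theorem exists_y {K : Type*} [Field K] [IsAlgClosed K] (V : Affine K) (x : K) :
    ∃ y, V.Equation x y := by
  have hd : (X ^ 2 + C (V.a₁ * x + V.a₃) * X -
      C (x ^ 3 + V.a₂ * x ^ 2 + V.a₄ * x + V.a₆) : K[X]).degree = 2 := by
    compute_degree!
  obtain ⟨y, hy⟩ := IsAlgClosed.exists_root _ (by rw [hd]; decide :
    (X ^ 2 + C (V.a₁ * x + V.a₃) * X -
      C (x ^ 3 + V.a₂ * x ^ 2 + V.a₄ * x + V.a₆) : K[X]).degree ≠ 0)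
  refine ⟨y, (equation_iff _ _).mpr ?_⟩
  simp only [IsRoot.def, eval_sub, eval_add, eval_mul, eval_pow, eval_X, eval_C] at hy
  linear_combination hy

variable {R : Type*} [CommRing R] (W : Affine R) [W.IsElliptic]

section

variable {F L : Type*} [Field F] [Field L] [Algebra R F] [Algebra R L] [Algebra F L]
  [IsScalarTower R F L] [DecidableEq L] {W}

/-- The abscissa of a multiple of the generic point is a rational function of `x`. -/
theorem gen_ratfun {x y : L} (h : IsGen W F x y) {n : ℕ} {X₁ Y₁ : L}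
    {h₁ : (W⁄L).Nonsingular X₁ Y₁} (e : n • h.pt = .some X₁ Y₁ h₁) :
    ∃ a b : F[X], IsCoprime a b ∧ a ≠ 0 ∧ X₁ * aeval x a = aeval x b := by
  classical
  obtain ⟨f, hf, hfx, hfy⟩ := h.exists_algHom (IsScalarTower.toAlgHom R F L)
    ((equation_neg _ _).mpr h.eqn) fun p hp => h.eval₂_ne_zero hp
  have hp : Point.map f h.pt = -h.pt := by
    rw [IsGen.pt, Point.map_some, Point.neg_some, Point.some.injEq]
    exact ⟨hfx, hfy⟩
  have hX : f X₁ = X₁ := by
    have := congrArg (Point.map f) e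
    rw [map_nsmul, hp, smul_neg, e, Point.map_some, Point.neg_some, Point.some.injEq] at this
    exact this.1.symm
  have hfa : ∀ p : F[X], f (aeval x p) = aeval x p := fun p => by
    rw [aeval_eq_sum_range, map_sum]
    refine Finset.sum_congr rfl fun i _ => ?_
    rw [Algebra.smul_def, map_mul, map_pow, hfx, hf]
    rfl
  obtain ⟨p, q, r, hr, hz⟩ := h.exists_eq_div X₁
  have hr' : aeval x r ≠ 0 := h.eval₂_ne_zero hr
  have e1 : X₁ * aeval x r = aeval x p + aeval x q * y := by rw [hz, div_mul_cancel₀ _ hr']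
  have e2 := congrArg f e1
  rw [map_mul, map_add, map_mul, hX, hfa, hfa, hfa, hfy, e1] at e2
  have hq : q = 0 := by
    by_contra hq
    have a1 : (W⁄L).a₁ = algebraMap F L (W⁄F).a₁ := IsScalarTower.algebraMap_apply R F L _
    have a3 : (W⁄L).a₃ = algebraMap F L (W⁄F).a₃ := IsScalarTower.algebraMap_apply R F L _
    have e3 : aeval x (q * (C (W⁄F).a₁ * X + C (W⁄F).a₃)) + aeval x (q * C 2) * y = 0 := by
      simp only [map_mul, map_add, aeval_C, aeval_X, ← a1, ← a3, map_ofNat]
      simp only [negY] at e2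
      linear_combination e2
    obtain ⟨h1, h2⟩ := h.basis_eq_zero e3
    have h2' : (2 : F) = 0 := C_eq_zero.mp ((mul_eq_zero.mp h2).resolve_left hq)
    have h1' := (mul_eq_zero.mp h1).resolve_left hq
    have c1 : (W⁄F).a₁ = 0 := by simpa using congrArg (coeff · 1) h1'
    have c3 : (W⁄F).a₃ = 0 := by simpa using congrArg (coeff · 0) h1'
    have hΔ : (W⁄F).Δ ≠ 0 := (WeierstrassCurve.isUnit_Δ (W⁄F)).ne_zero
    apply hΔ
    have h4 : (4 : F) = 0 := by linear_combination 2 * h2'
    simp only [Δ, b₂, b₄, b₆, b₈, c1, c3, h2', h4]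
    ring
  rw [hq, map_zero, zero_mul, add_zero] at e1
  refine ⟨r / gcd r p, p / gcd r p, isCoprime_div_gcd_div_gcd_of_gcd_ne_zero
    (fun h0 => hr ((gcd_eq_zero_iff _ _).mp h0).1), ?_, ?_⟩
  · exact left_div_gcd_ne_zero hr
  · have hg : gcd r p ≠ 0 := fun h0 => hr ((gcd_eq_zero_iff _ _).mp h0).1
    have hg' : aeval x (gcd r p) ≠ 0 := h.eval₂_ne_zero hg
    apply mul_left_cancel₀ hg'
    rw [mul_left_comm, ← map_mul, ← map_mul,
      EuclideanDomain.mul_div_cancel' hg (gcd_dvd_left _ _),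
      EuclideanDomain.mul_div_cancel' hg (gcd_dvd_right _ _), e1]

end

variable {K : Type*} [Field K] [IsAlgClosed K] [Algebra R K] [DecidableEq K]

/-- If `[n]` is not zero on `W(K)`, it does not kill the generic point. -/
theorem nsmul_gen_ne_zero {L : Type*} [Field L] [Algebra R L] [Algebra K L]
    [IsScalarTower R K L] [DecidableEq L] {x y : L} (h : IsGen W K x y) {n : ℕ}
    (hn : ∃ T : (W⁄K).Point, n • T ≠ 0) : n • h.pt ≠ 0 := by
  obtain ⟨T, hT⟩ := hn
  have hT0 : T ≠ 0 := by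
    rintro rfl
    exact hT (smul_zero _)
  obtain ⟨Q, hQ, -, e, -⟩ := h.exists_red_pt (AlgHom.id R K) hT0
  intro h0
  apply hT
  rw [← e, ← map_nsmul, h0, map_zero]

/-- **Weak division polynomials.** -/
theorem exists_ratfun {n : ℕ} (hn : ∃ T : (W⁄K).Point, n • T ≠ 0) :
    ∃ a b : K[X], a ≠ 0 ∧ ∀ (x y : K) (h : (W⁄K).Nonsingular x y),
      (n • Point.some x y h = 0 ↔ a.eval x = 0) ∧
      ∀ (X₁ Y₁ : K) (h₁ : (W⁄K).Nonsingular X₁ Y₁), n • Point.some x y h = .some X₁ Y₁ h₁ →
        X₁ * a.eval x = b.eval x := by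
  classical
  have hg := isGen_functionField W K
  set s := algebraMap (W⁄K).CoordinateRing (W⁄K).FunctionField (CoordinateRing.mk _ (C X))
  set t := algebraMap (W⁄K).CoordinateRing (W⁄K).FunctionField (CoordinateRing.mk _ X)
  have h0 := nsmul_gen_ne_zero W hg hn
  rcases e : n • hg.pt with _ | ⟨U, V, hUV⟩
  · exact absurd e h0
  obtain ⟨a, b, hab, ha, hU⟩ := gen_ratfun hg e
  refine ⟨a, b, ha, fun x y h => ?_⟩
  obtain ⟨Q, hc, hx, hy⟩ := hg.exists_place (AlgHom.id R K) h.1
  have hQK : Q.Over K := hc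
  have hQ : Q.Over R := fun r => by
    rw [IsScalarTower.algebraMap_apply R K (W⁄K).FunctionField]
    exact hc _
  have e1 : n • Point.some x y h = red W hQ (.some U V hUV) := by
    rw [← e, map_nsmul, IsGen.pt, red_some_of_sp hQ _ hx hy]
  have sa := hQK.sp_aeval hx a
  have sb := hQK.sp_aeval hx b
  rw [coe_aeval_eq_eval] at sa sb
  have key : ∀ (X₁ Y₁ : K) (h₁ : (W⁄K).Nonsingular X₁ Y₁),
      n • Point.some x y h = .some X₁ Y₁ h₁ → X₁ * a.eval x = b.eval x := by
    intro X₁ Y₁ h₁ e2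
    rw [e1, red_some_eq_some_iff] at e2
    have := e2.1.mul sa
    rw [hU] at this
    exact this.unique sb
  refine ⟨⟨fun e2 => ?_, fun e2 => ?_⟩, key⟩
  · rw [e1, red_some_eq_zero_iff] at e2
    by_contra hne
    apply e2
    rw [eq_div_of_mul_eq (sa.ne_zero hne) hU]
    exact (sb.div sa hne).mem
  · rcases e3 : n • Point.some x y h with _ | ⟨X₁, Y₁, h₁⟩
    · rfl
    · exfalso
      have e4 := key X₁ Y₁ h₁ e3
      rw [e2, mul_zero] at e4
      obtain ⟨u, v, huv⟩ := hab
      have := congrArg (eval x) huv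
      simp [e2, ← e4] at this

/-- Over an algebraically closed field `[n]` is onto unless it is zero. -/
theorem nsmul_surjective {n : ℕ} (hn : ∃ T : (W⁄K).Point, n • T ≠ 0) (S : (W⁄K).Point) :
    ∃ T : (W⁄K).Point, n • T = S := by
  classical
  have hg := isGen_functionField W K
  set s := algebraMap (W⁄K).CoordinateRing (W⁄K).FunctionField (CoordinateRing.mk _ (C X))
  set t := algebraMap (W⁄K).CoordinateRing (W⁄K).FunctionField (CoordinateRing.mk _ X)
  have h0 := nsmul_gen_ne_zero W hg hn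
  rcases e : n • hg.pt with _ | ⟨U, V, hUV⟩
  · exact absurd e h0
  have hover : ∀ Q : Place (W⁄K).FunctionField K, Q.Over K → Q.Over R := fun Q hc r => by
    rw [IsScalarTower.algebraMap_apply R K (W⁄K).FunctionField]
    exact hc _
  have hU : Transcendental K U := by
    intro halg
    have hd := IsAlgClosed.degree_eq_one_of_irreducible K (minpoly.irreducible halg.isIntegral)
    obtain ⟨c, hc⟩ := minpoly.mem_range_of_degree_eq_one K U hd
    have hx : ∀ T : (W⁄K).Point, T ≠ 0 → (n • T).xRep = ![c, 1] := by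
      intro T hT
      obtain ⟨Q, hQ, hcQ, e1, -⟩ := hg.exists_red_pt (AlgHom.id R K) hT
      have sU : Q.Sp U c := hc ▸ hcQ c
      rw [← e1, ← map_nsmul, e, red_some_of_sp hQ _ sU (sp_val (y_mem hQ hUV.1 sU.mem))]
      rfl
    obtain ⟨y₀, hy₀⟩ := exists_y (W⁄K) 0
    obtain ⟨y₁, hy₁⟩ := exists_y (W⁄K) 1
    set T₀ : (W⁄K).Point := .some 0 y₀ (equation_iff_nonsingular.mp hy₀) with hT₀
    set T₁ : (W⁄K).Point := .some 1 y₁ (equation_iff_nonsingular.mp hy₁) with hT₁
    have hne : ¬(T₀ = T₁ ∨ T₀ = -T₁) := fun h => zero_ne_one (Point.X_eq_iff.mpr h)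
    have hz : ∀ T : (W⁄K).Point, n • T = 0 → T = 0 := fun T hT => by
      by_contra hT0
      have := hx T hT0
      rw [hT, Point.xRep_zero] at this
      simpa using congrFun this 1
    rcases Point.eq_or_eq_neg_of_xRep_eq_xRep
      ((hx T₀ (Point.some_ne_zero _)).trans (hx T₁ (Point.some_ne_zero _)).symm) with h | h
    · exact hne (Or.inl (sub_eq_zero.mp (hz _ (by rw [smul_sub, h, sub_self]))))
    · exact hne (Or.inr (add_eq_zero_iff_eq_neg.mp (hz _ (by rw [smul_add, h, neg_add_cancel]))))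
  rcases S with _ | ⟨X₀, Y₀, hS⟩
  · exact ⟨0, smul_zero _⟩
  obtain ⟨Q, hQ⟩ := exists_place (aeval U : K[X] →ₐ[K] (W⁄K).FunctionField).toRingHom
    (evalRingHom X₀) fun b hb => by
      by_contra hne
      exact hU ⟨b, fun hb0 => hne (by rw [hb0, map_zero]), hb⟩
  have hQK : Q.Over K := fun c => by simpa using hQ (C c)
  have sU : Q.Sp U X₀ := by simpa using hQ X
  have e1 : n • red W (hover Q hQK) hg.pt = .some X₀ _ (nonsingular_sp (hover Q hQK) hUV.1 sU
      (sp_val (y_mem (hover Q hQK) hUV.1 sU.mem))) := by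
    rw [← map_nsmul, e]
    exact red_some_of_sp _ _ sU (sp_val (y_mem (hover Q hQK) hUV.1 sU.mem))
  rcases (Point.X_eq_iff (h₁ := hS) (h₂ := nonsingular_sp (hover Q hQK) hUV.1 sU
      (sp_val (y_mem (hover Q hQK) hUV.1 sU.mem)))).mp rfl with h | h
  · exact ⟨_, e1.trans h.symm⟩
  · exact ⟨-red W (hover Q hQK) hg.pt, by rw [smul_neg, e1, h]⟩

/-- From a point of order `p` to a point of order `p ^ a`. -/
theorem exists_addOrderOf_pow {p : ℕ} [Fact p.Prime] (hn : ∃ T : (W⁄K).Point, p • T ≠ 0)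
    (h1 : ∃ T : (W⁄K).Point, addOrderOf T = p) (a : ℕ) :
    ∃ T : (W⁄K).Point, addOrderOf T = p ^ a := by
  have key : ∀ a : ℕ, ∃ T : (W⁄K).Point, p ^ a • T ≠ 0 ∧ p ^ (a + 1) • T = 0 := by
    intro a
    induction a with
    | zero =>
      obtain ⟨T, hT⟩ := h1
      refine ⟨T, ?_, ?_⟩
      · rw [pow_zero, one_smul]
        rintro rfl
        rw [addOrderOf_zero] at hT
        exact (Fact.out : p.Prime).one_lt.ne hT
      · rw [zero_add, pow_one, ← hT, addOrderOf_nsmul_eq_zero]
    | succ a ih =>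
      obtain ⟨S, h₁, h₂⟩ := ih
      obtain ⟨T, rfl⟩ := nsmul_surjective W hn S
      rw [smul_smul, ← pow_succ] at h₁ h₂
      exact ⟨T, h₁, h₂⟩
  rcases a with _ | a
  · exact ⟨0, by simp⟩
  · obtain ⟨T, h₁, h₂⟩ := key a
    exact ⟨T, addOrderOf_eq_prime_pow h₁ h₂⟩

end Crest.Agent.T170.Ord
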