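import Crest.Agent.T170.OrdA_16

/-!
# Row 170, module D4 (helper16), part B: an ordinary elliptic curve in every characteristic

`exists_ordinary` : over an algebraically closed field of characteristic `p` there is an elliptic
curve with a point of order `p` (and a point not killed by `p`).  For odd `p` the points of a curve
with Hasse invariant `1` over a finite field are counted modulo `p`.
-/

set_option autoImplicit false

namespace Crest.Agent.T170.Ord

open WeierstrassCurve WeierstrassCurve.Affine Polynomial Crest.Agent.T170.Ell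

section Count

variable {F : Type*} [Field F]

theorem sum_pow_of_lt [Fintype F] {i : ℕ} (hi : i < 2 * (Fintype.card F - 1)) :
    ∑ x : F, x ^ i = if i = Fintype.card F - 1 then -1 else 0 := by
  classical
  have hq : 1 < Fintype.card F := Fintype.one_lt_card
  rcases lt_or_ge i (Fintype.card F - 1) with h | h
  · rw [if_neg h.ne, FiniteField.sum_pow_lt_card_sub_one F i h]
  have hi0 : i ≠ 0 := by omega
  let φ : Fˣ ↪ F := ⟨fun x ↦ x, Units.val_injective⟩
  have e : Finset.univ.map φ = Finset.univ \ {0} := by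
    ext x
    simpa only [Finset.mem_map, Finset.mem_univ, Function.Embedding.coeFn_mk, true_and,
      Finset.mem_sdiff, Finset.mem_singleton, φ] using! isUnit_iff_ne_zero
  have e1 : ∑ x : F, x ^ i = ∑ x : Fˣ, (x ^ i : F) := by
    rw [← Finset.sum_sdiff ({0} : Finset F).subset_univ, Finset.sum_singleton, zero_pow hi0,
      add_zero, ← e, Finset.sum_map]
    rfl
  rw [e1, FiniteField.sum_pow_units F i]
  congr 1
  apply propext
  constructor
  · rintro ⟨c, rfl⟩
    rcases c with _ | _ | c
    · simp at hi0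
    · simp
    · exfalso
      have : (Fintype.card F - 1) * (c + 1 + 1) ≥ (Fintype.card F - 1) * 2 :=
        Nat.mul_le_mul_left _ (by omega)
      omega
  · rintro rfl
    exact dvd_rfl

theorem sum_eval_eq [Fintype F] {g : F[X]} (hg : g.natDegree < 2 * (Fintype.card F - 1)) :
    ∑ x : F, g.eval x = -g.coeff (Fintype.card F - 1) := by
  classical
  simp only [eval_eq_sum_range' hg]
  rw [Finset.sum_comm]
  have : ∀ i ∈ Finset.range (2 * (Fintype.card F - 1)), ∑ x : F, g.coeff i * x ^ i =
      if i = Fintype.card F - 1 then -g.coeff i else 0 := by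
    intro i hi
    rw [← Finset.mul_sum, sum_pow_of_lt (Finset.mem_range.mp hi)]
    split_ifs <;> simp
  rw [Finset.sum_congr rfl this, Finset.sum_ite_eq', if_pos]
  have hq : 1 < Fintype.card F := Fintype.one_lt_card
  rw [Finset.mem_range]
  omega

/-- The Hasse invariant over `F_{p^r}` from the Hasse invariant over the prime field. -/
theorem coeff_pow_eq_one {p m : ℕ} [Fact p.Prime] [CharP F p] (hp : p = 2 * m + 1) {f : F[X]}
    (hf : f.natDegree ≤ 3) (hA : (f ^ m).coeff (2 * m) = 1) (r : ℕ) :
    ∃ e : ℕ, p ^ r = 2 * e + 1 ∧ (f ^ e).coeff (2 * e) = 1 := by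
  induction r with
  | zero => exact ⟨0, by simp, by simp⟩
  | succ r ih =>
    obtain ⟨e, he, hc⟩ := ih
    have hp0 : 0 < p := by omega
    refine ⟨m + e * p, by rw [pow_succ, he]; nth_rewrite 1 [hp]; nth_rewrite 1 [hp]; ring, ?_⟩
    rw [pow_add, pow_mul, ← map_frobenius_expand p, coeff_mul,
      Finset.sum_eq_single (2 * m, p * (2 * e))]
    · rw [hA, coeff_map, coeff_expand_mul' hp0, hc, map_one, one_mul]
    · rintro ⟨i, j⟩ hij hne
      rw [Finset.HasAntidiagonal.mem_antidiagonal] at hij
      simp only at hij ⊢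
      rw [coeff_map, coeff_expand hp0]
      split_ifs with hd
      · obtain ⟨c, rfl⟩ := hd
        have hdeg : (f ^ m).natDegree ≤ m * 3 :=
          natDegree_pow_le.trans (Nat.mul_le_mul_left _ hf)
        rcases lt_trichotomy c (2 * e) with h | h | h
        · rw [coeff_eq_zero_of_natDegree_lt, zero_mul]
          have : p * (c + 1) ≤ p * (2 * e) := Nat.mul_le_mul_left _ h
          have e1 : p * (c + 1) = p * c + p := by ring
          have e2 : 2 * (m + e * p) = 2 * m + p * (2 * e) := by ring
          omega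
        · exfalso
          apply hne
          have e2 : 2 * (m + e * p) = 2 * m + p * (2 * e) := by ring
          rw [h] at hij ⊢
          rw [Prod.mk.injEq]
          exact ⟨by omega, rfl⟩
        · exfalso
          have : p * (2 * e + 1) ≤ p * c := Nat.mul_le_mul_left _ h
          have e1 : p * (2 * e + 1) = p * (2 * e) + p := by ring
          have e2 : 2 * (m + e * p) = 2 * m + p * (2 * e) := by ring
          omega
      · rw [map_zero, mul_zero]
    · intro h
      exfalso
      apply h
      rw [Finset.HasAntidiagonal.mem_antidiagonal]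
      ring

/-- A curve with Hasse invariant `1` over a finite field has a point of order `p`. -/
theorem exists_point_of_hasse [Finite F] [DecidableEq F] {p m : ℕ} [Fact p.Prime] [CharP F p]
    (hp : p = 2 * m + 1) (V : Affine F) [V.IsElliptic] (h₁ : V.a₁ = 0) (h₃ : V.a₃ = 0)
    (hA : ((X ^ 3 + C V.a₂ * X ^ 2 + C V.a₄ * X + C V.a₆) ^ m).coeff (2 * m) = 1) :
    ∃ T : V.Point, addOrderOf T = p := by
  classical
  have := Fintype.ofFinite F
  set f : F[X] := X ^ 3 + C V.a₂ * X ^ 2 + C V.a₄ * X + C V.a₆ with hfdef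
  have hf : f.natDegree ≤ 3 := by rw [hfdef]; compute_degree
  obtain ⟨r, -, hr⟩ := FiniteField.card F p
  obtain ⟨e, he, hc⟩ := coeff_pow_eq_one hp hf hA r
  rw [← hr] at he
  have hq : 1 < Fintype.card F := Fintype.one_lt_card
  have h2 : ringChar F ≠ 2 := by
    rw [ringChar.eq F p]
    omega
  have : Finite V.Point := @Finite.of_equiv _ _
    (inferInstanceAs (Finite (Option {xy : F × F // V.Equation xy.1 xy.2}))) (pointEquiv V).symm
  refine exists_prime_addOrderOf_dvd_card' p ((CharP.cast_eq_zero_iff F p _).mp ?_)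
  have e1 : Nat.card V.Point = Nat.card {xy : F × F // V.Equation xy.1 xy.2} + 1 := by
    rw [Nat.card_congr (pointEquiv V)]
    exact Finite.card_option
  have e2 : Nat.card {xy : F × F // V.Equation xy.1 xy.2} =
      ∑ x : F, {y : F | y ^ 2 = f.eval x}.toFinset.card := by
    have : {xy : F × F // V.Equation xy.1 xy.2} ≃ Σ x : F, {y : F | y ^ 2 = f.eval x} :=
      (Equiv.subtypeEquivRight fun xy => by
        rw [equation_iff, h₁, h₃, hfdef]
        simp).trans (Equiv.subtypeProdEquivSigmaSubtype fun x y : F => y ^ 2 = f.eval x)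
    rw [Nat.card_congr this, Nat.card_sigma]
    refine Finset.sum_congr rfl fun x _ => ?_
    rw [Nat.card_eq_fintype_card, Set.toFinset_card]
  have e3 : ∀ x : F, (({y : F | y ^ 2 = f.eval x}.toFinset.card : ℕ) : F) =
      (f ^ e).eval x + 1 := by
    intro x
    have := congrArg (Int.cast : ℤ → F) (quadraticChar_card_sqrts h2 (f.eval x))
    rw [Int.cast_natCast, Int.cast_add, Int.cast_one,
      quadraticChar_eq_pow_of_char_ne_two' h2] at this
    rw [this, eval_pow]
    congr 2
    omega
  have hdeg : (f ^ e).natDegree < 2 * (Fintype.card F - 1) := by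
    have : (f ^ e).natDegree ≤ e * 3 := natDegree_pow_le.trans (Nat.mul_le_mul_left _ hf)
    omega
  rw [e1, e2, Nat.cast_add, Nat.cast_sum, Finset.sum_congr rfl fun x _ => e3 x,
    Finset.sum_add_distrib, sum_eval_eq hdeg, show Fintype.card F - 1 = 2 * e by omega, hc]
  simp

end Count

/-- Parameters of a curve `y² = x³ + a x² + b x` with Hasse invariant `1`. -/
theorem exists_hasse_params (k : Type*) [Field k] [IsAlgClosed k] {m : ℕ} (hm : 0 < m) :
    ∃ a b : k, b ≠ 0 ∧ a ^ 2 - 4 * b ≠ 0 ∧
      ((X ^ 3 + C a * X ^ 2 + C b * X : k[X]) ^ m).coeff (2 * m) = 1 := by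
  let H : k[X] := ((X ^ 3 + X ^ 2 + C X * X : k[X][X]) ^ m).coeff (2 * m)
  have hH : ∀ l : k, H.eval l = ((X ^ 3 + X ^ 2 + C l * X : k[X]) ^ m).coeff (2 * m) := by
    intro l
    rw [← coe_evalRingHom, ← coeff_map]
    simp
  have hH0 : H.eval 0 = 1 := by
    rw [hH, map_zero, zero_mul, add_zero,
      show (X ^ 3 + X ^ 2 : k[X]) ^ m = (X + 1) ^ m * X ^ (2 * m) by rw [pow_mul, ← mul_pow]; ring]
    have := coeff_mul_X_pow ((X + 1 : k[X]) ^ m) (2 * m) 0
    rw [zero_add] at this
    rw [this, coeff_zero_eq_eval_zero]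
    simp
  have hne : (X * ((1 - C 4 * X) * H) : k[X]) ≠ 0 := by
    refine mul_ne_zero X_ne_zero fun h0 => ?_
    have := congrArg (eval 0) h0
    simp [hH0] at this
  obtain ⟨l, hl⟩ : ∃ l : k, (X * ((1 - C 4 * X) * H) : k[X]).eval l ≠ 0 := by
    by_contra hcon
    push Not at hcon
    exact hne (zero_of_eval_zero _ hcon)
  simp only [eval_mul, eval_X, eval_sub, eval_one, eval_C, mul_ne_zero_iff] at hl
  obtain ⟨hl0, hl1, hl2⟩ := hl
  obtain ⟨u, hu⟩ := IsAlgClosed.exists_pow_nat_eq (H.eval l)⁻¹ hm
  have hu0 : u ≠ 0 := by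
    rintro rfl
    rw [zero_pow hm.ne'] at hu
    exact inv_ne_zero hl2 hu.symm
  refine ⟨u, u ^ 2 * l, mul_ne_zero (pow_ne_zero 2 hu0) hl0, ?_, ?_⟩
  · rw [show u ^ 2 - 4 * (u ^ 2 * l) = u ^ 2 * (1 - 4 * l) by ring]
    exact mul_ne_zero (pow_ne_zero 2 hu0) hl1
  · have e1 : ((X ^ 3 + C u * X ^ 2 + C (u ^ 2 * l) * X : k[X]) ^ m).comp (C u * X) =
        C (u ^ (3 * m)) * (X ^ 3 + X ^ 2 + C l * X : k[X]) ^ m := by
      rw [pow_comp, pow_mul, C_pow, ← mul_pow]
      congr 1
      simp only [add_comp, mul_comp, pow_comp, X_comp, C_comp, C_mul, C_pow]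
      ring
    have e2 := congrArg (coeff · (2 * m)) e1
    simp only [comp_C_mul_X_coeff, coeff_C_mul] at e2
    rw [← hH] at e2
    apply mul_right_cancel₀ (pow_ne_zero (2 * m) hu0)
    rw [e2, show 3 * m = 2 * m + m by ring, pow_add, hu, one_mul, mul_assoc, inv_mul_cancel₀ hl2,
      mul_one]

/-- **Ordinary elliptic curves exist in every characteristic.** -/
theorem exists_ordinary (k : Type*) [Field k] [IsAlgClosed k] [DecidableEq k] (p : ℕ)
    [Fact p.Prime] [CharP k p] :
    ∃ V : Affine k, V.IsElliptic ∧ (∃ T : V.Point, addOrderOf T = p) ∧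
      ∃ T : V.Point, p • T ≠ 0 := by
  classical
  rcases (Fact.out : p.Prime).eq_two_or_odd' with rfl | ⟨m, hp⟩
  · have h2 : (2 : k) = 0 := CharP.cast_eq_zero k 2
    let V : Affine k := ⟨1, 0, 0, 0, 1⟩
    have hΔ : V.Δ = 1 := by
      simp only [V, Δ, b₂, b₄, b₆, b₈]
      linear_combination (-217 : k) * h2
    have hV : V.IsElliptic := ⟨by rw [hΔ]; exact isUnit_one⟩
    have e1 : V.Equation 0 1 := by simp [equation_iff, V]
    have e2 : V.Equation 1 0 := by
      simp only [equation_iff, V]
      linear_combination (-1 : k) * h2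
    refine ⟨V, hV, ⟨.some 0 1 (equation_iff_nonsingular.mp e1), addOrderOf_eq_prime ?_
      (Point.some_ne_zero _)⟩, .some 1 0 (equation_iff_nonsingular.mp e2), ?_⟩
    · rw [two_nsmul, Point.add_self_of_Y_eq]
      simp only [negY, V]
      linear_combination h2
    · rw [two_nsmul, Point.add_self_of_Y_ne]
      · exact Point.some_ne_zero _
      · simp [negY, V]
  · have hm : 0 < m := by
      have := (Fact.out : p.Prime).one_lt
      omega
    let k₀ := AlgebraicClosure (ZMod p)
    obtain ⟨a, b, hb, hab, hA⟩ := exists_hasse_params k₀ hm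
    let F := IntermediateField.adjoin (ZMod p) ({a, b} : Set k₀)
    have : FiniteDimensional (ZMod p) F := IntermediateField.finiteDimensional_adjoin fun x _ =>
      Algebra.IsIntegral.isIntegral x
    have : Finite F := Module.finite_of_finite (ZMod p)
    have : CharP F p := charP_of_injective_algebraMap (algebraMap (ZMod p) F).injective p
    let a' : F := ⟨a, IntermediateField.subset_adjoin _ _ (by simp)⟩
    let b' : F := ⟨b, IntermediateField.subset_adjoin _ _ (by simp)⟩
    let _ : Algebra (ZMod p) k := ZMod.algebra k p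
    let φ : F →ₐ[ZMod p] k := IsAlgClosed.lift
    let _ : Algebra F k := φ.toRingHom.toAlgebra
    let V : Affine F := ⟨0, a', 0, b', 0⟩
    have h2 : (2 : F) ≠ 0 := by
      intro h
      have := (CharP.cast_eq_zero_iff F p 2).mp h
      have := Nat.le_of_dvd two_pos this
      omega
    have hb' : b' ≠ 0 := fun h => hb (congrArg Subtype.val h)
    have hab' : a' ^ 2 - 4 * b' ≠ 0 := fun h => hab (congrArg Subtype.val h)
    have hΔ : V.Δ = 2 ^ 4 * b' ^ 2 * (a' ^ 2 - 4 * b') := by
      simp only [V, Δ, b₂, b₄, b₆, b₈]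
      ring
    have hV : V.IsElliptic := ⟨by
      rw [hΔ]
      exact (mul_ne_zero (mul_ne_zero (pow_ne_zero 4 h2) (pow_ne_zero 2 hb')) hab').isUnit⟩
    obtain ⟨T, hT⟩ := exists_point_of_hasse hp (V⁄F) rfl rfl (by
      apply (algebraMap F k₀).injective
      rw [← coeff_map, map_one, ← hA]
      congr 1
      simp [V, a', b', Affine.baseChange, WeierstrassCurve.baseChange])
    have e0 : (V⁄k).Equation 0 0 := by
      simp [equation_iff, V, Affine.baseChange, WeierstrassCurve.baseChange]
    refine ⟨V⁄k, inferInstance, ⟨Point.baseChange F k T, ?_⟩,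
      .some 0 0 (equation_iff_nonsingular.mp e0), ?_⟩
    · rw [addOrderOf_injective _ (Point.map_injective _), hT]
    · have h0 : (2 : ℕ) • (Point.some 0 0 (equation_iff_nonsingular.mp e0) : (V⁄k).Point) = 0 := by
        rw [two_nsmul, Point.add_self_of_Y_eq]
        simp [negY, V, Affine.baseChange, WeierstrassCurve.baseChange]
      have key : ∀ S : (V⁄k).Point, (2 : ℕ) • S = 0 → p • S = S := fun S hS => by
        have : (2 * m + 1) • S = S := by
          rw [add_smul, mul_comm, mul_smul, hS, smul_zero, zero_add, one_smul]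
        exact (congrArg (· • S) hp).trans this
      rw [key _ h0]
      exact Point.some_ne_zero _

end Crest.Agent.T170.Ord
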