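import Crest.Agent.T170.OrdB_16

/-!
# Row 170, module D4 (helper16), part C: lifting torsion points along a place

* `exists_red_eq` : reduction of points is onto;
* `exists_torsion_lift` : an `n`-torsion point of the reduction lifts to an `n`-torsion point;
* `exists_ordinary_lift` : an elliptic curve with good reduction and a point `T` with
  `p ^ a • T = 0` whose reduction has exact order `p ^ a`.
-/

set_option autoImplicit false

namespace Crest.Agent.T170.Ord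

open WeierstrassCurve WeierstrassCurve.Affine Polynomial Crest.Agent.T170.Ell
  Crest.Agent.T170.Ell.Place

variable {C k : Type*} [Field C] [Field k] {P : Place C k}

theorem exists_mul_sub {x₀ x₁ r : C} {c : k} (h₀ : P.Sp x₀ c) (h₁ : x₁ ∈ P.A) (hr : ¬P.Sp r c) :
    ∃ u ∈ P.A, x₁ - r = u * (x₀ - r) := by
  by_cases hm : r ∈ P.A
  · have hd : c - P.val r ≠ 0 := fun h => hr (sub_eq_zero.mp h ▸ sp_val hm)
    have s := h₀.sub (sp_val hm)
    exact ⟨_, (((sp_val h₁).sub (sp_val hm)).div s hd).mem,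
      (div_mul_cancel₀ _ (s.ne_zero hd)).symm⟩
  · obtain ⟨hr0, hi⟩ := not_mem_iff.mp hm
    have s : P.Sp (1 - x₀ * r⁻¹) 1 := by simpa using sp_one.sub (h₀.mul hi)
    have s' : P.Sp (1 - x₁ * r⁻¹) 1 := by simpa using sp_one.sub ((sp_val h₁).mul hi)
    refine ⟨_, (s'.div s one_ne_zero).mem, ?_⟩
    have hne := s.ne_zero one_ne_zero
    rw [div_mul_eq_mul_div, eq_div_iff hne]
    field_simp
    ring

/-- Either a polynomial has a root with the same value as `x₀`, or its value at `x₀` divides all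
its values at finite elements. -/
theorem root_or_dvd [IsAlgClosed C] {a : C[X]} (ha : a ≠ 0) {x₀ x₁ : C} {c : k} (h₀ : P.Sp x₀ c)
    (h₁ : x₁ ∈ P.A) :
    (∃ r, a.eval r = 0 ∧ P.Sp r c) ∨ ∃ u ∈ P.A, a.eval x₁ = u * a.eval x₀ := by
  refine or_iff_not_imp_left.mpr fun hno => ?_
  have key : ∀ s : Multiset C, (∀ r ∈ s, ¬P.Sp r c) →
      ∃ u ∈ P.A, (s.map (x₁ - ·)).prod = u * (s.map (x₀ - ·)).prod := by
    intro s
    induction s using Multiset.induction_on with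
    | empty => exact fun _ => ⟨1, one_mem _, by simp⟩
    | cons r s ih =>
      intro hs
      obtain ⟨u, hu, e⟩ := ih fun r hr => hs r (Multiset.mem_cons_of_mem hr)
      obtain ⟨w, hw, e'⟩ := exists_mul_sub h₀ h₁ (hs r (Multiset.mem_cons_self _ _))
      refine ⟨w * u, mul_mem hw hu, ?_⟩
      rw [Multiset.map_cons, Multiset.map_cons, Multiset.prod_cons, Multiset.prod_cons, e, e']
      ring
  obtain ⟨u, hu, e⟩ := key a.roots fun r hr hs => hno ⟨r, ((mem_roots ha).mp hr), hs⟩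
  refine ⟨u, hu, ?_⟩
  rw [(IsAlgClosed.splits a).eval_eq_prod_roots, (IsAlgClosed.splits a).eval_eq_prod_roots, e]
  ring

variable {R : Type*} [CommRing R] [Algebra R C] [Algebra R k] (W : Affine R) [W.IsElliptic]
  [DecidableEq C] [DecidableEq k]

/-- A point whose abscissa reduces to that of `S` reduces to `± S`. -/
theorem exists_red_eq_of_sp [IsAlgClosed C] (hP : P.Over R) {a b : k}
    (hS : (W⁄k).Nonsingular a b) {x : C} (hx : P.Sp x a) :
    ∃ (y : C) (h : (W⁄C).Nonsingular x y), red W hP (.some x y h) = .some a b hS := by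
  obtain ⟨y, hy⟩ := exists_y (W⁄C) x
  have h : (W⁄C).Nonsingular x y := equation_iff_nonsingular.mp hy
  have sy := sp_val (y_mem hP hy hx.mem)
  have e := red_some_of_sp hP h hx sy
  rcases (Point.X_eq_iff (h₁ := hS) (h₂ := nonsingular_sp hP h.1 hx sy)).mp rfl with h' | h'
  · exact ⟨y, h, e.trans h'.symm⟩
  · refine ⟨_, (nonsingular_neg ..).mpr h, ?_⟩
    rw [← Point.neg_some h, map_neg, e, h']

/-- Reduction of points is onto. -/
theorem exists_red_eq [IsAlgClosed C] (hP : P.Over R) (hs : ∀ a : k, ∃ x, P.Sp x a)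
    (S : (W⁄k).Point) : ∃ T : (W⁄C).Point, red W hP T = S := by
  rcases S with _ | ⟨a, b, hS⟩
  · exact ⟨0, map_zero _⟩
  obtain ⟨x, hx⟩ := hs a
  obtain ⟨y, h, e⟩ := exists_red_eq_of_sp W hP hS hx
  exact ⟨_, e⟩

/-- **Torsion points lift to torsion points.** -/
theorem exists_torsion_lift [IsAlgClosed C] [IsAlgClosed k] (hP : P.Over R)
    (hs : ∀ a : k, ∃ x, P.Sp x a) {n : ℕ} (hn : ∃ S : (W⁄k).Point, n • S ≠ 0)
    {S : (W⁄k).Point} (hS : n • S = 0) :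
    ∃ T : (W⁄C).Point, n • T = 0 ∧ red W hP T = S := by
  classical
  rcases S with _ | ⟨c, d, hcd⟩
  · exact ⟨0, smul_zero _, map_zero _⟩
  have hn' : ∃ T : (W⁄C).Point, n • T ≠ 0 := by
    obtain ⟨S, hS⟩ := hn
    obtain ⟨T, rfl⟩ := exists_red_eq W hP hs S
    exact ⟨T, fun h => hS (by rw [← map_nsmul, h, map_zero])⟩
  obtain ⟨a, b, ha, hab⟩ := exists_ratfun W hn'
  obtain ⟨a', b', ha', hab'⟩ := exists_ratfun W hn
  by_cases hroot : ∃ r, a.eval r = 0 ∧ P.Sp r c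
  · obtain ⟨r, hr, sr⟩ := hroot
    obtain ⟨y, h, e⟩ := exists_red_eq_of_sp W hP hcd sr
    exact ⟨_, (hab r y h).1.mpr hr, e⟩
  exfalso
  obtain ⟨x₀, hx₀⟩ := hs c
  obtain ⟨y₀, h₀, e₀⟩ := exists_red_eq_of_sp W hP hcd hx₀
  have ha₀ : a.eval x₀ ≠ 0 := fun h => hroot ⟨x₀, h, hx₀⟩
  rcases e₁ : n • Point.some x₀ y₀ h₀ with _ | ⟨X₀, Y₀, H₀⟩
  · exact ha₀ ((hab x₀ y₀ h₀).1.mp e₁)
  have hX₀ : X₀ ∉ P.A := by
    rw [← red_some_eq_zero_iff hP H₀, ← e₁, map_nsmul, e₀, hS]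
  obtain ⟨hX0, hXi⟩ := not_mem_iff.mp hX₀
  have eb₀ := (hab x₀ y₀ h₀).2 X₀ Y₀ H₀ e₁
  have hb₀ : b.eval x₀ ≠ 0 := eb₀ ▸ mul_ne_zero hX0 ha₀
  have hb : b ≠ 0 := by
    rintro rfl
    exact hb₀ eval_zero
  have key : ∀ c₁ : k, a'.eval c₁ ≠ 0 → ∃ r ∈ b.roots, P.val r = c₁ := by
    intro c₁ hc₁
    obtain ⟨d₁, hd₁⟩ := exists_y (W⁄k) c₁
    have n₁ : (W⁄k).Nonsingular c₁ d₁ := equation_iff_nonsingular.mp hd₁
    obtain ⟨x₁, hx₁⟩ := hs c₁
    obtain ⟨y₁, h₁, e₂⟩ := exists_red_eq_of_sp W hP n₁ hx₁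
    have hne : red W hP (n • Point.some x₁ y₁ h₁) ≠ 0 := by
      rw [map_nsmul, e₂]
      exact fun h => hc₁ ((hab' c₁ d₁ n₁).1.mp h)
    rcases e₃ : n • Point.some x₁ y₁ h₁ with _ | ⟨X₁, Y₁, H₁⟩
    · rw [e₃] at hne
      exact absurd (map_zero _) hne
    rw [e₃, Ne, red_some_eq_zero_iff, not_not] at hne
    have eb₁ := (hab x₁ y₁ h₁).2 X₁ Y₁ H₁ e₃
    obtain ⟨u, hu, eu⟩ := (root_or_dvd ha hx₀ hx₁.mem).resolve_left hroot
    rcases root_or_dvd hb hx₁ hx₀.mem with ⟨r, hr, sr⟩ | ⟨w, hw, ew⟩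
    · exact ⟨r, (mem_roots hb).mpr hr, sr.val_eq⟩
    · exfalso
      apply hX₀
      rw [← eb₀, ← eb₁, eu, ← mul_assoc, ← mul_assoc] at ew
      rw [mul_right_cancel₀ ha₀ ew]
      exact mul_mem (mul_mem hw hne) hu
  have hfin : (Set.univ : Set k).Finite := by
    refine Set.Finite.subset ((a'.roots.toFinset ∪ b.roots.toFinset.image P.val).finite_toSet)
      fun c₁ _ => ?_
    rw [Finset.mem_coe, Finset.mem_union]
    by_cases hc₁ : a'.eval c₁ = 0
    · exact Or.inl (Multiset.mem_toFinset.mpr ((mem_roots ha').mpr hc₁))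
    · obtain ⟨r, hr, e⟩ := key c₁ hc₁
      exact Or.inr (Finset.mem_image.mpr ⟨r, Multiset.mem_toFinset.mpr hr, e⟩)
  exact Set.infinite_univ hfin

omit W in
/-- **Ordinary good reduction with a torsion point of exact order `p ^ a`.**  `R` is any ring
mapping onto the residue field `k` in which elements with non-zero residue are units (e.g. the
valuation ring of the place). -/
theorem exists_ordinary_lift [IsAlgClosed C] [IsAlgClosed k] (p : ℕ) [Fact p.Prime] [CharP k p]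
    (hP : P.Over R) (hs : Function.Surjective (algebraMap R k))
    (hu : ∀ r : R, algebraMap R k r ≠ 0 → IsUnit r) :
    ∃ (W : Affine R) (_ : W.IsElliptic), ∀ a : ℕ, ∃ T : (W⁄C).Point,
      p ^ a • T = 0 ∧ addOrderOf (red W hP T) = p ^ a := by
  obtain ⟨V, hV, h1, hn⟩ := exists_ordinary k p
  obtain ⟨W, rfl⟩ : ∃ W : Affine R, W⁄k = V := by
    obtain ⟨r₁, e₁⟩ := hs V.a₁
    obtain ⟨r₂, e₂⟩ := hs V.a₂
    obtain ⟨r₃, e₃⟩ := hs V.a₃
    obtain ⟨r₄, e₄⟩ := hs V.a₄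
    obtain ⟨r₆, e₆⟩ := hs V.a₆
    exact ⟨⟨r₁, r₂, r₃, r₄, r₆⟩, WeierstrassCurve.ext e₁ e₂ e₃ e₄ e₆⟩
  have hW : W.IsElliptic := ⟨hu _ (by
    rw [← map_Δ]
    exact hV.isUnit.ne_zero)⟩
  refine ⟨W, hW, fun a => ?_⟩
  have hs' : ∀ c : k, ∃ x, P.Sp x c := fun c => by
    obtain ⟨r, rfl⟩ := hs c
    exact ⟨_, hP r⟩
  obtain ⟨S, hS⟩ := exists_addOrderOf_pow W hn h1 a
  obtain ⟨S', hS'⟩ := exists_addOrderOf_pow W hn h1 (a + 1)
  have hn' : p ^ a • S' ≠ 0 := fun h => by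
    have h2 := addOrderOf_dvd_of_nsmul_eq_zero h
    rw [hS', Nat.pow_dvd_pow_iff_le_right (Fact.out : p.Prime).one_lt] at h2
    omega
  obtain ⟨T, hT, e⟩ := exists_torsion_lift W hP hs' ⟨S', hn'⟩
    (S := S) (by rw [← hS, addOrderOf_nsmul_eq_zero])
  exact ⟨T, hT, by rw [e, hS]⟩

end Crest.Agent.T170.Ord
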