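import Crest.Agent.T170.Fr_20
import Crest.Agent.T170.RetApi_81
import Crest.Agent.T170.EllB_61

/-!
# Row 170, task F0 (helper79): places of a Weierstrass function field

* `Triv C u`, `Cen u x y a b` : `u` is trivial on the constants, centred at `(a, b)`;
* `cen_add`, `cen_add'` : translation of the centre;
* `exists_ord` : `x - a` is a uniformiser at a point not of order two, the valuation is unique;
* `atPt_unique`, `atPt_dvd`, `exists_atPt_of_cen`;
* transport along semilinear automorphisms: `mv`, `Mov`, `mov_of_add`, `atPt_transport`,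
  `unrE_transport`, `genOver_transport`, `isConj_transport`.
-/

set_option autoImplicit false

namespace Crest.Agent.T170.Pl

open scoped Polynomial Classical
open WeierstrassCurve WeierstrassCurve.Affine Polynomial
open Crest.Agent.T170.Ret (AV Ctr GenOver Rot)
open Crest.Agent.T170.RetU Crest.Agent.T170.Ell Crest.Agent.T170.Fr

section place

variable {C L : Type*} [Field C] [Field L] [Algebra C L]

/-- the valuation ring of an additive valuation -/
def vs (u : AV L) : ValuationSubring L :=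
  { RetU.ring u with
    mem_or_inv_mem' := fun y => by
      change 0 ≤ u y ∨ 0 ≤ u y⁻¹
      by_cases hy : y = 0
      · left; rw [hy, u.map_zero]; exact le_top
      obtain ⟨k, hk⟩ := exists_int u hy
      rw [val_inv u hk, hk, ← WithTop.coe_zero, WithTop.coe_le_coe, WithTop.coe_le_coe]
      omega }

theorem mem_vs {u : AV L} {y : L} : y ∈ vs u ↔ 0 ≤ u y := Iff.rfl

/-- the place of an additive valuation -/
noncomputable def plc (u : AV L) : Place L (IsLocalRing.ResidueField (vs u)) :=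
  Place.ofValuationSubring (vs u)

theorem mem_plc {u : AV L} {y : L} : y ∈ (plc u).A ↔ 0 ≤ u y := Iff.rfl

theorem sp_zero_iff (u : AV L) (z : L) : (plc u).Sp z 0 ↔ 0 < u z := by
  by_cases hz : z = 0
  · subst hz
    simp only [Place.sp_zero, AddValuation.map_zero, true_iff]
    exact WithTop.coe_lt_top 0
  obtain ⟨k, hk⟩ := exists_int u hz
  have h1 : z⁻¹ ∉ (plc u).A ↔ 0 < u z := by
    rw [mem_plc, val_inv u hk, hk, ← WithTop.coe_zero, WithTop.coe_le_coe, WithTop.coe_lt_coe]
    omega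
  rw [← h1, Place.not_mem_iff, inv_inv]
  exact ⟨fun h => ⟨inv_ne_zero hz, h⟩, fun h => h.2⟩

theorem val_eq_zero_of_sp {u : AV L} {z : L} {c : IsLocalRing.ResidueField (vs u)}
    (h : (plc u).Sp z c) (hc : c ≠ 0) : u z = 0 := by
  refine le_antisymm (not_lt.1 fun h0 => hc (h.unique ((sp_zero_iff u z).2 h0))) h.mem

/-- `u` is trivial on the constants -/
def Triv (C : Type*) {L : Type*} [Field C] [Field L] [Algebra C L] (u : AV L) : Prop :=
  ∀ c : C, c ≠ 0 → u (algebraMap C L c) = 0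

theorem Triv.nonneg {u : AV L} (hu : Triv C u) (c : C) : 0 ≤ u (algebraMap C L c) := by
  by_cases hc : c = 0
  · rw [hc, map_zero, u.map_zero]; exact le_top
  · rw [hu c hc]

/-- the residues of the constants -/
noncomputable def Triv.res {u : AV L} (hu : Triv C u) : C →+* IsLocalRing.ResidueField (vs u) :=
  (plc u).φ.comp ((algebraMap C L).codRestrict (vs u).toSubring hu.nonneg)

theorem Triv.sp {u : AV L} (hu : Triv C u) (c : C) : (plc u).Sp (algebraMap C L c) (hu.res c) :=
  ⟨hu.nonneg c, rfl⟩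

theorem Triv.sp_iff {u : AV L} (hu : Triv C u) {z : L} {c : C} :
    (plc u).Sp z (hu.res c) ↔ 0 < u (z - algebraMap C L c) := by
  rw [← sp_zero_iff]
  refine ⟨fun h => by simpa using h.sub (hu.sp c), fun h => by simpa using h.add (hu.sp c)⟩

theorem Triv.sp_aeval {u : AV L} (hu : Triv C u) {z : L} {c : C} (h : (plc u).Sp z (hu.res c))
    (p : C[X]) : (plc u).Sp (aeval z p) (hu.res (p.eval c)) := by
  let _ : Algebra C (IsLocalRing.ResidueField (vs u)) := hu.res.toAlgebra
  have h1 := Place.Over.sp_aeval (P := plc u) (R := C) (fun c => hu.sp c) h p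
  rwa [show hu.res c = algebraMap C _ c from rfl, aeval_algebraMap_apply_eq_algebraMap_eval] at h1

theorem Triv.val_eq_zero {u : AV L} (hu : Triv C u) {z : L} {c : C}
    (h : (plc u).Sp z (hu.res c)) (hc : c ≠ 0) : u z = 0 :=
  val_eq_zero_of_sp h ((_root_.map_ne_zero _).2 hc)

/-- the value of a polynomial in `x` -/
theorem Triv.val_aeval {u : AV L} (hu : Triv C u) {x : L} {a : C} {m : ℤ}
    (hx : u (x - algebraMap C L a) = m) (hm : 0 < m) {p : C[X]} (hp : p ≠ 0) :
    u (aeval x p) = ((p.rootMultiplicity a * m : ℤ) : WithTop ℤ) := by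
  obtain ⟨q, hq, hnd⟩ := exists_eq_pow_rootMultiplicity_mul_and_not_dvd p hp a
  have hs : (plc u).Sp x (hu.res a) := hu.sp_iff.2 (by rw [hx]; exact_mod_cast hm)
  have h0 : u (aeval x q) = 0 := hu.val_eq_zero (hu.sp_aeval hs q) fun h => hnd (dvd_iff_isRoot.2 h)
  conv_lhs => rw [hq]
  rw [map_mul, u.map_mul, h0, add_zero, map_pow, map_sub, aeval_X, aeval_C, val_pow u hx]

/-- `u` is centred at `(a, b)` -/
def Cen (u : AV L) (x y : L) (a b : C) : Prop :=
  0 < u (x - algebraMap C L a) ∧ 0 < u (y - algebraMap C L b)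

end place

section add

variable {R C L : Type*} [CommRing R] [Field C] [Field L] [Algebra R C] [Algebra C L] [Algebra R L]
  [IsScalarTower R C L] {W : Affine R}

/-- the centre of a valuation lies on the curve -/
theorem Cen.equation {u : AV L} (hu : Triv C u) {x y : L} (he : (W⁄L).Equation x y) {a b : C}
    (h : Cen u x y a b) : (W⁄C).Equation a b := by
  let _ : Algebra C (IsLocalRing.ResidueField (vs u)) := hu.res.toAlgebra
  let _ : Algebra R (IsLocalRing.ResidueField (vs u)) := (hu.res.comp (algebraMap R C)).toAlgebra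
  have : IsScalarTower R C (IsLocalRing.ResidueField (vs u)) :=
    IsScalarTower.of_algebraMap_eq fun _ => rfl
  have hP : (plc u).Over R := fun r => by
    rw [IsScalarTower.algebraMap_apply R C L]; exact hu.sp _
  have h1 := equation_sp hP he (hu.sp_iff.2 h.1) (hu.sp_iff.2 h.2)
  exact (baseChange_equation (W := W)
    (f := IsScalarTower.toAlgHom R C (IsLocalRing.ResidueField (vs u))) hu.res.injective a b).1 h1

variable [W.IsElliptic]

/-- **translation of the centre** -/
theorem cen_add {u : AV L} (hu : Triv C u) {x y x' y' : L} {ns : (W⁄L).Nonsingular x y}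
    {ns' : (W⁄L).Nonsingular x' y'} {a b a' b' : C} {hab : (W⁄C).Nonsingular a b}
    {hab' : (W⁄C).Nonsingular a' b'} {T : (W⁄C).Point}
    (hO : Point.some a b hab + T = Point.some a' b' hab')
    (hξ : Point.some x y ns + Point.baseChange C L T = Point.some x' y' ns')
    (h : Cen u x y a b) : Cen u x' y' a' b' := by
  let _ : Algebra C (IsLocalRing.ResidueField (vs u)) := hu.res.toAlgebra
  let _ : Algebra R (IsLocalRing.ResidueField (vs u)) := (hu.res.comp (algebraMap R C)).toAlgebra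
  have : IsScalarTower R C (IsLocalRing.ResidueField (vs u)) :=
    IsScalarTower.of_algebraMap_eq fun _ => rfl
  have hP : (plc u).Over R := fun r => by
    rw [IsScalarTower.algebraMap_apply R C L]; exact hu.sp _
  have h1 : ∀ S : (W⁄C).Point, red W hP (Point.baseChange C L S) =
      Point.baseChange C (IsLocalRing.ResidueField (vs u)) S := by
    rintro (_ | ⟨s, t, hst⟩)
    · rfl
    · exact red_some_of_sp hP _ (hu.sp s) (hu.sp t)
  have h2 : red W hP (Point.some x y ns) =
      Point.baseChange C (IsLocalRing.ResidueField (vs u)) (Point.some a b hab) :=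
    red_some_of_sp hP _ (hu.sp_iff.2 h.1) (hu.sp_iff.2 h.2)
  have h3 : red W hP (Point.some x' y' ns') =
      Point.baseChange C (IsLocalRing.ResidueField (vs u)) (Point.some a' b' hab') := by
    rw [← hξ, map_add, h1, h2, ← map_add, hO]
  have h4 := (red_some_eq_some_iff hP ns' _).1 h3
  exact ⟨hu.sp_iff.1 h4.1, hu.sp_iff.1 h4.2⟩

/-- translation of the centre, with the equations of points in a bigger field -/
theorem cen_add' {U : Type*} [Field U] [Algebra R U] [Algebra C U] [Algebra L U]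
    [IsScalarTower R C U] [IsScalarTower C L U] {u : AV L} (hu : Triv C u)
    {x y x' y' : L} {a b a' b' : C} {T : (W⁄C).Point}
    {ns : (W⁄U).Nonsingular (algebraMap L U x) (algebraMap L U y)}
    {ns' : (W⁄U).Nonsingular (algebraMap L U x') (algebraMap L U y')}
    {hab : (W⁄U).Nonsingular (algebraMap C U a) (algebraMap C U b)}
    {hab' : (W⁄U).Nonsingular (algebraMap C U a') (algebraMap C U b')}
    (hO : Point.some _ _ hab + Point.baseChange C U T = Point.some _ _ hab')
    (hξ : Point.some _ _ ns + Point.baseChange C U T = Point.some _ _ ns')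
    (h : Cen u x y a b) : Cen u x' y' a' b' := by
  have : IsScalarTower R L U := IsScalarTower.of_algebraMap_eq fun r => by
    rw [IsScalarTower.algebraMap_apply R C L, ← IsScalarTower.algebraMap_apply C L U,
      ← IsScalarTower.algebraMap_apply R C U]
  have e1 : ∀ {s t : L}, (W⁄U).Nonsingular (algebraMap L U s) (algebraMap L U t) →
      (W⁄L).Nonsingular s t := fun {s t} hst =>
    (baseChange_nonsingular (W := W) (f := IsScalarTower.toAlgHom R L U)
      (algebraMap L U).injective s t).1 hst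
  have e2 : ∀ {s t : C}, (W⁄U).Nonsingular (algebraMap C U s) (algebraMap C U t) →
      (W⁄C).Nonsingular s t := fun {s t} hst =>
    (baseChange_nonsingular (W := W) (f := IsScalarTower.toAlgHom R C U)
      (algebraMap C U).injective s t).1 hst
  refine cen_add hu (ns := e1 ns) (ns' := e1 ns') (hab := e2 hab) (hab' := e2 hab') (T := T)
    ?_ ?_ h
  · refine Point.map_injective (W' := W) (Algebra.ofId C U) ?_
    rw [map_add]
    exact hO
  · refine Point.map_injective (W' := W) (IsScalarTower.toAlgHom C L U) ?_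
    rw [map_add, Point.map_baseChange]
    exact hξ

end add

section ord

variable {R C L : Type*} [CommRing R] [Field C] [Field L] [Algebra R C] [Algebra C L] [Algebra R L]
  [IsScalarTower R C L] {W : Affine R} {x y : L}

theorem exists_ord_aux (he : (W⁄L).Equation x y) {a b : C} (hb : b ≠ (W⁄C).negY a b)
    {p q : C[X]} (hf : aeval x p + aeval x q * y ≠ 0) :
    ∃ k : ℤ, ∀ (u : AV L) (m : ℤ), Triv C u → u (x - algebraMap C L a) = m → 0 < m →
      0 < u (y - algebraMap C L b) → u (aeval x p + aeval x q * y) = ((k * m : ℤ) : WithTop ℤ) := by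
  obtain ⟨p', q', hp, hq, hu⟩ := extract_gcd p q
  have hco : IsCoprime p' q' := (gcd_isUnit_iff _ _).1 hu
  set d := gcd p q with hd
  have hf' : aeval x p + aeval x q * y = aeval x d * (aeval x p' + aeval x q' * y) := by
    conv_lhs => rw [hp, hq]
    rw [map_mul, map_mul]; ring
  rw [hf'] at hf ⊢
  have hd0 : d ≠ 0 := fun h0 => hf (by rw [h0, map_zero, zero_mul])
  have hf0 := right_ne_zero_of_mul hf
  by_cases hc : p'.eval a + q'.eval a * b = 0
  · set N : C[X] := p' ^ 2 - p' * q' * (Polynomial.C (W⁄C).a₁ * X + Polynomial.C (W⁄C).a₃) -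
      q' ^ 2 * (X ^ 3 + Polynomial.C (W⁄C).a₂ * X ^ 2 + Polynomial.C (W⁄C).a₄ * X +
        Polynomial.C (W⁄C).a₆) with hN
    have hc' : p'.eval a + q'.eval a * (W⁄C).negY a b ≠ 0 := by
      intro h0
      have h1 : q'.eval a * (b - (W⁄C).negY a b) = 0 := by linear_combination hc - h0
      have h2 : q'.eval a = 0 := (mul_eq_zero.1 h1).resolve_right (sub_ne_zero.2 hb)
      have h3 : p'.eval a = 0 := by rwa [h2, zero_mul, add_zero] at hc
      have h4 := aeval_ne_zero_of_isCoprime hco a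
      rw [coe_aeval_eq_eval] at h4
      exact h4.elim (fun h => h h3) (fun h => h h2)
    have ha : ∀ r : R, algebraMap C L (algebraMap R C r) = algebraMap R L r := fun r =>
      (IsScalarTower.algebraMap_apply R C L r).symm
    have hnorm : aeval x N =
        (aeval x p' + aeval x q' * y) * (aeval x p' + aeval x q' * (W⁄L).negY x y) := by
      rw [equation_iff] at he
      simp only [hN, map_sub, map_mul, map_add, map_pow, aeval_X, aeval_C, negY,
        Affine.baseChange, WeierstrassCurve.baseChange, map_a₁, map_a₂, map_a₃, map_a₄,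
        map_a₆, ha] at he ⊢
      linear_combination (aeval x q') ^ 2 * he
    refine ⟨d.rootMultiplicity a + N.rootMultiplicity a, fun u m hu hx hm hy => ?_⟩
    have hsx : (plc u).Sp x (hu.res a) := hu.sp_iff.2 (by rw [hx]; exact_mod_cast hm)
    have hsy : (plc u).Sp y (hu.res b) := hu.sp_iff.2 hy
    have hsn : (plc u).Sp ((W⁄L).negY x y) (hu.res ((W⁄C).negY a b)) := by
      have h1 := (hsy.neg.sub ((hu.sp (W⁄C).a₁).mul hsx)).sub (hu.sp (W⁄C).a₃)
      simp only [negY, map_sub, map_neg, map_mul]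
      simpa only [Affine.baseChange, WeierstrassCurve.baseChange, map_a₁, map_a₃, ha] using h1
    have h0 : u (aeval x p' + aeval x q' * (W⁄L).negY x y) = 0 := by
      refine hu.val_eq_zero ?_ hc'
      rw [map_add, map_mul]
      exact (hu.sp_aeval hsx p').add ((hu.sp_aeval hsx q').mul hsn)
    have hN0 : N ≠ 0 := by
      intro h1
      rw [h1, map_zero] at hnorm
      have h2 := (mul_eq_zero.1 hnorm.symm).resolve_left hf0
      rw [h2, u.map_zero] at h0
      exact WithTop.top_ne_coe h0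
    have h1 := hu.val_aeval hx hm hN0
    rw [hnorm, u.map_mul, h0, add_zero] at h1
    rw [u.map_mul, h1, hu.val_aeval hx hm hd0, ← WithTop.coe_add, add_mul]
  · refine ⟨d.rootMultiplicity a, fun u m hu hx hm hy => ?_⟩
    have hsx : (plc u).Sp x (hu.res a) := hu.sp_iff.2 (by rw [hx]; exact_mod_cast hm)
    have hsy : (plc u).Sp y (hu.res b) := hu.sp_iff.2 hy
    have h0 : u (aeval x p' + aeval x q' * y) = 0 := by
      refine hu.val_eq_zero ?_ hc
      rw [map_add, map_mul]
      exact (hu.sp_aeval hsx p').add ((hu.sp_aeval hsx q').mul hsy)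
    rw [u.map_mul, h0, add_zero, hu.val_aeval hx hm hd0]

/-- **`x - a` is a uniformiser, and the valuation centred at `(a, b)` is unique** -/
theorem exists_ord (h : IsGen W C x y) {a b : C} (hb : b ≠ (W⁄C).negY a b) {f : L} (hf : f ≠ 0) :
    ∃ k : ℤ, ∀ (u : AV L) (m : ℤ), Triv C u → u (x - algebraMap C L a) = m → 0 < m →
      0 < u (y - algebraMap C L b) → u f = ((k * m : ℤ) : WithTop ℤ) := by
  obtain ⟨p, q, r, hr, rfl⟩ := h.exists_eq_div f
  obtain ⟨k, hk⟩ := exists_ord_aux h.eqn hb (p := p) (q := q) fun h0 => hf (by rw [h0, zero_div])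
  refine ⟨k - r.rootMultiplicity a, fun u m hu hx hm hy => ?_⟩
  rw [div_eq_mul_inv, u.map_mul, hk u m hu hx hm hy, val_inv u (hu.val_aeval hx hm hr),
    ← WithTop.coe_add, sub_mul, sub_eq_add_neg]

theorem sub_ne_zero_of_trans (h : Transcendental C x) (a : C) : x - algebraMap C L a ≠ 0 :=
  fun h0 => h (by rw [sub_eq_zero.1 h0]; exact isAlgebraic_algebraMap a)

end ord

section atPt

variable {R B : Type} [CommRing R] [Field B] [Algebra R ℂ] [Algebra ℂ B] [Algebra R B]
  [IsScalarTower R ℂ B] {W : Affine R} {x y : B}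

theorem atPt_triv {u : AV B} {a b : ℂ} {n₀ : ℕ} (h : AtPt u x y a b n₀) : Triv ℂ u := h.1.1

theorem atPt_cen {u : AV B} {a b : ℂ} {n₀ : ℕ} (h : AtPt u x y a b n₀) (hn : 0 < n₀) :
    Cen u x y a b := ⟨by rw [h.1.2]; exact_mod_cast hn, h.2⟩

/-- every value is a multiple of `n₀` -/
theorem atPt_dvd (h : IsGen W ℂ x y) {a b : ℂ} (hb : b ≠ (W⁄ℂ).negY a b) {u : AV B} {n₀ : ℕ}
    (hn : 0 < n₀) (hu : AtPt u x y a b n₀) (f : B) (k : ℤ) (hk : u f = k) : (n₀ : ℤ) ∣ k := by
  have hf : f ≠ 0 := by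
    rintro rfl
    rw [u.map_zero] at hk
    exact WithTop.top_ne_coe hk
  obtain ⟨j, hj⟩ := exists_ord h hb hf
  have h1 := hj u n₀ hu.1.1 hu.1.2 (by exact_mod_cast hn) hu.2
  rw [hk, WithTop.coe_inj] at h1
  exact ⟨j, by rw [h1, mul_comm]⟩

/-- uniqueness of the valuation at a point -/
theorem atPt_unique (h : IsGen W ℂ x y) {a b : ℂ} (hb : b ≠ (W⁄ℂ).negY a b) {u u' : AV B}
    {n₀ : ℕ} (hn : 0 < n₀) (hu : AtPt u x y a b n₀) (hu' : AtPt u' x y a b n₀) : u = u' := by
  refine AddValuation.ext fun f => ?_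
  by_cases hf : f = 0
  · rw [hf, u.map_zero, u'.map_zero]
  obtain ⟨j, hj⟩ := exists_ord h hb hf
  rw [hj u n₀ hu.1.1 hu.1.2 (by exact_mod_cast hn) hu.2,
    hj u' n₀ hu'.1.1 hu'.1.2 (by exact_mod_cast hn) hu'.2]

/-- a centred valuation is `AtPt` for some `n₀ > 0` -/
theorem exists_atPt_of_cen (ht : Transcendental ℂ x) {a b : ℂ} {u : AV B} (hu : Triv ℂ u)
    (h : Cen u x y a b) : ∃ n₀ : ℕ, 0 < n₀ ∧ AtPt u x y a b n₀ := by
  obtain ⟨m, hm⟩ := exists_int u (sub_ne_zero_of_trans ht a)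
  have h0 : 0 < m := by
    have := h.1
    rw [hm] at this
    exact_mod_cast this
  refine ⟨m.toNat, by omega, ⟨hu, ?_⟩, h.2⟩
  rw [hm, Int.toNat_of_nonneg h0.le]

/-- a centred valuation with a uniformiser has `u (x - a) = 1` -/
theorem atPt_one (h : IsGen W ℂ x y) {a b : ℂ} (hb : b ≠ (W⁄ℂ).negY a b) {u : AV B}
    (hu : Triv ℂ u) (hc : Cen u x y a b) (ht : ∃ t : B, u t = 1) : AtPt u x y a b 1 := by
  obtain ⟨n₀, hn, h1⟩ := exists_atPt_of_cen h.trans hu hc
  obtain ⟨t, ht⟩ := ht
  have h2 := atPt_dvd h hb hn h1 t 1 ht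
  have h3 : n₀ = 1 := by
    have := Int.eq_one_of_dvd_one (by positivity) h2
    exact_mod_cast this
  rwa [h3] at h1

end atPt

section transport

variable {B : Type*} [Field B]

/-- the valuation `u ∘ g⁻¹` -/
def mv {B B' : Type*} [Field B] [Field B'] (g : B ≃+* B') (u : AV B) : AV B' :=
  u.comap (g.symm : B' →+* B)

@[simp] theorem mv_apply {B B' : Type*} [Field B] [Field B'] (g : B ≃+* B') (u : AV B) (f : B') :
    mv g u f = u (g.symm f) := rfl

theorem mv_map {B B' : Type*} [Field B] [Field B'] (g : B ≃+* B') (u : AV B) (f : B) :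
    mv g u (g f) = u f := by rw [mv_apply, RingEquiv.symm_apply_apply]

theorem mv_mv_symm {B B' : Type*} [Field B] [Field B'] (g : B ≃+* B') (u : AV B') :
    mv g (mv g.symm u) = u :=
  AddValuation.ext fun f => by rw [mv_apply, mv_apply, RingEquiv.symm_symm, g.apply_symm_apply]

theorem triv_mv {C : Type*} [Field C] [Algebra C B] {g : B ≃+* B} {τ : C ≃+* C}
    (hg : ∀ c, g (algebraMap C B c) = algebraMap C B (τ c)) {u : AV B} (hu : Triv C u) :
    Triv C (mv g u) := fun c hc => by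
  obtain ⟨c', rfl⟩ := τ.surjective c
  rw [← hg, mv_map]
  exact hu c' fun h => hc (by rw [h, map_zero])

theorem symm_algebraMap {C N N' : Type*} [Field C] [Field N] [Field N'] [Algebra C N]
    [Algebra C N'] {g : N ≃+* N'} {τ : C ≃+* C}
    (hg : ∀ c, g (algebraMap C N c) = algebraMap C N' (τ c)) (c : C) :
    g.symm (algebraMap C N' c) = algebraMap C N (τ.symm c) := by
  rw [RingEquiv.symm_apply_eq, hg, RingEquiv.apply_symm_apply]

theorem cen_mv {C : Type*} [Field C] [Algebra C B] {g : B ≃+* B} {τ : C ≃+* C}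
    (hg : ∀ c, g (algebraMap C B c) = algebraMap C B (τ c)) {u : AV B} {x y : B} {a b : C}
    (h : Cen u x y a b) : Cen (mv g u) (g x) (g y) (τ a) (τ b) := by
  refine ⟨?_, ?_⟩
  · rw [← hg, ← map_sub, mv_map]; exact h.1
  · rw [← hg, ← map_sub, mv_map]; exact h.2

/-- transport of canonical generators along a semilinear isomorphism -/
theorem genOver_transport {N N' : Type*} [Field N] [Field N'] [Algebra B N] [Algebra B N']
    {g : B ≃+* B} {j : N ≃+* N'} (hj : ∀ f, j (algebraMap B N f) = algebraMap B N' (g f))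
    {u : AV B} {ζ : B} {γ : N ≃ₐ[B] N} (h : GenOver u ζ γ) {γ' : N' ≃ₐ[B] N'}
    (hγ : ∀ z, γ' (j z) = j (γ z)) : GenOver (mv g u) (g ζ) γ' := by
  obtain ⟨v, hv, hr⟩ := h
  refine ⟨mv j v, fun f => ?_, fun f k hk => ?_⟩
  · rw [mv_apply, symm_algebraMap hj, hv, mv_apply]
  · obtain ⟨f, rfl⟩ := j.surjective f
    rw [mv_map] at hk
    rw [hγ, ← hj, ← map_zpow₀, ← map_mul, ← map_sub, mv_map]
    exact hr f k hk

end transport

section transportE

variable {B : Type} [Field B] [Algebra ℂ B] {x y : B}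

/-- `Mov g x y a b a' b'` : the automorphism `g` moves valuations centred at `(a, b)` to valuations
centred at `(a', b')` -/
def Mov (g : B ≃+* B) (x y : B) (a b a' b' : ℂ) : Prop :=
  ∀ u : AV B, Triv ℂ u → Cen u x y a b → Cen (mv g u) x y a' b'

variable {R : Type} [CommRing R] [Algebra R ℂ] [Algebra R B] [IsScalarTower R ℂ B] {W : Affine R}

/-- `g ξ = ξ - Q`, `τ O + Q = O'` -/
theorem mov_of_add [W.IsElliptic] {g : B ≃+* B} {τ : ℂ ≃+* ℂ}
    (hg : ∀ c, g (algebraMap ℂ B c) = algebraMap ℂ B (τ c)) {a b a' b' : ℂ} {Q : (W⁄ℂ).Point}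
    {ns : (W⁄B).Nonsingular x y} {ns' : (W⁄B).Nonsingular (g x) (g y)}
    {hab : (W⁄ℂ).Nonsingular (τ a) (τ b)} {hab' : (W⁄ℂ).Nonsingular a' b'}
    (hξ : Point.some _ _ ns' + Point.baseChange ℂ B Q = Point.some _ _ ns)
    (hO : Point.some _ _ hab + Q = Point.some _ _ hab') : Mov g x y a b a' b' :=
  fun _ hu h => cen_add (triv_mv hg hu) hO hξ (cen_mv hg h)

/-- the same with the equations of points in a bigger field -/
theorem mov_of_add' [W.IsElliptic] {U : Type*} [Field U] [Algebra R U] [Algebra ℂ U] [Algebra B U]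
    [IsScalarTower R ℂ U] [IsScalarTower ℂ B U] {g : B ≃+* B} {τ : ℂ ≃+* ℂ}
    (hg : ∀ c, g (algebraMap ℂ B c) = algebraMap ℂ B (τ c)) {a b a' b' : ℂ} {Q : (W⁄ℂ).Point}
    {ns : (W⁄U).Nonsingular (algebraMap B U x) (algebraMap B U y)}
    {ns' : (W⁄U).Nonsingular (algebraMap B U (g x)) (algebraMap B U (g y))}
    {hab : (W⁄U).Nonsingular (algebraMap ℂ U (τ a)) (algebraMap ℂ U (τ b))}
    {hab' : (W⁄U).Nonsingular (algebraMap ℂ U a') (algebraMap ℂ U b')}
    (hξ : Point.some _ _ ns' + Point.baseChange ℂ U Q = Point.some _ _ ns)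
    (hO : Point.some _ _ hab + Point.baseChange ℂ U Q = Point.some _ _ hab') :
    Mov g x y a b a' b' :=
  fun _ hu h => cen_add' (triv_mv hg hu) hO hξ (cen_mv hg h)

/-- transport of `AtPt` -/
theorem atPt_transport (h : IsGen W ℂ x y) {g : B ≃+* B} {τ : ℂ ≃+* ℂ}
    (hg : ∀ c, g (algebraMap ℂ B c) = algebraMap ℂ B (τ c)) {a b a' b' : ℂ}
    (hm : Mov g x y a b a' b') (hb : b ≠ (W⁄ℂ).negY a b) (hb' : b' ≠ (W⁄ℂ).negY a' b')
    {u : AV B} {n₀ : ℕ} (hn : 0 < n₀) (hu : AtPt u x y a b n₀) : AtPt (mv g u) x y a' b' n₀ := by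
  obtain ⟨m, hm0, h1⟩ := exists_atPt_of_cen h.trans (triv_mv hg (atPt_triv hu))
    (hm u (atPt_triv hu) (atPt_cen hu hn))
  have h2 : (m : ℤ) ∣ n₀ := atPt_dvd h hb' hm0 h1 (g (x - algebraMap ℂ B a)) n₀
    (by rw [mv_map]; exact hu.1.2)
  have h3 : (n₀ : ℤ) ∣ m := atPt_dvd h hb hn hu (g.symm (x - algebraMap ℂ B a')) m h1.1.2
  have h4 : m = n₀ := Nat.dvd_antisymm (by exact_mod_cast h2) (by exact_mod_cast h3)
  rwa [h4] at h1

/-- transport of `UnrE` -/
theorem unrE_transport {N N' : Type} [Field N] [Field N'] [Algebra B N] [Algebra B N']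
    {g : B ≃+* B} {τ : ℂ ≃+* ℂ} (hg : ∀ c, g (algebraMap ℂ B c) = algebraMap ℂ B (τ c))
    {j : N ≃+* N'} (hj : ∀ f, j (algebraMap B N f) = algebraMap B N' (g f))
    {n n' : ℕ} {a b : Fin n → ℂ} {a' b' : Fin n' → ℂ}
    (hm : ∀ i, ∃ i', Mov g x y (a i) (b i) (a' i') (b' i')) (h : UnrE N x y a b) :
    UnrE N' x y a' b' := by
  intro u' hu' ⟨t, ht⟩ hc
  have hu : Triv ℂ (mv g.symm u') := triv_mv (symm_algebraMap hg) hu'
  obtain ⟨v, hv⟩ := h (mv g.symm u') hu ⟨g.symm t, by rw [mv_map]; exact ht⟩ fun i hi => by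
    obtain ⟨i', hi'⟩ := hm i
    have h1 := hi' _ hu hi
    rw [mv_mv_symm] at h1
    exact hc i' h1
  refine ⟨mv j v, fun f => ?_⟩
  rw [mv_apply, symm_algebraMap hj, hv, mv_map]

/-- conjugation by a semilinear automorphism permutes the classes of the canonical generators -/
theorem isConj_transport (h : IsGen W ℂ x y) {N N' : Type*} [Field N] [Field N'] [Algebra B N]
    [Algebra B N'] [FiniteDimensional B N'] [IsGalois B N'] {g : B ≃+* B} {τ : ℂ ≃+* ℂ}
    (hg : ∀ c, g (algebraMap ℂ B c) = algebraMap ℂ B (τ c))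
    {j : N ≃+* N'} (hj : ∀ f, j (algebraMap B N f) = algebraMap B N' (g f)) {a b a' b' : ℂ}
    (hm : Mov g x y a b a' b') (hb : b ≠ (W⁄ℂ).negY a b) (hb' : b' ≠ (W⁄ℂ).negY a' b')
    {n₀ : ℕ} (hn : 0 < n₀) {ζ : ℂ} (hζ : ζ ≠ 0) (hτ : τ ζ = ζ) {γ : N ≃ₐ[B] N}
    {γ' γ'' : N' ≃ₐ[B] N'} (hγ : ∀ z, γ' (j z) = j (γ z))
    (h1 : ∃ u : AV B, AtPt u x y a b n₀ ∧ GenOver u (algebraMap ℂ B ζ) γ)
    (h2 : ∃ u : AV B, AtPt u x y a' b' n₀ ∧ GenOver u (algebraMap ℂ B ζ) γ'') :
    IsConj γ' γ'' := by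
  obtain ⟨u, hu, h1⟩ := h1
  obtain ⟨u', hu', h2⟩ := h2
  have h3 := genOver_transport hj h1 hγ
  rw [hg, hτ, atPt_unique h hb' hn (atPt_transport h hg hm hb hb' hn hu) hu'] at h3
  exact Ret.uniq' hu'.1.nat (hu'.1.1 ζ hζ)
    ⟨_, hu'.1.ne_zero, (atPt_cen hu' hn).1⟩ h3 h2

end transportE

end Crest.Agent.T170.Pl
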