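import Crest.Agent.R170.J1_482
import Crest.Agent.R170.C_176

/-!
# Row 170 (T170), module A part 1 (helper9): the section sum of a central element

`rp q f` has coefficient `f (g ^ q)` at `g`. For `q = p ^ t` a good exponent (`g ^ q` is the
`p'`-part of `g`) it kills the radical, and its trace on the centre is `f0 e'` whenever
`f - e'` is nilpotent, `e'` a central idempotent.
-/

set_option autoImplicit false
open scoped BigOperators

namespace Crest.Agent.T170.Plumb

open Crest.Agent.R170 Crest.Agent.R170.J482 Crest.AlgebraR.Weights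

/-- `g ↦ g ^ p ^ t` is the `p'`-part -/
def Good (p t : ℕ) (H : Type*) [Group H] : Prop :=
  0 < t ∧ ∀ g : H, (orderOf (g ^ p ^ t)).Coprime p ∧ ((orderOf g).Coprime p → g ^ p ^ t = g)

theorem exists_good (p : ℕ) [hp : Fact p.Prime] (H : Type*) [Group H] [Finite H] :
    ∃ t, Good p t H := by
  have hN : Nat.card H ≠ 0 := Nat.card_pos.ne'
  obtain ⟨v, m, hm, hvm⟩ := Nat.exists_eq_pow_mul_and_not_dvd hN p hp.out.ne_one
  have hm0 : m ≠ 0 := by rintro rfl; exact hm (dvd_zero p)
  have hcop : Nat.Coprime p m := (Nat.Prime.coprime_iff_not_dvd hp.out).2 hm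
  have hφ : 0 < Nat.totient m := Nat.totient_pos.2 (Nat.pos_of_ne_zero hm0)
  refine ⟨Nat.totient m * (v + 1), Nat.mul_pos hφ (Nat.succ_pos v), fun g => ⟨?_, fun hg => ?_⟩⟩
  · have h1 : (g ^ p ^ (Nat.totient m * (v + 1))) ^ m = 1 := by
      rw [← pow_mul, ← orderOf_dvd_iff_pow_eq_one]
      refine (orderOf_dvd_natCard g).trans ?_
      rw [hvm]
      refine Nat.mul_dvd_mul_right (pow_dvd_pow p ?_) m
      nlinarith
    exact Nat.Coprime.coprime_dvd_left (orderOf_dvd_of_pow_eq_one h1) hcop.symm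
  · have h1 : orderOf g ∣ m := by
      have h2 : orderOf g ∣ p ^ v * m := hvm ▸ orderOf_dvd_natCard g
      exact (Nat.Coprime.pow_right v hg).dvd_of_dvd_mul_left h2
    have h3 : p ^ (Nat.totient m * (v + 1)) ≡ 1 [MOD m] := by
      rw [pow_mul]
      have := (Nat.ModEq.pow_totient hcop).pow (v + 1)
      rwa [one_pow] at this
    have h4 : g ^ p ^ (Nat.totient m * (v + 1)) = g ^ 1 :=
      pow_eq_pow_iff_modEq.2 (h3.of_dvd h1)
    rw [h4, pow_one]

theorem Good.sub {p t : ℕ} {G : Type*} [Group G] (h : Good p t G) (S : Subgroup G) :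
    Good p t S := by
  refine ⟨h.1, fun g => ⟨?_, fun hg => ?_⟩⟩
  · rw [← Subgroup.orderOf_coe]
    exact (h.2 (g : G)).1
  · apply Subtype.ext
    rw [← Subgroup.orderOf_coe] at hg
    exact (h.2 (g : G)).2 hg

theorem Good.pow_mul {p t : ℕ} {G : Type*} [Group G] (h : Good p t G) (g : G) (j : ℕ) :
    g ^ p ^ (t * (j + 1)) = g ^ p ^ t := by
  induction j with
  | zero => simp
  | succ j ih =>
    rw [Nat.mul_succ, pow_add, _root_.pow_mul, ih]
    exact (h.2 _).2 (h.2 g).1

section GA
variable {k H : Type*} [Field k] [Group H] [Fintype H]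

/-- coefficient `f (g ^ q)` at `g` -/
noncomputable def rp (q : ℕ) (f : MonoidAlgebra k H) : MonoidAlgebra k H :=
  C176.ofFun fun g => f.coeff (g ^ q)

theorem rp_coeff (q : ℕ) (f : MonoidAlgebra k H) (g : H) : (rp q f).coeff g = f.coeff (g ^ q) :=
  rfl

omit [Fintype H] in
theorem central_iff {z : MonoidAlgebra k H} :
    (∀ x, z * x = x * z) ↔ ∀ g h : H, z.coeff (h * g * h⁻¹) = z.coeff g := by
  rw [← C176.mem_center_iff, Subalgebra.mem_center_iff]
  exact ⟨fun h x => (h x).symm, fun h x => (h x).symm⟩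

theorem rp_central (q : ℕ) {f : MonoidAlgebra k H} (hf : ∀ x, f * x = x * f)
    (x : MonoidAlgebra k H) : rp q f * x = x * rp q f := by
  refine central_iff.2 (fun g h => ?_) x
  rw [rp_coeff, rp_coeff, conj_pow, central_iff.1 hf]

theorem tr1_mul (z x : MonoidAlgebra k H) :
    tr1 (z * x) = ∑ g, z.coeff g⁻¹ * x.coeff g := by
  rw [tr1_comm, tr1_apply, coeff_mul_fin]
  refine Finset.sum_congr rfl fun g _ => ?_
  rw [mul_one, mul_comm]

/-- the trace form of a central element on `p ^ n`-th powers -/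
theorem tr1_mul_pow (p : ℕ) [Fact p.Prime] [CharP k p] (n : ℕ) {z : MonoidAlgebra k H}
    (hz : ∀ x, z * x = x * z) (x : MonoidAlgebra k H) :
    tr1 (z * x ^ p ^ n) = ∑ g, z.coeff (g ^ p ^ n)⁻¹ * x.coeff g ^ p ^ n := by
  classical
  let lam : MonoidAlgebra k H →+ k :=
    (tr1 (k := k) (G := H)).toAddMonoidHom.comp (AddMonoidHom.mulLeft z)
  have hlam : ∀ a, lam a = tr1 (z * a) := fun a => rfl
  have h := trace_pow (A := MonoidAlgebra k H) (R := k) p n lam
    (fun a b => by
      rw [hlam, hlam, ← mul_assoc, tr1_comm (z * a) b, ← mul_assoc, ← hz b, mul_assoc])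
    (fun g : H => MonoidAlgebra.single g (x.coeff g))
  rw [← eq_sum_single, hlam] at h
  rw [h]
  refine Finset.sum_congr rfl fun g _ => ?_
  rw [hlam, MonoidAlgebra.single_pow, tr1_apply, MonoidAlgebra.coeff_mul_single_apply, one_mul]

theorem tr1_rp_nilpotent (p : ℕ) [hp : Fact p.Prime] [CharP k p] {t : ℕ} (ht : Good p t H)
    {f : MonoidAlgebra k H} (hf : ∀ x, f * x = x * f) (x : MonoidAlgebra k H)
    (hx : IsNilpotent x) : tr1 (rp (p ^ t) f * x) = 0 := by
  obtain ⟨m, hm⟩ := hx
  set n := t * (m + 1) with hn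
  have h2 : x ^ p ^ n = 0 := by
    refine pow_eq_zero_of_le ?_ hm
    have h3 : n < p ^ n := Nat.lt_pow_self hp.out.one_lt
    have h4 : m + 1 ≤ n := Nat.le_mul_of_pos_left _ ht.1
    omega
  let F : MonoidAlgebra k H := C176.ofFun fun g => f.coeff g ^ p ^ n
  have hF : ∀ y, F * y = y * F := central_iff.2 fun g h => by
    show f.coeff (h * g * h⁻¹) ^ p ^ n = f.coeff g ^ p ^ n
    rw [central_iff.1 hf]
  have h5 := tr1_mul_pow p n hF x
  rw [h2, mul_zero, map_zero] at h5
  have h6 : tr1 (rp (p ^ t) f * x) ^ p ^ n = 0 := by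
    rw [tr1_mul, sum_pow_char_pow, h5]
    refine Finset.sum_congr rfl fun g _ => ?_
    rw [mul_pow, rp_coeff, hn, ht.pow_mul g m, inv_pow]
    rfl
  exact pow_eq_zero_iff (pow_pos hp.out.pos n).ne' |>.1 h6

theorem rp_mul_rad (p : ℕ) [Fact p.Prime] [CharP k p] {t : ℕ} (ht : Good p t H)
    {f : MonoidAlgebra k H} (hf : ∀ x, f * x = x * f) (x : MonoidAlgebra k H)
    (hx : x ∈ Ring.jacobson (MonoidAlgebra k H)) : rp (p ^ t) f * x = 0 := by
  haveI : IsArtinianRing (MonoidAlgebra k H) := IsArtinianRing.of_finite k _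
  apply eq_zero_of_tr1
  intro z
  rw [mul_assoc]
  apply tr1_rp_nilpotent p ht hf
  apply isNilpotent_of_mem_jacobson
  exact Ideal.mul_mem_right _ _ hx

/-- a central element without `p`-regular coefficients is orthogonal to the idempotents -/
theorem tr1_sing_idem (p : ℕ) [hp : Fact p.Prime] [CharP k p] {z : MonoidAlgebra k H}
    (hz : ∀ x, z * x = x * z) (hs : ∀ g : H, (orderOf g).Coprime p → z.coeff g = 0)
    (i : MonoidAlgebra k H) (hi : i * i = i) : tr1 (z * i) = 0 := by
  obtain ⟨t, ht⟩ := exists_good p H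
  have h1 : i ^ p ^ t = i := IsIdempotentElem.pow_eq hi (pow_pos hp.out.pos t).ne'
  rw [← h1, tr1_mul_pow p t hz]
  refine Finset.sum_eq_zero fun g _ => ?_
  rw [hs _ (by rw [orderOf_inv]; exact (ht.2 g).1), zero_mul]

variable (D : SplitData k (MonoidAlgebra k H))

/-- the idempotent of a projective simple module -/
theorem exists_iota (i : Fin D.n)
    (hP : Module.Projective (MonoidAlgebra k H) (MonoidAlgebra k H ⧸ D.L i)) :
    ∃ ι : MonoidAlgebra k H, ι * ι = ι ∧ tr1 ι ≠ 0 ∧
      ∀ z : MonoidAlgebra k H, (∀ x, z * x = x * z) → z * ι = D.om i z • ι := by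
  obtain ⟨f, hf⟩ := Module.projective_lifting_property (D.L i).mkQ LinearMap.id
    (Submodule.mkQ_surjective _)
  set ι : MonoidAlgebra k H := f ((D.L i).mkQ 1) with hι
  have hfa : ∀ a : MonoidAlgebra k H, f ((D.L i).mkQ a) = a * ι := by
    intro a
    have : (D.L i).mkQ a = a • (D.L i).mkQ 1 := by
      rw [← map_smul, smul_eq_mul, mul_one]
    rw [this, map_smul, smul_eq_mul]
  have hmk : (D.L i).mkQ ι = (D.L i).mkQ 1 := by
    have := LinearMap.congr_fun hf ((D.L i).mkQ 1)
    exact this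
  have hidem : ι * ι = ι := by
    rw [← hfa, hmk]
  have hker : ∀ a ∈ D.L i, a * ι = 0 := by
    intro a ha
    rw [← hfa, Submodule.mkQ_apply, (Submodule.Quotient.mk_eq_zero _).2 ha, map_zero]
  have hrow : ∀ s t : Fin (D.d i), s ≠ 0 → D.π ι i s t = 0 := by
    intro s t hs
    obtain ⟨a, ha⟩ := D.surj (Pi.single i (Matrix.single s s 1))
    have h1 : a ∈ D.L i := by
      intro r
      rw [ha, Pi.single_eq_same, Matrix.single_apply_of_col_ne _ _ hs]
    have h2 := congrArg (fun y => D.π y i s t) (hker a h1)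
    simp only [map_mul, Pi.mul_apply, ha, Pi.single_eq_same, Matrix.single_mul_apply_same,
      one_mul, map_zero, Pi.zero_apply, Matrix.zero_apply] at h2
    exact h2
  have hc : ∀ x, ι * x * ι = D.om i (ι * x) • ι := by
    intro x
    have h1 : ι * x - algebraMap k _ (D.om i (ι * x)) ∈ D.L i := by
      intro r
      rw [map_sub, AlgHom.commutes, Pi.sub_apply, Pi.algebraMap_apply, Matrix.sub_apply,
        Matrix.algebraMap_matrix_apply]
      by_cases hr : r = 0
      · subst hr
        rw [if_pos rfl]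
        exact sub_self _
      · rw [if_neg hr, sub_zero, map_mul, Pi.mul_apply, Matrix.mul_apply]
        exact Finset.sum_eq_zero fun t _ => by rw [hrow r t hr, zero_mul]
    have h2 := hker _ h1
    rw [sub_mul, sub_eq_zero, Algebra.algebraMap_eq_smul_one, smul_mul_assoc, one_mul] at h2
    exact h2
  have hne : tr1 ι ≠ 0 := by
    intro h0
    have h1 : ι = 0 := by
      apply eq_zero_of_tr1
      intro x
      have : tr1 (ι * x) = tr1 (ι * x * ι) := by
        rw [tr1_comm (ι * x) ι, ← mul_assoc, hidem]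
      rw [this, hc, map_smul, h0, smul_zero]
    rw [h1, map_zero] at hmk
    have h2 := hmk.symm
    rw [Submodule.mkQ_apply, Submodule.Quotient.mk_eq_zero] at h2
    have := h2 0
    simp at this
  refine ⟨ι, hidem, hne, fun z hz => ?_⟩
  have h1 := D.central_smul hz i ((D.L i).mkQ 1)
  have h2 := congrArg f h1
  rw [map_smul, map_smul, smul_eq_mul, smul_eq_mul, ← hι, Algebra.algebraMap_eq_smul_one,
    smul_mul_assoc, one_mul] at h2
  exact h2

theorem om_sing (p : ℕ) [Fact p.Prime] [CharP k p] (i : Fin D.n)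
    (hP : Module.Projective (MonoidAlgebra k H) (MonoidAlgebra k H ⧸ D.L i))
    {z : MonoidAlgebra k H} (hz : ∀ x, z * x = x * z)
    (hs : ∀ g : H, (orderOf g).Coprime p → z.coeff g = 0) : D.om i z = 0 := by
  obtain ⟨ι, h1, h2, h3⟩ := exists_iota D i hP
  have h4 := tr1_sing_idem p hz hs ι h1
  rw [h3 z hz, map_smul, smul_eq_mul] at h4
  exact (mul_eq_zero.1 h4).resolve_right h2

theorem om_nilpotent (i : Fin D.n) {z : MonoidAlgebra k H} (hz : ∀ x, z * x = x * z)
    (hn : IsNilpotent z) : D.om i z = 0 := by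
  obtain ⟨m, hm⟩ := hn
  have h : ∀ j : ℕ, D.om i (z ^ j) = D.om i z ^ j := by
    intro j
    induction j with
    | zero => rw [pow_zero, pow_zero, D.om_one]
    | succ j ih => rw [pow_succ', D.om_mul_central hz, ih, pow_succ']
  have h2 := h m
  rw [hm, map_zero] at h2
  exact pow_eq_zero_iff' .. |>.1 h2.symm |>.1

end GA

/-- **the trace of the section sum** -/
theorem trZ_rp {k H : Type} [Field k] [IsAlgClosed k] [Group H] [Fintype H] (p : ℕ)
    [Fact p.Prime] [CharP k p] {t : ℕ} (ht : Good p t H) {f e' : MonoidAlgebra k H}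
    (hf : ∀ x, f * x = x * f) (he' : CI e') (hn : IsNilpotent (f - e'))
    (w : Subalgebra.center k (MonoidAlgebra k H)) (hw : (w : MonoidAlgebra k H) = rp (p ^ t) f) :
    trZ w = (f0 e' : k) := by
  classical
  obtain ⟨D⟩ := exists_splitData k (MonoidAlgebra k H)
  have hj := rp_central (p ^ t) hf
  have hjr : ∀ x, D.π x = 0 → rp (p ^ t) f * x = 0 := fun x hx =>
    rp_mul_rad p ht hf x ((D.ker_rad x).1 hx)
  unfold trZ
  rw [D.trace_mul hj hjr 1 w (by rw [hw]; simp), f0_eq D p e' he',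
    Nat.card_eq_fintype_card, Fintype.card_subtype, Finset.card_eq_sum_ones, Nat.cast_sum,
    Finset.sum_filter]
  refine Finset.sum_congr rfl fun i _ => ?_
  have h1 : D.om i ((1 : Subalgebra.center k (MonoidAlgebra k H)) : MonoidAlgebra k H) = 1 :=
    D.om_one i
  rw [h1, one_mul]
  have hfe : D.om i f = D.om i e' := by
    have := om_nilpotent D i (z := f - e')
      (fun x => by rw [sub_mul, mul_sub, hf, he'.1]) hn
    rwa [map_sub, sub_eq_zero] at this
  rcases om_J_cases D p i with ⟨hP, h2⟩ | ⟨hP, h2⟩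
  · have h3 := om_sing D p i hP (z := rp (p ^ t) f - f)
      (fun x => by rw [sub_mul, mul_sub, hf, hj]) (fun g hg => by
        show (rp (p ^ t) f).coeff g - f.coeff g = 0
        rw [rp_coeff, (ht.2 g).2 hg, sub_self])
    rw [map_sub, sub_eq_zero, hfe] at h3
    rw [h3]
    rcases om_idem D he' i with h4 | h4 <;> simp [h2, h4]
  · have h3 : D.om i (rp (p ^ t) f) = 0 := by
      by_contra h
      exact hP (D.projective_of_om_ne_zero hj hjr i h)
    rw [h3]
    simp [h2]

end Crest.Agent.T170.Plumb
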