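import Crest.Agent.R170.STP_312
import Crest.Agent.T170.CntDef_9

/-!
# Row 170 (T170), module A part 2 (helper9): from `CNT p` to the one-puncture congruence

`one_of_cnt` : for a `p`-singular class `C`, `∑_{σ/G} ± #{[x,y] ∈ C ∩ G_σ} / |G_σ| = 0` in `k`.
-/

set_option autoImplicit false
set_option linter.style.haveILetI false
open scoped BigOperators

namespace Crest.Agent.T170.Plumb

open Crest.Agent.R170 Crest.Agent.R170.STP312 Crest.Agent.T170.Smith13

section tr
variable {k H : Type} [Field k] [Group H] [Finite H]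

theorem finite_center : Module.Finite k (Subalgebra.center k (MonoidAlgebra k H)) :=
  Module.Finite.of_injective (Subalgebra.center k (MonoidAlgebra k H)).val.toLinearMap
    Subtype.val_injective

/-- the trace on the centre commutes with the Frobenius -/
theorem trZ_pow [IsAlgClosed k] (p : ℕ) [hp : Fact p.Prime] [CharP k p]
    (z : Subalgebra.center k (MonoidAlgebra k H)) (a : ℕ) : trZ (z ^ p ^ a) = trZ z ^ p ^ a := by
  haveI := finite_center (k := k) (H := H)
  have h : ∀ y : Subalgebra.center k (MonoidAlgebra k H), trZ y =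
      LinearMap.trace k _ (Algebra.lmul k (Subalgebra.center k (MonoidAlgebra k H)) y) :=
    fun _ => rfl
  rw [h, h, T312.trace_eq, T312.trace_eq, sum_pow_char_pow]
  refine Finset.sum_congr rfl fun χ _ => ?_
  rw [mul_pow, map_pow]
  congr 1
  have := map_natCast (iterateFrobenius k p a)
    (Module.finrank k (LinearMap.range (Algebra.lmul k _ (T312.idem χ))))
  rw [iterateFrobenius_def] at this
  exact this.symm

/-- number of factorisations of `g` into `n` members of `K` -/
noncomputable def Nf (K : H → Prop) (n : ℕ) (g : H) : ℕ :=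
  Nat.card {u : Fin n → H // (List.ofFn u).prod = g ∧ ∀ i, K (u i)}

omit [Finite H] in
theorem prod_map {B : Type} [Group B] (φ : H ≃* B) {n : ℕ} (u : Fin n → H) :
    (List.ofFn fun i => φ (u i)).prod = φ (List.ofFn u).prod := by
  rw [map_list_prod, List.map_ofFn]
  rfl

omit [Finite H] in
theorem Nf_congr {B : Type} [Group B] (φ : H ≃* B) (K : H → Prop) (K' : B → Prop)
    (h : ∀ a, K' (φ a) ↔ K a) (n : ℕ) (g : H) : Nf K n g = Nf K' n (φ g) := by
  refine Nat.card_congr ((Equiv.piCongrRight fun _ : Fin n => φ.toEquiv).subtypeEquiv ?_)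
  intro u
  show _ ↔ (List.ofFn fun i => φ (u i)).prod = φ g ∧ ∀ i, K' (φ (u i))
  rw [prod_map, φ.injective.eq_iff]
  exact and_congr Iff.rfl (forall_congr' fun i => (h _).symm)

omit [Finite H] in
theorem tup_congr {B : Type} [Group B] (φ : H ≃* B) (K : H → Prop) (K' : B → Prop)
    (h : ∀ a, K' (φ a) ↔ K a) (n : ℕ) :
    Nat.card (Tup H fun (_ : Fin n) => K) = Nat.card (Tup B fun (_ : Fin n) => K') := by
  refine Nat.card_congr ((φ.toEquiv.prodCongr (φ.toEquiv.prodCongr
    (Equiv.piCongrRight fun _ : Fin n => φ.toEquiv))).subtypeEquiv ?_)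
  rintro ⟨x, y, u⟩
  show _ ↔ φ x * φ y * (φ x)⁻¹ * (φ y)⁻¹ = (List.ofFn fun i => φ (u i)).prod ∧ ∀ i, K' (φ (u i))
  rw [prod_map, ← map_inv, ← map_inv, ← map_mul, ← map_mul, ← map_mul, φ.injective.eq_iff]
  exact and_congr Iff.rfl (forall_congr' fun i => (h _).symm)

omit [Finite H] in
theorem Nf_out (K : H → Prop) (hK : ∀ g h, K g → K (h * g * h⁻¹)) (n : ℕ) (g : H) :
    Nf K n (ConjClasses.mk g).out = Nf K n g := by
  have : IsConj g (ConjClasses.mk g).out := by
    rw [← ConjClasses.mk_eq_mk_iff_isConj]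
    exact (Quotient.out_eq _).symm
  obtain ⟨c, hc⟩ := isConj_iff.1 this
  rw [← hc]
  refine (Nf_congr (MulAut.conj c) K K (fun a => ⟨fun h => ?_, fun h => hK a c h⟩) n g).symm
  have h1 := hK _ c⁻¹ h
  have e : c⁻¹ * MulAut.conj c a * c⁻¹⁻¹ = a := by
    rw [MulAut.conj_apply]
    group
  rwa [e] at h1

omit [Finite H] in
theorem prod_single {n : ℕ} (u : Fin n → H) (c : Fin n → k) :
    (List.ofFn fun j => MonoidAlgebra.single (u j) (c j)).prod =
      MonoidAlgebra.single (List.ofFn u).prod (∏ j, c j) := by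
  induction n with
  | zero => simp [MonoidAlgebra.one_def]
  | succ n ih =>
    rw [List.ofFn_succ, List.ofFn_succ, List.prod_cons, List.prod_cons, Fin.prod_univ_succ,
      ih (fun j => u j.succ) (fun j => c j.succ), MonoidAlgebra.single_mul_single]

/-- coefficients of a power of a set sum -/
theorem coeff_setSum_pow (K : H → Prop) (hK : ∀ g h : H, g ∈ {x | K x} → h * g * h⁻¹ ∈ {x | K x})
    (n : ℕ) (g : H) :
    ((C176.setSum (k := k) {x | K x} hK ^ n : Subalgebra.center k (MonoidAlgebra k H)) :
      MonoidAlgebra k H).coeff g = (Nf K n g : k) := by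
  classical
  haveI := Fintype.ofFinite H
  rw [SubmonoidClass.coe_pow, J482.eq_sum_single
    ((C176.setSum (k := k) {x | K x} hK : Subalgebra.center k (MonoidAlgebra k H)) :
      MonoidAlgebra k H), J482.sum_pow_words, MonoidAlgebra.coeff_sum, Finset.sum_apply', Nf,
    Nat.card_eq_fintype_card, Fintype.card_subtype, Finset.card_filter, Nat.cast_sum]
  refine Finset.sum_congr rfl fun u _ => ?_
  rw [prod_single, MonoidAlgebra.coeff_single, Finsupp.single_apply]
  have hc : ∀ h : H, ((C176.setSum (k := k) {x | K x} hK :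
      Subalgebra.center k (MonoidAlgebra k H)) : MonoidAlgebra k H).coeff h =
      if K h then 1 else 0 := by
    intro h
    show ({x | K x} : Set H).indicator (fun _ => (1 : k)) h = _
    rw [Set.indicator_apply]
    rfl
  simp only [hc]
  rw [Finset.prod_boole]
  by_cases h1 : (List.ofFn u).prod = g <;> by_cases h2 : ∀ i, K (u i) <;> simp [h1, h2]

/-- the count of tuples divided by `|H|` is the trace of the power of the set sum -/
theorem tup_trace (K : H → Prop) (hK : ∀ g h : H, g ∈ {x | K x} → h * g * h⁻¹ ∈ {x | K x})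
    (n : ℕ) : ∃ r : ℕ, Nat.card (Tup H fun (_ : Fin n) => K) = Nat.card H * r ∧
      trZ (C176.setSum (k := k) {x | K x} hK ^ n) = (r : k) := by
  classical
  haveI := Fintype.ofFinite H
  haveI : Fintype (ConjClasses H) := Fintype.ofFinite _
  refine ⟨∑ D : ConjClasses H, Nf K n D.out * R (ConjClasses.mk : H → ConjClasses H) D, ?_, ?_⟩
  · have h1 : ∀ D : ConjClasses H, cnt (ConjClasses.mk : H → ConjClasses H) D =
        ∑ q : H × H, if ConjClasses.mk (q.1 * q.2 * q.1⁻¹ * q.2⁻¹) = D then 1 else 0 := by
      intro D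
      rw [cnt, Nat.card_eq_fintype_card, Fintype.card_subtype, Finset.card_filter]
    calc Nat.card (Tup H fun (_ : Fin n) => K)
        = ∑ q : H × H, Nf K n (q.1 * q.2 * q.1⁻¹ * q.2⁻¹) := by
          unfold Tup
          rw [Nat.card_eq_fintype_card, Fintype.card_subtype, Finset.card_filter,
            Fintype.sum_prod_type, Fintype.sum_prod_type]
          refine Finset.sum_congr rfl fun x _ => ?_
          rw [Fintype.sum_prod_type]
          refine Finset.sum_congr rfl fun y _ => ?_
          rw [Nf, Nat.card_eq_fintype_card, Fintype.card_subtype, Finset.card_filter]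
          refine Finset.sum_congr rfl fun u _ => ?_
          exact if_congr (and_congr_left fun _ => eq_comm) rfl rfl
      _ = ∑ D : ConjClasses H, Nf K n D.out * cnt (ConjClasses.mk : H → ConjClasses H) D := by
          simp_rw [h1, Finset.mul_sum]
          rw [Finset.sum_comm]
          refine Finset.sum_congr rfl fun q _ => ?_
          rw [Finset.sum_eq_single (ConjClasses.mk (q.1 * q.2 * q.1⁻¹ * q.2⁻¹)), if_pos rfl,
            mul_one, Nf_out K hK]
          · intro D _ hne
            rw [if_neg (Ne.symm hne), mul_zero]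
          · intro h
            exact absurd (Finset.mem_univ _) h
      _ = _ := by
          rw [Finset.mul_sum]
          refine Finset.sum_congr rfl fun D _ => ?_
          rw [cnt_eq (fun g h => mk_conj g h) D]
          ring
  · rw [trZ_eq (π := (ConjClasses.mk : H → ConjClasses H)) (fun g h => mk_conj g h)
      (fun D : ConjClasses H => (Nf K n D.out : k)) _ (fun g => by
        rw [coeff_setSum_pow, Nf_out K hK])]
    push_cast
    rfl

end tr

section chains
variable {p : ℕ} [hp : Fact p.Prime] {G : Type} [Group G] [Finite G]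

theorem altSumK_pow {k : Type} [Field k] [CharP k p] (f : Ch p G → k) (a : ℕ) :
    altSumK (fun σ => f σ ^ p ^ a) = altSumK f ^ p ^ a := by
  classical
  unfold altSumK
  haveI : Finite (Ch p G) := by unfold Ch; infer_instance
  haveI : Fintype (Quot (chRel (p := p) (G := G))) := Fintype.ofFinite _
  rw [finsum_eq_sum_of_fintype, finsum_eq_sum_of_fintype, sum_pow_char_pow]
  refine Finset.sum_congr rfl fun q _ => ?_
  rw [mul_pow]
  congr 1
  have := map_intCast (iterateFrobenius k p a) (sgn q.out)
  rw [iterateFrobenius_def] at this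
  exact this.symm

/-- **the one-puncture congruence** -/
theorem one_of_cnt (h : CNT p) (k : Type) [Field k] [IsAlgClosed k] [CharP k p]
    (C : ConjClasses G) (hC : p ∣ orderOf C.out) :
    altSumK (fun σ : Ch p G => (R (cl (st σ)) C : k)) = 0 := by
  obtain ⟨a, ha⟩ := (cnt_iff p).1 h G C.out hC
  have hout : ConjClasses.mk C.out = C := Quotient.out_eq C
  have hiff : ∀ (S : Subgroup G) (x : S), IsConj (x : G) C.out ↔ cl S x = C := by
    intro S x
    rw [cl, ← ConjClasses.mk_eq_mk_iff_isConj, hout]
  have hK : ∀ (S : Subgroup G) (g x : S), g ∈ {x : S | IsConj (x : G) C.out} →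
      x * g * x⁻¹ ∈ {x : S | IsConj (x : G) C.out} := by
    intro S g x hg
    show IsConj ((x * g * x⁻¹ : S) : G) C.out
    rw [hiff, cl_conj, ← hiff]
    exact hg
  choose r hr1 hr2 using fun σ : Ch p G =>
    tup_trace (k := k) (fun x : st σ => IsConj (x : G) C.out) (hK (st σ)) (p ^ a)
  have hinv : ∀ σ τ : Ch p G, chRel σ τ → (r σ : ℤ) = r τ := by
    intro σ τ hst
    have h1 := ORB700.card_st_congr hst
    obtain ⟨g, rfl⟩ := ORB700.chRel_iff.1 hst
    have h2 := tup_congr (ORB700.stIso g σ) (fun x : st σ => IsConj (x : G) C.out)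
      (fun x : st (g • σ) => IsConj (x : G) C.out) (fun x => by
        rw [ORB700.stIso_coe]
        exact S4262.isConj_conj g _ _) (p ^ a)
    rw [hr1, hr1, h1] at h2
    exact_mod_cast Nat.eq_of_mul_eq_mul_left Nat.card_pos h2
  have h3 : ∑ᶠ σ : Ch p G, sgn σ *
      (Nat.card (Tup (st σ) (fun (_ : Fin (p ^ a)) (h : st σ) => IsConj (h : G) C.out)) : ℤ) =
      (Nat.card G : ℤ) * altSum (fun σ : Ch p G => (r σ : ℤ)) := by
    rw [ORB700.card_mul_altSum _ hinv]
    refine finsum_congr fun σ => ?_
    rw [hr1]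
    push_cast
    rfl
  rw [h3] at ha
  have h4 := dvd_cancel (p := p) (Nat.card_pos (α := G)).ne' ha
  have h5 := (CharP.intCast_eq_zero_iff k p _).2 h4
  rw [← ORB700.altSumK_cast] at h5
  have h6 : ∀ σ : Ch p G, (((r σ : ℤ) : ℤ) : k) = (R (cl (st σ)) C : k) ^ p ^ a := by
    intro σ
    rw [Int.cast_natCast, ← hr2, trZ_pow]
    congr 1
    refine C176.trZ_setSum_eq (k := k) _ (hK (st σ)) _ ?_
    rw [← cnt_eq (cl_conj (st σ)) C, cnt]
    exact Nat.card_congr (Equiv.subtypeEquivRight fun w => hiff (st σ) _)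
  rw [ORB700.altSumK_congr h6, altSumK_pow] at h5
  exact pow_eq_zero_iff (pow_pos hp.out.pos a).ne' |>.1 h5

end chains

end Crest.Agent.T170.Plumb
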