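import Crest.Agent.R170.PLUG_534
import Crest.Agent.T170.PlumbA_9
import Crest.Agent.T170.PlumbB_9

/-!
# Row 170 (T170), module A (helper9): **`CNT p` implies S0258**

`stp_of_cnt` : the conclusion of `STP` from `CNT p`; `hp_of_stp` : the induction of leaf P with
that conclusion as hypothesis; `s0258_of_cnt`.
-/

set_option autoImplicit false
set_option linter.style.haveILetI false
open scoped BigOperators

namespace Crest.Agent.T170

open Crest.Agent.R170 Crest.Agent.R170.STP312 Crest.AlgebraR.Weights Crest.AlgebraR.Blocks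

namespace Plumb

/-- the conclusion of `STP` -/
def STP' (p : ℕ) (k : Type) [Field k] : Prop :=
  ∀ (G : Type) [Group G] [Finite G] (e : MonoidAlgebra k G), CI e →
    (p : ℤ) ∣ altSum (fun σ : Ch p G => (lc (eC σ e) : ℤ)) - f0 e

section
variable {p : ℕ} [Fact p.Prime] {G : Type} [Group G] [Finite G]

omit [Fact p.Prime] in
/-- the stabiliser of a nonempty chain has a nontrivial normal `p`-subgroup -/
theorem exists_normal {σ : Ch p G} (h : σ ≠ P714.emp p G) :
    ∃ N : Subgroup (st σ), N.Normal ∧ IsPGroup p N ∧ N ≠ ⊥ := by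
  have hne : σ.1.Nonempty := by
    rw [Finset.nonempty_iff_ne_empty]
    intro h0
    exact h (Subtype.ext h0)
  obtain ⟨P, hP, hle⟩ := S4262.exists_min (p := p) (C := σ.1)
    ⟨fun Q hQ => ⟨(σ.2.1 Q hQ).2, (σ.2.1 Q hQ).1⟩, σ.2.2⟩ hne
  have hle' : P ≤ st σ := hle
  refine ⟨P.subgroupOf (st σ),
    (Subgroup.normal_subgroupOf_iff_le_normalizer hle').2 (P714.st_le hP),
    (σ.2.1 P hP).1.comap_subtype, fun h0 => (σ.2.1 P hP).2 ?_⟩
  rw [Subgroup.subgroupOf_eq_bot, disjoint_iff, inf_of_le_left hle'] at h0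
  exact h0

theorem altSum_f0 {k : Type} [Field k] [IsAlgClosed k] [CharP k p] {e : MonoidAlgebra k G}
    (he : CI e) : altSum (fun σ : Ch p G => (f0 (eC σ e) : ℤ)) = f0 e := by
  have h1 := ORB700.card_mul_altSum (fun σ : Ch p G => (f0 (eC σ e) : ℤ))
    (fun σ τ hst => by
      show (f0 (eC σ e) : ℤ) = (f0 (eC τ e) : ℤ)
      rw [ORB700.f0_eC he.1 hst])
  rw [finsum_eq_single _ (P714.emp p G) (fun σ hσ => by
    have hCI : CI (eC σ e) := BR606.sBrCI p k G e (st σ) (top σ) (K876.isPGroup_top σ)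
      (K876.centralizer_top_le_st σ) (K876.st_le_normalizer_top σ) he
    rw [J482.sJ2 p k (st σ) _ hCI (exists_normal hσ)]
    simp), P714.sgn_emp, one_mul, P714.card_st_emp] at h1
  obtain ⟨φ, hφ⟩ := P714.eC_emp (p := p) e
  rw [SCC538.f0_congr φ _ _ hφ] at h1
  have hG : (Nat.card G : ℤ) ≠ 0 := by exact_mod_cast (Nat.card_pos (α := G)).ne'
  exact mul_left_cancel₀ hG h1

end

variable (p : ℕ) [Fact p.Prime] (k : Type) [Field k] [IsAlgClosed k] [CharP k p]

theorem stp_of_cnt (h : CNT p) : STP' p k := by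
  intro G _ _ e he
  classical
  haveI : Fintype G := Fintype.ofFinite G
  haveI : Fintype (ConjClasses G) := Fintype.ofFinite _
  obtain ⟨t, ht⟩ := exists_good p G
  have hos := OS182.os p k G e he
  set f : ConjClasses G → k := fun C => e.coeff (C.out ^ p ^ t) - e.coeff C.out with hf
  have hcl : ∀ g : G, e.coeff (g ^ p ^ t) - e.coeff g = f (ConjClasses.mk g) := by
    intro g
    have : IsConj g (ConjClasses.mk g).out := by
      rw [← ConjClasses.mk_eq_mk_iff_isConj]
      exact (Quotient.out_eq _).symm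
    obtain ⟨c, hc⟩ := isConj_iff.1 this
    show _ = e.coeff ((ConjClasses.mk g).out ^ p ^ t) - e.coeff (ConjClasses.mk g).out
    rw [← hc, conj_pow, AB983.coeff_conj he.1, AB983.coeff_conj he.1]
  have hσ : ∀ σ : Ch p G, (f0 (eC σ e) : k) - (kc (eC σ e) : k) =
      ∑ C, f C * (R (cl (st σ)) C : k) := by
    intro σ
    haveI : Fintype (st σ) := Fintype.ofFinite _
    have hCI : CI (eC σ e) := BR606.sBrCI p k G e (st σ) (top σ) (K876.isPGroup_top σ)
      (K876.centralizer_top_le_st σ) (K876.st_le_normalizer_top σ) he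
    have hCI' : CI (br (st σ) (top σ) e) := hCI
    have hreg : ∀ g : G, e.coeff g ≠ 0 → (orderOf g).Coprime p := fun g hg => by
      by_contra hcon
      exact hg (hos g hcon)
    have hres := AB983.restrict_central he.1 (st σ)
    let y2 : Subalgebra.center k (MonoidAlgebra k (st σ)) :=
      ⟨br (st σ) (top σ) e, Subalgebra.mem_center_iff.2 fun y => (hCI'.1 y).symm⟩
    let y1 : Subalgebra.center k (MonoidAlgebra k (st σ)) :=
      ⟨restrictCoeff (st σ) e, Subalgebra.mem_center_iff.2 fun y => (hres y).symm⟩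
    let w : Subalgebra.center k (MonoidAlgebra k (st σ)) :=
      ⟨rp (p ^ t) (restrictCoeff (st σ) e),
        Subalgebra.mem_center_iff.2 fun y => (rp_central _ hres y).symm⟩
    have h1 : trZ w = (f0 (eC σ e) : k) :=
      trZ_rp p (ht.sub (st σ)) hres hCI (AB983.AB3 σ e he.1 hreg) w rfl
    have h2 : trZ y1 = (kc (eC σ e) : k) := by
      rw [← trZ_idem hCI y2 rfl, AB983.AB3_trZ σ e he.1 hreg y1 y2 rfl rfl]
    have h3 : trZ (w - y1) = trZ w - trZ y1 :=
      map_sub (Algebra.trace k (Subalgebra.center k (MonoidAlgebra k (st σ)))) w y1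
    rw [← h1, ← h2, ← h3]
    exact trZ_eq (cl_conj (st σ)) f (w - y1) fun g => hcl g
  have hk : altSumK (fun σ : Ch p G =>
      ((((f0 (eC σ e) : ℤ) - (kc (eC σ e) : ℤ) : ℤ) : ℤ) : k)) = 0 := by
    rw [ORB700.altSumK_congr (g := fun σ : Ch p G => ∑ C, f C * (R (cl (st σ)) C : k))
      (fun σ => by
        rw [← hσ σ]
        push_cast
        rfl), ORB700.altSumK_sum]
    refine Finset.sum_eq_zero fun C _ => ?_
    rw [ORB700.altSumK_mul_left]
    by_cases hC : (orderOf C.out).Coprime p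
    · have h7 : f C = 0 := by
        show e.coeff (C.out ^ p ^ t) - e.coeff C.out = 0
        rw [(ht.2 _).2 hC, sub_self]
      rw [h7, zero_mul]
    · rw [one_of_cnt h k C (by
        by_contra hcon
        exact hC ((Nat.Prime.coprime_iff_not_dvd Fact.out).2 hcon).symm), mul_zero]
  rw [ORB700.altSumK_cast, ORB700.altSum_sub, altSum_f0 he] at hk
  have hlk : altSum (fun σ : Ch p G => (lc (eC σ e) : ℤ)) =
      altSum (fun σ : Ch p G => (kc (eC σ e) : ℤ)) := by
    have h := K876.SK_of (B2334.B2 p k) (BR606.sBrCI p k) G e he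
    have h8 := ORB700.card_mul_altSum (fun σ : Ch p G => (lc (eC σ e) : ℤ))
      (fun σ τ hst => by
        show (lc (eC σ e) : ℤ) = (lc (eC τ e) : ℤ)
        rw [ORB700.lc_eC he.1 hst])
    have h9 := ORB700.card_mul_altSum (fun σ : Ch p G => (kc (eC σ e) : ℤ))
      (fun σ τ hst => by
        show (kc (eC σ e) : ℤ) = (kc (eC τ e) : ℤ)
        rw [ORB700.kc_eC he.1 hst])
    have hG : (Nat.card G : ℤ) ≠ 0 := by exact_mod_cast (Nat.card_pos (α := G)).ne'
    exact mul_left_cancel₀ hG (by rw [h8, h9, h])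
  rw [hlk, ← dvd_neg, neg_sub]
  exact (CharP.intCast_eq_zero_iff k p _).1 hk

open P714 in
/-- leaf P with the conclusion of `STP` as hypothesis (the proof of `P714.SP_of`) -/
theorem hp_of_stp (hTP : STP' p k) : FIN534.HP' p k := by
  have hM := M588.sM p k
  have hQ := QW544.sQd p k
  have hO := sOrb p
  have hB := BR606.sBrCI p k
  have hE := sEqv p k
  have h0 := sEmp p k
  have hp : p.Prime := Fact.out
  have hp0 : (p : ℤ) ≠ 0 := by exact_mod_cast hp.ne_zero
  suffices H : ∀ n : ℕ, ∀ (G : Type) [Group G] [Finite G] (e : MonoidAlgebra k G), CI e →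
      Nat.card G = n → ∃ m : ℤ, dG p e = (Nat.card G : ℤ) * (p * m) by
    intro G _ _ e he
    obtain ⟨m, hm⟩ := H _ G e he rfl
    exact ⟨m, by rw [hm]; ring⟩
  intro n
  induction n using Nat.strong_induction_on with
  | _ n IH =>
  intro G _ _ e he hn
  by_cases hN : ∃ N : Subgroup G, N.Normal ∧ IsPGroup p N ∧ N ≠ ⊥
  · obtain ⟨N, hNn, hNp, hN1⟩ := hN
    have hlt : Nat.card (G ⧸ N) < n := by
      have h1 := Subgroup.card_eq_card_quotient_mul_card_subgroup N
      have h2 : 1 < Nat.card N := by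
        rw [Subgroup.one_lt_card_iff_ne_bot]
        exact hN1
      have h3 : 0 < Nat.card (G ⧸ N) := Nat.card_pos
      rw [hn] at h1
      nlinarith
    have hci : CI (MonoidAlgebra.mapDomain (QuotientGroup.mk : G → G ⧸ N) e) :=
      CI_mapDomain (QuotientGroup.mk' N) (QuotientGroup.mk'_surjective N) he
    obtain ⟨m, hm⟩ := IH _ hlt (G ⧸ N) _ hci rfl
    refine ⟨m, ?_⟩
    rw [hQ G e N hNp he, hm]
    have h1 := Subgroup.card_eq_card_quotient_mul_card_subgroup N
    rw [h1]
    push_cast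
    ring
  · have hci : ∀ σ : Ch p G, CI (eC σ e) := fun σ =>
      hB G e (st σ) (top σ) (top_isPGroup σ) (centralizer_top_le σ) (st_le_normalizer_top σ) he
    have hval : ∀ σ : Ch p G, σ ≠ emp p G →
        ∃ m : ℤ, dG p (eC σ e) = (Nat.card (st σ) : ℤ) * (p * m) := fun σ hσ =>
      IH _ (hn ▸ card_st_lt hσ hN) (st σ) _ (hci σ) rfl
    classical
    choose! m hm using hval
    set f : Ch p G → ℤ := fun σ =>
      if σ = emp p G then 0 else dG p (eC σ e) / ((Nat.card (st σ) : ℤ) * p) with hf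
    have hfm : ∀ σ, σ ≠ emp p G →
        (Nat.card (st σ) : ℤ) * (p * f σ) = dG p (eC σ e) := by
      intro σ hσ
      have h1 : (Nat.card (st σ) : ℤ) * p ∣ dG p (eC σ e) := ⟨m σ, by rw [hm σ hσ]; ring⟩
      simp only [hf, if_neg hσ]
      rw [← mul_assoc]
      exact Int.mul_ediv_cancel' h1
    have hfinv : ∀ σ τ, chRel σ τ → f σ = f τ := by
      intro σ τ h
      obtain ⟨h1, -, h3, h4⟩ := hE G e he σ τ h
      have h5 : dG p (eC σ e) = dG p (eC τ e) := by
        unfold dG
        rw [h1, h3, h4]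
      simp only [hf]
      by_cases hσ : σ = emp p G
      · rw [if_pos hσ, if_pos ((chRel_emp h).1 hσ)]
      · rw [if_neg hσ, if_neg fun e => hσ ((chRel_emp h).2 e), h5, h1]
    have hS1 := hO G f hfinv
    have hS2 := hO G (fun σ => (lc (eC σ e) : ℤ)) fun σ τ h => by
      obtain ⟨-, -, h3, -⟩ := hE G e he σ τ h
      simp only [h3]
    have hS3 := hM G e he
    obtain ⟨m1, hm1⟩ := hTP G e he
    have : Fintype (Ch p G) := Fintype.ofFinite _
    rw [finsum_eq_sum_of_fintype] at hS1 hS2 hS3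
    have hA : ∑ σ : Ch p G, sgn σ * dG p (eC σ e) =
        (Nat.card G : ℤ) * altSum (fun σ : Ch p G => (lc (eC σ e) : ℤ)) -
          (Nat.card G : ℤ) * f0 e := by
      rw [← hS2, ← hS3, ← Finset.sum_sub_distrib]
      refine Finset.sum_congr rfl fun σ _ => ?_
      unfold dG
      ring
    have hB' : ∑ σ : Ch p G, sgn σ * dG p (eC σ e) =
        dG p e + p * ∑ σ : Ch p G, sgn σ * ((Nat.card (st σ) : ℤ) * f σ) := by
      rw [Finset.mul_sum, ← Finset.add_sum_erase _ _ (Finset.mem_univ (emp p G)),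
        ← Finset.add_sum_erase _ (fun σ => (p : ℤ) * (sgn σ * ((Nat.card (st σ) : ℤ) * f σ)))
          (Finset.mem_univ (emp p G))]
      have e1 : f (emp p G) = 0 := by simp [hf]
      have e2 : dG p (eC (emp p G) e) = dG p e := by
        obtain ⟨h1, h2⟩ := h0 G e he
        unfold dG
        rw [h1, h2, card_st_emp]
      rw [e1, e2, sgn_emp, one_mul, mul_zero, mul_zero, mul_zero, zero_add]
      congr 1
      refine Finset.sum_congr rfl fun σ hσ => ?_
      rw [← hfm σ (Finset.mem_erase.1 hσ).1]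
      ring
    refine ⟨m1 - altSum f, ?_⟩
    rw [hB', hS1] at hA
    have hm1' : altSum (fun σ : Ch p G => (lc (eC σ e) : ℤ)) = f0 e + p * m1 := by
      linarith
    rw [hm1'] at hA
    linear_combination hA

end Plumb

/-- **S0258 from the counting statement `CNT p`** -/
theorem s0258_of_cnt {p : ℕ} (hp : p.Prime) (h : CNT p)
    (k : Type) [Field k] [IsAlgClosed k] [CharP k p] (G : Type) [Group G] [Finite G]
    (e : MonoidAlgebra k G) (he : IsBlockIdempotent e) :
    Nat.card G * blockSimpleCount e = weightedWeightCount p e := by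
  haveI : Fact p.Prime := ⟨hp⟩
  exact FIN534.s0258_of hp
    (FIN534.HP_of_HP' (HD534.hDvd p k) (Plumb.hp_of_stp p k (Plumb.stp_of_cnt p k h)))
    (HD534.hDvd p k) (FIN534.hAmp_of_SWR (FIN534.sWR_of p k (WW2752.hWr p k)))
    (FIN534.hLit hp k) G e he

end Crest.Agent.T170
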