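import Crest.Agent.T170.RetGDefs_90

/-!
# Row 170, module C: `CovStmt` and `EvStmt` (helper62)

A plane model of a finite Galois extension of `ℂ(x)` is a Galois covering off the bad set, and
evaluation at a point of the covering is compatible with the action of the Galois group.
-/

set_option autoImplicit false

open Polynomial Filter Topology

noncomputable section

namespace Crest.Agent.T170.Ret

namespace Cov62

theorem cont_evalEval (B : ℂ[X][X]) : Continuous fun p : ℂ × ℂ => B.evalEval p.1 p.2 := by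
  induction B using Polynomial.induction_on' with
  | add p q hp hq => simp only [evalEval_add]; exact hp.add hq
  | monomial n a =>
    have : (fun p : ℂ × ℂ => (monomial n a : ℂ[X][X]).evalEval p.1 p.2)
        = fun p : ℂ × ℂ => a.eval p.1 * p.2 ^ n := by
      funext p
      simp [← C_mul_X_pow_eq_monomial, evalEval_C]
    rw [this]
    exact (a.continuous.comp continuous_fst).mul (continuous_snd.pow n)

theorem evalEval_eq (B : ℂ[X][X]) (z t : ℂ) :
    B.evalEval z t = B.eval₂ (evalRingHom z) t := by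
  rw [← eval_map, map_evalRingHom_eval]

variable {K N : Type} [Field K] [Field N] [Algebra ℂ K] [Algebra K N] [FiniteDimensional K N]
  {x : K} {S : Finset ℂ}

theorem Q_eval (M : Model N x S) (z t : ℂ) : (M.Q z).eval t = M.P.evalEval z t := by
  rw [Model.Q, map_evalRingHom_eval]

theorem d_ne (M : Model N x S) {z : ℂ} (hz : z ∉ M.Z) : M.d.eval z ≠ 0 := hz

/-- equality in `N` implies equality at every point of the covering -/
theorem ev_congr (M : Model N x S) {B B' : ℂ[X][X]}
    (h : B.eval₂ (xh N x) M.θ = B'.eval₂ (xh N x) M.θ) {z t : ℂ} (ht : (M.Q z).eval t = 0) :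
    B.evalEval z t = B'.evalEval z t := by
  have h0 : (B - B').eval₂ (xh N x) M.θ = 0 := by rw [eval₂_sub, h, sub_self]
  obtain ⟨c, hc⟩ := M.ker _ h0
  rw [Q_eval] at ht
  have : (B - B').evalEval z t = 0 := by rw [hc, evalEval_mul, ht, zero_mul]
  rwa [evalEval_sub, sub_eq_zero] at this

omit [FiniteDimensional K N] in
theorem map_xh (h : N ≃ₐ[K] N) (b : ℂ[X]) : h (xh N x b) = xh N x b := by
  simp [xh]

omit [FiniteDimensional K N] in
theorem map_ev (h : N ≃ₐ[K] N) (B : ℂ[X][X]) (θ : N) :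
    h (B.eval₂ (xh N x) θ) = B.eval₂ (xh N x) (h θ) := by
  have := Polynomial.hom_eval₂ B (xh N x) (h : N →+* N) θ
  have e : (h : N →+* N).comp (xh N x) = xh N x := RingHom.ext fun b => map_xh h b
  rw [e] at this
  exact this

theorem d_mul_act (M : Model N x S) (h : N ≃ₐ[K] N) {z : ℂ} (hz : z ∉ M.Z) (t : ℂ) :
    M.d.eval z * M.act h z t = (M.A h).evalEval z t := by
  rw [Model.act, mul_div_cancel₀ _ (d_ne M hz)]

theorem ev_act (M : Model N x S) (h : N ≃ₐ[K] N) {B B' : ℂ[X][X]}
    (hB : h (B.eval₂ (xh N x) M.θ) = B'.eval₂ (xh N x) M.θ) {z t : ℂ} (hz : z ∉ M.Z)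
    (ht : (M.Q z).eval t = 0) : B.evalEval z (M.act h z t) = B'.evalEval z t := by
  have h1 : ((B.scaleRoots M.d).comp (M.A h)).eval₂ (xh N x) M.θ
      = (C (M.d ^ B.natDegree) * B').eval₂ (xh N x) M.θ := by
    rw [eval₂_comp, ← M.act_eq, scaleRoots_eval₂_mul, eval₂_mul, eval₂_C, map_pow, ← hB, map_ev]
  have h2 := ev_congr M h1 ht
  rw [evalEval_mul, evalEval_C, evalEval_eq, eval₂_comp, ← evalEval_eq (M.A h),
    ← d_mul_act M h hz t] at h2
  have h3 := scaleRoots_eval₂_mul (p := B) (evalRingHom z) (M.act h z t) M.d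
  rw [coe_evalRingHom] at h3
  rw [h3, eval_pow, ← evalEval_eq] at h2
  exact mul_left_cancel₀ (pow_ne_zero _ (d_ne M hz)) h2

theorem ev_P (M : Model N x S) : M.P.eval₂ (xh N x) M.θ = 0 := by
  rw [← eval_map, M.prod, eval_prod]
  exact Finset.prod_eq_zero (Finset.mem_univ 1) (by simp)

theorem natDegree_P (M : Model N x S) : M.P.natDegree = Fintype.card (N ≃ₐ[K] N) := by
  rw [← M.monic.natDegree_map (xh N x), M.prod, natDegree_prod_of_monic _ _
    (fun g _ => monic_X_sub_C _)]
  simp

/-- the fibre polynomial splits along the orbit of a root -/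
theorem Q_eq (M : Model N x S) {z t : ℂ} (hz : z ∉ M.Z) (ht : (M.Q z).eval t = 0) :
    M.Q z = ∏ g : N ≃ₐ[K] N, (X - C (M.act g z t)) := by
  apply Polynomial.funext
  intro c
  have h1 : (∏ g : N ≃ₐ[K] N, (C (M.d * C c) - M.A g)).eval₂ (xh N x) M.θ
      = (C (M.d ^ Fintype.card (N ≃ₐ[K] N) * M.P.eval (C c)) : ℂ[X][X]).eval₂ (xh N x) M.θ := by
    rw [eval₂_C, map_mul (xh N x), map_pow (xh N x), ← eval₂_hom, ← eval_map (p := M.P), M.prod, eval_prod, eval₂_finsetProd,
      ← Finset.card_univ, ← Finset.prod_const, ← Finset.prod_mul_distrib]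
    refine Finset.prod_congr rfl fun g _ => ?_
    rw [eval₂_sub, eval₂_C, ← M.act_eq, map_mul (xh N x), eval_sub, eval_X, eval_C, mul_sub]
  have h2 := ev_congr M h1 ht
  rw [evalEval_C, eval_mul, eval_pow, evalEval_prod, ← Finset.card_univ, ← Finset.prod_const]
    at h2
  have h3 : ∏ g : N ≃ₐ[K] N, (C (M.d * C c) - M.A g).evalEval z t
      = (∏ _g : N ≃ₐ[K] N, M.d.eval z) * ∏ g : N ≃ₐ[K] N, (c - M.act g z t) := by
    rw [← Finset.prod_mul_distrib]
    refine Finset.prod_congr rfl fun g _ => ?_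
    rw [evalEval_sub, evalEval_C, ← d_mul_act M g hz, eval_mul, eval_C, mul_sub]
  rw [h3] at h2
  have h4 := mul_left_cancel₀ (Finset.prod_ne_zero_iff.2 fun _ _ => d_ne M hz) h2
  rw [Q_eval, eval_prod]
  simp only [eval_sub, eval_X, eval_C]
  exact h4.symm

theorem nodup (M : Model N x S) {z : ℂ} (hz : z ∉ M.Z) : (M.Q z).roots.Nodup := by
  classical
  rw [Multiset.nodup_iff_count_le_one]
  intro t
  rw [count_roots]
  by_contra hlt
  have hne : M.Q z ≠ 0 := (M.monic.map _).ne_zero
  obtain ⟨h1, h2⟩ := (one_lt_rootMultiplicity_iff_isRoot hne).1 (not_le.1 hlt)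
  refine M.simple z t (d_ne M hz) (by rw [← Q_eval]; exact h1) ?_
  rw [Model.Q, derivative_map, IsRoot, map_evalRingHom_eval] at h2
  exact h2

theorem isCov (M : Model N x S) : IsCov M.Z M.P.natDegree M.Q M.act where
  pos := by rw [natDegree_P]; exact Fintype.card_pos
  monic z := M.monic.map _
  deg z := M.monic.natDegree_map _
  cont i := by
    simp only [Model.Q, coeff_map, coe_evalRingHom]
    exact (M.P.coeff i).continuous
  nodup z hz := nodup M hz
  act_cont g z t hz :=
    (cont_evalEval (M.A g)).continuousAt.div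
      (M.d.continuous.comp continuous_fst).continuousAt (d_ne M hz)
  act_root g z t hz ht := by
    rw [Q_eval, ev_act M g (B' := 0) (by rw [ev_P, map_zero, eval₂_zero]) hz ht, evalEval_zero]
  act_mul g h z t hz ht := by
    have : g ((M.A h).eval₂ (xh N x) M.θ) = (M.A (g * h)).eval₂ (xh N x) M.θ := by
      rw [← M.act_eq, ← M.act_eq, map_mul, map_xh]; rfl
    change (M.A h).evalEval z (M.act g z t) / _ = (M.A (g * h)).evalEval z t / _
    rw [ev_act M g this hz ht]
  trans z t t' hz ht ht' := by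
    rw [Q_eq M hz ht, eval_prod, Finset.prod_eq_zero_iff] at ht'
    obtain ⟨g, -, hg⟩ := ht'
    exact ⟨g, by simpa [sub_eq_zero] using hg⟩
  free g g' z t hz ht hgg := by
    have hn := nodup M hz
    rw [Q_eq M hz ht, Finset.prod_eq_multiset_prod,
      ← Function.comp_def (fun a : ℂ => X - C a) (fun g => M.act g z t), ← Multiset.map_map,
      roots_multiset_prod_X_sub_C] at hn
    exact Multiset.inj_on_of_nodup_map hn g (Finset.mem_univ _) g' (Finset.mem_univ _) hgg

end Cov62

theorem covStmt : CovStmt := fun _ _ _ _ _ _ _ _ _ _ _ M => Cov62.isCov M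

theorem evStmt : EvStmt := fun _ _ _ _ _ _ _ _ _ _ _ M h _ _ hB _ _ hz ht =>
  Cov62.ev_act M h hB hz ht

end Crest.Agent.T170.Ret
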