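import Crest.Agent.R235.RSMer2_538

/-!
# Row 170, RET, existence half (helper88), file 1: a meromorphic one-form with one pole

On a Riemann surface on which the Poisson equation is solvable there is, for every point `p`, a
one-form which is holomorphic off `p` and has a true pole at `p`.
-/

set_option autoImplicit false

open Set Filter Topology Function Metric MeasureTheory

universe u v

namespace Crest.Agent.T170.RetE

noncomputable section

open Complex (I)
open Crest.Agent.R235.RS Crest.Agent.R235.RS.CAtl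

/-- `∂ (F conj G)` for holomorphic `G` -/
theorem dz_mul_conj {F G : ℂ → ℂ} {z : ℂ} (hF : DifferentiableAt ℝ F z)
    (hG : DifferentiableAt ℂ G z) :
    dz (fun w => F w * (starRingEnd ℂ) (G w)) z = dz F z * (starRingEnd ℂ) (G z) := by
  have hd : HasFDerivAt (fun w => (starRingEnd ℂ) (G w))
      ((Complex.conjCLE : ℂ →L[ℝ] ℂ).comp (fderiv ℝ G z)) z :=
    (Complex.conjCLE : ℂ →L[ℝ] ℂ).hasFDerivAt.comp z (hG.restrictScalars ℝ).hasFDerivAt
  have h1 := hF.hasFDerivAt.mul hd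
  have h2 : ∀ v, fderiv ℝ (fun w => F w * (starRingEnd ℂ) (G w)) z v =
      F z * (starRingEnd ℂ) (v * deriv G z) + (starRingEnd ℂ) (G z) * fderiv ℝ F z v := by
    intro v
    have h3 : fderiv ℝ (fun w => F w * (starRingEnd ℂ) (G w)) z =
        F z • ((Complex.conjCLE : ℂ →L[ℝ] ℂ).comp (fderiv ℝ G z)) +
          (starRingEnd ℂ) (G z) • fderiv ℝ F z := h1.fderiv
    rw [h3, ContinuousLinearMap.add_apply, ContinuousLinearMap.smul_apply,
      ContinuousLinearMap.smul_apply, smul_eq_mul, smul_eq_mul,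
      ContinuousLinearMap.comp_apply, fderiv_hol hG]
    rfl
  unfold dz
  rw [h2, h2]
  simp only [map_mul, map_one, Complex.conj_I]
  linear_combination (F z * (starRingEnd ℂ) (deriv G z) / 2) * Complex.I_mul_I

variable {N : Type u} [TopologicalSpace N] {A : CAtl.{u, v} N}

theorem hf_self' {u₁ u₂ : N → ℝ} (h₁ : A.Smooth u₁) (h₂ : A.Smooth u₂) {k : A.ι} {g : ℂ → ℂ}
    {z : ℂ} (hz : z ∈ (A.c k).target) (hd2 : DifferentiableAt ℝ g z)
    (hl : (A.lapC u₁ k ((A.c k).symm z) : ℂ) + A.lapC u₂ k ((A.c k).symm z) * I = 4 * dz g z) :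
    DifferentiableAt ℂ (A.hf u₁ u₂ k g k) z := by
  have hU := UU_smooth h₁ h₂ hz
  have hU2 : ContDiffAt ℝ 2 (A.UU u₁ u₂ k) z := hU.of_le ENat.LEInfty.out
  have hd1 := (fderiv_db hU2).differentiableAt
  have h3 : DifferentiableAt ℂ
      (fun w => (starRingEnd ℂ) ((fun w => db (A.UU u₁ u₂ k) w - g w) w)) z := by
    refine diff_conj (hd1.sub hd2) ?_
    rw [dz_sub hd1 hd2]
    have h4 : dz (fun w => db (A.UU u₁ u₂ k) w) z = lapX (A.UU u₁ u₂ k) z / 4 := dz_db hU2
    rw [h4]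
    have h5 := UU_lap h₁ h₂ ((A.c k).map_target hz)
    rw [(A.c k).right_inv hz] at h5
    rw [h5, hl]
    ring
  refine h3.congr_of_eventuallyEq ?_
  filter_upwards [(A.c k).open_target.mem_nhds hz] with w hw
  show (starRingEnd ℂ) (db (A.UU u₁ u₂ k) w - A.gf k g k w) = _
  rw [gf_self hw]

theorem hf_diff' [T2Space N] {u₁ u₂ : N → ℝ} (h₁ : A.Smooth u₁) (h₂ : A.Smooth u₂) {k : A.ι}
    {g : ℂ → ℂ} {z0 : ℂ} (hg : ∀ z, z ≠ z0 → DifferentiableAt ℝ g z) (hc : HasCompactSupport g)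
    (hs : tsupport g ⊆ (A.c k).target)
    (hl : ∀ z ∈ (A.c k).target, z ≠ z0 →
      (A.lapC u₁ k ((A.c k).symm z) : ℂ) + A.lapC u₂ k ((A.c k).symm z) * I = 4 * dz g z)
    (hl1 : ∀ j, ∀ x ∈ (A.c j).source, x ∉ (A.c k).source → A.lapC u₁ j x = 0)
    (hl2 : ∀ j, ∀ x ∈ (A.c j).source, x ∉ (A.c k).source → A.lapC u₂ j x = 0)
    (j : A.ι) {z : ℂ} (hz : z ∈ (A.c j).target) (hne : (A.c j).symm z ≠ (A.c k).symm z0) :
    DifferentiableAt ℂ (A.hf u₁ u₂ k g j) z := by
  by_cases hzk : z ∈ A.dom j k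
  · have hne' : A.tr j k z ≠ z0 := by
      intro h
      apply hne
      rw [← h, A.symm_tr hzk]
    have h3 := hf_self' h₁ h₂ (A.tr_mem hzk).1 (hg _ hne') (hl _ (A.tr_mem hzk).1 hne')
    have h4 : DifferentiableAt ℂ
        (fun w => A.hf u₁ u₂ k g k (A.tr j k w) * deriv (A.tr j k) w) z := by
      refine DifferentiableAt.mul ?_ (A.tr_analyticAt hzk).deriv.differentiableAt
      exact DifferentiableAt.comp (g := A.hf u₁ u₂ k g k) z h3 (A.tr_diffAt hzk)
    refine h4.congr_of_eventuallyEq ?_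
    filter_upwards [(A.isOpen_dom j k).mem_nhds hzk] with w hw
    exact hf_tr h₁ h₂ hw
  · have hU := UU_smooth h₁ h₂ hz
    have hU2 : ContDiffAt ℝ 2 (A.UU u₁ u₂ j) z := hU.of_le ENat.LEInfty.out
    have hd1 := (fderiv_db hU2).differentiableAt
    have hx : (A.c j).symm z ∉ (A.c k).source := fun h => hzk ⟨hz, h⟩
    have h3 : DifferentiableAt ℂ (fun w => (starRingEnd ℂ) (db (A.UU u₁ u₂ j) w)) z := by
      refine diff_conj hd1 ?_
      rw [dz_db hU2]
      have h5 := UU_lap h₁ h₂ ((A.c j).map_target hz)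
      rw [(A.c j).right_inv hz, hl1 j _ ((A.c j).map_target hz) hx,
        hl2 j _ ((A.c j).map_target hz) hx] at h5
      rw [h5]
      simp
    refine h3.congr_of_eventuallyEq ?_
    filter_upwards [gf_zero hc hs hz hzk] with w hw
    show (starRingEnd ℂ) (db (A.UU u₁ u₂ j) w - A.gf k g j w) = _
    rw [hw, sub_zero]

/-- a cut-off function at `z0` -/
structure Cut (z0 : ℂ) (r : ℝ) (X : ℂ → ℂ) : Prop where
  pos : 0 < r
  sm : ContDiff ℝ (⊤ : ℕ∞) X
  supp : tsupport X ⊆ closedBall z0 r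
  one : ∀ z ∈ ball z0 (r / 2), X =ᶠ[𝓝 z] fun _ => (1 : ℂ)

theorem exists_cut (z0 : ℂ) {r : ℝ} (hr : 0 < r) : ∃ X, Cut z0 r X := by
  let χ : ContDiffBump z0 := ⟨r / 2, r, half_pos hr, half_lt_self hr⟩
  refine ⟨fun z => (χ z : ℂ), hr, Complex.ofRealCLM.contDiff.comp χ.contDiff, ?_, ?_⟩
  · refine (closure_mono ?_).trans χ.tsupport_eq.subset
    intro z hz h
    apply hz
    show (χ z : ℂ) = 0
    have h' : χ z = 0 := h
    rw [h', Complex.ofReal_zero]
  · intro z hz
    filter_upwards [isOpen_ball.mem_nhds hz] with w hw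
    show (χ w : ℂ) = 1
    rw [χ.one_of_mem_closedBall (ball_subset_closedBall hw), Complex.ofReal_one]

/-- the density -/
def rho (X q : ℂ → ℂ) (z : ℂ) : ℂ := 4 * (dz X z * (starRingEnd ℂ) (q z))

namespace Cut

variable {z0 : ℂ} {r : ℝ} {X : ℂ → ℂ} (hX : Cut z0 r X) {q : ℂ → ℂ}
include hX

theorem rho_smooth (hq : ∀ z, z ≠ z0 → AnalyticAt ℂ q z) : ContDiff ℝ (⊤ : ℕ∞) (rho X q) := by
  refine contDiff_iff_contDiffAt.2 fun z => ?_
  by_cases hz : z = z0
  · subst hz
    refine (contDiffAt_const (c := (0 : ℂ))).congr_of_eventuallyEq ?_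
    filter_upwards [isOpen_ball.mem_nhds (mem_ball_self (half_pos hX.pos))] with w hw
    unfold rho
    rw [dz_congr (hX.one w hw)]
    simp [dz]
  · refine contDiffAt_const.mul ((contDiff_dz hX.sm).contDiffAt.mul ?_)
    have h1 : ContDiffAt ℝ (⊤ : ℕ∞) q z := ((hq z hz).contDiffAt (n := (⊤ : ℕ∞))).restrict_scalars ℝ
    exact (Complex.conjCLE : ℂ →L[ℝ] ℂ).contDiff.contDiffAt.comp z h1

theorem rho_supp : tsupport (rho X q) ⊆ closedBall z0 r := by
  refine Subset.trans ?_ (tsupport_dz.trans hX.supp)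
  refine closure_mono fun z hz h => hz ?_
  unfold rho
  rw [h, zero_mul, mul_zero]

theorem rho_cpt : HasCompactSupport (rho X q) :=
  IsCompact.of_isClosed_subset (isCompact_closedBall z0 r) (isClosed_tsupport _) hX.rho_supp

theorem rho_int (hq : ∀ z, z ≠ z0 → AnalyticAt ℂ q z) : Integrable (rho X q) :=
  (hX.rho_smooth hq).continuous.integrable_of_hasCompactSupport hX.rho_cpt

end Cut

/-- a form with the principal part `-q` -/
theorem exists_form_q [T2Space N] (hP : A.POISSON) (k : A.ι) {z0 : ℂ} {r : ℝ} {X : ℂ → ℂ}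
    (hX : Cut z0 r X) (hb : closedBall z0 r ⊆ (A.c k).target) {q : ℂ → ℂ}
    (hq : ∀ z, z ≠ z0 → AnalyticAt ℂ q z) (hint : ∫ z, rho X q z = 0) :
    ∃ (h : A.ι → ℂ → ℂ) (G : ℂ → ℂ),
      (∀ i j, ∀ z ∈ A.dom i j, h i z = h j (A.tr i j z) * deriv (A.tr i j) z) ∧
      (∀ j, ∀ z ∈ (A.c j).target, (A.c j).symm z ≠ (A.c k).symm z0 →
        DifferentiableAt ℂ (h j) z) ∧
      ContinuousAt G z0 ∧ ∀ᶠ z in 𝓝 z0, h k z = G z - q z := by
  have hρ := hX.rho_smooth hq
  have hρc := hX.rho_cpt (q := q)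
  have hρs := (hX.rho_supp (q := q)).trans hb
  have hi := hX.rho_int hq
  have hre : ∫ z, (rho X q z).re = 0 := by
    have h1 := Complex.reCLM.integral_comp_comm hi
    rw [hint, map_zero] at h1
    exact h1
  have him : ∫ z, (rho X q z).im = 0 := by
    have h1 := Complex.imCLM.integral_comp_comm hi
    rw [hint, map_zero] at h1
    exact h1
  have s1 : tsupport (fun z => (rho X q z).re) ⊆ tsupport (rho X q) := by
    refine closure_mono fun z hz h => hz ?_
    show (rho X q z).re = 0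
    rw [h, Complex.zero_re]
  have s2 : tsupport (fun z => (rho X q z).im) ⊆ tsupport (rho X q) := by
    refine closure_mono fun z hz h => hz ?_
    show (rho X q z).im = 0
    rw [h, Complex.zero_im]
  obtain ⟨u₁, h₁, hu1, hu1'⟩ := hP k (fun z => (rho X q z).re)
    (Complex.reCLM.contDiff.comp hρ) (IsCompact.of_isClosed_subset hρc (isClosed_tsupport _) s1)
    (s1.trans hρs) hre
  obtain ⟨u₂, h₂, hu2, hu2'⟩ := hP k (fun z => (rho X q z).im)
    (Complex.imCLM.contDiff.comp hρ) (IsCompact.of_isClosed_subset hρc (isClosed_tsupport _) s2)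
    (s2.trans hρs) him
  set g : ℂ → ℂ := fun z => X z * (starRingEnd ℂ) (q z) with hg
  have hXd : ∀ z, DifferentiableAt ℝ X z := fun z =>
    (hX.sm.differentiable (by simp)).differentiableAt
  have hgd : ∀ z, z ≠ z0 → DifferentiableAt ℝ g z := by
    intro z hz
    refine (hXd z).mul ?_
    exact (Complex.conjCLE : ℂ →L[ℝ] ℂ).differentiableAt.comp z
      ((hq z hz).differentiableAt.restrictScalars ℝ)
  have hgs : tsupport g ⊆ closedBall z0 r := by
    refine Subset.trans ?_ hX.supp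
    refine closure_mono fun z hz h => hz ?_
    show X z * _ = 0
    rw [h, zero_mul]
  have hgc : HasCompactSupport g :=
    IsCompact.of_isClosed_subset (isCompact_closedBall z0 r) (isClosed_tsupport _) hgs
  have hl : ∀ z ∈ (A.c k).target, z ≠ z0 →
      (A.lapC u₁ k ((A.c k).symm z) : ℂ) + A.lapC u₂ k ((A.c k).symm z) * I = 4 * dz g z := by
    intro z hz hne
    rw [hu1 _ ((A.c k).map_target hz), hu2 _ ((A.c k).map_target hz), (A.c k).right_inv hz,
      Complex.re_add_im, hg, dz_mul_conj (hXd z) (hq z hne).differentiableAt]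
    rfl
  have hz0 : z0 ∈ (A.c k).target := hb (mem_closedBall_self hX.pos.le)
  refine ⟨A.hf u₁ u₂ k g, fun z => (starRingEnd ℂ) (db (A.UU u₁ u₂ k) z),
    fun i j w hw => hf_tr h₁ h₂ hw,
    fun j z hz hne => hf_diff' h₁ h₂ hgd hgc (hgs.trans hb) hl hu1' hu2' j hz hne, ?_, ?_⟩
  · have hU2 : ContDiffAt ℝ 2 (A.UU u₁ u₂ k) z0 :=
      (UU_smooth h₁ h₂ hz0).of_le ENat.LEInfty.out
    exact Complex.continuous_conj.continuousAt.comp (fderiv_db hU2).continuousAt
  · filter_upwards [(A.c k).open_target.mem_nhds hz0,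
      hX.one z0 (mem_ball_self (half_pos hX.pos))] with w hw hw1
    show (starRingEnd ℂ) (db (A.UU u₁ u₂ k) w - A.gf k g k w) = _
    rw [gf_self hw, map_sub, hg]
    simp only [hw1, one_mul, Complex.conj_conj]

/-- **a one-form with exactly one pole** -/
theorem exists_form [T2Space N] (hP : A.POISSON) (k : A.ι) {z0 : ℂ}
    (hz0 : z0 ∈ (A.c k).target) :
    ∃ (h : A.ι → ℂ → ℂ) (m : ℕ) (c : ℂ), c ≠ 0 ∧ 0 < m ∧
      (∀ i j, ∀ z ∈ A.dom i j, h i z = h j (A.tr i j z) * deriv (A.tr i j) z) ∧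
      (∀ j, ∀ z ∈ (A.c j).target, (A.c j).symm z ≠ (A.c k).symm z0 →
        DifferentiableAt ℂ (h j) z) ∧
      Tendsto (fun z => (z - z0) ^ m * h k z) (𝓝[≠] z0) (𝓝 c) := by
  obtain ⟨r, hr, hb⟩ := Metric.nhds_basis_closedBall.mem_iff.1 ((A.c k).open_target.mem_nhds hz0)
  obtain ⟨X, hX⟩ := exists_cut z0 hr
  have ha : ∀ z, z ≠ z0 → AnalyticAt ℂ (fun z => (z - z0)⁻¹) z := fun z hz =>
    (analyticAt_id.sub analyticAt_const).inv (sub_ne_zero.2 hz)
  have hz : Tendsto (fun z : ℂ => z - z0) (𝓝[≠] z0) (𝓝 0) := by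
    have : Tendsto (fun z : ℂ => z - z0) (𝓝 z0) (𝓝 (z0 - z0)) :=
      (continuous_id.sub continuous_const).continuousAt
    rw [sub_self] at this
    exact this.mono_left nhdsWithin_le_nhds
  by_cases h1 : ∫ z, rho X (fun z => (z - z0)⁻¹) z = 0
  · obtain ⟨h, G, e1, e2, e3, e4⟩ := exists_form_q hP k hX hb ha h1
    refine ⟨h, 1, -1, by simp, one_pos, e1, e2, ?_⟩
    have h2 : Tendsto (fun z => (z - z0) * G z - 1) (𝓝[≠] z0) (𝓝 (0 * G z0 - 1)) :=
      (hz.mul (e3.tendsto.mono_left nhdsWithin_le_nhds)).sub_const 1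
    rw [zero_mul, zero_sub] at h2
    refine h2.congr' ?_
    filter_upwards [e4.filter_mono nhdsWithin_le_nhds, self_mem_nhdsWithin] with z h3 h4
    have h5 : z - z0 ≠ 0 := sub_ne_zero.2 h4
    rw [h3, pow_one, mul_sub, mul_inv_cancel₀ h5]
  · set I1 := ∫ z, rho X (fun z => (z - z0)⁻¹) z with hI1
    set I2 := ∫ z, rho X (fun z => (z - z0)⁻¹ ^ 2) z with hI2
    set a : ℂ := (starRingEnd ℂ) (-(I2 / I1)) with haa
    have hb2 : ∀ z, z ≠ z0 → AnalyticAt ℂ (fun z => (z - z0)⁻¹ ^ 2) z := fun z hz =>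
      (ha z hz).pow 2
    have hq : ∀ z, z ≠ z0 → AnalyticAt ℂ (fun z => a * (z - z0)⁻¹ + (z - z0)⁻¹ ^ 2) z :=
      fun z hz => (analyticAt_const.mul (ha z hz)).add (hb2 z hz)
    have h0 : ∫ z, rho X (fun z => a * (z - z0)⁻¹ + (z - z0)⁻¹ ^ 2) z = 0 := by
      have e : rho X (fun z => a * (z - z0)⁻¹ + (z - z0)⁻¹ ^ 2) = fun z =>
          (-(I2 / I1)) * rho X (fun z => (z - z0)⁻¹) z + rho X (fun z => (z - z0)⁻¹ ^ 2) z := by
        funext z
        unfold rho
        rw [map_add, map_mul, haa, Complex.conj_conj]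
        ring
      rw [e, integral_add ((hX.rho_int ha).const_mul _) (hX.rho_int hb2), integral_const_mul,
        ← hI1, ← hI2]
      field_simp
      ring
    obtain ⟨h, G, e1, e2, e3, e4⟩ := exists_form_q hP k hX hb hq h0
    refine ⟨h, 2, -1, by simp, two_pos, e1, e2, ?_⟩
    have h2 : Tendsto (fun z => (z - z0) ^ 2 * G z - a * (z - z0) - 1) (𝓝[≠] z0)
        (𝓝 (0 ^ 2 * G z0 - a * 0 - 1)) :=
      (((hz.pow 2).mul (e3.tendsto.mono_left nhdsWithin_le_nhds)).sub
        (hz.const_mul a)).sub_const 1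
    have e : (0 : ℂ) ^ 2 * G z0 - a * 0 - 1 = -1 := by ring
    rw [e] at h2
    refine h2.congr' ?_
    filter_upwards [e4.filter_mono nhdsWithin_le_nhds, self_mem_nhdsWithin] with z h3 h4
    have h5 : z - z0 ≠ 0 := sub_ne_zero.2 h4
    rw [h3]
    field_simp
    ring

end

end Crest.Agent.T170.RetE
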