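import Crest.Agent.T170.RetE1_88
import Crest.Agent.R235.RSPois6_910
import Crest.Agent.R257.RSD_176

/-!
# Row 170, RET, existence half (helper88), file 2: a separating function of moderate growth

`Mod T f` : `f` has moderate growth at the punctures and at infinity;
`exists_sep` : for every point `x₀` of a connected finite covering of `ℂ ∖ S` there is a holomorphic
function of moderate growth which is nonzero at `x₀` and vanishes at the other points of the fibre.
-/

set_option autoImplicit false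

open Set Filter Topology Function Metric Asymptotics

namespace Crest.Agent.T170.RetE

noncomputable section

open Crest.Agent.R235.RS Crest.Agent.R257.RS_176

/-- the function with a simple pole at a centre -/
def big (c : Option ℂ) (w : ℂ) : ℂ :=
  match c with
  | some a => (w - a)⁻¹
  | none => w

/-- the punctured neighbourhoods of a centre -/
def fl (c : Option ℂ) : Filter ℂ :=
  match c with
  | some a => 𝓝[≠] a
  | none => Bornology.cobounded ℂ

theorem tendsto_big (c : Option ℂ) : Tendsto (fun w => ‖big c w‖) (fl c) atTop := by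
  cases c with
  | none => exact tendsto_norm_cobounded_atTop (E := ℂ)
  | some a =>
    have h1 : Tendsto (fun w : ℂ => w - a) (𝓝[≠] a) (𝓝[≠] 0) := by
      refine tendsto_nhdsWithin_iff.2 ⟨?_, ?_⟩
      · have : Tendsto (fun w : ℂ => w - a) (𝓝 a) (𝓝 (a - a)) :=
          (continuous_id.sub continuous_const).continuousAt
        rw [sub_self] at this
        exact this.mono_left nhdsWithin_le_nhds
      · filter_upwards [self_mem_nhdsWithin] with w hw
        exact sub_ne_zero.2 hw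
    exact (tendsto_norm_cobounded_atTop (E := ℂ)).comp (Filter.tendsto_inv₀_nhdsNE_zero.comp h1)

theorem big_endPr (c : Option ℂ) (m : ℕ) (τ : ℂ) : big c (endPr c m τ) = τ⁻¹ ^ m := by
  cases c <;> simp [big, endPr]

theorem meromorphicAt_endPr (c : Option ℂ) (m : ℕ) : MeromorphicAt (endPr c m) 0 := by
  cases c with
  | none => exact ((MeromorphicAt.id 0).pow m).inv
  | some a => exact (MeromorphicAt.const a 0).add ((MeromorphicAt.id 0).pow m)

theorem isBigO_of_meromorphicAt {f : ℂ → ℂ} (hf : MeromorphicAt f 0) :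
    ∃ k : ℕ, f =O[𝓝[≠] 0] fun τ => τ⁻¹ ^ k := by
  obtain ⟨k, hk⟩ := hf
  refine ⟨k, ?_⟩
  have h1 : (fun z : ℂ => (z - 0) ^ k • f z) =O[𝓝[≠] 0] fun _ => (1 : ℂ) :=
    (hk.continuousAt.tendsto.mono_left nhdsWithin_le_nhds).isBigO_one ℂ
  have h2 := h1.mul (isBigO_refl (fun τ : ℂ => τ⁻¹ ^ k) (𝓝[≠] 0))
  refine h2.congr' ?_ (Eventually.of_forall fun τ => one_mul _)
  filter_upwards [self_mem_nhdsWithin] with τ hτ
  have h3 : τ ≠ 0 := hτ
  rw [sub_zero, smul_eq_mul, mul_right_comm, ← mul_pow, mul_inv_cancel₀ h3, one_pow, one_mul]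

variable {X : Type} [TopologicalSpace X] (T : Srf X)

/-- moderate growth -/
def Mod (f : X → ℂ) : Prop :=
  ∀ c : Option ℂ, (∀ a, c = some a → a ∈ T.S) →
    ∃ k : ℕ, f =O[comap T.pr (fl c)] fun x => big c (T.pr x) ^ k

variable {T}

theorem big_pow_mono (c : Option ℂ) {k l : ℕ} (h : k ≤ l) :
    (fun x => big c (T.pr x) ^ k) =O[comap T.pr (fl c)] fun x => big c (T.pr x) ^ l := by
  refine IsBigO.of_bound' ?_
  filter_upwards [tendsto_comap.eventually ((tendsto_big c).eventually_ge_atTop 1)] with x hx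
  rw [norm_pow, norm_pow]
  exact pow_le_pow_right₀ hx h

theorem Mod.const (a : ℂ) : Mod T fun _ => a := fun c _ =>
  ⟨0, by simpa using isBigO_const_one (F := ℂ) a _⟩

theorem Mod.add {f g : X → ℂ} (hf : Mod T f) (hg : Mod T g) : Mod T fun x => f x + g x := by
  intro c hc
  obtain ⟨k, hk⟩ := hf c hc
  obtain ⟨l, hl⟩ := hg c hc
  exact ⟨max k l, (hk.trans (big_pow_mono c (le_max_left _ _))).add
    (hl.trans (big_pow_mono c (le_max_right _ _)))⟩

theorem Mod.mul {f g : X → ℂ} (hf : Mod T f) (hg : Mod T g) : Mod T fun x => f x * g x := by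
  intro c hc
  obtain ⟨k, hk⟩ := hf c hc
  obtain ⟨l, hl⟩ := hg c hc
  exact ⟨k + l, by simpa only [pow_add] using hk.mul hl⟩

theorem Mod.pr : Mod T T.pr := by
  intro c _
  cases c with
  | none => exact ⟨1, by simpa [big] using isBigO_refl _ _⟩
  | some a =>
    refine ⟨0, ?_⟩
    have h1 : Tendsto T.pr (comap T.pr (fl (some a))) (𝓝 a) :=
      tendsto_comap.mono_right nhdsWithin_le_nhds
    simpa using h1.isBigO_one ℂ

theorem Mod.comp {f : X → ℂ} (hf : Mod T f) {g : X → X} (hg : ∀ x, T.pr (g x) = T.pr x) :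
    Mod T fun x => f (g x) := by
  intro c hc
  obtain ⟨k, hk⟩ := hf c hc
  have h1 : Tendsto g (comap T.pr (fl c)) (comap T.pr (fl c)) := by
    rw [tendsto_comap_iff]
    have : T.pr ∘ g = T.pr := funext hg
    rw [this]
    exact tendsto_comap
  refine ⟨k, (hk.comp_tendsto h1).congr_right fun x => ?_⟩
  simp [hg]

theorem mod_of_ends {f : X → ℂ}
    (h : ∀ i, ∃ k : ℕ, (fun τ => f (T.γ i τ)) =O[𝓝[≠] 0] fun τ => τ⁻¹ ^ k) : Mod T f := by
  classical
  intro c hc
  choose k hk using h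
  have h1 : ∀ i, ∃ C : ℝ, 0 ≤ C ∧ ∃ δ : ℝ, 0 < δ ∧ δ ≤ 1 ∧ ∀ τ : ℂ, τ ≠ 0 → ‖τ‖ < δ →
      ‖f (T.γ i τ)‖ ≤ C * ‖τ⁻¹‖ ^ k i := by
    intro i
    obtain ⟨C, hC, h2⟩ := (hk i).exists_nonneg
    have h3 := h2.bound
    rw [eventually_nhdsWithin_iff, Metric.eventually_nhds_iff] at h3
    obtain ⟨δ, hδ, h4⟩ := h3
    refine ⟨C, hC, min δ 1, lt_min hδ one_pos, min_le_right _ _, fun τ h5 h6 => ?_⟩
    have h7 := h4 (y := τ) (by simpa using h6.trans_le (min_le_left _ _)) h5
    rwa [norm_pow] at h7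
  choose C hC δ hδ hδ1 hb using h1
  refine ⟨Finset.univ.sup k, IsBigO.of_bound (∑ i, C i) ?_⟩
  have h2 : ∀ᶠ w in fl c, ∀ x, T.pr x = w →
      ∃ i τ, T.c i = c ∧ 0 < ‖τ‖ ∧ ‖τ‖ < T.ε ∧ T.γ i τ = x := by
    cases c with
    | none =>
      obtain ⟨R, hR⟩ := T.cover_inf
      filter_upwards [(tendsto_norm_cobounded_atTop (E := ℂ)).eventually_gt_atTop R] with w hw x hx
      exact hR x (by rwa [hx])
    | some a =>
      obtain ⟨η, hη, hR⟩ := T.cover_fin a (hc a rfl)
      filter_upwards [nhdsWithin_le_nhds (ball_mem_nhds a hη)] with w hw x hx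
      exact hR x (by rw [hx]; exact mem_ball_iff_norm.1 hw)
  have h3 : ∀ᶠ w in fl c, ∀ i, (δ i)⁻¹ ^ T.m i < ‖big c w‖ := by
    rw [eventually_all]
    exact fun i => (tendsto_big c).eventually_gt_atTop _
  filter_upwards [tendsto_comap.eventually h2, tendsto_comap.eventually h3] with x h4 h5
  obtain ⟨i, τ, e1, e2, e3, rfl⟩ := h4 x rfl
  have h6 := h5 i
  rw [T.pr_γ i τ e2 e3, e1, big_endPr] at h6 ⊢
  rw [norm_pow] at h6
  have h7 : (δ i)⁻¹ < ‖τ⁻¹‖ := lt_of_pow_lt_pow_left₀ _ (norm_nonneg _) h6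
  have h8 : ‖τ‖ < δ i := by
    rw [norm_inv] at h7
    exact (inv_lt_inv₀ (hδ i) e2).1 h7
  have h9 : 1 ≤ ‖τ⁻¹‖ := ((one_le_inv₀ (hδ i)).2 (hδ1 i)).trans h7.le
  refine (hb i τ (norm_pos_iff.1 e2) h8).trans ?_
  rw [norm_pow, norm_pow, ← pow_mul]
  refine mul_le_mul (Finset.single_le_sum (fun j _ => hC j) (Finset.mem_univ i))
    (pow_le_pow_right₀ h9 ?_) (by positivity) (Finset.sum_nonneg fun j _ => hC j)
  exact (Finset.le_sup (f := k) (Finset.mem_univ i)).trans
    (Nat.le_mul_of_pos_left _ (T.mpos i))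

variable [T2Space X]

variable (T) in
/-- the atlas of the compactification -/
def atl : CAtl T.Cp where
  ι := T.SecD ⊕ T.ι
  c := T.ch0
  cover p := T.exists_mem_source p
  hol := T.holo_ch0

theorem tr_sec_sec {s s' : T.SecD} {z : ℂ} (hz : z ∈ (atl T).dom (Sum.inl s) (Sum.inl s')) :
    (atl T).tr (Sum.inl s) (Sum.inl s') z = z := by
  obtain ⟨h1, ⟨z', h2, h3⟩⟩ := hz
  have h3' : T.jn (s'.s z') = T.jn (s.s z) := h3
  have h4 : z' = z := by
    have := congrArg T.pr (T.jn_injective h3')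
    rwa [s'.sec z' h2, s.sec z h1] at this
  change (T.secCh s') (T.jn (s.s z)) = z
  rw [← h3', h4]
  rw [h4] at h2
  exact mkCh_apply h2

theorem tr_end_sec {i : T.ι} {s' : T.SecD} {τ : ℂ}
    (hz : τ ∈ (atl T).dom (Sum.inr i) (Sum.inl s')) (h0 : τ ≠ 0) :
    (atl T).tr (Sum.inr i) (Sum.inl s') τ = endPr (T.c i) (T.m i) τ := by
  obtain ⟨k1, ⟨z', k2, k3⟩⟩ := hz
  have k3' : T.jn (s'.s z') = T.D i τ := k3
  change (T.secCh s') (T.D i τ) = _
  rw [← k3']
  have k4 : (T.secCh s') (T.jn (s'.s z')) = z' := mkCh_apply k2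
  rw [k4]
  have k1' : τ ∈ ball (0 : ℂ) T.ε := k1
  rw [T.D_of_ne i h0] at k3'
  have k6 := congrArg T.pr (T.jn_injective k3')
  rw [mem_ball_zero_iff] at k1'
  rwa [T.pr_γ i τ (norm_pos_iff.2 h0) k1', s'.sec z' k2] at k6

/-- **the separating function** -/
theorem exists_sep [ConnectedSpace X] (x₀ : X) :
    ∃ G : X → ℂ, T.Hol G ∧ Mod T G ∧ G x₀ ≠ 0 ∧ ∀ x, x ≠ x₀ → T.pr x = T.pr x₀ → G x = 0 := by
  classical
  choose sx hr hw hx using T.exists_secD
  have hmem : ∀ x, T.pr x ∈ ball (sx x).w (sx x).r := fun x => by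
    rw [hw x]; exact mem_ball_self (hr x)
  obtain ⟨h, m, c, hc, hm, htr, hd, hlim⟩ :=
    exists_form (A := atl T) (atl T).poisson (Sum.inl (sx x₀)) (z0 := T.pr x₀) (hmem x₀)
  have hp0 : ((atl T).c (Sum.inl (sx x₀))).symm (T.pr x₀) = T.jn x₀ := congrArg T.jn (hx x₀)
  rw [hp0] at hd
  have hss : ∀ s s' : T.SecD, ∀ z ∈ (atl T).dom (Sum.inl s) (Sum.inl s'),
      h (Sum.inl s) z = h (Sum.inl s') z := by
    intro s s' z hz
    have e : (atl T).tr (Sum.inl s) (Sum.inl s') =ᶠ[𝓝 z] id := by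
      filter_upwards [((atl T).isOpen_dom _ _).mem_nhds hz] with y hy using tr_sec_sec hy
    rw [htr _ _ z hz, tr_sec_sec hz, e.deriv_eq, deriv_id, mul_one]
  let F : X → ℂ := fun x => h (Sum.inl (sx x)) (T.pr x)
  have hF : ∀ s : T.SecD, ∀ z ∈ ball s.w s.r, F (s.s z) = h (Sum.inl s) z := by
    intro s z hz
    have e : T.pr (s.s z) = z := s.sec z hz
    show h (Sum.inl (sx (s.s z))) (T.pr (s.s z)) = _
    rw [e]
    refine (hss s _ z ⟨hz, T.pr (s.s z), hmem _, ?_⟩).symm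
    exact congrArg T.jn (hx _)
  have hFe : ∀ i, ∀ τ : ℂ, τ ≠ 0 → ‖τ‖ < T.ε →
      h (Sum.inr i) τ = F (T.γ i τ) * deriv (endPr (T.c i) (T.m i)) τ := by
    intro i τ h0 h1
    have hz : τ ∈ (atl T).dom (Sum.inr i) (Sum.inl (sx (T.γ i τ))) := by
      refine ⟨mem_ball_zero_iff.2 h1, T.pr (T.γ i τ), hmem _, ?_⟩
      show T.jn _ = T.D i τ
      rw [T.D_of_ne i h0, hx]
    have e : (atl T).tr (Sum.inr i) (Sum.inl (sx (T.γ i τ))) =ᶠ[𝓝 τ] endPr (T.c i) (T.m i) := by
      filter_upwards [((atl T).isOpen_dom _ _).mem_nhds hz, isOpen_ne.mem_nhds h0] with y hy hy0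
      exact tr_end_sec hy hy0
    rw [htr _ _ τ hz, e.deriv_eq, tr_end_sec hz h0, ← T.pr_γ i τ (norm_pos_iff.2 h0) h1]
  let G : X → ℂ := fun x => if x = x₀ then c else (T.pr x - T.pr x₀) ^ m * F x
  have hG : ∀ x, x ≠ x₀ → G x = (T.pr x - T.pr x₀) ^ m * F x := fun x hx => if_neg hx
  have hG0 : G x₀ = c := if_pos rfl
  refine ⟨G, ?_, mod_of_ends fun i => isBigO_of_meromorphicAt ?_, by rwa [hG0], ?_⟩
  · intro w r s h1 h2
    let s' : T.SecD := ⟨w, r, s, h1, h2⟩
    have hoff : ∀ z ∈ ball w r, s z ≠ x₀ → DifferentiableAt ℂ (fun z => G (s z)) z := by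
      intro z hz hne
      have h3 : DifferentiableAt ℂ (h (Sum.inl s')) z :=
        hd (Sum.inl s') z hz fun h => hne (T.jn_injective h)
      have h4 : DifferentiableAt ℂ (fun y => (y - T.pr x₀) ^ m * h (Sum.inl s') y) z :=
        ((differentiableAt_id.sub_const _).pow m).mul h3
      refine h4.congr_of_eventuallyEq ?_
      have h5 : ContinuousAt s z := h1.continuousAt (isOpen_ball.mem_nhds hz)
      filter_upwards [isOpen_ball.mem_nhds hz, h5.eventually_ne hne] with y hy hy0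
      rw [hG _ hy0, h2 y hy]
      exact congrArg _ (hF s' y hy)
    intro z hz
    by_cases hne : s z = x₀
    · have hz0 : z = T.pr x₀ := by rw [← hne, h2 z hz]
      have hne' : ∀ y ∈ ball w r, y ≠ z → s y ≠ x₀ := by
        intro y hy hyz h3
        apply hyz
        rw [hz0, ← h3, h2 y hy]
      refine (Complex.analyticAt_of_differentiable_on_punctured_nhds_of_continuousAt ?_
        ?_).differentiableAt.differentiableWithinAt
      · filter_upwards [nhdsWithin_le_nhds (isOpen_ball.mem_nhds hz), self_mem_nhdsWithin]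
          with y hy hyz
        exact hoff y hy (hne' y hy hyz)
      · rw [← continuousWithinAt_compl_self]
        show Tendsto (fun z => G (s z)) (𝓝[≠] z) (𝓝 (G (s z)))
        rw [hne, hG0]
        have hdom : z ∈ (atl T).dom (Sum.inl s') (Sum.inl (sx x₀)) := by
          refine ⟨hz, T.pr x₀, hmem _, ?_⟩
          show T.jn _ = T.jn (s z)
          rw [hx, hne]
        rw [← hz0] at hlim
        refine hlim.congr' ?_
        filter_upwards [nhdsWithin_le_nhds (((atl T).isOpen_dom _ _).mem_nhds hdom),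
          self_mem_nhdsWithin] with y hy hyz
        have hy' : y ∈ ball w r := hy.1
        rw [hG _ (hne' y hy' hyz), h2 y hy', ← hz0, ← hss _ _ y hy]
        exact congrArg _ (hF s' y hy').symm
    · exact (hoff z hz hne).differentiableWithinAt
  · have hD : ∀ᶠ τ in 𝓝 (0 : ℂ), T.D i τ ≠ T.jn x₀ := by
      have h1 : ContinuousAt (T.D i) 0 := (T.map_nhds_D i (mem_ball_self T.εpos)).le
      refine h1.eventually_ne ?_
      rw [T.D_zero]
      exact (T.jn_ne_en x₀ i).symm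
    have ha : AnalyticAt ℂ (h (Sum.inr i)) 0 := by
      refine Complex.analyticAt_iff_eventually_differentiableAt.2 ?_
      filter_upwards [hD, ball_mem_nhds (0 : ℂ) T.εpos] with τ h1 h2
      exact hd (Sum.inr i) τ h2 h1
    have hme := meromorphicAt_endPr (T.c i) (T.m i)
    have h1 : MeromorphicAt (fun τ => (endPr (T.c i) (T.m i) τ - T.pr x₀) ^ m *
        (h (Sum.inr i) τ / deriv (endPr (T.c i) (T.m i)) τ)) 0 :=
      ((hme.sub (MeromorphicAt.const _ _)).pow m).mul (ha.meromorphicAt.div hme.deriv)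
    refine h1.congr ?_
    filter_upwards [nhdsWithin_le_nhds hD, nhdsWithin_le_nhds (ball_mem_nhds (0 : ℂ) T.εpos),
      self_mem_nhdsWithin] with τ h2 h3 h4
    have h4' : τ ≠ 0 := h4
    rw [mem_ball_zero_iff] at h3
    rw [T.D_of_ne i h4'] at h2
    obtain ⟨d, hd0, hder⟩ := hasStrictDerivAt_endPr (T.c i) (T.mpos i) h4'
    rw [hG _ fun h => h2 (congrArg T.jn h), hFe i τ h4' h3, hder.hasDerivAt.deriv,
      mul_div_cancel_right₀ _ hd0, T.pr_γ i τ (norm_pos_iff.2 h4') h3]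
  · intro x h1 h2
    rw [hG x h1, h2, sub_self, zero_pow hm.ne', zero_mul]

end

end Crest.Agent.T170.RetE
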