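import Crest.Agent.T170.RetDefs_90

/-!
# Row 170, module C (helper90): the pieces of (G)

* `IsCov Z Q act` : a family of monic polynomials, simple roots off `Z`, with a simply transitive
  right action of `H` on the roots;
* `Per`, `Sel`    : the output of the monodromy computation;
* `Model`         : a plane model of a Galois extension of `ℂ(x)`;
* the leaves `ModelStmt`, `CovStmt`, `EvStmt`, `MonoStmt`, `LocFinStmt`, `LocInfStmt`, `GenStmt`.
-/

set_option autoImplicit false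

open Polynomial Filter Topology

noncomputable section

namespace Crest.Agent.T170.Ret

/-- a Galois covering of `ℂ ∖ Z` given by the roots of a family of monic polynomials. -/
structure IsCov {H : Type} [Group H] (Z : Set ℂ) (D : ℕ) (Q : ℂ → ℂ[X]) (act : H → ℂ → ℂ → ℂ) :
    Prop where
  pos : 0 < D
  monic : ∀ z, (Q z).Monic
  deg : ∀ z, (Q z).natDegree = D
  cont : ∀ i, Continuous fun z => (Q z).coeff i
  nodup : ∀ z, z ∉ Z → (Q z).roots.Nodup
  act_cont : ∀ g z t, z ∉ Z → ContinuousAt (fun p : ℂ × ℂ => act g p.1 p.2) (z, t)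
  act_root : ∀ g z t, z ∉ Z → (Q z).eval t = 0 → (Q z).eval (act g z t) = 0
  act_mul : ∀ g h z t, z ∉ Z → (Q z).eval t = 0 → act h z (act g z t) = act (g * h) z t
  trans : ∀ z t t', z ∉ Z → (Q z).eval t = 0 → (Q z).eval t' = 0 → ∃ g, t' = act g z t
  free : ∀ g g' z t, z ∉ Z → (Q z).eval t = 0 → act g z t = act g' z t → g = g'

/-- `exp (2 π i w)`. -/
def ee (w : ℂ) : ℂ := Complex.exp (2 * Real.pi * Complex.I * w)

/-- local monodromy `g` along `w ↦ p (exp (2 π i w))`, `im w` large. -/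
def Per {H : Type} (Z : Set ℂ) (Q : ℂ → ℂ[X]) (act : H → ℂ → ℂ → ℂ) (p : ℂ → ℂ) (g : H) : Prop :=
  ∃ (ρ : ℝ) (τ : ℂ → ℂ), ∀ w : ℂ, ρ < w.im → ContinuousAt τ w ∧ p (ee w) ∉ Z ∧
    (Q (p (ee w))).eval (τ w) = 0 ∧ τ (w + 1) = act g (p (ee w)) (τ w)

/-- a selection of roots which is locally continuous up to the action of `Γ`. -/
def Sel {H : Type} [Group H] (Z : Set ℂ) (Q : ℂ → ℂ[X]) (act : H → ℂ → ℂ → ℂ) (Γ : Subgroup H) :
    Prop :=
  ∃ sel : ℂ → ℂ, ∀ z₀, z₀ ∉ Z → ∃ σ : ℂ → ℂ, ∀ᶠ z in 𝓝 z₀, ContinuousAt σ z ∧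
    (Q z).eval (σ z) = 0 ∧ ∃ h ∈ Γ, sel z = act h z (σ z)

/-- **monodromy** (decreasing real parts). -/
def MonoStmt : Prop :=
  ∀ (H : Type) [Group H] [Finite H] (m : ℕ) (a : Fin m → ℂ), StrictAnti (fun i => (a i).re) →
    ∀ (D : ℕ) (Q : ℂ → ℂ[X]) (act : H → ℂ → ℂ → ℂ), IsCov (Set.range a) D Q act →
    ∃ s : Fin m → H, (∀ i, Per (Set.range a) Q act (fun e => a i + e) (s i)) ∧
      Per (Set.range a) Q act (fun e => e⁻¹) (List.ofFn s).prod⁻¹ ∧
      Sel (Set.range a) Q act (Subgroup.closure (Set.range s))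

section model

variable {K : Type} (N : Type) [Field K] [Field N] [Algebra ℂ K] [Algebra K N]

/-- `B ↦ B(x)` in `N`. -/
def xh (x : K) : ℂ[X] →+* N := (algebraMap K N).comp (Polynomial.aeval x : ℂ[X] →ₐ[ℂ] K).toRingHom

/-- a plane model of `N / ℂ(x)`; all points of `S` are declared bad. -/
structure Model [FiniteDimensional K N] (x : K) (S : Finset ℂ) where
  θ : N
  P : ℂ[X][X]
  d : ℂ[X]
  A : (N ≃ₐ[K] N) → ℂ[X][X]
  monic : P.Monic
  d_ne : d ≠ 0
  dS : ∀ b ∈ S, d.eval b = 0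
  prim : IntermediateField.adjoin K {θ} = ⊤
  ker : ∀ B : ℂ[X][X], B.eval₂ (xh N x) θ = 0 → P ∣ B
  prod : P.map (xh N x) = ∏ g : N ≃ₐ[K] N, (X - C (g θ))
  act_eq : ∀ g : N ≃ₐ[K] N, xh N x d * g θ = (A g).eval₂ (xh N x) θ
  simple : ∀ z t : ℂ, d.eval z ≠ 0 → P.evalEval z t = 0 → P.derivative.evalEval z t ≠ 0
  gen : ∀ f : N, ∃ B : ℂ[X], B ≠ 0 ∧ ∃ A' : ℂ[X][X], xh N x B * f = A'.eval₂ (xh N x) θ

variable {N} [FiniteDimensional K N] {x : K} {S : Finset ℂ}

/-- the bad set -/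
def Model.Z (M : Model N x S) : Set ℂ := {z | M.d.eval z = 0}

/-- the fibre polynomial -/
def Model.Q (M : Model N x S) (z : ℂ) : ℂ[X] := M.P.map (evalRingHom z)

/-- the action on the roots -/
def Model.act (M : Model N x S) (g : N ≃ₐ[K] N) (z t : ℂ) : ℂ :=
  (M.A g).evalEval z t / M.d.eval z

end model

/-- existence of models -/
def ModelStmt : Prop :=
  ∀ (K N : Type) [Field K] [Field N] [Algebra ℂ K] [Algebra K N] [FiniteDimensional K N]
    [IsGalois K N] (x : K), IsRat ℂ K x → ∀ S : Finset ℂ, Nonempty (Model N x S)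

/-- a model is a covering -/
def CovStmt : Prop :=
  ∀ (K N : Type) [Field K] [Field N] [Algebra ℂ K] [Algebra K N] [FiniteDimensional K N]
    [IsGalois K N] (x : K), IsRat ℂ K x → ∀ (S : Finset ℂ) (M : Model N x S),
    IsCov M.Z M.P.natDegree M.Q M.act

/-- evaluation is compatible with the action -/
def EvStmt : Prop :=
  ∀ (K N : Type) [Field K] [Field N] [Algebra ℂ K] [Algebra K N] [FiniteDimensional K N]
    [IsGalois K N] (x : K), IsRat ℂ K x → ∀ (S : Finset ℂ) (M : Model N x S)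
    (h : N ≃ₐ[K] N) (B B' : ℂ[X][X]), h (B.eval₂ (xh N x) M.θ) = B'.eval₂ (xh N x) M.θ →
    ∀ z t : ℂ, z ∉ M.Z → (M.Q z).eval t = 0 → B.evalEval z (M.act h z t) = B'.evalEval z t

/-- local monodromy at a finite point is a canonical generator -/
def LocFinStmt : Prop :=
  ∀ (K N : Type) [Field K] [Field N] [Algebra ℂ K] [Algebra K N] [FiniteDimensional K N]
    [IsGalois K N] (x : K), IsRat ℂ K x → ∀ (S : Finset ℂ) (M : Model N x S)
    (n : ℕ), 0 < n → ∀ g : N ≃ₐ[K] N, g ^ n = 1 → ∀ a μ : ℂ, μ ≠ 0 →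
    Per M.Z M.Q M.act (fun e => a + μ * e) g → IsGen ℂ (x - algebraMap ℂ K a) (zt n) n g

/-- local monodromy at infinity is a canonical generator -/
def LocInfStmt : Prop :=
  ∀ (K N : Type) [Field K] [Field N] [Algebra ℂ K] [Algebra K N] [FiniteDimensional K N]
    [IsGalois K N] (x : K), IsRat ℂ K x → ∀ (S : Finset ℂ) (M : Model N x S)
    (n : ℕ), 0 < n → ∀ g : N ≃ₐ[K] N, g ^ n = 1 → ∀ μ : ℂ, μ ≠ 0 →
    Per M.Z M.Q M.act (fun e => μ * e⁻¹) g → IsGen ℂ x⁻¹ (zt n) n g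

/-- the monodromy group is the Galois group -/
def GenStmt : Prop :=
  ∀ (K N : Type) [Field K] [Field N] [Algebra ℂ K] [Algebra K N] [FiniteDimensional K N]
    [IsGalois K N] (x : K), IsRat ℂ K x → ∀ (S : Finset ℂ) (M : Model N x S)
    (Γ : Subgroup (N ≃ₐ[K] N)), Sel M.Z M.Q M.act Γ → Γ = ⊤

end Crest.Agent.T170.Ret
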