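import Crest.Agent.T170.RetGDefs_90
import Crest.Agent.R257.AJ2_387

/-!
# Row 170, module C (helper37): the monodromy group is the Galois group (`GenStmt`)
-/

set_option autoImplicit false

open Polynomial Filter Topology

noncomputable section

namespace Crest.Agent.T170.Ret

/-- polynomial growth on a set -/
def PG (s : Set ℂ) (f : ℂ → ℂ) : Prop :=
  ∃ (c : ℝ) (k : ℕ), 0 ≤ c ∧ ∀ z ∈ s, ‖f z‖ ≤ c * (1 + ‖z‖) ^ k

theorem one_le_gr (z : ℂ) (k : ℕ) : (1 : ℝ) ≤ (1 + ‖z‖) ^ k :=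
  one_le_pow₀ (by linarith [norm_nonneg z])

theorem PG.const (s : Set ℂ) (a : ℂ) : PG s fun _ => a :=
  ⟨‖a‖, 0, norm_nonneg a, fun z _ => by simp⟩

theorem PG.id (s : Set ℂ) : PG s fun z => z :=
  ⟨1, 1, zero_le_one, fun z _ => by simp⟩

theorem PG.add {s : Set ℂ} {f g : ℂ → ℂ} (hf : PG s f) (hg : PG s g) :
    PG s fun z => f z + g z := by
  obtain ⟨c, k, hc, h⟩ := hf
  obtain ⟨c', k', hc', h'⟩ := hg
  refine ⟨c + c', k + k', add_nonneg hc hc', fun z hz => ?_⟩
  have h1 : (1 + ‖z‖) ^ k ≤ (1 + ‖z‖) ^ (k + k') :=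
    pow_le_pow_right₀ (by linarith [norm_nonneg z]) (Nat.le_add_right _ _)
  have h2 : (1 + ‖z‖) ^ k' ≤ (1 + ‖z‖) ^ (k + k') :=
    pow_le_pow_right₀ (by linarith [norm_nonneg z]) (Nat.le_add_left _ _)
  calc ‖f z + g z‖ ≤ ‖f z‖ + ‖g z‖ := norm_add_le _ _
    _ ≤ c * (1 + ‖z‖) ^ k + c' * (1 + ‖z‖) ^ k' := add_le_add (h z hz) (h' z hz)
    _ ≤ c * (1 + ‖z‖) ^ (k + k') + c' * (1 + ‖z‖) ^ (k + k') :=
        add_le_add (mul_le_mul_of_nonneg_left h1 hc) (mul_le_mul_of_nonneg_left h2 hc')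
    _ = _ := by ring

theorem PG.mul {s : Set ℂ} {f g : ℂ → ℂ} (hf : PG s f) (hg : PG s g) :
    PG s fun z => f z * g z := by
  obtain ⟨c, k, hc, h⟩ := hf
  obtain ⟨c', k', hc', h'⟩ := hg
  refine ⟨c * c', k + k', mul_nonneg hc hc', fun z hz => ?_⟩
  calc ‖f z * g z‖ = ‖f z‖ * ‖g z‖ := norm_mul _ _
    _ ≤ (c * (1 + ‖z‖) ^ k) * (c' * (1 + ‖z‖) ^ k') :=
        mul_le_mul (h z hz) (h' z hz) (norm_nonneg _) (by positivity)
    _ = _ := by ring

theorem PG.pow {s : Set ℂ} {f : ℂ → ℂ} (hf : PG s f) (n : ℕ) : PG s fun z => f z ^ n := by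
  induction n with
  | zero => simpa using PG.const s 1
  | succ n ih => simpa [pow_succ] using ih.mul hf

theorem PG.poly (s : Set ℂ) (p : ℂ[X]) : PG s fun z => p.eval z := by
  induction p using Polynomial.induction_on' with
  | add p q hp hq => simpa using hp.add hq
  | monomial n a => simpa using (PG.const s a).mul ((PG.id s).pow n)

theorem PG.evalEval {s : Set ℂ} {σ : ℂ → ℂ} (hσ : PG s σ) (A : ℂ[X][X]) :
    PG s fun z => A.evalEval z (σ z) := by
  induction A using Polynomial.induction_on' with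
  | add p q hp hq => simpa [evalEval_add] using hp.add hq
  | monomial n a =>
    have := (PG.poly s a).mul (hσ.pow n)
    simpa [← C_mul_X_pow_eq_monomial, evalEval_mul, evalEval_pow, evalEval_C, evalEval_X]
      using this

theorem PG.of_norm_le {s : Set ℂ} {f g : ℂ → ℂ} (hg : PG s g) (h : ∀ z ∈ s, ‖f z‖ ≤ ‖g z‖) :
    PG s f := by
  obtain ⟨c, k, hc, h'⟩ := hg
  exact ⟨c, k, hc, fun z hz => (h z hz).trans (h' z hz)⟩

theorem PG.norm {s : Set ℂ} {f : ℂ → ℂ} (hf : PG s f) : PG s fun z => (‖f z‖ : ℂ) :=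
  hf.of_norm_le fun z _ => by simp

theorem PG.sum {s : Set ℂ} {ι : Type*} (t : Finset ι) {f : ι → ℂ → ℂ} (h : ∀ i ∈ t, PG s (f i)) :
    PG s fun z => ∑ i ∈ t, f i z := by
  classical
  induction t using Finset.induction_on with
  | empty => simpa using PG.const s 0
  | insert a t ha ih =>
    simp only [Finset.sum_insert ha]
    exact (h a (Finset.mem_insert_self _ _)).add (ih fun i hi => h i (Finset.mem_insert_of_mem hi))

theorem norm_root_le {p : ℂ[X]} (hp : p.Monic) {t : ℂ} (ht : p.eval t = 0) :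
    ‖t‖ ≤ ∑ i ∈ Finset.range p.natDegree, ‖p.coeff i‖ + 1 := by
  have h := (IsRoot.norm_lt_cauchyBound hp.ne_zero (a := t) ht).le
  have h2 : p.cauchyBound ≤ ∑ i ∈ Finset.range p.natDegree, ‖p.coeff i‖₊ + 1 := by
    rw [cauchyBound, hp.leadingCoeff, nnnorm_one, div_one]
    refine add_le_add_left ?_ _
    exact Finset.sup_le fun i hi =>
      Finset.single_le_sum (f := fun i => ‖p.coeff i‖₊) (fun _ _ => zero_le) hi
  have h3 := h.trans h2
  have h4 : ((‖t‖₊ : NNReal) : ℝ) ≤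
      ((∑ i ∈ Finset.range p.natDegree, ‖p.coeff i‖₊ + 1 : NNReal) : ℝ) := by exact_mod_cast h3
  simpa using h4

theorem PG.root {s : Set ℂ} {P : ℂ[X][X]} (hP : P.Monic) {σ : ℂ → ℂ}
    (h : ∀ z ∈ s, (P.map (evalRingHom z)).eval (σ z) = 0) : PG s σ := by
  have h1 : PG s fun z => ∑ i ∈ Finset.range P.natDegree, (‖(P.coeff i).eval z‖ : ℂ) + 1 :=
    (PG.sum _ fun i _ => (PG.poly s (P.coeff i)).norm).add (PG.const s 1)
  refine h1.of_norm_le fun z hz => ?_
  have h2 := norm_root_le (hP.map (evalRingHom z)) (h z hz)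
  rw [hP.natDegree_map] at h2
  refine h2.trans (le_of_eq ?_)
  have : (∑ i ∈ Finset.range P.natDegree, (‖(P.coeff i).eval z‖ : ℂ) + 1) =
      ((∑ i ∈ Finset.range P.natDegree, ‖(P.coeff i).eval z‖ + 1 : ℝ) : ℂ) := by push_cast; rfl
  rw [this, Complex.norm_real, Real.norm_of_nonneg (by positivity)]
  simp [coeff_map]

/-- an entire function of polynomial growth is a polynomial -/
theorem exists_poly_aux (k : ℕ) : ∀ (G : ℂ → ℂ) (c : ℝ), Differentiable ℂ G → 0 ≤ c →
    (∀ z, ‖G z‖ ≤ c * (1 + ‖z‖) ^ k) → ∃ q : ℂ[X], ∀ z, G z = q.eval z := by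
  induction k with
  | zero =>
    intro G c hG _ h
    have hb : Bornology.IsBounded (Set.range G) := by
      rw [isBounded_iff_forall_norm_le]
      refine ⟨c, ?_⟩
      rintro _ ⟨z, rfl⟩
      simpa using h z
    obtain ⟨a, ha⟩ := hG.exists_const_forall_eq_of_bounded hb
    exact ⟨C a, fun z => by simp [ha z]⟩
  | succ k ih =>
    intro G c hG hc h
    have hG1 : Differentiable ℂ (dslope G 0) := by
      rw [← differentiableOn_univ]
      exact (Complex.differentiableOn_dslope univ_mem).2 hG.differentiableOn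
    obtain ⟨c1, hc1⟩ := (isCompact_closedBall (0 : ℂ) 1).exists_bound_of_continuousOn
      hG1.continuous.continuousOn
    have hc1' : 0 ≤ c1 := (norm_nonneg _).trans (hc1 0 (by simp))
    have hkey : ∀ z, G z = G 0 + z * dslope G 0 z := fun z => by
      have := sub_smul_dslope G 0 z
      simp only [sub_zero, smul_eq_mul] at this
      rw [this]; ring
    obtain ⟨q, hq⟩ := ih (dslope G 0) (4 * c + c1) hG1 (by positivity) fun z => by
      have hg := one_le_gr z k
      rcases le_total ‖z‖ 1 with hz | hz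
      · have := hc1 z (by simpa using hz)
        nlinarith
      · have h0 : ‖G 0‖ ≤ c := by simpa using h 0
        have hz1 := h z
        have e1 : ‖z‖ * ‖dslope G 0 z‖ ≤ ‖G z‖ + ‖G 0‖ := by
          rw [← norm_mul]
          have : z * dslope G 0 z = G z - G 0 := by rw [hkey z]; ring
          rw [this]; exact norm_sub_le _ _
        have e2 : c * (1 + ‖z‖) ^ (k + 1) ≤ ‖z‖ * (2 * c * (1 + ‖z‖) ^ k) := by
          rw [pow_succ]
          have : 0 ≤ c * (1 + ‖z‖) ^ k := by positivity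
          nlinarith
        have e3 : c ≤ ‖z‖ * (2 * c * (1 + ‖z‖) ^ k) := by
          have : c ≤ c * (1 + ‖z‖) ^ k := le_mul_of_one_le_right hc hg
          have h5 : 0 ≤ c * (1 + ‖z‖) ^ k := by positivity
          nlinarith
        have e4 : ‖z‖ * ‖dslope G 0 z‖ ≤ ‖z‖ * (4 * c * (1 + ‖z‖) ^ k) := by nlinarith
        have e5 := le_of_mul_le_mul_left e4 (by linarith)
        have : 0 ≤ c1 * (1 + ‖z‖) ^ k := by positivity
        nlinarith
    refine ⟨C (G 0) + X * q, fun z => ?_⟩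
    rw [hkey z, hq z]; simp

/-- removable singularities and Liouville -/
theorem exists_poly {d : ℂ[X]} (hd : d ≠ 0) {F : ℂ → ℂ}
    (hF : ∀ z, d.eval z ≠ 0 → AnalyticAt ℂ F z) (hg : PG {z | d.eval z ≠ 0} F) :
    ∃ q : ℂ[X], ∀ z, d.eval z * F z = q.eval z := by
  set G : ℂ → ℂ := fun z => d.eval z * F z with hG
  have hfin : {z : ℂ | d.eval z = 0}.Finite := by
    have := Polynomial.finite_setOfPred_isRoot hd
    simpa [IsRoot] using this
  have hdan : ∀ z, AnalyticAt ℂ (fun z => d.eval z) z := fun z =>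
    d.differentiable.analyticAt z
  have hGa : ∀ z, d.eval z ≠ 0 → AnalyticAt ℂ G z := fun z hz => (hdan z).mul (hF z hz)
  obtain ⟨c, k, hc, h⟩ := hg
  have hb : ∀ z, ‖G z‖ ≤ ‖d.eval z‖ * (c * (1 + ‖z‖) ^ k) := fun z => by
    by_cases hz : d.eval z = 0
    · simp [hG, hz]
    · rw [hG]; dsimp only; rw [norm_mul]
      exact mul_le_mul_of_nonneg_left (h z hz) (norm_nonneg _)
  have hdiff : Differentiable ℂ G := by
    intro z
    by_cases hz : d.eval z = 0
    · refine (Complex.analyticAt_of_differentiable_on_punctured_nhds_of_continuousAt ?_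
        ?_).differentiableAt
      · have h1 : ∀ᶠ w in 𝓝[≠] z, w ∉ {z : ℂ | d.eval z = 0} := by
          have h2 : ({w : ℂ | d.eval w = 0} \ {z}).Finite := hfin.subset Set.sdiff_subset
          have h3 : ∀ᶠ w in 𝓝 z, w ∉ ({w : ℂ | d.eval w = 0} \ {z}) :=
            h2.isClosed.isOpen_compl.mem_nhds (by simp)
          filter_upwards [nhdsWithin_le_nhds h3, self_mem_nhdsWithin] with w hw hw' hw''
          exact hw ⟨hw'', hw'⟩
        filter_upwards [h1] with w hw
        exact (hGa w hw).differentiableAt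
      · have h0 : G z = 0 := by simp [hG, hz]
        rw [ContinuousAt, h0]
        have hc2 : Continuous fun w : ℂ => ‖d.eval w‖ * (c * (1 + ‖w‖) ^ k) := by
          have := d.continuous
          fun_prop
        have h2 := hc2.tendsto z
        rw [hz, norm_zero, zero_mul] at h2
        exact squeeze_zero_norm hb h2
    · exact (hGa z hz).differentiableAt
  obtain ⟨c', k', hc', h'⟩ := PG.poly Set.univ d
  refine exists_poly_aux (k' + k) G (c' * c) hdiff (mul_nonneg hc' hc) fun z => (hb z).trans ?_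
  calc ‖d.eval z‖ * (c * (1 + ‖z‖) ^ k) ≤ (c' * (1 + ‖z‖) ^ k') * (c * (1 + ‖z‖) ^ k) :=
        mul_le_mul_of_nonneg_right (h' z trivial) (by positivity)
    _ = _ := by ring

theorem analyticAt_evalEval (A : ℂ[X][X]) {σ : ℂ → ℂ} {z : ℂ} (hσ : AnalyticAt ℂ σ z) :
    AnalyticAt ℂ (fun w => A.evalEval w (σ w)) z := by
  induction A using Polynomial.induction_on' with
  | add p q hp hq => simpa [evalEval_add] using hp.fun_add hq
  | monomial n a =>
    have := (a.differentiable.analyticAt z).fun_mul (hσ.fun_pow n)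
    simpa [← C_mul_X_pow_eq_monomial, evalEval_mul, evalEval_pow, evalEval_C, evalEval_X]
      using this

theorem genStmt_of (hcov : CovStmt) (hev : EvStmt) : GenStmt := by
  intro K N _ _ _ _ _ _ x hx S M Γ hsel
  have hC := hcov K N x hx S M
  obtain ⟨sel, hsel⟩ := hsel
  have hfin : M.Z.Finite := by
    have := Polynomial.finite_setOfPred_isRoot M.d_ne
    simpa [IsRoot, Model.Z] using this
  have hQ : ∀ z t, (M.Q z).eval t = M.P.evalEval z t := fun z t => by
    rw [Model.Q, map_evalRingHom_eval]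
  have hroot : ∀ z, z ∉ M.Z → (M.Q z).eval (sel z) = 0 := fun z hz => by
    obtain ⟨σ, hσ⟩ := hsel z hz
    obtain ⟨-, h2, h, -, h3⟩ := hσ.self_of_nhds
    rw [h3]; exact hC.act_root h z _ hz h2
  have hxh : ∀ B : ℂ[X], B ≠ 0 → Polynomial.aeval x B ≠ 0 := fun B hB h0 => hx.1 ⟨B, hB, h0⟩
  rw [← IntermediateField.fixingSubgroup_fixedField Γ]
  suffices hbot : IntermediateField.fixedField Γ = ⊥ by
    rw [hbot, IntermediateField.fixingSubgroup_bot]
  rw [eq_bot_iff]
  intro f hf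
  obtain ⟨B, hB, A, hA⟩ := M.gen f
  have hfix : ∀ h ∈ Γ, h (A.eval₂ (xh N x) M.θ) = A.eval₂ (xh N x) M.θ := fun h hh => by
    rw [← hA, map_mul, (IntermediateField.mem_fixedField_iff Γ f).1 hf h hh]
    congr 1
    exact h.commutes _
  set F : ℂ → ℂ := fun z => A.evalEval z (sel z) with hF
  have hFan : ∀ z, M.d.eval z ≠ 0 → AnalyticAt ℂ F z := fun z hz => by
    obtain ⟨σ, hσ⟩ := hsel z hz
    have hσ0 := hσ.self_of_nhds
    have hσan : AnalyticAt ℂ σ z := by
      refine R257.AJ387.analyticAt_root (Q := M.Q) (d := M.P.natDegree)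
        (Eventually.of_forall fun t => (hC.deg t).le) (fun i => ?_) hσ0.1
        (hσ.mono fun t ht => ht.2.1) ?_
      · simpa [Model.Q, coeff_map] using (M.P.coeff i).differentiable.analyticAt z
      · have := M.simple z (σ z) hz (by rw [← hQ]; exact hσ0.2.1)
        rwa [Model.Q, derivative_map, map_evalRingHom_eval]
    refine (analyticAt_evalEval A hσan).congr ?_
    have hZ : ∀ᶠ w in 𝓝 z, w ∉ M.Z := hfin.isClosed.isOpen_compl.mem_nhds hz
    filter_upwards [hσ, hZ] with w hw hwZ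
    obtain ⟨-, h2, h, hh, h3⟩ := hw
    rw [hF]; dsimp only
    rw [h3, hev K N x hx S M h A A (hfix h hh) w (σ w) hwZ h2]
  have hFg : PG {z | M.d.eval z ≠ 0} F :=
    (PG.root M.monic fun z hz => hroot z hz).evalEval A
  obtain ⟨q, hq⟩ := exists_poly M.d_ne hFan hFg
  set R : ℂ[X][X] := C M.d * A - C q with hR
  have hR0 : R.eval₂ (xh N x) M.θ = 0 := by
    by_contra hne
    obtain ⟨B₂, hB₂, A₂, hA₂⟩ := M.gen (R.eval₂ (xh N x) M.θ)⁻¹
    have h1 : (A₂ * R - C B₂).eval₂ (xh N x) M.θ = 0 := by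
      rw [eval₂_sub, eval₂_mul, eval₂_C, ← hA₂]; field_simp; ring
    obtain ⟨W, hW⟩ := M.ker _ h1
    apply hB₂
    refine Polynomial.eq_zero_of_infinite_isRoot _ (hfin.infinite_compl.mono fun z hz => ?_)
    have h2 := congrArg (evalEval z (sel z)) hW
    rw [evalEval_mul, ← hQ, hroot z hz, zero_mul, evalEval_sub, evalEval_mul, hR, evalEval_sub,
      evalEval_mul, evalEval_C, evalEval_C, evalEval_C, ← hq z] at h2
    simpa [hF] using h2
  rw [hR, eval₂_sub, eval₂_mul, eval₂_C, eval₂_C, ← hA, sub_eq_zero] at hR0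
  refine ⟨Polynomial.aeval x q / (Polynomial.aeval x M.d * Polynomial.aeval x B), ?_⟩
  have h1 : xh N x M.d ≠ 0 := (map_ne_zero (algebraMap K N)).2 (hxh _ M.d_ne)
  have h2 : xh N x B ≠ 0 := (map_ne_zero (algebraMap K N)).2 (hxh _ hB)
  change algebraMap K N _ = f
  rw [map_div₀, map_mul]
  change xh N x q / (xh N x M.d * xh N x B) = f
  rw [← hR0]; field_simp

end Crest.Agent.T170.Ret
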