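import Crest.Agent.T170.RetGDefs_90

/-!
# Row 170, module C, leaf `ModelStmt` (helper65): existence of plane models
-/

set_option autoImplicit false

open Polynomial

noncomputable section

namespace Crest.Agent.T170.Ret

section general

variable {R K N : Type} [CommRing R] [IsDomain R] [Field K] [Field N] [Algebra R K]
  [IsFractionRing R K] [Algebra K N] [Algebra R N] [IsScalarTower R K N] [FiniteDimensional K N]

theorem exists_int_prim_65 [Algebra.IsSeparable K N] :
    ∃ θ : N, IsIntegral R θ ∧ IntermediateField.adjoin K {θ} = ⊤ := by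
  obtain ⟨α, hα⟩ := Field.exists_primitive_element K N
  have := IsLocalization.isAlgebraic K (nonZeroDivisors R)
  have := Algebra.IsAlgebraic.trans R K N
  obtain ⟨y, hy, hint⟩ := (Algebra.IsAlgebraic.isAlgebraic (R := R) α).exists_integral_multiple
  refine ⟨y • α, hint, ?_⟩
  rw [eq_top_iff, ← hα, IntermediateField.adjoin_simple_le_iff]
  have hyK : algebraMap R K y ≠ 0 := by
    simpa using hy
  have h1 : α = (algebraMap R K y)⁻¹ • (y • α) := by
    rw [← algebraMap_smul K y α, smul_smul, inv_mul_cancel₀ hyK, one_smul]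
  rw [h1]
  have h2 : y • α ∈ IntermediateField.adjoin K {y • α} :=
    IntermediateField.mem_adjoin_simple_self K _
  have := IntermediateField.smul_mem _ (x := (algebraMap R K y)⁻¹) h2
  rw [← h1] at this ⊢
  exact this

theorem gen_65 {θ : N} (hθ : IntermediateField.adjoin K {θ} = ⊤) (f : N) :
    ∃ B : R, B ≠ 0 ∧ ∃ A' : R[X], algebraMap R N B * f = A'.eval₂ (algebraMap R N) θ := by
  have halg : IsAlgebraic K θ := Algebra.IsAlgebraic.isAlgebraic θ
  have hf : f ∈ (IntermediateField.adjoin K {θ}).toSubalgebra := by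
    rw [hθ]; trivial
  rw [IntermediateField.adjoin_simple_toSubalgebra_of_isAlgebraic halg,
    Algebra.adjoin_singleton_eq_range_aeval] at hf
  obtain ⟨q, hq⟩ := hf
  obtain ⟨b, hb, hbq⟩ := IsLocalization.integerNormalization_spec (nonZeroDivisors R) q
  refine ⟨b, nonZeroDivisors.ne_zero hb, IsLocalization.integerNormalization (nonZeroDivisors R) q,
    ?_⟩
  have h1 := congrArg (aeval θ) hbq
  rw [aeval_map_algebraMap, ← algebraMap_smul K b q, map_smul] at h1
  rw [← aeval_def, h1, Algebra.smul_def, ← IsScalarTower.algebraMap_apply]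
  congr 1
  exact hq.symm

theorem prod_65 [IsGalois K N] {θ : N} (hθ : IntermediateField.adjoin K {θ} = ⊤) :
    (minpoly K θ).map (algebraMap K N) = ∏ g : N ≃ₐ[K] N, (X - C (g θ)) := by
  classical
  have hint : IsIntegral K θ := Algebra.IsIntegral.isIntegral θ
  have hinj : Function.Injective fun g : N ≃ₐ[K] N => g θ := by
    intro g h hgh
    have h1 : (g : N →ₐ[K] N) = (h : N →ₐ[K] N) := by
      have := (Field.primitive_element_iff_algHom_eq_of_eval' K N
        (fun z => IsGalois.splits K z) θ).1 hθ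
      exact this hgh
    exact AlgEquiv.coe_toAlgHom_injective h1
  have hdeg : (minpoly K θ).natDegree = Fintype.card (N ≃ₐ[K] N) := by
    rw [← Nat.card_eq_fintype_card, IsGalois.card_aut_eq_finrank,
      (Field.primitive_element_iff_minpoly_natDegree_eq K θ).1 hθ]
  apply eq_of_monic_of_dvd_of_natDegree_le
  · exact monic_prod_of_monic _ _ fun g _ => monic_X_sub_C _
  · exact (minpoly.monic hint).map _
  · apply Finset.prod_dvd_of_coprime
    · intro g _ h _ hgh
      exact pairwise_coprime_X_sub_C hinj hgh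
    · intro g _
      rw [dvd_iff_isRoot, IsRoot.def, eval_map_algebraMap, aeval_algHom_apply, minpoly.aeval,
        map_zero]
  · rw [natDegree_map, hdeg, natDegree_prod_of_monic _ _ fun g _ => monic_X_sub_C _]
    simp

end general

theorem modelStmt_65 : ModelStmt := by
  intro K N _ _ _ _ _ _ x hx S
  classical
  let : Algebra ℂ[X] K := (Polynomial.aeval x : ℂ[X] →ₐ[ℂ] K).toRingHom.toAlgebra
  have hinjK : Function.Injective (algebraMap ℂ[X] K) :=
    (transcendental_iff_injective).1 hx.1
  have : FaithfulSMul ℂ[X] K := (faithfulSMul_iff_algebraMap_injective _ _).2 hinjK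
  have : IsFractionRing ℂ[X] K := IsFractionRing.of_field _ _ fun z => by
    have hz : z ∈ IntermediateField.adjoin ℂ {x} := by rw [hx.2]; trivial
    obtain ⟨r, s, h⟩ := (IntermediateField.mem_adjoin_simple_iff ℂ z).1 hz
    exact ⟨r, s, h⟩
  let : Algebra ℂ[X] N := (xh N x).toAlgebra
  have : IsScalarTower ℂ[X] K N := IsScalarTower.of_algebraMap_eq fun _ => rfl
  have hinjN : Function.Injective (algebraMap ℂ[X] N) :=
    (algebraMap K N).injective.comp hinjK
  have : FaithfulSMul ℂ[X] N := (faithfulSMul_iff_algebraMap_injective _ _).2 hinjN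
  have hxh : xh N x = algebraMap ℂ[X] N := rfl
  obtain ⟨θ, hint, hθ⟩ := exists_int_prim_65 (R := ℂ[X]) (K := K) (N := N)
  have hgen := gen_65 (R := ℂ[X]) hθ
  have hmin : minpoly K θ = (minpoly ℂ[X] θ).map (algebraMap ℂ[X] K) :=
    minpoly.isIntegrallyClosed_eq_field_fractions' K hint
  have hker : ∀ B : ℂ[X][X], B.eval₂ (algebraMap ℂ[X] N) θ = 0 → minpoly ℂ[X] θ ∣ B :=
    fun B hB => minpoly.isIntegrallyClosed_dvd hint hB
  have hsep : aeval θ (minpoly ℂ[X] θ).derivative ≠ 0 := by
    have h1 : (minpoly K θ).Separable := Algebra.IsSeparable.isSeparable K θ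
    have h2 := h1.aeval_derivative_ne_zero (minpoly.aeval K θ)
    rwa [hmin, derivative_map, aeval_map_algebraMap] at h2
  obtain ⟨B, hB, A', hA'⟩ := hgen (aeval θ (minpoly ℂ[X] θ).derivative)⁻¹
  choose Bg hBg Ag hAg using fun g : N ≃ₐ[K] N => hgen (g θ)
  have hdvd : minpoly ℂ[X] θ ∣ A' * (minpoly ℂ[X] θ).derivative - C B := by
    apply hker
    rw [eval₂_sub, eval₂_mul, eval₂_C, ← hA', ← aeval_def, mul_assoc, inv_mul_cancel₀ hsep, mul_one,
      sub_self]
  refine ⟨{ θ := θ
            P := minpoly ℂ[X] θ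
            d := B * (∏ b ∈ S, (X - C b)) * ∏ g, Bg g
            A := fun g => C (B * (∏ b ∈ S, (X - C b)) * ∏ h ∈ Finset.univ.erase g, Bg h) * Ag g
            monic := minpoly.monic hint
            d_ne := ?_
            dS := ?_
            prim := hθ
            ker := hker
            prod := ?_
            act_eq := ?_
            simple := ?_
            gen := hgen }⟩
  · refine mul_ne_zero (mul_ne_zero hB ?_) (Finset.prod_ne_zero_iff.2 fun g _ => hBg g)
    exact Finset.prod_ne_zero_iff.2 fun b _ => X_sub_C_ne_zero b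
  · intro b hb
    have : eval b (∏ c ∈ S, (X - C c)) = 0 := by
      rw [eval_prod]
      exact Finset.prod_eq_zero hb (by simp)
    rw [eval_mul, eval_mul, this, mul_zero, zero_mul]
  · rw [← prod_65 hθ, hmin, Polynomial.map_map, hxh, ← IsScalarTower.algebraMap_eq]
  · intro g
    rw [hxh, eval₂_mul, eval₂_C, ← hAg g, ← mul_assoc, ← map_mul,
      ← Finset.prod_erase_mul _ _ (Finset.mem_univ g), mul_assoc (B * _)]
  · intro z t hd hP hP'
    obtain ⟨c, hc⟩ := hdvd
    have h1 := congrArg (evalEval z t) hc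
    rw [evalEval_sub, evalEval_mul, evalEval_mul, hP, hP', evalEval_C, mul_zero, zero_mul, zero_sub,
      neg_eq_zero] at h1
    apply hd
    rw [eval_mul, eval_mul, h1, zero_mul, zero_mul]

end Crest.Agent.T170.Ret
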