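import Crest.Agent.T170.RetG_90
import Crest.Agent.T170.RetModel_65
import Crest.Agent.T170.RetCov_62
import Crest.Agent.T170.RetGen_37
import Crest.Agent.T170.GLocB_83

/-!
# Row 170, RET (G): the final assembly (helper83)
-/

namespace Crest.Agent.T170.Ret

/-- **(G)** -/
theorem gStmt : GStmt :=
  gStmt_of modelStmt_65 covStmt (Loc83.locFin_of covStmt) (Loc83.locInf_of covStmt)
    (genStmt_of covStmt evStmt)

end Crest.Agent.T170.Ret
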