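import Crest.Agent.T170.RetM2_90

/-!
# Row 170, RET (G), assembly (helper90): `GStmt` from the leaves
-/

set_option autoImplicit false

open Polynomial Filter Topology Set

noncomputable section

namespace Crest.Agent.T170.Ret

section scale

variable {H : Type} [Group H] {Z Z' : Set ℂ} {D : ℕ} {Q : ℂ → ℂ[X]} {act : H → ℂ → ℂ → ℂ}

theorem IsCov.scale (c : IsCov Z D Q act) (μ : ℂ) (hZ : ∀ u, u ∈ Z' ↔ μ * u ∈ Z) :
    IsCov Z' D (fun u => Q (μ * u)) (fun g u t => act g (μ * u) t) where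
  pos := c.pos
  monic _ := c.monic _
  deg _ := c.deg _
  cont i := (c.cont i).comp (continuous_const.mul continuous_id)
  nodup _ h := c.nodup _ fun h' => h ((hZ _).2 h')
  act_cont g z t h :=
    ContinuousAt.comp (f := fun p : ℂ × ℂ => (μ * p.1, p.2)) (x := (z, t))
      (g := fun p : ℂ × ℂ => act g p.1 p.2)
      (c.act_cont g (μ * z) t fun h' => h ((hZ _).2 h')) (by fun_prop)
  act_root g _ t h := c.act_root g _ t fun h' => h ((hZ _).2 h')
  act_mul g g' _ t h := c.act_mul g g' _ t fun h' => h ((hZ _).2 h')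
  trans _ t t' h := c.trans _ t t' fun h' => h ((hZ _).2 h')
  free g g' _ t h := c.free g g' _ t fun h' => h ((hZ _).2 h')

omit [Group H] in
theorem Per.unscale {μ : ℂ} (hZ : ∀ u, u ∈ Z' ↔ μ * u ∈ Z) {p p' : ℂ → ℂ}
    (hp : ∀ e, μ * p' e = p e) {g : H}
    (h : Per Z' (fun u => Q (μ * u)) (fun g u t => act g (μ * u) t) p' g) : Per Z Q act p g := by
  obtain ⟨ρ, τ, h⟩ := h
  refine ⟨ρ, τ, fun w hw => ?_⟩
  obtain ⟨h1, h2, h3, h4⟩ := h w hw
  simp only [hp] at h3 h4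
  exact ⟨h1, fun h' => h2 ((hZ _).2 (by rwa [hp])), h3, h4⟩

theorem Sel.unscale {μ : ℂ} (hμ : μ ≠ 0) (hZ : ∀ u, u ∈ Z' ↔ μ * u ∈ Z) {Γ : Subgroup H}
    (h : Sel Z' (fun u => Q (μ * u)) (fun g u t => act g (μ * u) t) Γ) : Sel Z Q act Γ := by
  obtain ⟨sel, h⟩ := h
  refine ⟨fun z => sel (μ⁻¹ * z), fun z₀ hz₀ => ?_⟩
  obtain ⟨σ, hσ⟩ := h (μ⁻¹ * z₀) fun h' => hz₀ (by
    have := (hZ _).1 h'
    rwa [mul_inv_cancel_left₀ hμ] at this)
  have hc : Continuous fun z : ℂ => μ⁻¹ * z := continuous_const.mul continuous_id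
  refine ⟨fun z => σ (μ⁻¹ * z), ?_⟩
  filter_upwards [(hc.tendsto z₀).eventually hσ] with z hz
  obtain ⟨h1, h2, h3⟩ := hz
  simp only [mul_inv_cancel_left₀ hμ] at h2 h3
  exact ⟨ContinuousAt.comp (f := fun z : ℂ => μ⁻¹ * z) h1 hc.continuousAt, h2, h3⟩

end scale

/-- a rotation which separates the real parts -/
theorem exists_rot (F : Finset ℂ) :
    ∃ l : ℂ, l ≠ 0 ∧ Set.InjOn (fun z => (l * z).re) F := by
  classical
  obtain ⟨t, ht⟩ := Infinite.exists_notMem_finset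
    ((F ×ˢ F).image fun p : ℂ × ℂ => (p.1 - p.2).re / (p.1 - p.2).im)
  refine ⟨⟨1, t⟩, fun h => by simpa using congrArg Complex.re h, fun z hz w hw h => ?_⟩
  simp only [Complex.mul_re, one_mul] at h
  by_cases h0 : (z - w).im = 0
  · rw [Complex.sub_im, sub_eq_zero] at h0
    rw [h0] at h
    exact Complex.ext (by linarith) h0
  · exfalso
    apply ht
    refine Finset.mem_image.2 ⟨(z, w), Finset.mem_product.2 ⟨hz, hw⟩, ?_⟩
    rw [div_eq_iff h0, Complex.sub_re, Complex.sub_im]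
    linarith

/-- enumeration by decreasing real parts after a rotation -/
theorem exists_enum (F : Finset ℂ) :
    ∃ (l : ℂ) (a : Fin F.card → ℂ), l ≠ 0 ∧ StrictAnti (fun i => (l * a i).re) ∧
      Set.range a = F := by
  obtain ⟨l, hl, hinj⟩ := exists_rot F
  have hinj' : Function.Injective fun z : F => -(l * z.1).re := fun z w h =>
    Subtype.ext (hinj z.2 w.2 (neg_injective h))
  letI : LinearOrder F := LinearOrder.lift' _ hinj'
  let e : Fin F.card ≃o F := monoEquivOfFin F (Fintype.card_coe F)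
  refine ⟨l, fun i => (e i).1, hl, fun i j hij => ?_, ?_⟩
  · have h : -(l * (e i).1).re < -(l * (e j).1).re := e.strictMono hij
    exact neg_lt_neg_iff.1 h
  · ext z
    constructor
    · rintro ⟨i, rfl⟩
      exact (e i).2
    · intro hz
      exact ⟨e.symm ⟨z, hz⟩, by simp⟩

/-- **(G)** from the leaves -/
theorem gStmt_of (h1 : ModelStmt) (h2 : CovStmt) (h3 : LocFinStmt) (h4 : LocInfStmt)
    (h5 : GenStmt) : GStmt := by
  intro K N _ _ _ _ _ _ x hx n hn hg S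
  classical
  obtain ⟨M⟩ := h1 K N x hx S
  obtain ⟨l, a, hl, ha, hr⟩ := exists_enum M.d.roots.toFinset
  have hZ : ∀ z, z ∈ Set.range a ↔ z ∈ M.Z := fun z => by
    rw [hr, Finset.mem_coe, Multiset.mem_toFinset, mem_roots M.d_ne]; rfl
  have hZ' : ∀ u, u ∈ Set.range (fun i => l * a i) ↔ l⁻¹ * u ∈ M.Z := fun u => by
    rw [← hZ]
    constructor
    · rintro ⟨i, rfl⟩
      exact ⟨i, by rw [inv_mul_cancel_left₀ hl]⟩
    · rintro ⟨i, hi⟩
      exact ⟨i, by simp only [hi, mul_inv_cancel_left₀ hl]⟩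
  obtain ⟨s, hs1, hs2, hs3⟩ := monoStmt (N ≃ₐ[K] N) _ (fun i => l * a i) ha _ _ _
    ((h2 K N x hx S M).scale l⁻¹ hZ')
  refine ⟨_, a, s, fun i j h => ha.injective (by simp only [h]), fun b hb => (hZ b).2 (M.dS b hb),
    fun i => ?_, ?_, ?_⟩
  · refine h3 K N x hx S M n hn _ (hg _) (a i) l⁻¹ (inv_ne_zero hl) ((hs1 i).unscale hZ' ?_)
    intro e
    rw [mul_add, inv_mul_cancel_left₀ hl]
  · exact h4 K N x hx S M n hn _ (hg _) l⁻¹ (inv_ne_zero hl) (hs2.unscale hZ' fun _ => rfl)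
  · exact h5 K N x hx S M _ (hs3.unscale (inv_ne_zero hl) hZ')

end Crest.Agent.T170.Ret
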