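import Crest.Agent.T170.RetGDefs_90
import Crest.Agent.R257.AJ1_387

/-!
# Row 170, RET (G), monodromy, part 1 (helper90): sections and the four-sector lemma
-/

set_option autoImplicit false

open Polynomial Filter Topology Set

noncomputable section

namespace Crest.Agent.T170.Ret

variable {H : Type} [Group H] {Z : Set ℂ} {D : ℕ} {Q : ℂ → ℂ[X]} {act : H → ℂ → ℂ → ℂ}

/-- a continuous root function over `p` on `T`. -/
structure Sec (Z : Set ℂ) (Q : ℂ → ℂ[X]) (T : Set ℂ) (p τ : ℂ → ℂ) : Prop where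
  pc : ContinuousOn p T
  off : ∀ w ∈ T, p w ∉ Z
  cont : ContinuousOn τ T
  root : ∀ w ∈ T, (Q (p w)).eval (τ w) = 0

theorem Sec.mono {T T' : Set ℂ} {p τ : ℂ → ℂ} (h : Sec Z Q T p τ) (hT : T' ⊆ T) :
    Sec Z Q T' p τ :=
  ⟨h.pc.mono hT, fun w hw => h.off w (hT hw), h.cont.mono hT, fun w hw => h.root w (hT hw)⟩

theorem Sec.comp {T T' : Set ℂ} {p τ q : ℂ → ℂ} (h : Sec Z Q T p τ) (hq : ContinuousOn q T')
    (hm : MapsTo q T' T) : Sec Z Q T' (fun w => p (q w)) (fun w => τ (q w)) :=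
  ⟨h.pc.comp hq hm, fun w hw => h.off _ (hm hw), h.cont.comp hq hm, fun w hw => h.root _ (hm hw)⟩

namespace IsCov

variable (c : IsCov Z D Q act)
include c

/-- the family over `T`. -/
def fam (T : Set ℂ) (p : ℂ → ℂ) (hp : ContinuousOn p T) (hZ : ∀ w ∈ T, p w ∉ Z) :
    R257.AJ387.Fam T D where
  Q w := Q (p w)
  monic w := c.monic _
  deg w := c.deg _
  cont i := (c.cont i).comp (continuousOn_iff_continuous_domRestrict.1 hp)
  nodup w := c.nodup _ (hZ w w.2)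

theorem ex_root (z : ℂ) : ∃ t, (Q z).eval t = 0 := by
  have h : (Q z).degree ≠ 0 := by
    rw [Polynomial.degree_eq_natDegree (c.monic z).ne_zero, c.deg z]
    exact_mod_cast c.pos.ne'
  exact IsAlgClosed.exists_root _ h

theorem act_one {z t : ℂ} (hz : z ∉ Z) (ht : (Q z).eval t = 0) : act 1 z t = t := by
  obtain ⟨g, hg⟩ := c.trans z t t hz ht ht
  have h := c.act_mul g 1 z t hz ht
  rw [← hg, mul_one, ← hg] at h
  exact h

theorem ex_sec {T : Set ℂ} (hT : Convex ℝ T) {p : ℂ → ℂ} (hp : ContinuousOn p T)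
    (hZ : ∀ w ∈ T, p w ∉ Z) {w₀ t₀ : ℂ} (hw : w₀ ∈ T) (ht : (Q (p w₀)).eval t₀ = 0) :
    ∃ τ, Sec Z Q T p τ ∧ τ w₀ = t₀ := by
  classical
  haveI := hT.contractibleSpace ⟨w₀, hw⟩
  haveI := hT.locallyPathConnectedSpace
  obtain ⟨ζ, hc, h0, hr⟩ := (c.fam T p hp hZ).exists_root ⟨w₀, hw⟩ t₀ ht
  refine ⟨fun w => if h : w ∈ T then ζ ⟨w, h⟩ else 0, ⟨hp, hZ, ?_, ?_⟩, ?_⟩
  · rw [continuousOn_iff_continuous_domRestrict]
    convert hc using 1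
    funext w
    exact dif_pos w.2
  · intro w hw
    simp only [dif_pos hw]
    exact hr ⟨w, hw⟩
  · simp only [dif_pos hw, h0]

theorem uniq {T : Set ℂ} (hT : IsPreconnected T) {p τ τ' : ℂ → ℂ} (h : Sec Z Q T p τ)
    (h' : Sec Z Q T p τ') {w₀ : ℂ} (hw : w₀ ∈ T) (h0 : τ w₀ = τ' w₀) : ∀ w ∈ T, τ w = τ' w := by
  haveI := isPreconnected_iff_preconnectedSpace.1 hT
  have := (c.fam T p h.pc h.off).root_unique (ζ := fun w : T => τ w) (ζ' := fun w : T => τ' w)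
    (continuousOn_iff_continuous_domRestrict.1 h.cont)
    (continuousOn_iff_continuous_domRestrict.1 h'.cont) (fun w => h.root w w.2)
    (fun w => h'.root w w.2) (s₀ := ⟨w₀, hw⟩) h0
  intro w hw
  exact congrFun this ⟨w, hw⟩

theorem act_sec {T : Set ℂ} {p τ : ℂ → ℂ} (h : Sec Z Q T p τ) (g : H) :
    Sec Z Q T p (fun w => act g (p w) (τ w)) := by
  refine ⟨h.pc, h.off, fun w hw => ?_, fun w hw => c.act_root g _ _ (h.off w hw) (h.root w hw)⟩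
  have h1 := c.act_cont g (p w) (τ w) (h.off w hw)
  have h2 : ContinuousWithinAt (fun w => (p w, τ w)) T w := (h.pc w hw).prodMk (h.cont w hw)
  exact ContinuousAt.comp_continuousWithinAt (f := fun w => (p w, τ w)) h1 h2

theorem cmp {T : Set ℂ} (hT : IsPreconnected T) {p τ τ' : ℂ → ℂ} (h : Sec Z Q T p τ)
    (h' : Sec Z Q T p τ') (hne : T.Nonempty) :
    ∃ g, ∀ w ∈ T, τ' w = act g (p w) (τ w) := by
  obtain ⟨w₀, hw⟩ := hne
  obtain ⟨g, hg⟩ := c.trans _ _ _ (h.off w₀ hw) (h.root w₀ hw) (h'.root w₀ hw)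
  exact ⟨g, c.uniq hT h' (c.act_sec h g) hw hg⟩

/-- a section on a convex set which continues a given one -/
theorem ex_cont {T T' : Set ℂ} (hT : Convex ℝ T) (hT' : Convex ℝ T') {τ : ℂ → ℂ}
    (h : Sec Z Q T id τ) (hZ : ∀ w ∈ T', w ∉ Z) (hne : (T ∩ T').Nonempty) :
    ∃ τ', Sec Z Q T' id τ' ∧ ∀ w ∈ T ∩ T', τ' w = τ w := by
  obtain ⟨w₀, hw⟩ := hne
  obtain ⟨τ', h1, h2⟩ := c.ex_sec hT' (p := id) continuousOn_id hZ hw.2 (h.root w₀ hw.1)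
  exact ⟨τ', h1, c.uniq (hT.inter hT').isPreconnected (h1.mono inter_subset_right)
    (h.mono inter_subset_left) hw h2⟩

end IsCov

/-- half strips -/
def hs (ρ u v : ℝ) : Set ℂ := {w | ρ < w.im ∧ u < w.re ∧ w.re < v}

theorem convex_hs (ρ u v : ℝ) : Convex ℝ (hs ρ u v) :=
  (convex_halfSpace_im_gt ρ).inter ((convex_halfSpace_re_gt u).inter (convex_halfSpace_re_lt v))

theorem ee_add_one (w : ℂ) : ee (w + 1) = ee w := by
  unfold ee
  rw [mul_add, Complex.exp_add, mul_one, Complex.exp_two_pi_mul_I, mul_one]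

theorem continuous_ee : Continuous ee := by
  unfold ee; fun_prop

/-- **four sectors** -/
theorem IsCov.per_of_sectors (c : IsCov Z D Q act) {p : ℂ → ℂ} {ρ : ℝ}
    (hp : ContinuousOn (fun w => p (ee w)) {w | ρ < w.im}) (hZ : ∀ w : ℂ, ρ < w.im → p (ee w) ∉ Z)
    {T₁ T₂ T₃ T₄ : Set ℂ} {τ₁ τ₂ τ₃ τ₄ : ℂ → ℂ} (s₁ : Sec Z Q T₁ id τ₁) (s₂ : Sec Z Q T₂ id τ₂)
    (s₃ : Sec Z Q T₃ id τ₃) (s₄ : Sec Z Q T₄ id τ₄) {g : H}
    (h12 : ∀ z ∈ T₁ ∩ T₂, τ₁ z = τ₂ z) (h23 : ∀ z ∈ T₂ ∩ T₃, τ₂ z = τ₃ z)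
    (h34 : ∀ z ∈ T₃ ∩ T₄, τ₃ z = act g z (τ₄ z)) (h41 : ∀ z ∈ T₄ ∩ T₁, τ₄ z = τ₁ z)
    (m₁ : ∀ w ∈ hs ρ (1 / 12) (5 / 12), p (ee w) ∈ T₁)
    (m₂ : ∀ w ∈ hs ρ (1 / 3) (2 / 3), p (ee w) ∈ T₂)
    (m₃ : ∀ w ∈ hs ρ (7 / 12) (11 / 12), p (ee w) ∈ T₃)
    (m₄ : ∀ w ∈ hs ρ (5 / 6) (7 / 6), p (ee w) ∈ T₄) : Per Z Q act p g := by
  set L : Set ℂ := {w | ρ < w.im} with hL
  have hLc : Convex ℝ L := convex_halfSpace_im_gt ρ
  have sub : ∀ u v, hs ρ u v ⊆ L := fun u v w hw => hw.1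
  let pt : ℝ → ℂ := fun u => ⟨u, ρ + 1⟩
  have hpt : ∀ u v x : ℝ, u < x → x < v → pt x ∈ hs ρ u v := fun u v x h1 h2 =>
    ⟨by simp [pt], h1, h2⟩
  have t₁ := s₁.comp (hp.mono (sub _ _)) m₁
  have t₂ := s₂.comp (hp.mono (sub _ _)) m₂
  have t₃ := s₃.comp (hp.mono (sub _ _)) m₃
  have t₄ := c.act_sec (s₄.comp (hp.mono (sub _ _)) m₄) g
  simp only [id] at t₁ t₂ t₃ t₄
  have a1 : pt (3 / 8) ∈ hs ρ (1 / 12) (5 / 12) := hpt _ _ _ (by norm_num) (by norm_num)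
  have a2 : pt (3 / 8) ∈ hs ρ (1 / 3) (2 / 3) := hpt _ _ _ (by norm_num) (by norm_num)
  have b2 : pt (5 / 8) ∈ hs ρ (1 / 3) (2 / 3) := hpt _ _ _ (by norm_num) (by norm_num)
  have b3 : pt (5 / 8) ∈ hs ρ (7 / 12) (11 / 12) := hpt _ _ _ (by norm_num) (by norm_num)
  have c3 : pt (7 / 8) ∈ hs ρ (7 / 12) (11 / 12) := hpt _ _ _ (by norm_num) (by norm_num)
  have c4 : pt (7 / 8) ∈ hs ρ (5 / 6) (7 / 6) := hpt _ _ _ (by norm_num) (by norm_num)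
  have d4 : pt (9 / 8) ∈ hs ρ (5 / 6) (7 / 6) := hpt _ _ _ (by norm_num) (by norm_num)
  have d1 : pt (1 / 8) ∈ hs ρ (1 / 12) (5 / 12) := hpt _ _ _ (by norm_num) (by norm_num)
  obtain ⟨τ, hτ, h0⟩ := c.ex_sec hLc hp hZ (sub _ _ a1) (t₁.root _ a1)
  have e₁ := c.uniq (convex_hs _ _ _).isPreconnected (hτ.mono (sub _ _)) t₁ a1 h0
  have e₂ := c.uniq (convex_hs _ _ _).isPreconnected (hτ.mono (sub _ _)) t₂ a2
    (by rw [e₁ _ a1]; exact h12 _ ⟨m₁ _ a1, m₂ _ a2⟩)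
  have e₃ := c.uniq (convex_hs _ _ _).isPreconnected (hτ.mono (sub _ _)) t₃ b3
    (by rw [e₂ _ b2]; exact h23 _ ⟨m₂ _ b2, m₃ _ b3⟩)
  have e₄ := c.uniq (convex_hs _ _ _).isPreconnected (hτ.mono (sub _ _)) t₄ c4
    (by rw [e₃ _ c3]; exact h34 _ ⟨m₃ _ c3, m₄ _ c4⟩)
  have hsh : MapsTo (fun w : ℂ => w + 1) L L := fun w hw => by simpa [hL] using hw
  have t₅ := hτ.comp (q := fun w => w + 1) (by fun_prop) hsh
  simp only [ee_add_one] at t₅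
  have hp1 : pt (1 / 8) + 1 = pt (9 / 8) := by
    apply Complex.ext <;> simp [pt]; norm_num
  have key := c.uniq hLc.isPreconnected t₅ (c.act_sec hτ g) (sub _ _ d1) (by
    have hee : ee (pt (9 / 8)) = ee (pt (1 / 8)) := by rw [← hp1, ee_add_one]
    have h4 := m₄ _ d4
    rw [hee] at h4
    rw [hp1, e₄ _ d4, e₁ _ d1, hee, h41 _ ⟨h4, m₁ _ d1⟩])
  refine ⟨ρ, τ, fun w hw => ⟨?_, hZ w hw, hτ.root w hw, key w hw⟩⟩
  exact hτ.cont.continuousAt ((isOpen_lt continuous_const Complex.continuous_im).mem_nhds hw)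

/-! ### sectors -/

theorem cos_gt_half {y : ℝ} (h1 : -(Real.pi / 3) < y) (h2 : y < Real.pi / 3) :
    1 / 2 < Real.cos y := by
  rw [← Real.cos_pi_div_three, ← Real.cos_abs y]
  have := Real.pi_pos
  exact Real.cos_lt_cos_of_nonneg_of_le_pi (abs_nonneg y) (by linarith) (abs_lt.2 ⟨h1, h2⟩)

/-- the modulus -/
def rr (w : ℂ) : ℝ := Real.exp (-(2 * Real.pi * w.im))

theorem rr_pos (w : ℂ) : 0 < rr w := Real.exp_pos _

theorem ee_re (w : ℂ) : (ee w).re = rr w * Real.cos (2 * Real.pi * w.re) := by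
  unfold ee rr; rw [Complex.exp_re]; simp

theorem ee_im (w : ℂ) : (ee w).im = rr w * Real.sin (2 * Real.pi * w.re) := by
  unfold ee rr; rw [Complex.exp_im]; simp

theorem norm_ee (w : ℂ) : ‖ee w‖ = rr w := by
  unfold ee rr; rw [Complex.norm_exp]; simp

theorem sec1 {w : ℂ} (h1 : 1 / 12 < w.re) (h2 : w.re < 5 / 12) : rr w / 2 < (ee w).im := by
  have := Real.pi_pos
  have h := cos_gt_half (y := 2 * Real.pi * w.re - Real.pi / 2) (by nlinarith) (by nlinarith)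
  rw [Real.cos_sub_pi_div_two] at h
  rw [ee_im]; nlinarith [rr_pos w]

theorem sec2 {w : ℂ} (h1 : 1 / 3 < w.re) (h2 : w.re < 2 / 3) : (ee w).re < -(rr w / 2) := by
  have := Real.pi_pos
  have h := cos_gt_half (y := 2 * Real.pi * w.re - Real.pi) (by nlinarith) (by nlinarith)
  rw [Real.cos_sub_pi] at h
  rw [ee_re]; nlinarith [rr_pos w]

theorem sec3 {w : ℂ} (h1 : 7 / 12 < w.re) (h2 : w.re < 11 / 12) : (ee w).im < -(rr w / 2) := by
  have := Real.pi_pos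
  have h := cos_gt_half (y := 2 * Real.pi * w.re - Real.pi - Real.pi / 2) (by nlinarith)
    (by nlinarith)
  rw [Real.cos_sub_pi_div_two, Real.sin_sub_pi] at h
  rw [ee_im]; nlinarith [rr_pos w]

theorem sec4 {w : ℂ} (h1 : 5 / 6 < w.re) (h2 : w.re < 7 / 6) : rr w / 2 < (ee w).re := by
  have := Real.pi_pos
  have h := cos_gt_half (y := 2 * Real.pi * w.re - 2 * Real.pi) (by nlinarith) (by nlinarith)
  rw [Real.cos_sub_two_pi] at h
  rw [ee_re]; nlinarith [rr_pos w]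

theorem ex_rho {ε : ℝ} (hε : 0 < ε) : ∃ ρ : ℝ, ∀ w : ℂ, ρ < w.im → rr w < ε := by
  refine ⟨-Real.log ε / (2 * Real.pi), fun w hw => ?_⟩
  have := Real.pi_pos
  rw [div_lt_iff₀ (by positivity)] at hw
  unfold rr
  rw [← Real.exp_log hε]
  exact Real.exp_lt_exp.2 (by linarith)

end Crest.Agent.T170.Ret
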