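import Crest.Agent.T170.RetM1_90

/-!
# Row 170, RET (G), monodromy, part 2 (helper90): the convex cover and `MonoStmt`
-/

set_option autoImplicit false

open Polynomial Filter Topology Set

noncomputable section

namespace Crest.Agent.T170.Ret

variable {m : ℕ} (a : Fin m → ℂ)

/-- vertical strips, `Vs 0` is the right end -/
def Vs (j : ℕ) : Set ℂ :=
  {z | ∀ i : Fin m, (i.val < j → z.re < (a i).re) ∧ (j ≤ i.val → (a i).re < z.re)}

/-- double strips -/
def Ws (i : Fin m) : Set ℂ :=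
  {z | ∀ k : Fin m, (k < i → z.re < (a k).re) ∧ (i < k → (a k).re < z.re)}

/-- above `a i` -/
def As (i : Fin m) : Set ℂ := Ws a i ∩ {z | (a i).im < z.im}

/-- below `a i` -/
def Bs (i : Fin m) : Set ℂ := Ws a i ∩ {z | z.im < (a i).im}

theorem convex_imp {P : Prop} {s : Set ℂ} (h : Convex ℝ s) : Convex ℝ {z | P → z ∈ s} := by
  by_cases hP : P
  · simpa [hP] using h
  · simpa [hP] using convex_univ

theorem isOpen_imp {P : Prop} {s : Set ℂ} (h : IsOpen s) : IsOpen {z | P → z ∈ s} := by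
  by_cases hP : P
  · simpa [hP] using h
  · simp [hP]

theorem open_lt (r : ℝ) : IsOpen {z : ℂ | z.re < r} :=
  isOpen_lt Complex.continuous_re continuous_const

theorem open_gt (r : ℝ) : IsOpen {z : ℂ | r < z.re} :=
  isOpen_lt continuous_const Complex.continuous_re

theorem convex_Vs (j : ℕ) : Convex ℝ (Vs a j) := by
  unfold Vs
  rw [Set.ofPred_forall]
  exact convex_iInter fun i => (convex_imp (convex_halfSpace_re_lt _)).inter
    (convex_imp (convex_halfSpace_re_gt _))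

theorem convex_Ws (i : Fin m) : Convex ℝ (Ws a i) := by
  unfold Ws
  rw [Set.ofPred_forall]
  exact convex_iInter fun i => (convex_imp (convex_halfSpace_re_lt _)).inter
    (convex_imp (convex_halfSpace_re_gt _))

theorem open_Vs (j : ℕ) : IsOpen (Vs a j) := by
  unfold Vs
  rw [Set.ofPred_forall]
  exact isOpen_iInter_of_finite fun i => (isOpen_imp (open_lt _)).inter (isOpen_imp (open_gt _))

theorem open_Ws (i : Fin m) : IsOpen (Ws a i) := by
  unfold Ws
  rw [Set.ofPred_forall]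
  exact isOpen_iInter_of_finite fun i => (isOpen_imp (open_lt _)).inter (isOpen_imp (open_gt _))

theorem convex_As (i : Fin m) : Convex ℝ (As a i) :=
  (convex_Ws a i).inter (convex_halfSpace_im_gt _)

theorem convex_Bs (i : Fin m) : Convex ℝ (Bs a i) :=
  (convex_Ws a i).inter (convex_halfSpace_im_lt _)

theorem open_As (i : Fin m) : IsOpen (As a i) :=
  (open_Ws a i).inter (isOpen_lt continuous_const Complex.continuous_im)

theorem open_Bs (i : Fin m) : IsOpen (Bs a i) :=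
  (open_Ws a i).inter (isOpen_lt Complex.continuous_im continuous_const)

theorem Vs_off (j : ℕ) : ∀ z ∈ Vs a j, z ∉ range a := by
  rintro z hz ⟨k, rfl⟩
  rcases lt_or_ge k.val j with h | h
  · exact lt_irrefl _ ((hz k).1 h)
  · exact lt_irrefl _ ((hz k).2 h)

theorem Ws_off (i : Fin m) : ∀ z ∈ Ws a i, z ≠ a i → z ∉ range a := by
  rintro z hz hne ⟨k, rfl⟩
  rcases lt_trichotomy k i with h | h | h
  · exact lt_irrefl _ ((hz k).1 h)
  · exact hne (by rw [h])
  · exact lt_irrefl _ ((hz k).2 h)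

theorem As_off (i : Fin m) : ∀ z ∈ As a i, z ∉ range a := fun z hz =>
  Ws_off a i z hz.1 (by rintro rfl; exact lt_irrefl _ (show (a i).im < (a i).im from hz.2))

theorem Bs_off (i : Fin m) : ∀ z ∈ Bs a i, z ∉ range a := fun z hz =>
  Ws_off a i z hz.1 (by rintro rfl; exact lt_irrefl _ (show (a i).im < (a i).im from hz.2))

theorem Vs_sub_right (i : Fin m) : Vs a i ⊆ Ws a i := fun _ hz k =>
  ⟨fun h => (hz k).1 h, fun h => (hz k).2 (le_of_lt h)⟩

theorem Vs_sub_left (i : Fin m) : Vs a (i + 1) ⊆ Ws a i := fun _ hz k =>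
  ⟨fun h => (hz k).1 (Nat.lt_succ_of_lt h), fun h => (hz k).2 h⟩

theorem mem_Vs_right {i : Fin m} {z : ℂ} (hz : z ∈ Ws a i) (h : (a i).re < z.re) : z ∈ Vs a i := by
  intro k
  refine ⟨fun hk => (hz k).1 hk, fun hk => ?_⟩
  rcases eq_or_lt_of_le hk with h1 | h1
  · rw [← Fin.ext h1]; exact h
  · exact (hz k).2 h1

theorem mem_Vs_left {i : Fin m} {z : ℂ} (hz : z ∈ Ws a i) (h : z.re < (a i).re) :
    z ∈ Vs a (i + 1) := by
  intro k
  refine ⟨fun hk => ?_, fun hk => (hz k).2 hk⟩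
  rcases eq_or_lt_of_le (Nat.lt_succ_iff.1 hk) with h1 | h1
  · rw [Fin.ext h1]; exact h
  · exact (hz k).1 h1

theorem Vs_unique {j j' : ℕ} (hj : j ≤ m) (hj' : j' ≤ m) {z : ℂ} (h : z ∈ Vs a j)
    (h' : z ∈ Vs a j') : j = j' := by
  rcases lt_trichotomy j j' with h1 | h1 | h1
  · exact absurd (((h ⟨j, by omega⟩).2 le_rfl).trans ((h' ⟨j, by omega⟩).1 h1)) (lt_irrefl _)
  · exact h1
  · exact absurd (((h' ⟨j', by omega⟩).2 le_rfl).trans ((h ⟨j', by omega⟩).1 h1)) (lt_irrefl _)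

variable {a}

theorem mem_Ws_of_re (ha : StrictAnti fun i => (a i).re) {i : Fin m} {z : ℂ}
    (h : z.re = (a i).re) : z ∈ Ws a i := fun k =>
  ⟨fun hk => by rw [h]; exact ha hk, fun hk => by rw [h]; exact ha hk⟩

theorem ex_xi (ha : StrictAnti fun i => (a i).re) (j : ℕ) :
    ∃ ξ : ℝ, ∀ y : ℝ, (⟨ξ, y⟩ : ℂ) ∈ Vs a j := by
  classical
  obtain ⟨ξ, h1, h2⟩ := Finset.exists_between'
    ((Finset.univ.filter fun i : Fin m => j ≤ i.val).image fun i => (a i).re)
    ((Finset.univ.filter fun i : Fin m => i.val < j).image fun i => (a i).re) (by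
      intro x hx y hy
      obtain ⟨i, hi, rfl⟩ := Finset.mem_image.1 hx
      obtain ⟨k, hk, rfl⟩ := Finset.mem_image.1 hy
      have hi' := (Finset.mem_filter.1 hi).2
      have hk' := (Finset.mem_filter.1 hk).2
      exact ha (show k < i from Fin.lt_def.2 (by omega)))
  refine ⟨ξ, fun y i => ⟨fun hi => h2 _ ?_, fun hi => h1 _ ?_⟩⟩
  · exact Finset.mem_image_of_mem _ (Finset.mem_filter.2 ⟨Finset.mem_univ _, hi⟩)
  · exact Finset.mem_image_of_mem _ (Finset.mem_filter.2 ⟨Finset.mem_univ _, hi⟩)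

theorem ex_Vs (ha : StrictAnti fun i => (a i).re) {z : ℂ} (hz : ∀ i, z.re ≠ (a i).re) :
    ∃ j ≤ m, z ∈ Vs a j := by
  classical
  have hex : ∃ j : ℕ, ∀ i : Fin m, j ≤ i.val → (a i).re < z.re :=
    ⟨m, fun i hi => absurd i.2 (not_lt.2 hi)⟩
  refine ⟨Nat.find hex, Nat.find_min' hex fun i hi => absurd i.2 (not_lt.2 hi), fun i =>
    ⟨fun hi => ?_, Nat.find_spec hex i⟩⟩
  have h1 := Nat.find_min hex hi
  push Not at h1
  obtain ⟨k, hk, hk'⟩ := h1
  have h2 : (a k).re ≤ (a i).re := ha.antitone (show i ≤ k from hk)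
  exact lt_of_le_of_ne (hk'.trans h2) (hz i)

theorem prod_of_rec {H : Type} [Group H] : ∀ {m : ℕ} (s : Fin m → H) (c : ℕ → H),
    (∀ i : Fin m, c i = s i * c (i + 1)) → c 0 = (List.ofFn s).prod * c m
  | 0, _, _, _ => by simp
  | m + 1, s, c, h => by
    have h1 := prod_of_rec (fun i : Fin m => s i.succ) (fun j => c (j + 1)) fun i => h i.succ
    have h0 := h 0
    simp only [Fin.val_zero] at h0
    rw [List.ofFn_succ, List.prod_cons, mul_assoc, ← h1, h0]

/-- **monodromy** -/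
theorem monoStmt : MonoStmt := by
  intro H _ _ m a ha D Q act c
  classical
  obtain ⟨M, hM0, hM⟩ : ∃ M : ℝ, 0 < M ∧ ∀ i, ‖a i‖ < M := by
    refine ⟨∑ i, ‖a i‖ + 1, by positivity, fun i => ?_⟩
    have := Finset.single_le_sum (f := fun i => ‖a i‖) (fun i _ => norm_nonneg _)
      (Finset.mem_univ i)
    linarith
  have hre : ∀ i, |(a i).re| < M := fun i => (Complex.abs_re_le_norm _).trans_lt (hM i)
  have him : ∀ i, |(a i).im| < M := fun i => (Complex.abs_im_le_norm _).trans_lt (hM i)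
  choose ξ hξ using ex_xi ha
  set Tp : Set ℂ := {z | M < z.im} with hTp
  set Tm : Set ℂ := {z | z.im < -M} with hTm
  have cTp : Convex ℝ Tp := convex_halfSpace_im_gt _
  have cTm : Convex ℝ Tm := convex_halfSpace_im_lt _
  have oTp : ∀ z ∈ Tp, z ∉ range a := by
    rintro z hz ⟨i, rfl⟩
    exact lt_irrefl _ ((show M < (a i).im from hz).trans (abs_lt.1 (him i)).2)
  have oTm : ∀ z ∈ Tm, z ∉ range a := by
    rintro z hz ⟨i, rfl⟩
    exact lt_irrefl _ ((show (a i).im < -M from hz).trans (abs_lt.1 (him i)).1)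
  let up : ℕ → ℂ := fun j => ⟨ξ j, M + 1⟩
  let dn : ℕ → ℂ := fun j => ⟨ξ j, -M - 1⟩
  have upT : ∀ j, up j ∈ Tp := fun j => show M < M + 1 by linarith
  have dnT : ∀ j, dn j ∈ Tm := fun j => show -M - 1 < -M by linarith
  have upV : ∀ j, up j ∈ Vs a j := fun j => hξ j _
  have dnV : ∀ j, dn j ∈ Vs a j := fun j => hξ j _
  have upA : ∀ (i : Fin m) j, up j ∈ Ws a i → up j ∈ As a i := fun i j h =>
    ⟨h, show (a i).im < M + 1 by linarith [(abs_lt.1 (him i)).2]⟩
  have dnB : ∀ (i : Fin m) j, dn j ∈ Ws a i → dn j ∈ Bs a i := fun i j h =>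
    ⟨h, show -M - 1 < (a i).im by linarith [(abs_lt.1 (him i)).1]⟩
  obtain ⟨t₀, ht₀⟩ := c.ex_root (up 0)
  obtain ⟨ω, hω, -⟩ := c.ex_sec cTp (p := id) continuousOn_id oTp (upT 0) ht₀
  choose σ hσ hσω using fun j => c.ex_cont cTp (convex_Vs a j) hω (Vs_off a j) ⟨_, upT j, upV j⟩
  choose α hα hαω using fun i => c.ex_cont cTp (convex_As a i) hω (As_off a i)
    ⟨_, upT i, upA i i (Vs_sub_right a i (upV i))⟩
  have hασ : ∀ (i : Fin m) j, Vs a j ⊆ Ws a i → ∀ z ∈ As a i ∩ Vs a j, α i z = σ j z := by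
    intro i j hj
    have h1 := upA i j (hj (upV j))
    exact c.uniq ((convex_As a i).inter (convex_Vs a j)).isPreconnected
      ((hα i).mono inter_subset_left) ((hσ j).mono inter_subset_right) ⟨h1, upV j⟩
      (by rw [hαω i _ ⟨upT j, h1⟩, hσω j _ ⟨upT j, upV j⟩])
  choose β hβ hβσ using fun i : Fin m => c.ex_cont (convex_Vs a (i + 1)) (convex_Bs a i)
    (hσ (i + 1)) (Bs_off a i) ⟨_, dnV (i + 1), dnB i _ (Vs_sub_left a i (dnV _))⟩
  choose s hs using fun i : Fin m => c.cmp ((convex_Bs a i).inter (convex_Vs a i)).isPreconnected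
    ((hσ i).mono inter_subset_right) ((hβ i).mono inter_subset_left)
    ⟨_, dnB i _ (Vs_sub_right a i (dnV _)), dnV i⟩
  simp only [id] at hs
  refine ⟨s, fun i => ?_, ?_, ?_⟩
  · obtain ⟨ε, hε, hball⟩ := Metric.isOpen_iff.1 (open_Ws a i) (a i) (mem_Ws_of_re ha rfl)
    obtain ⟨ρ, hρ⟩ := ex_rho hε
    have hW : ∀ w : ℂ, ρ < w.im → a i + ee w ∈ Ws a i := fun w hw =>
      hball (by rw [Metric.mem_ball, dist_eq_norm, add_sub_cancel_left, norm_ee]; exact hρ w hw)
    refine c.per_of_sectors (ρ := ρ) (continuous_const.add continuous_ee).continuousOn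
      (fun w hw => Ws_off a i _ (hW w hw) ?_) (hα i) (hσ (i + 1)) (hβ i) (hσ i)
      (hασ i _ (Vs_sub_left a i)) (fun z hz => (hβσ i z hz).symm) (hs i)
      (fun z hz => (hασ i _ (Vs_sub_right a i) z ⟨hz.2, hz.1⟩).symm) ?_ ?_ ?_ ?_
    · intro h
      have h1 : ee w = 0 := by simpa using h
      exact Complex.exp_ne_zero _ h1
    · intro w hw
      refine ⟨hW w hw.1, ?_⟩
      have := sec1 hw.2.1 hw.2.2
      have := rr_pos w
      show (a i).im < (a i + ee w).im
      rw [Complex.add_im]; linarith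
    · intro w hw
      refine mem_Vs_left a (hW w hw.1) ?_
      have := sec2 hw.2.1 hw.2.2
      have := rr_pos w
      rw [Complex.add_re]; linarith
    · intro w hw
      refine ⟨hW w hw.1, ?_⟩
      have := sec3 hw.2.1 hw.2.2
      have := rr_pos w
      show (a i + ee w).im < (a i).im
      rw [Complex.add_im]; linarith
    · intro w hw
      refine mem_Vs_right a (hW w hw.1) ?_
      have := sec4 hw.2.1 hw.2.2
      have := rr_pos w
      rw [Complex.add_re]; linarith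
  · obtain ⟨ω', hω', hω'σ⟩ := c.ex_cont (convex_Vs a m) cTm (hσ m) oTm ⟨_, dnV m, dnT m⟩
    choose cc hcc using fun j => c.cmp (cTm.inter (convex_Vs a j)).isPreconnected
      ((hσ j).mono inter_subset_right) (hω'.mono inter_subset_left) ⟨_, dnT j, dnV j⟩
    simp only [id] at hcc
    have hcm : cc m = 1 := by
      refine c.free _ _ (dn m) (σ m (dn m)) (Vs_off a m _ (dnV m)) ((hσ m).root _ (dnV m)) ?_
      rw [← hcc m _ ⟨dnT m, dnV m⟩, hω'σ _ ⟨dnV m, dnT m⟩,
        c.act_one (Vs_off a m _ (dnV m)) ((hσ m).root _ (dnV m))]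
    have hrec : ∀ i : Fin m, cc i = s i * cc (i + 1) := by
      intro i
      have b1 := dnB i _ (Vs_sub_left a i (dnV (i + 1)))
      have b2 := dnB i _ (Vs_sub_right a i (dnV i))
      have h1 := c.uniq (cTm.inter (convex_Bs a i)).isPreconnected (hω'.mono inter_subset_left)
        (c.act_sec ((hβ i).mono inter_subset_right) (cc (i + 1))) ⟨dnT (i + 1), b1⟩
        (by rw [hcc (i + 1) _ ⟨dnT _, dnV _⟩, hβσ i _ ⟨dnV _, b1⟩]; rfl) (dn i) ⟨dnT i, b2⟩
      simp only [id] at h1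
      refine c.free _ _ (dn i) (σ i (dn i)) (Vs_off a i _ (dnV i)) ((hσ i).root _ (dnV i)) ?_
      rw [← hcc i _ ⟨dnT i, dnV i⟩, h1, hs i _ ⟨b2, dnV i⟩,
        c.act_mul _ _ _ _ (Vs_off a i _ (dnV i)) ((hσ i).root _ (dnV i))]
    have hc0 : cc 0 = (List.ofFn s).prod := by rw [prod_of_rec s cc hrec, hcm, mul_one]
    obtain ⟨ρ, hρ⟩ := ex_rho (ε := 1 / (2 * M)) (by positivity)
    have hre' : ∀ w : ℂ, (ee w)⁻¹.re = (ee w).re / (rr w) ^ 2 := fun w => by
      rw [Complex.inv_re, Complex.normSq_eq_norm_sq, norm_ee]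
    have him' : ∀ w : ℂ, (ee w)⁻¹.im = -(ee w).im / (rr w) ^ 2 := fun w => by
      rw [Complex.inv_im, Complex.normSq_eq_norm_sq, norm_ee]
    have hbig : ∀ w : ℂ, ρ < w.im → ∀ y : ℝ, rr w / 2 < y → M < y / (rr w) ^ 2 := by
      intro w hw y hy
      have h1 := hρ w hw
      have h2 := rr_pos w
      rw [lt_div_iff₀ (by positivity)] at h1 ⊢
      nlinarith
    rw [← hc0]
    refine c.per_of_sectors (ρ := ρ)
      (continuous_ee.inv₀ fun w => Complex.exp_ne_zero _).continuousOn (fun w hw => ?_) hω' (hσ m)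
      hω (c.act_sec (hσ 0) (cc 0)) (fun z hz => hω'σ z ⟨hz.2, hz.1⟩)
      (fun z hz => hσω m z ⟨hz.2, hz.1⟩) (fun z hz => ?_)
      (fun z hz => (hcc 0 z ⟨hz.2, hz.1⟩).symm) ?_ ?_ ?_ ?_
    · rintro ⟨i, hi⟩
      have h1 := hM i
      have h2 := hρ w hw
      have h3 := rr_pos w
      rw [hi, norm_inv, norm_ee, inv_lt_comm₀ h3 hM0, ← one_div, div_lt_iff₀ hM0] at h1
      rw [lt_div_iff₀ (by positivity)] at h2
      nlinarith
    · simp only [id]
      rw [c.act_mul _ _ _ _ (Vs_off a 0 _ hz.2) ((hσ 0).root _ hz.2), mul_inv_cancel,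
        c.act_one (Vs_off a 0 _ hz.2) ((hσ 0).root _ hz.2), hσω 0 z hz]
    · intro w hw
      have h1 := hbig w hw.1 _ (sec1 hw.2.1 hw.2.2)
      show (ee w)⁻¹.im < -M
      rw [him', neg_div]; linarith
    · intro w hw i
      have h1 := hbig w hw.1 (-(ee w).re) (by linarith [sec2 hw.2.1 hw.2.2])
      refine ⟨fun _ => ?_, fun h => absurd i.2 (not_lt.2 h)⟩
      rw [neg_div] at h1
      rw [hre']; linarith [(abs_lt.1 (hre i)).1]
    · intro w hw
      have h1 := hbig w hw.1 (-(ee w).im) (by linarith [sec3 hw.2.1 hw.2.2])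
      show M < (ee w)⁻¹.im
      rw [him']; exact h1
    · intro w hw i
      have h1 := hbig w hw.1 _ (sec4 hw.2.1 hw.2.2)
      refine ⟨fun h => absurd h (Nat.not_lt_zero _), fun _ => ?_⟩
      rw [hre']; linarith [(abs_lt.1 (hre i)).2]
  · set Γ := Subgroup.closure (range s) with hΓ
    let sel : ℂ → ℂ := fun z =>
      if h : ∃ j ≤ m, z ∈ Vs a j then σ h.choose z
      else if h' : ∃ i, z.re = (a i).re then
        (if (a h'.choose).im < z.im then α h'.choose z else β h'.choose z) else 0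
    have selV : ∀ j ≤ m, ∀ z ∈ Vs a j, sel z = σ j z := by
      intro j hj z hz
      have h : ∃ j ≤ m, z ∈ Vs a j := ⟨j, hj, hz⟩
      simp only [sel, dif_pos h]
      rw [Vs_unique a h.choose_spec.1 hj h.choose_spec.2 hz]
    have selW : ∀ (i : Fin m) (z : ℂ), z.re = (a i).re →
        sel z = if (a i).im < z.im then α i z else β i z := by
      intro i z hz
      have h : ¬ ∃ j ≤ m, z ∈ Vs a j := by
        rintro ⟨j, -, hj⟩
        rcases lt_or_ge i.val j with h | h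
        · exact ((hj i).1 h).ne hz
        · exact ((hj i).2 h).ne' hz
      have h' : ∃ i, z.re = (a i).re := ⟨i, hz⟩
      have h2 : h'.choose = i := ha.injective (h'.choose_spec.symm.trans hz)
      simp only [sel, dif_neg h, dif_pos h', h2]
    have fin : ∀ {T : Set ℂ} {τ : ℂ → ℂ}, IsOpen T → Sec (range a) Q T id τ →
        (∀ z ∈ T, ∃ h ∈ Γ, sel z = act h z (τ z)) → ∀ z₀ ∈ T, ∃ σ : ℂ → ℂ, ∀ᶠ z in 𝓝 z₀,
          ContinuousAt σ z ∧ (Q z).eval (σ z) = 0 ∧ ∃ h ∈ Γ, sel z = act h z (σ z) := by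
      intro T τ hT hτ h z₀ hz₀
      refine ⟨τ, ?_⟩
      filter_upwards [hT.mem_nhds hz₀] with z hz
      exact ⟨hτ.cont.continuousAt (hT.mem_nhds hz), hτ.root z hz, h z hz⟩
    refine ⟨sel, fun z₀ hz₀ => ?_⟩
    by_cases h : ∃ i, z₀.re = (a i).re
    · obtain ⟨i, hi⟩ := h
      have hW := mem_Ws_of_re ha hi
      rcases lt_trichotomy (a i).im z₀.im with h1 | h1 | h1
      · refine fin (open_As a i) (hα i) (fun z hz => ⟨1, Γ.one_mem, ?_⟩) z₀ ⟨hW, h1⟩
        rw [c.act_one (As_off a i z hz) ((hα i).root z hz)]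
        rcases lt_trichotomy z.re (a i).re with h2 | h2 | h2
        · have h3 := mem_Vs_left a hz.1 h2
          rw [selV _ i.2 z h3, hασ i _ (Vs_sub_left a i) z ⟨hz, h3⟩]
        · rw [selW i z h2, if_pos (show (a i).im < z.im from hz.2)]
        · have h3 := mem_Vs_right a hz.1 h2
          rw [selV _ i.2.le z h3, hασ i _ (Vs_sub_right a i) z ⟨hz, h3⟩]
      · exact absurd ⟨i, Complex.ext hi.symm h1⟩ hz₀
      · refine fin (open_Bs a i) (hβ i) (fun z hz => ?_) z₀ ⟨hW, h1⟩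
        have h0 := c.act_one (Bs_off a i z hz) ((hβ i).root z hz)
        rcases lt_trichotomy z.re (a i).re with h2 | h2 | h2
        · have h3 := mem_Vs_left a hz.1 h2
          exact ⟨1, Γ.one_mem, by rw [h0, selV _ i.2 z h3, hβσ i z ⟨h3, hz⟩]⟩
        · exact ⟨1, Γ.one_mem, by
            rw [h0, selW i z h2, if_neg (not_lt.2 (le_of_lt (show z.im < (a i).im from hz.2)))]⟩
        · have h3 := mem_Vs_right a hz.1 h2
          refine ⟨(s i)⁻¹, Γ.inv_mem (Subgroup.subset_closure ⟨i, rfl⟩), ?_⟩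
          rw [selV _ i.2.le z h3, hs i z ⟨hz, h3⟩,
            c.act_mul _ _ _ _ (Vs_off a i _ h3) ((hσ i).root _ h3), mul_inv_cancel,
            c.act_one (Vs_off a i _ h3) ((hσ i).root _ h3)]
    · push Not at h
      obtain ⟨j, hj, hz⟩ := ex_Vs ha h
      refine fin (open_Vs a j) (hσ j) (fun z hz => ⟨1, Γ.one_mem, ?_⟩) z₀ hz
      rw [c.act_one (Vs_off a j z hz) ((hσ j).root z hz), selV j hj z hz]

end Crest.Agent.T170.Ret
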