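import Crest.Agent.T170.Smith_13

/-!
# Row 170 (T170): alternating chain sums of counts versus sums of `sA` (helper13)

* `chain_sum_eq` : `∑_σ sgn σ · #{x | A x ≤ st σ} = ∑_x sA p (A x)`.
* `tuple_sum_eq` : the same for the tuples `[x,y] = g_1 ⋯ g_n`, `g_i ∈ K_i`.
-/

set_option autoImplicit false
open scoped BigOperators Classical

namespace Crest.Agent.T170.Smith13

open Crest.Agent.R170

variable {G : Type} [Group G] [Finite G]

theorem chain_sum_eq (p : ℕ) {X : Type*} [Finite X] (A : X → Subgroup G) :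
    ∑ᶠ σ : Ch p G, sgn σ * (Nat.card {x : X // A x ≤ st σ} : ℤ) = ∑ᶠ x : X, sA p (A x) := by
  have : Finite (Ch p G) := by unfold Ch; infer_instance
  have := Fintype.ofFinite (Ch p G)
  have := Fintype.ofFinite X
  rw [finsum_eq_sum_of_fintype, finsum_eq_sum_of_fintype]
  have h1 : ∀ x : X, sA p (A x) = ∑ σ : Ch p G, if A x ≤ st σ then sgn σ else 0 := by
    intro x
    unfold sA
    rw [finsum_eq_sum_of_fintype, ← Finset.sum_filter]
    refine (Finset.sum_subtype (p := fun σ : Ch p G => A x ≤ st σ) _ ?_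
      (fun σ : Ch p G => sgn σ)).symm
    intro σ
    simp only [Finset.mem_filter, Finset.mem_univ, true_and]
  simp only [h1]
  rw [Finset.sum_comm]
  refine Finset.sum_congr rfl (fun σ _ => ?_)
  rw [← Finset.sum_filter, Finset.sum_const, nsmul_eq_mul, mul_comm, Nat.card_eq_fintype_card,
    Fintype.card_subtype]

/-- labelled tuples `[x, y] = g_1 ⋯ g_n`, `g_i ∈ K i` -/
def Tup (H : Type) [Group H] {n : ℕ} (K : Fin n → H → Prop) : Type :=
  {w : H × H × (Fin n → H) // w.1 * w.2.1 * w.1⁻¹ * w.2.1⁻¹ = (List.ofFn w.2.2).prod ∧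
    ∀ i, K i (w.2.2 i)}

/-- the subgroup generated by a tuple -/
def tcl {n : ℕ} (w : G × G × (Fin n → G)) : Subgroup G :=
  Subgroup.closure (insert w.1 (insert w.2.1 (Set.range w.2.2)))

omit [Finite G] in
theorem tcl_le {n : ℕ} (w : G × G × (Fin n → G)) (H : Subgroup G) :
    tcl w ≤ H ↔ w.1 ∈ H ∧ w.2.1 ∈ H ∧ ∀ i, w.2.2 i ∈ H := by
  unfold tcl
  rw [Subgroup.closure_le, Set.insert_subset_iff, Set.insert_subset_iff, Set.range_subset_iff]
  rfl

omit [Finite G] in
theorem card_tup {n : ℕ} (K : Fin n → G → Prop) (H : Subgroup G) :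
    Nat.card (Tup H (fun i (h : H) => K i (h : G))) =
      Nat.card {w : Tup G K // tcl w.1 ≤ H} := by
  have hl : ∀ g : Fin n → H, (((List.ofFn g).prod : H) : G) =
      (List.ofFn (fun i => (g i : G))).prod := by
    intro g
    rw [show (((List.ofFn g).prod : H) : G) = H.subtype (List.ofFn g).prod from rfl,
      map_list_prod, List.map_ofFn]
    rfl
  refine Nat.card_congr ⟨fun w => ⟨⟨(w.1.1, w.1.2.1, fun i => w.1.2.2 i), ?_, w.2.2⟩, ?_⟩,
    fun w => ⟨(⟨w.1.1.1, ((tcl_le _ _).1 w.2).1⟩, ⟨w.1.1.2.1, ((tcl_le _ _).1 w.2).2.1⟩,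
      fun i => ⟨w.1.1.2.2 i, ((tcl_le _ _).1 w.2).2.2 i⟩), ?_, w.1.2.2⟩,
    fun _ => rfl, fun _ => rfl⟩
  · have h := congrArg (fun h : H => (h : G)) w.2.1
    simp only [Subgroup.coe_mul, Subgroup.coe_inv, hl] at h
    exact h
  · exact (tcl_le _ _).2 ⟨w.1.1.2, w.1.2.1.2, fun i => (w.1.2.2 i).2⟩
  · apply Subtype.ext
    rw [hl]
    exact w.1.2.1

/-- chain form of the count = sum of `sA` over the tuples of `G` -/
theorem tuple_sum_eq (p : ℕ) {n : ℕ} (K : Fin n → G → Prop) :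
    ∑ᶠ σ : Ch p G, sgn σ * (Nat.card (Tup (st σ) (fun i (h : st σ) => K i (h : G))) : ℤ) =
      ∑ᶠ w : Tup G K, sA p (tcl w.1) := by
  have : Finite (Tup G K) := by unfold Tup; infer_instance
  rw [← chain_sum_eq p (fun w : Tup G K => tcl w.1)]
  refine finsum_congr (fun σ => ?_)
  rw [card_tup]

omit [Finite G] in
/-- two finite families of subgroups with the same fibre counts have the same weighted sums -/
theorem finsum_eq_of_fiber {X Y : Type*} [Finite X] [Finite Y] (A : X → Subgroup G)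
    (B : Y → Subgroup G) (w : Subgroup G → ℤ)
    (h : ∀ H, Nat.card {x // A x = H} = Nat.card {y // B y = H}) :
    ∑ᶠ x, w (A x) = ∑ᶠ y, w (B y) := by
  have he : ∀ H, Nonempty ({x // A x = H} ≃ {y // B y = H}) := fun H =>
    Finite.card_eq.1 (h H)
  let e : X ≃ Y := Equiv.ofFiberEquiv (fun H => (he H).some)
  have h2 : ∀ x, B (e x) = A x := fun x => Equiv.ofFiberEquiv_map _ x
  rw [← finsum_comp_equiv e]
  exact finsum_congr (fun x => by rw [h2])

end Crest.Agent.T170.Smith13
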