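import Mathlib

/-!
Row 170, (SPEC) part A: the pure algebra (multiset lemma, Kronecker sum, generic combination).
-/

namespace Crest.Agent.T170.DM

open Module Polynomial

/-- an idempotent "measure" on a group of exponent `p` is uniform on a subgroup -/
theorem count_mul_pow_of_conv {Ψ : Type*} [AddCommGroup Ψ] [DecidableEq Ψ] {p : ℕ} [Fact p.Prime]
    (hp : ∀ x : Ψ, p • x = 0) (S : Multiset Ψ) (hS : S ≠ 0)
    (h : (S.bind fun θ => S.map (θ + ·)) = S.card • S) :
    ∃ c : ℕ, S.count 0 * p ^ c = S.card := by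
  have hconv : ∀ ψ, (S.map fun θ => S.count (ψ - θ)).sum = S.card * S.count ψ := by
    intro ψ
    have := congrArg (Multiset.count ψ) h
    rw [Multiset.count_bind, Multiset.count_nsmul] at this
    rw [← this]
    congr 1
    refine Multiset.map_congr rfl fun θ _ => ?_
    have e : ψ = θ + (ψ - θ) := by abel
    conv_rhs => rw [e]
    rw [Multiset.count_map_eq_count' _ _ (add_right_injective θ)]
  obtain ⟨θ₀, hθ₀, hmax⟩ := S.toFinset.exists_max_image (fun θ => S.count θ)
    (Multiset.toFinset_nonempty.2 hS)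
  set M := S.count θ₀ with hM
  have hMpos : 0 < M := Multiset.count_pos.2 (Multiset.mem_toFinset.1 hθ₀)
  have hle : ∀ ψ, S.count ψ ≤ M := fun ψ => by
    by_cases hψ : ψ ∈ S
    · exact hmax ψ (Multiset.mem_toFinset.2 hψ)
    · rw [Multiset.count_eq_zero_of_notMem hψ]; exact Nat.zero_le _
  have key : ∀ ψ, S.count ψ = M → ∀ θ ∈ S, S.count (ψ - θ) = M := by
    intro ψ hψ θ hθ
    by_contra hne
    have hlt : (S.map fun θ => S.count (ψ - θ)).sum < (S.map fun _ => M).sum :=
      Multiset.sum_lt_sum (fun i _ => hle _) ⟨θ, hθ, lt_of_le_of_ne (hle _) hne⟩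
    rw [hconv, hψ] at hlt
    simp at hlt
  have hall : ∀ θ ∈ S, S.count θ = M := by
    have hmaps : ∀ θ ∈ S.toFinset, θ₀ - θ ∈ S.toFinset := fun θ hθ =>
      Multiset.mem_toFinset.2 (Multiset.count_pos.1
        (by rw [key θ₀ rfl θ (Multiset.mem_toFinset.1 hθ)]; exact hMpos))
    have hsurj := Finset.surjOn_of_injOn_of_card_le (s := S.toFinset) (t := S.toFinset)
      (fun θ => θ₀ - θ) hmaps (fun a _ b _ hab => sub_right_injective hab) le_rfl
    intro θ hθ
    obtain ⟨θ', hθ', rfl⟩ := hsurj (Finset.mem_coe.2 (Multiset.mem_toFinset.2 hθ))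
    exact key θ₀ rfl θ' (Multiset.mem_toFinset.1 hθ')
  have hsub : ∀ a ∈ S, ∀ b ∈ S, a - b ∈ S := fun a ha b hb =>
    Multiset.count_pos.1 (by rw [key a (hall a ha) b hb]; exact hMpos)
  have hθS : θ₀ ∈ S := Multiset.mem_toFinset.1 hθ₀
  have h0 : (0 : Ψ) ∈ S := by simpa using hsub _ hθS _ hθS
  let Θ : AddSubgroup Ψ := AddSubgroup.ofSub {x | x ∈ S} ⟨0, h0⟩ fun a ha b hb => by
    rw [← sub_eq_add_neg]; exact hsub a ha b hb
  have hcardΘ : Nat.card Θ = S.toFinset.card := by
    rw [← Nat.card_eq_finsetCard]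
    exact Nat.card_congr (Equiv.subtypeEquivRight fun x => by
      simp only [Multiset.mem_toFinset]; rfl)
  have hfin : Finite Θ := Nat.finite_of_card_ne_zero (by
    rw [hcardΘ]; exact (Finset.card_pos.2 ⟨θ₀, hθ₀⟩).ne')
  have hpg : IsPGroup p (Multiplicative Θ) := fun g => ⟨1, by
    rw [pow_one]
    change Multiplicative.ofAdd (p • g.toAdd) = 1
    rw [show p • g.toAdd = 0 from Subtype.ext (hp _)]
    rfl⟩
  obtain ⟨c, hc⟩ := IsPGroup.iff_card.1 hpg
  refine ⟨c, ?_⟩
  rw [← hc, Nat.card_congr Multiplicative.toAdd, hcardΘ, hall 0 h0, ← Multiset.toFinset_sum_count_eq,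
    Finset.sum_congr rfl fun a ha => hall a (Multiset.mem_toFinset.1 ha)]
  simp [mul_comm]

section Kron

variable {ι : Type*} [Fintype ι] [DecidableEq ι]

/-- the Kronecker sum `A ⊗ 1 + 1 ⊗ A` -/
def kronSum {R : Type*} [CommRing R] (A : Matrix ι ι R) : Matrix (ι × ι) (ι × ι) R :=
  fun a b => (if a.2 = b.2 then A a.1 b.1 else 0) + (if a.1 = b.1 then A a.2 b.2 else 0)

omit [Fintype ι] in
theorem kronSum_map {R S : Type*} [CommRing R] [CommRing S] (f : R →+* S) (A : Matrix ι ι R) :
    (kronSum A).map f = kronSum (A.map f) := by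
  ext a b
  simp only [kronSum, Matrix.map_apply, map_add]
  split_ifs <;> simp

theorem eval_charpoly_kronSum {Ψ : Type*} [Field Ψ] [IsAlgClosed Ψ] (A : Matrix ι ι Ψ) (x : Ψ) :
    (kronSum A).charpoly.eval x = (A.charpoly.roots.map fun θ => A.charpoly.eval (x - θ)).prod := by
  let f : Ψ[X] →+* Matrix ι ι Ψ := (aeval A).toRingHom
  let M : Matrix ι ι Ψ[X] := Matrix.scalar ι (C x - X) - A.map C
  have h1 := Matrix.det_det M f
  have h2 : (M.map f).comp ι ι ι ι Ψ = Matrix.scalar (ι × ι) x - kronSum A := by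
    ext a b
    obtain ⟨i, k⟩ := a
    obtain ⟨j, l⟩ := b
    simp only [M, f, Matrix.comp_apply, Matrix.map_apply, Matrix.sub_apply, Matrix.scalar_apply,
      Matrix.diagonal_apply, kronSum, AlgHom.toRingHom_eq_coe, RingHom.coe_coe, map_sub, aeval_C,
      Prod.mk.injEq]
    by_cases hij : i = j <;> by_cases hkl : k = l <;>
      simp [hij, hkl, Matrix.algebraMap_eq_diagonal, Matrix.diagonal_apply]
    ring
  have h3 : M.det = (A.charpoly.roots.map fun θ => C (x - θ) - X).prod := by
    have e1 : M.det = ((A.map C).charpoly).eval (C x - X) := (Matrix.eval_charpoly _ _).symm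
    have e2 : A.charpoly = (A.charpoly.roots.map fun θ => X - C θ).prod :=
      (IsAlgClosed.splits A.charpoly).eq_prod_roots_of_monic A.charpoly_monic
    rw [e1, Matrix.charpoly_map]
    conv_lhs => rw [e2]
    rw [Polynomial.map_multiset_prod, eval_multiset_prod, Multiset.map_map, Multiset.map_map]
    congr 1
    refine Multiset.map_congr rfl fun θ _ => ?_
    simp; ring
  rw [Matrix.eval_charpoly, ← h2, ← h1, h3]
  let g : Ψ[X] →* Ψ := (Matrix.detMonoidHom : Matrix ι ι Ψ →* Ψ).comp f.toMonoidHom
  change g _ = _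
  rw [map_multiset_prod, Multiset.map_map]
  congr 1
  refine Multiset.map_congr rfl fun θ _ => ?_
  rw [Matrix.eval_charpoly]
  simp only [g, f, Function.comp_apply, MonoidHom.comp_apply, Matrix.coe_detMonoidHom]
  congr 1
  change aeval A (C (x - θ) - X) = _
  rw [map_sub, aeval_C, aeval_X]
  rfl

theorem roots_charpoly_kronSum {Ψ : Type*} [Field Ψ] [IsAlgClosed Ψ] (A : Matrix ι ι Ψ) :
    (kronSum A).charpoly.roots =
      A.charpoly.roots.bind fun θ => A.charpoly.roots.map (θ + ·) := by
  have e2 : A.charpoly = (A.charpoly.roots.map fun θ => X - C θ).prod :=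
    (IsAlgClosed.splits A.charpoly).eq_prod_roots_of_monic A.charpoly_monic
  have : (kronSum A).charpoly =
      ((A.charpoly.roots.bind fun θ => A.charpoly.roots.map (θ + ·)).map fun ψ => X - C ψ).prod := by
    refine Polynomial.funext fun x => ?_
    rw [eval_charpoly_kronSum, eval_multiset_prod, Multiset.map_map, Multiset.map_bind,
      Multiset.prod_bind]
    congr 1
    refine Multiset.map_congr rfl fun θ _ => ?_
    conv_lhs => rw [e2]
    rw [eval_multiset_prod, Multiset.map_map, Multiset.map_map]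
    congr 1
    refine Multiset.map_congr rfl fun θ' _ => ?_
    simp; ring
  rw [this, roots_multiset_prod_X_sub_C]

theorem charpoly_blockDiagonal_const {Ψ : Type*} [Field Ψ] [Infinite Ψ] {H : Type*} [Fintype H]
    [DecidableEq H] (A : Matrix ι ι Ψ) :
    (Matrix.blockDiagonal fun _ : H => A).charpoly = A.charpoly ^ Fintype.card H := by
  refine Polynomial.funext fun x => ?_
  have : Matrix.scalar (ι × H) x - Matrix.blockDiagonal (fun _ : H => A) =
      Matrix.blockDiagonal fun _ : H => Matrix.scalar ι x - A := by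
    ext a b
    obtain ⟨i, k⟩ := a
    obtain ⟨j, l⟩ := b
    by_cases hij : i = j <;> by_cases hkl : k = l <;>
      simp [Matrix.blockDiagonal_apply, Matrix.diagonal_apply, hij, hkl]
  rw [Matrix.eval_charpoly, this, Matrix.det_blockDiagonal, eval_pow, Matrix.eval_charpoly]
  simp

/-- the spectral identity forces the generalised kernel to have `p`-power index -/
theorem finrank_mul_pow_of_kron {F : Type*} [Field F] {p : ℕ} [Fact p.Prime] [CharP F p]
    [Nonempty ι] {H : Type*} [Fintype H] [DecidableEq H] (hH : Fintype.card H = Fintype.card ι)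
    (A : Matrix ι ι F)
    (h : (kronSum A).charpoly = (Matrix.blockDiagonal fun _ : H => A).charpoly) :
    ∃ c : ℕ, finrank F (Module.End.maxGenEigenspace (Matrix.toLin' A) 0) * p ^ c =
      Fintype.card ι := by
  classical
  let Ψ := AlgebraicClosure F
  let φ := algebraMap F Ψ
  let A' := A.map φ
  have h' : (kronSum A').charpoly = A'.charpoly ^ Fintype.card ι := by
    rw [← hH, ← charpoly_blockDiagonal_const, ← kronSum_map, Matrix.charpoly_map, h,
      ← Matrix.charpoly_map]
    congr 1
    ext a b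
    simp only [Matrix.map_apply, Matrix.blockDiagonal_apply, A']
    split_ifs <;> simp
  have hcard : A'.charpoly.roots.card = Fintype.card ι := by
    rw [← (IsAlgClosed.splits A'.charpoly).natDegree_eq_card_roots, Matrix.charpoly_natDegree_eq_dim]
  have hroots := congrArg roots h'
  rw [roots_charpoly_kronSum, roots_pow, ← hcard] at hroots
  obtain ⟨c, hc⟩ := count_mul_pow_of_conv (p := p) (fun x : Ψ => by simp [nsmul_eq_mul])
    A'.charpoly.roots (by rw [← Multiset.card_pos, hcard]; exact Fintype.card_pos) hroots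
  refine ⟨c, ?_⟩
  rw [← hcard, ← hc, count_roots, LinearMap.finrank_maxGenEigenspace_eq, Matrix.charpoly_toLin',
    Matrix.charpoly_map, ← map_zero φ, ← eq_rootMultiplicity_map φ.injective]

end Kron

/-- a generic linear combination of commuting operators has the joint generalised kernel -/
theorem exists_generic_comb {F : Type*} [Field F] [Infinite F] {W : Type*} [AddCommGroup W]
    [Module F W] [FiniteDimensional F W] {n : Type*} [Fintype n] (f : n → Module.End F W)
    (hc : ∀ i j, f i * f j = f j * f i) :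
    ∃ l : n → F, Module.End.maxGenEigenspace (∑ i, l i • f i) 0 =
      ⨅ i, (f i).maxGenEigenspace 0 := by
  classical
  let 𝒜 := Algebra.adjoin F (Set.range f)
  have hmc : IsMulCommutative 𝒜 := Algebra.isMulCommutative_adjoin F (by
    rintro _ ⟨i, rfl⟩ _ ⟨j, rfl⟩; exact hc i j)
  let _ : CommRing 𝒜 := { (inferInstance : Ring 𝒜) with mul_comm := hmc.is_comm.comm }
  have : IsArtinianRing 𝒜 := IsArtinianRing.of_finite F 𝒜
  let g : n → 𝒜 := fun i => ⟨f i, Algebra.subset_adjoin ⟨i, rfl⟩⟩
  let comb : (n → F) →ₗ[F] 𝒜 := Fintype.linearCombination F g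
  let I := {P : PrimeSpectrum 𝒜 // ∃ i, g i ∉ P.asIdeal}
  obtain ⟨l, hl⟩ := Submodule.exists_forall_notMem_of_forall_ne_top
    (fun P : I => (P.1.asIdeal.restrictScalars F).comap comb) (by
      rintro ⟨P, i, hi⟩ htop
      have : Pi.single i (1 : F) ∈ (P.asIdeal.restrictScalars F).comap comb := by
        have h := htop
        simp only at h
        rw [h]; trivial
      apply hi
      simpa [comb] using this)
  have hT : ((comb l : 𝒜) : Module.End F W) = ∑ i, l i • f i := by
    simp [comb, Fintype.linearCombination_apply, g]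
  refine ⟨l, le_antisymm (le_iInf fun i z hz => ?_) fun z hz => ?_⟩
  · have hrad : g i ∈ (Ideal.span {comb l}).radical := by
      rw [Ideal.radical_eq_sInf, Ideal.mem_sInf]
      rintro J ⟨hJ, hJp⟩
      by_contra hi
      exact hl ⟨⟨J, hJp⟩, i, hi⟩ (hJ (Ideal.mem_span_singleton_self _))
    obtain ⟨m, hm⟩ := hrad
    obtain ⟨a, ha⟩ := Ideal.mem_span_singleton'.1 hm
    rw [Module.End.mem_maxGenEigenspace] at hz ⊢
    obtain ⟨k, hk⟩ := hz
    rw [zero_smul, sub_zero, ← hT] at hk
    refine ⟨m * k, ?_⟩
    have e : g i ^ (m * k) = a ^ k * comb l ^ k := by rw [pow_mul, ← ha, mul_pow]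
    have e' := congrArg (fun x : 𝒜 => (x : Module.End F W)) e
    simp only [SubmonoidClass.coe_pow, MulMemClass.coe_mul, g] at e'
    rw [zero_smul, sub_zero, e', Module.End.mul_apply, hk, map_zero]
  · -- the annihilator of `z` is an ideal whose radical contains all the generators
    let J : Ideal 𝒜 :=
      { carrier := {a | (a : Module.End F W) z = 0}
        add_mem' := fun {a b} ha hb => by
          simp only [Set.mem_ofPred_eq] at ha hb ⊢
          rw [Subalgebra.coe_add, LinearMap.add_apply, ha, hb, add_zero]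
        zero_mem' := by simp
        smul_mem' := fun c a ha => by
          simp only [Set.mem_ofPred_eq] at ha ⊢
          rw [smul_eq_mul, Subalgebra.coe_mul, Module.End.mul_apply, ha, map_zero] }
    have hg : ∀ i, g i ∈ J.radical := fun i => by
      have := (Submodule.mem_iInf _).1 hz i
      rw [Module.End.mem_maxGenEigenspace] at this
      obtain ⟨k, hk⟩ := this
      rw [zero_smul, sub_zero] at hk
      exact ⟨k, by
        change ((g i ^ k : 𝒜) : Module.End F W) z = 0
        rw [SubmonoidClass.coe_pow]; exact hk⟩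
    have : comb l ∈ J.radical := by
      rw [Fintype.linearCombination_apply]
      exact Submodule.sum_mem _ fun i _ => (J.radical.restrictScalars F).smul_mem _ (hg i)
    obtain ⟨k, hk⟩ := this
    rw [Module.End.mem_maxGenEigenspace]
    refine ⟨k, ?_⟩
    rw [zero_smul, sub_zero, ← hT, ← SubmonoidClass.coe_pow]
    exact hk

end Crest.Agent.T170.DM
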