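import Crest.Agent.T170.GalVal_6

/-!
# Row 170 (T170), task W1 (helper9): embedding into `ℂ` and the valuation on `U`

* `exists_ext'` : an `ℝ≥0`-valued valuation extends to every algebraic extension;
* `gaussP`, `gaussR` : the Gauss valuation on `K[X]` and on `K(X)`;
* `exists_emb` : a field of characteristic zero and of the cardinality of the continuum embeds
  into `ℂ` with `ℂ` algebraic over the image;
* `w1`.
-/

set_option autoImplicit false
set_option linter.style.haveILetI false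

namespace Crest.Agent.T170.W1

open scoped NNReal Polynomial Cardinal
open Crest.Agent.T170.Gal

/-- **extension of a valuation to an algebraic extension** (no completeness) -/
theorem exists_ext' {K L : Type*} [Field K] [Field L] [Algebra K L] [Algebra.IsAlgebraic K L]
    (v : Valuation K ℝ≥0) (h : ∃ x : K, x ≠ 0 ∧ v x ≠ 1) :
    ∃ w : Valuation L ℝ≥0, ∀ a : K, w (algebraMap K L a) = v a := by
  letI := nnf v h
  have hn : ∀ x : K, ‖x‖ = (v x : ℝ) := fun _ => rfl
  let Kh := UniformSpace.Completion K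
  have hadd : ∀ x y : Kh, ‖x + y‖ ≤ max ‖x‖ ‖y‖ := by
    intro x y
    induction x, y using UniformSpace.Completion.induction_on₂ with
    | hp => apply isClosed_le <;> fun_prop
    | ih x y =>
      rw [← UniformSpace.Completion.coe_add, UniformSpace.Completion.norm_coe,
        UniformSpace.Completion.norm_coe, UniformSpace.Completion.norm_coe, hn, hn, hn]
      exact_mod_cast v.map_add x y
  let vh : Valuation Kh ℝ≥0 :=
    { toFun := fun x => ‖x‖₊
      map_zero' := nnnorm_zero
      map_one' := nnnorm_one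
      map_mul' := fun x y => nnnorm_mul x y
      map_add_le_max' := fun x y => by exact_mod_cast hadd x y }
  have hvh : ∀ a : K, vh (algebraMap K Kh a) = v a := by
    intro a
    apply NNReal.eq
    show ‖algebraMap K Kh a‖ = (v a : ℝ)
    rw [← hn, UniformSpace.Completion.algebraMap_def, Algebra.algebraMap_self, RingHom.id_apply,
      UniformSpace.Completion.norm_coe]
  have hc : Cpl vh := (cpl_iff_aux vh (fun _ => rfl)).2 inferInstance
  obtain ⟨x, hx0, hx1⟩ := h
  obtain ⟨w, hw⟩ := exists_ext (L := AlgebraicClosure Kh) vh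
    ⟨algebraMap K Kh x, (map_ne_zero _).2 hx0, by rw [hvh]; exact hx1⟩ hc
  let j : L →ₐ[K] AlgebraicClosure Kh := IsAlgClosed.lift
  refine ⟨w.comap (j : L →+* AlgebraicClosure Kh), fun a => ?_⟩
  rw [Valuation.comap_apply]
  show w (j (algebraMap K L a)) = v a
  rw [AlgHom.commutes, IsScalarTower.algebraMap_apply K Kh (AlgebraicClosure Kh), hw, hvh]

section Gauss
variable {K : Type*} [Field K] (v : Valuation K ℝ≥0)

theorem av_na : IsNonarchimedean (av v) := by
  intro x y
  change (v (x + y) : ℝ) ≤ max (v x : ℝ) (v y : ℝ)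
  exact_mod_cast v.map_add x y

/-- the Gauss valuation on polynomials -/
noncomputable def gaussP : Valuation K[X] ℝ≥0 where
  toFun f := ⟨f.gaussNorm (av v) 1, f.gaussNorm_nonneg (av v) zero_le_one⟩
  map_zero' := NNReal.eq (Polynomial.gaussNorm_zero (av v) 1)
  map_one' := NNReal.eq (by
    show (1 : K[X]).gaussNorm (av v) 1 = 1
    rw [← Polynomial.C_1, Polynomial.gaussNorm_C]
    simp)
  map_mul' f g := NNReal.eq (Polynomial.gaussNorm_mul (av_na v) one_pos f g)
  map_add_le_max' f g := by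
    have := Polynomial.isNonarchimedean_gaussNorm (av v) (av_na v) zero_le_one f g
    exact_mod_cast this

theorem gaussP_C (a : K) : gaussP v (Polynomial.C a) = v a :=
  NNReal.eq (Polynomial.gaussNorm_C (av v) 1 a)

theorem coeff_le_gaussP (f : K[X]) (i : ℕ) : v (f.coeff i) ≤ gaussP v f := by
  have := Polynomial.le_gaussNorm (av v) f zero_le_one i
  rw [one_pow, mul_one] at this
  exact_mod_cast this

theorem exists_coeff_eq_gaussP (f : K[X]) : ∃ i, gaussP v f = v (f.coeff i) := by
  obtain ⟨i, hi⟩ := Polynomial.exists_eq_gaussNorm (av v) 1 f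
  rw [one_pow, mul_one] at hi
  exact ⟨i, NNReal.eq hi⟩

theorem gaussP_le_iff (f : K[X]) (γ : ℝ≥0) : gaussP v f ≤ γ ↔ ∀ i, v (f.coeff i) ≤ γ := by
  refine ⟨fun h i => (coeff_le_gaussP v f i).trans h, fun h => ?_⟩
  obtain ⟨i, hi⟩ := exists_coeff_eq_gaussP v f
  rw [hi]
  exact h i

theorem gaussP_eq_sup (f : K[X]) : gaussP v f = f.support.sup fun i => v (f.coeff i) := by
  apply le_antisymm
  · rw [gaussP_le_iff]
    intro i
    by_cases hi : i ∈ f.support
    · exact Finset.le_sup (f := fun i => v (f.coeff i)) hi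
    · rw [Polynomial.notMem_support_iff.1 hi, map_zero]
      exact zero_le
  · exact Finset.sup_le fun i _ => coeff_le_gaussP v f i

theorem gaussP_supp : nonZeroDivisors K[X] ≤ (gaussP v).supp.primeCompl := by
  intro f hf h0
  have h1 : gaussP v f = 0 := h0
  refine nonZeroDivisors.ne_zero hf ?_
  ext i
  have h2 := coeff_le_gaussP v f i
  rw [h1, nonpos_iff_eq_zero, map_eq_zero] at h2
  rw [h2, Polynomial.coeff_zero]

/-- the Gauss valuation on rational functions -/
noncomputable def gaussR : Valuation (RatFunc K) ℝ≥0 :=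
  (gaussP v).extendToLocalization (gaussP_supp v) (RatFunc K)

theorem gaussR_poly (f : K[X]) : gaussR v (algebraMap K[X] (RatFunc K) f) = gaussP v f :=
  Valuation.extendToLocalization_apply_map_apply _ _ _ f

theorem gaussR_const (a : K) : gaussR v (algebraMap K (RatFunc K) a) = v a := by
  rw [IsScalarTower.algebraMap_apply K K[X] (RatFunc K), gaussR_poly, Polynomial.algebraMap_eq,
    gaussP_C]

end Gauss

/-- **embedding into `ℂ`** -/
theorem exists_emb (F : Type) [Field F] [CharZero F] (hF : #F = Cardinal.continuum) :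
    ∃ ι : F →+* ℂ, ∀ c : ℂ, IsAlgebraic ι.fieldRange c := by
  have h1 : #(AlgebraicClosure F) = Cardinal.continuum := by
    apply le_antisymm
    · refine (Algebra.IsAlgebraic.cardinalMk_le_max F (AlgebraicClosure F)).trans ?_
      rw [hF]
      exact max_le le_rfl Cardinal.aleph0_le_continuum
    · rw [← hF]
      exact Cardinal.mk_le_of_injective (algebraMap F (AlgebraicClosure F)).injective
  obtain ⟨e⟩ := IsAlgClosed.ringEquiv_of_equiv_of_charZero (K := AlgebraicClosure F) (L := ℂ)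
    (by rw [h1]; exact Cardinal.aleph0_lt_continuum)
    (Cardinal.eq.1 (by rw [h1, Cardinal.mk_complex]))
  let ι : F →+* ℂ := (e : AlgebraicClosure F →+* ℂ).comp (algebraMap F (AlgebraicClosure F))
  refine ⟨ι, fun c => ?_⟩
  obtain ⟨z, rfl⟩ := e.surjective c
  have hz : IsAlgebraic F z := Algebra.IsAlgebraic.isAlgebraic z
  exact hz.ringHom_of_comp_eq ι.rangeRestrictField (e : AlgebraicClosure F →+* ℂ)
    ι.rangeRestrictField.injective (by ext a; rfl)

/-- the universal field -/
abbrev U : Type := AlgebraicClosure (RatFunc ℂ)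

/-- the coordinate `x` -/
noncomputable def xU : U := algebraMap (RatFunc ℂ) U RatFunc.X

theorem aeval_xU (f : ℂ[X]) :
    Polynomial.aeval xU f = algebraMap (RatFunc ℂ) U (algebraMap ℂ[X] (RatFunc ℂ) f) := by
  rw [xU, Polynomial.aeval_algebraMap_apply, ← RatFunc.algebraMap_X,
    Polynomial.aeval_algebraMap_apply, Polynomial.aeval_X_left_apply]

theorem xU_trans : Transcendental ℂ xU := by
  rintro ⟨f, hf, h0⟩
  rw [aeval_xU, map_eq_zero, map_eq_zero_iff _ (RatFunc.algebraMap_injective ℂ)] at h0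
  exact hf h0

theorem xU_alg : Algebra.IsAlgebraic (IntermediateField.adjoin ℂ {xU}) U := by
  have hmem : ∀ r : RatFunc ℂ, algebraMap (RatFunc ℂ) U r ∈ IntermediateField.adjoin ℂ {xU} := by
    intro r
    have h1 : r ∈ IntermediateField.adjoin ℂ {(RatFunc.X : RatFunc ℂ)} := by
      rw [RatFunc.adjoin_X]
      exact IntermediateField.mem_top
    have h2 := IntermediateField.adjoin_map ℂ ({RatFunc.X} : Set (RatFunc ℂ))
      (IsScalarTower.toAlgHom ℂ (RatFunc ℂ) U)
    rw [Set.image_singleton] at h2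
    have h3 : (IsScalarTower.toAlgHom ℂ (RatFunc ℂ) U) RatFunc.X = xU := rfl
    rw [h3] at h2
    rw [← h2]
    exact ⟨r, h1, rfl⟩
  let φ : RatFunc ℂ →+* IntermediateField.adjoin ℂ {xU} :=
    (algebraMap (RatFunc ℂ) U).codRestrict (IntermediateField.adjoin ℂ {xU}).toSubfield hmem
  refine ⟨fun z => ?_⟩
  have hz : IsAlgebraic (RatFunc ℂ) z := Algebra.IsAlgebraic.isAlgebraic z
  exact hz.ringHom_of_comp_eq φ (RingHom.id U) φ.injective (by ext a; rfl)

/-- every nontrivial valuation of `ℂ` extends to `U` as a Gauss valuation on `ℂ[x]` -/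
theorem exists_vU (w : Valuation ℂ ℝ≥0) (h : ∃ c : ℂ, c ≠ 0 ∧ w c ≠ 1) :
    ∃ vU : Valuation U ℝ≥0, (∀ c : ℂ, vU (algebraMap ℂ U c) = w c) ∧
      ∀ f : ℂ[X], vU (Polynomial.aeval xU f) = gaussP w f := by
  obtain ⟨c, hc0, hc1⟩ := h
  obtain ⟨vU, hvU⟩ := exists_ext' (L := U) (gaussR w)
    ⟨algebraMap ℂ (RatFunc ℂ) c, (map_ne_zero _).2 hc0, by rw [gaussR_const]; exact hc1⟩
  refine ⟨vU, fun a => ?_, fun f => ?_⟩
  · rw [IsScalarTower.algebraMap_apply ℂ (RatFunc ℂ) U, hvU, gaussR_const]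
  · rw [aeval_xU, hvU, gaussR_poly]

/-- **W1** -/
theorem w1 (F : Type) [Field F] [CharZero F] (hF : #F = Cardinal.continuum)
    (v : Valuation F ℝ≥0) (h : ∃ z : F, z ≠ 0 ∧ v z ≠ 1) :
    ∃ (ι : F →+* ℂ) (vU : Valuation U ℝ≥0), (∀ c : ℂ, IsAlgebraic ι.fieldRange c) ∧
      (∀ z : F, vU (algebraMap ℂ U (ι z)) = v z) ∧ vU xU ≤ 1 ∧
      (∀ c : ℂ, 1 ≤ vU (xU - algebraMap ℂ U c)) ∧
      (∀ f : ℂ[X], vU (Polynomial.aeval xU f) =
        f.support.sup fun i => vU (algebraMap ℂ U (f.coeff i))) ∧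
      ∀ (C : Type) [Field C] [IsAlgClosed C] (j : C →+* F), (∀ z : F, ∃ c : C, v (j c) = v z) →
        ∀ c : ℂ, ∃ z : C, vU (algebraMap ℂ U (ι (j z))) = vU (algebraMap ℂ U c) := by
  obtain ⟨ι, hι⟩ := exists_emb F hF
  letI : Algebra F ℂ := ι.toAlgebra
  have halg : ∀ c : ℂ, IsAlgebraic F c := fun c =>
    (hι c).of_ringHom_of_comp_eq ι.rangeRestrictField (RingHom.id ℂ)
      ι.rangeRestrictField_bijective.2 Function.injective_id (by ext a; rfl)
  haveI : Algebra.IsAlgebraic F ℂ := ⟨halg⟩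
  obtain ⟨w, hw⟩ := exists_ext' (L := ℂ) v h
  obtain ⟨z, hz0, hz1⟩ := h
  obtain ⟨vU, h1, h2⟩ := exists_vU w
    ⟨algebraMap F ℂ z, (map_ne_zero _).2 hz0, by rw [hw]; exact hz1⟩
  refine ⟨ι, vU, hι, fun a => by rw [h1]; exact hw a, ?_, fun c => ?_, fun f => ?_, ?_⟩
  · have h3 := h2 Polynomial.X
    rw [Polynomial.aeval_X] at h3
    rw [h3, gaussP_le_iff]
    intro i
    rw [Polynomial.coeff_X]
    split_ifs <;> simp
  · have h3 := h2 (Polynomial.X - Polynomial.C c)
    rw [map_sub, Polynomial.aeval_X, Polynomial.aeval_C] at h3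
    rw [h3]
    have h4 := coeff_le_gaussP w (Polynomial.X - Polynomial.C c) 1
    simpa using h4
  · rw [h2, gaussP_eq_sup]
    simp only [h1]
  · intro C _ _ j hj c
    obtain ⟨d, hd⟩ := exists_val_eq j w (fun a => by
      obtain ⟨d, hd⟩ := hj a
      exact ⟨d, by rw [hw, hw, hd]⟩) (halg c)
    exact ⟨d, by rw [h1, h1, hd]; rfl⟩

end Crest.Agent.T170.W1
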