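import Mathlib
import Crest.Agent.T170.Fr_20
import Crest.Agent.T170.EllB_61

/-!
# Row 170, task W2 (helper60): the punctures

* `quad_root`  : Hensel's lemma for `t ^ 2 + u t + c`;
* `der_add`    : translation invariance of `D x / (y - negY)`;
* `punctures`  : the points `O i = ε i + i • P`.
-/

set_option autoImplicit false

namespace Crest.Agent.T170.W2

open scoped NNReal Classical
open WeierstrassCurve WeierstrassCurve.Affine Crest.Agent.T170.Fr Crest.Agent.T170.Ell

section Hensel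

variable {F : Type*} [Field F]

theorem quad_root {v : Valuation F ℝ≥0} (hc : Cpl v) {u c : F} (hu : v u = 1) (hc1 : v c < 1) :
    ∃ t : F, t ^ 2 + u * t + c = 0 ∧ v t ≤ v c := by
  have hu0 : u ≠ 0 := by
    rintro rfl
    simp at hu
  by_cases hc0 : c = 0
  · exact ⟨0, by simp [hc0], by simp⟩
  have hvc : 0 < v c := (Valuation.pos_iff v).2 hc0
  let f : ℕ → F := fun k => Nat.rec 0 (fun _ t => -(c + t ^ 2) / u) k
  have f0 : f 0 = 0 := rfl
  have fs : ∀ k, f (k + 1) = -(c + f k ^ 2) / u := fun _ => rfl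
  have hb : ∀ k, v (f k) ≤ v c := by
    intro k
    induction k with
    | zero => simp [f0]
    | succ k ih =>
      rw [fs, map_div₀, hu, div_one, Valuation.map_neg]
      refine (v.map_add _ _).trans (max_le le_rfl ?_)
      rw [map_pow, sq]
      exact (mul_le_mul' ih (ih.trans hc1.le)).trans (by rw [mul_one])
  have hd : ∀ k, v (f (k + 1) - f k) ≤ v c ^ (k + 1) := by
    intro k
    induction k with
    | zero => simpa [f0] using hb 1
    | succ k ih =>
      have e : f (k + 1 + 1) - f (k + 1) = -((f (k + 1) - f k) * (f (k + 1) + f k)) / u := by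
        rw [fs (k + 1)]
        conv_lhs => rw [show f (k + 1) = -(c + f k ^ 2) / u from fs k]
        rw [← fs k]
        have : f (k + 1) * u = -(c + f k ^ 2) := by rw [fs k]; field_simp
        field_simp
        linear_combination -this
      rw [e, map_div₀, hu, div_one, Valuation.map_neg, map_mul, pow_succ _ (k + 1)]
      exact mul_le_mul' ih ((v.map_add _ _).trans (max_le (hb (k + 1)) (hb k)))
  have hd2 : ∀ N k, v (f (N + k) - f N) ≤ v c ^ (N + 1) := by
    intro N k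
    induction k with
    | zero => simp
    | succ k ih =>
      have e : f (N + (k + 1)) - f N = (f (N + k + 1) - f (N + k)) + (f (N + k) - f N) := by
        rw [← add_assoc]; ring
      rw [e]
      refine (v.map_add _ _).trans (max_le ((hd _).trans ?_) ih)
      exact pow_le_pow_right_of_le_one' hc1.le (by omega)
  obtain ⟨l, hl⟩ := hc f (by
    intro ε hε
    obtain ⟨N, hN⟩ := NNReal.exists_pow_lt_of_lt_one hε hc1
    refine ⟨N, fun m hm m' hm' => ?_⟩
    obtain ⟨k, rfl⟩ := Nat.exists_eq_add_of_le hm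
    obtain ⟨k', rfl⟩ := Nat.exists_eq_add_of_le hm'
    have e : f (N + k) - f (N + k') = (f (N + k) - f N) - (f (N + k') - f N) := by ring
    rw [e]
    refine lt_of_le_of_lt ((v.map_sub _ _).trans (max_le (hd2 _ _) (hd2 _ _))) ?_
    exact lt_of_le_of_lt (pow_le_pow_right_of_le_one' hc1.le (by omega)) hN)
  have hlb : v l ≤ v c := by
    obtain ⟨N, hN⟩ := hl (v c) hvc
    have e : l = f N - (f N - l) := by ring
    rw [e]
    exact (v.map_sub _ _).trans (max_le (hb _) (hN N le_rfl).le)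
  refine ⟨l, ?_, hlb⟩
  by_contra hne
  obtain ⟨N, hN⟩ := hl _ ((Valuation.pos_iff v).2 hne)
  have h1 : f (N + 1) * u = -(c + f N ^ 2) := by rw [fs N]; field_simp
  have e : l ^ 2 + u * l + c = -((f N - l) * (f N + l)) - u * (f (N + 1) - l) := by
    linear_combination h1
  have h2 : v (-((f N - l) * (f N + l))) < v (l ^ 2 + u * l + c) := by
    rw [Valuation.map_neg, map_mul]
    refine lt_of_le_of_lt ?_ (hN N le_rfl)
    refine (mul_le_mul' le_rfl (((v.map_add _ _).trans (max_le (hb _) hlb)).trans hc1.le)).trans ?_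
    rw [mul_one]
  have h3 : v (u * (f (N + 1) - l)) < v (l ^ 2 + u * l + c) := by
    rw [map_mul, hu, one_mul]
    exact hN (N + 1) (by omega)
  have h4 := v.map_sub_lt h2 h3
  rw [← e] at h4
  exact lt_irrefl _ h4

theorem quad_unique {v : Valuation F ℝ≥0} {u c t t' : F} (hu : v u = 1)
    (h : t ^ 2 + u * t + c = 0) (h' : t' ^ 2 + u * t' + c = 0) (ht : v t < 1) (ht' : v t' < 1) :
    t = t' := by
  have e : (t - t') * (u + (t + t')) = 0 := by linear_combination h - h'
  rcases mul_eq_zero.1 e with e | e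
  · exact sub_eq_zero.1 e
  · have h1 : v (t + t') < v u := hu ▸ v.map_add_lt ht ht'
    have h2 := v.map_add_eq_of_lt_left h1
    rw [e, hu, map_zero] at h2
    exact absurd h2 zero_ne_one

end Hensel

section Der

variable {C F : Type*} [Field C] [Field F] [Algebra C F] (D : Derivation C F F) {V : Affine F}

theorem der_eq (h₁ : D V.a₁ = 0) (h₂ : D V.a₂ = 0) (h₃ : D V.a₃ = 0) (h₄ : D V.a₄ = 0)
    (h₆ : D V.a₆ = 0) {x y : F} (h : V.Equation x y) :
    D y * (y - V.negY x y) = D x * (3 * x ^ 2 + 2 * V.a₂ * x + V.a₄ - V.a₁ * y) := by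
  rw [equation_iff] at h
  have e := congrArg D h
  simp only [map_add, Derivation.leibniz, Derivation.leibniz_pow, h₁, h₂, h₃, h₄, h₆, smul_eq_mul,
    nsmul_eq_mul] at e
  simp only [negY]
  push_cast at e
  linear_combination e

theorem der_add (h₁ : D V.a₁ = 0) (h₂ : D V.a₂ = 0) (h₃ : D V.a₃ = 0) (h₄ : D V.a₄ = 0)
    (h₆ : D V.a₆ = 0) {x₁ y₁ x₂ y₂ : F} (e₁ : V.Equation x₁ y₁) (e₂ : V.Equation x₂ y₂)
    (hx : x₁ ≠ x₂) (dx : D x₂ = 0) (dy : D y₂ = 0) :
    D (V.addX x₁ x₂ (V.slope x₁ x₂ y₁ y₂)) * (y₁ - V.negY x₁ y₁) =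
      D x₁ * (V.addY x₁ x₂ y₁ (V.slope x₁ x₂ y₁ y₂) -
        V.negY (V.addX x₁ x₂ (V.slope x₁ x₂ y₁ y₂)) (V.addY x₁ x₂ y₁ (V.slope x₁ x₂ y₁ y₂))) := by
  have hd : x₁ - x₂ ≠ 0 := sub_ne_zero.2 hx
  set l := V.slope x₁ x₂ y₁ y₂ with hl
  have hl2 : l * (x₁ - x₂) = y₁ - y₂ := by
    rw [hl, slope_of_X_ne hx, div_mul_cancel₀ _ hd]
  have hDl : D l * (x₁ - x₂) = D y₁ - l * D x₁ := by
    have e := congrArg D hl2
    simp only [map_sub, Derivation.leibniz, dx, dy, smul_eq_mul] at e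
    linear_combination e
  have hE := der_eq D h₁ h₂ h₃ h₄ h₆ e₁
  have hX : D (V.addX x₁ x₂ l) = (2 * l + V.a₁) * D l - D x₁ := by
    simp only [addX, map_add, map_sub, Derivation.leibniz, Derivation.leibniz_pow, h₁, h₂, dx,
      smul_eq_mul, nsmul_eq_mul]
    push_cast
    ring
  have hy₂ : y₂ = y₁ - l * (x₁ - x₂) := by linear_combination hl2
  have key : 3 * x₁ ^ 2 + 2 * V.a₂ * x₁ + V.a₄ - V.a₁ * y₁ - l * (y₁ - V.negY x₁ y₁) =
      (x₁ - x₂) * (x₁ - V.addX x₁ x₂ l) := by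
    rw [equation_iff] at e₁ e₂
    rw [hy₂] at e₂
    apply mul_left_cancel₀ hd
    simp only [negY, addX]
    linear_combination e₂ - e₁
  apply mul_left_cancel₀ hd
  rw [hX]
  simp only [addY, negAddY, negY] at hE key ⊢
  linear_combination (2 * l + V.a₁) * (y₁ - (-y₁ - V.a₁ * x₁ - V.a₃)) * hDl +
    (2 * l + V.a₁) * hE + (2 * l + V.a₁) * D x₁ * key

end Der

section Main

variable {R C F : Type} [CommRing R] [Field C] [Field F] [Algebra C F] [Algebra R C] [Algebra R F]
  [IsScalarTower R C F]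

theorem sp_zero_iff (v : Valuation F ℝ≥0) (z : F) :
    (Place.ofValuationSubring v.valuationSubring).Sp z 0 ↔ v z < 1 := by
  constructor
  · rintro ⟨h, e⟩
    exact (Valuation.mem_maximalIdeal_iff (v := v) (a := ⟨z, h⟩)).1
      ((IsLocalRing.residue_eq_zero_iff _).1 e)
  · intro h
    exact ⟨h.le, (IsLocalRing.residue_eq_zero_iff _).2
      ((Valuation.mem_maximalIdeal_iff (v := v) (a := ⟨z, h.le⟩)).2 h)⟩

/-- congruent points have congruent translates -/
theorem congr_add (v : Valuation F ℝ≥0) (vR : ∀ r : R, v (algebraMap R F r) ≤ 1) (W : Affine R)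
    [W.IsElliptic] {x y x' y' s t : F} (h : (W⁄F).Nonsingular x y) (h' : (W⁄F).Nonsingular x' y')
    (hx' : v x' ≤ 1) (hx : v (x - x') < 1) (hy : v (y - y') < 1) (T : (W⁄F).Point)
    (hs : (W⁄F).Nonsingular s t) (e : Point.some _ _ h' + T = Point.some _ _ hs) (vs : v s ≤ 1) :
    ∃ (a b : F) (hab : (W⁄F).Nonsingular a b), Point.some _ _ h + T = Point.some _ _ hab ∧
      v (a - s) < 1 ∧ v (b - t) < 1 := by
  let A := v.valuationSubring
  let Pl := Place.ofValuationSubring A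
  let _ : Algebra R (IsLocalRing.ResidueField A) :=
    ((IsLocalRing.residue A).comp ((algebraMap R F).codRestrict A vR)).toAlgebra
  have hP : Pl.Over R := fun r => ⟨vR r, rfl⟩
  have mx' : x' ∈ Pl.A := hx'
  have my' : y' ∈ Pl.A := y_mem hP h'.1 mx'
  have sx : Pl.Sp x (Pl.val x') := by
    simpa using ((sp_zero_iff v _).2 hx).add (Place.sp_val mx')
  have sy : Pl.Sp y (Pl.val y') := by
    simpa using ((sp_zero_iff v _).2 hy).add (Place.sp_val my')
  have e1 : red W hP (Point.some _ _ h) = red W hP (Point.some _ _ h') := by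
    rw [red_some_of_sp hP h sx sy, red_some_of_sp hP h' (Place.sp_val mx') (Place.sp_val my')]
  have ms : s ∈ Pl.A := vs
  have mt : t ∈ Pl.A := y_mem hP hs.1 ms
  have e2 : red W hP (Point.some _ _ h + T) =
      Point.some _ _ (nonsingular_sp hP hs.1 (Place.sp_val ms) (Place.sp_val mt)) := by
    rw [map_add, e1, ← map_add, e, red_some_of_sp hP hs (Place.sp_val ms) (Place.sp_val mt)]
  rcases hQ : Point.some _ _ h + T with _ | ⟨a, b, hab⟩
  · rw [hQ, ← Point.zero_def, map_zero] at e2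
    exact absurd e2.symm (Point.some_ne_zero _)
  · rw [hQ, red_some_eq_some_iff] at e2
    refine ⟨a, b, hab, rfl, (sp_zero_iff v _).1 ?_, (sp_zero_iff v _).1 ?_⟩
    · simpa using e2.1.sub (Place.sp_val ms)
    · simpa using e2.2.sub (Place.sp_val mt)

omit [Algebra C F] [Algebra R C] [IsScalarTower R C F] in
theorem negY_congr (v : Valuation F ℝ≥0) (vR : ∀ r : R, v (algebraMap R F r) ≤ 1) (W : Affine R)
    {a b s t : F} (hx : v (a - s) < 1) (hy : v (b - t) < 1)
    (h : v (t - (W⁄F).negY s t) = 1) : v (b - (W⁄F).negY a b) = 1 := by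
  have e : b - (W⁄F).negY a b =
      (t - (W⁄F).negY s t) + ((b - t) + (b - t) + (W⁄F).a₁ * (a - s)) := by
    simp only [negY]; ring
  have h1 : v ((W⁄F).a₁ * (a - s)) < 1 := by
    rw [map_mul]
    exact lt_of_le_of_lt (mul_le_mul' (vR W.a₁) le_rfl) (by rwa [one_mul])
  rw [e, v.map_add_eq_of_lt_left (h ▸ v.map_add_lt (v.map_add_lt hy hy) h1), h]

theorem der_add_const (W : Affine R) (D : Derivation C F F) {x y a b : F}
    (h : (W⁄F).Nonsingular x y) (hab : (W⁄F).Nonsingular a b) (T : (W⁄C).Point)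
    (hx : ∀ c : C, x ≠ algebraMap C F c)
    (e : Point.some _ _ h + Point.baseChange C F T = Point.some _ _ hab) :
    D a * (y - (W⁄F).negY x y) = D x * (b - (W⁄F).negY a b) := by
  have hR : ∀ r : R, D (algebraMap R F r) = 0 := fun r => by
    rw [IsScalarTower.algebraMap_apply R C F, Derivation.map_algebraMap]
  rcases T with _ | ⟨s, t, hs⟩
  · rw [← Point.zero_def, map_zero, add_zero, Point.some.injEq] at e
    rw [e.1, e.2]
  · rw [Point.map_some, Point.add_of_X_ne (show x ≠ Algebra.ofId C F s from hx s),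
      Point.some.injEq] at e
    rw [← e.2, ← e.1]
    exact der_add D (hR W.a₁) (hR W.a₂) (hR W.a₃) (hR W.a₄) (hR W.a₆) h.1
      (((W.baseChange_nonsingular (Algebra.ofId C F).injective s t).mpr hs).1) (hx s)
      (D.map_algebraMap s) (D.map_algebraMap t)

theorem punctures' {p n : ℕ} [NeZero n] (hp : p ≠ 0) [IsAlgClosed C] [CharZero C]
    (B : Base p n C F) (vR : ∀ r : R, B.v (algebraMap R F r) ≤ 1) (W : Affine R) [W.IsElliptic]
    (P R₀ : (W⁄C).Point) (nP : n • P = 0)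
    (Rint : ∀ j : ℕ, ∃ s t h, R₀ + j • P = .some s t h ∧ B.v (algebraMap C F s) ≤ 1 ∧
      B.v (algebraMap C F (t - (W⁄C).negY s t)) = 1) :
    ∃ (a b : Fin n → F) (a' b' : Fin n → C) (nsO : ∀ i, (W⁄F).Nonsingular (a i) (b i))
      (ns' : ∀ i, (W⁄C).Nonsingular (a' i) (b' i)),
      (∀ i, B.v (b i - (W⁄F).negY (a i) (b i)) = 1) ∧
      (∀ i, B.v (algebraMap C F (a' i)) ≤ 1) ∧
      (∀ i, B.v (a i - algebraMap C F (a' i)) < 1) ∧
      (∀ i, B.v (b i - algebraMap C F (b' i)) < 1) ∧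
      (∀ i, Point.some _ _ (ns' (i + 1)) = Point.some _ _ (ns' i) + P) ∧
      (∀ i j, j ≠ i → B.D j (a i) = 0) ∧ (∀ i j, j ≠ i → B.D j (b i) = 0) ∧
      (∀ i, B.v (p : F) < B.v (B.D i (a i))) ∧
      (∀ i, Point.map (B.σ : F →ₐ[C] F) (Point.some _ _ (nsO i)) + Point.baseChange C F P =
        Point.some _ _ (nsO (i + 1))) := by
  set v := B.v with hv
  have hR : ∀ (D : Derivation C F F) (r : R), D (algebraMap R F r) = 0 := fun D r => by
    rw [IsScalarTower.algebraMap_apply R C F, Derivation.map_algebraMap]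
  -- the constant `ϖ`
  obtain ⟨w, hw⟩ := IsAlgClosed.exists_pow_nat_eq (p : C) two_pos
  set ϖ := algebraMap C F w with hϖ
  have hw2 : ϖ ^ 2 = (p : F) := by rw [hϖ, ← map_pow, hw, map_natCast]
  have hϖ0 : ϖ ≠ 0 := by
    rw [hϖ, map_ne_zero]
    rintro rfl
    exact (Nat.cast_ne_zero.2 hp : (p : C) ≠ 0) (by rw [← hw]; simp)
  have hvp : v (p : F) = v ϖ * v ϖ := by rw [← hw2, map_pow, sq]
  have hϖ1 : v ϖ < 1 := by
    by_contra hcon
    have h1 : 1 ≤ v ϖ := not_lt.1 hcon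
    have h2 := B.vp
    rw [← hv, hvp] at h2
    exact absurd (one_le_mul h1 h1) (not_le.2 h2)
  have hϖp : v (p : F) < v ϖ := by
    rw [hvp]
    exact mul_lt_of_lt_one_right ((Valuation.pos_iff v).2 hϖ0) hϖ1
  -- the points `R₀ + j P`
  choose sa sb sn hs hsa hsb using Rint
  have hsb' : ∀ j, v (algebraMap C F (sb j) -
      (W⁄F).negY (algebraMap C F (sa j)) (algebraMap C F (sb j))) = 1 := fun j => by
    have e := W.baseChange_negY (Algebra.ofId C F) (sa j) (sb j)
    rw [← hsb j, map_sub (algebraMap C F)]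
    exact congrArg (fun z => v (algebraMap C F (sb j) - z)) e
  have nsF : ∀ j, (W⁄F).Nonsingular (algebraMap C F (sa j)) (algebraMap C F (sb j)) := fun j =>
    (W.baseChange_nonsingular (Algebra.ofId C F).injective _ _).mpr (sn j)
  set x₀ := algebraMap C F (sa 0) with hx₀
  set y₀ := algebraMap C F (sb 0) with hy₀
  have hy₀1 : v y₀ ≤ 1 := by
    let A := v.valuationSubring
    let Pl := Place.ofValuationSubring A
    let _ : Algebra R (IsLocalRing.ResidueField A) :=
      ((IsLocalRing.residue A).comp ((algebraMap R F).codRestrict A vR)).toAlgebra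
    have hP : Pl.Over R := fun r => ⟨vR r, rfl⟩
    exact y_mem hP (nsF 0).1 (hsa 0)
  -- the points `ε i`
  set X : Fin n → F := fun i => x₀ + ϖ * B.s i with hX
  have hXx : ∀ i, v (X i - x₀) < 1 := fun i => by
    rw [hX]
    simp only [add_sub_cancel_left, map_mul]
    exact lt_of_le_of_lt (mul_le_mul' le_rfl (B.vs i)) (by rwa [mul_one])
  have hX1 : ∀ i, v (X i) ≤ 1 := fun i => by
    have e : X i = x₀ + (X i - x₀) := by ring
    rw [e]
    exact v.map_add_le (hsa 0) (hXx i).le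
  set u : Fin n → F := fun i => y₀ - (W⁄F).negY (X i) y₀ with hu
  set c : Fin n → F := fun i => y₀ ^ 2 + (W⁄F).a₁ * X i * y₀ + (W⁄F).a₃ * y₀ -
    (X i ^ 3 + (W⁄F).a₂ * X i ^ 2 + (W⁄F).a₄ * X i + (W⁄F).a₆) with hc
  have hu1 : ∀ i, v (u i) = 1 := fun i =>
    negY_congr v vR W (t := y₀) (hXx i) (by rw [sub_self, map_zero]; exact zero_lt_one) (hsb' 0)
  have hc1 : ∀ i, v (c i) < 1 := fun i => by
    have e0 := (nsF 0).1
    rw [equation_iff, ← hx₀, ← hy₀] at e0
    have e : c i = (X i - x₀) * ((W⁄F).a₁ * y₀ - (X i * X i + X i * x₀ + x₀ * x₀) -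
        (W⁄F).a₂ * (X i + x₀) - (W⁄F).a₄) := by
      rw [hc]
      linear_combination e0
    have m1 : ∀ {z z' : F}, v z ≤ 1 → v z' ≤ 1 → v (z * z') ≤ 1 := fun h h' => by
      rw [map_mul]; exact mul_le_one' h h'
    have h1 : v ((W⁄F).a₁ * y₀ - (X i * X i + X i * x₀ + x₀ * x₀) -
        (W⁄F).a₂ * (X i + x₀) - (W⁄F).a₄) ≤ 1 :=
      v.map_sub_le (v.map_sub_le (v.map_sub_le (m1 (vR W.a₁) hy₀1)
        (v.map_add_le (v.map_add_le (m1 (hX1 i) (hX1 i)) (m1 (hX1 i) (hsa 0)))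
          (m1 (hsa 0) (hsa 0)))) (m1 (vR W.a₂) (v.map_add_le (hX1 i) (hsa 0)))) (vR W.a₄)
    rw [e, map_mul]
    exact lt_of_le_of_lt (mul_le_mul' le_rfl h1) (by rw [mul_one]; exact hXx i)
  have hroot : ∀ i, ∃ t : F, t ^ 2 + u i * t + c i = 0 ∧ v t ≤ v (c i) := fun i =>
    quad_root B.cpl (hu1 i) (hc1 i)
  choose t ht htv using hroot
  have ht1 : ∀ i, v (t i) < 1 := fun i => (htv i).trans_lt (hc1 i)
  set Y : Fin n → F := fun i => y₀ + t i with hY
  have hYy : ∀ i, v (Y i - y₀) < 1 := fun i => by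
    rw [hY]
    simpa using ht1 i
  have nsε : ∀ i, (W⁄F).Nonsingular (X i) (Y i) := fun i => by
    rw [← equation_iff_nonsingular, equation_iff]
    have e := ht i
    simp only [hu, hc, negY] at e
    simp only [hY]
    linear_combination e
  have hψ : ∀ i, v (Y i - (W⁄F).negY (X i) (Y i)) = 1 := fun i =>
    negY_congr v vR W (hXx i) (hYy i) (hsb' 0)
  have hσR : ∀ r : R, B.σ (algebraMap R F r) = algebraMap R F r := fun r => by
    rw [IsScalarTower.algebraMap_apply R C F, AlgEquiv.commutes]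
  have hσX : ∀ i, B.σ (X i) = X (i + 1) := fun i => by
    simp only [hX, map_add, map_mul, B.σs, hx₀, hϖ, AlgEquiv.commutes]
  have hσy : B.σ y₀ = y₀ := by rw [hy₀, AlgEquiv.commutes]
  have hσt : ∀ i, B.σ (t i) = t (i + 1) := fun i => by
    refine quad_unique (hu1 (i + 1)) ?_ (ht (i + 1)) (by rw [B.vσ]; exact ht1 i) (ht1 _)
    have e := congrArg B.σ (ht i)
    have a1 : B.σ (W⁄F).a₁ = (W⁄F).a₁ := hσR W.a₁
    have a2 : B.σ (W⁄F).a₂ = (W⁄F).a₂ := hσR W.a₂
    have a3 : B.σ (W⁄F).a₃ = (W⁄F).a₃ := hσR W.a₃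
    have a4 : B.σ (W⁄F).a₄ = (W⁄F).a₄ := hσR W.a₄
    have a6 : B.σ (W⁄F).a₆ = (W⁄F).a₆ := hσR W.a₆
    simp only [hu, hc, negY, map_add, map_sub, map_mul, map_pow, map_neg, map_zero, hσX, hσy, a1,
      a2, a3, a4, a6] at e
    simp only [hu, hc, negY]
    exact e
  have hσY : ∀ i, B.σ (Y i) = Y (i + 1) := fun i => by
    simp only [hY, map_add, hσy, hσt]
  have hDX : ∀ i j, B.D j (X i) = if j = i then ϖ else 0 := fun i j => by
    simp only [hX, map_add, Derivation.leibniz, B.Ds, hx₀, hϖ, Derivation.map_algebraMap,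
      smul_eq_mul]
    split_ifs <;> simp
  have hXc : ∀ i (z : C), X i ≠ algebraMap C F z := fun i z h => by
    have e := hDX i i
    rw [h, Derivation.map_algebraMap, if_pos rfl] at e
    exact hϖ0 e.symm
  -- the punctures
  have hR₀ : R₀ = Point.some _ _ (sn 0) := by simpa using hs 0
  have hO : ∀ i : Fin n, ∃ (a b : F) (hab : (W⁄F).Nonsingular a b),
      Point.some _ _ (nsε i) + Point.baseChange C F (i.val • P) = Point.some _ _ hab ∧
      v (a - algebraMap C F (sa i.val)) < 1 ∧ v (b - algebraMap C F (sb i.val)) < 1 := fun i => by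
    refine congr_add v vR W (nsε i) (nsF 0) (hsa 0) (hXx i) (hYy i) _ (nsF i.val) ?_ (hsa _)
    have e := congrArg (Point.baseChange C F) (hs i.val)
    rw [map_add, hR₀] at e
    exact e
  choose a b nsO hO hOa hOb using hO
  have hvW : ∀ i, v (b i - (W⁄F).negY (a i) (b i)) = 1 := fun i =>
    negY_congr v vR W (hOa i) (hOb i) (hsb' _)
  have hstep : ∀ i : Fin n, (i + 1).val • P = i.val • P + P := fun i => by
    have h1 : (i + 1).val ≡ i.val + 1 [MOD n] := by
      rw [Fin.val_add, Fin.val_one']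
      exact (Nat.mod_modEq _ _).trans (Nat.ModEq.add_left _ (Nat.mod_modEq _ _))
    rw [← succ_nsmul, nsmul_eq_nsmul_iff_modEq]
    exact h1.of_dvd (addOrderOf_dvd_of_nsmul_eq_zero nP)
  have hinv : ∀ i j, B.D j (a i) * (Y i - (W⁄F).negY (X i) (Y i)) =
      B.D j (X i) * (b i - (W⁄F).negY (a i) (b i)) := fun i j =>
    der_add_const W (B.D j) (nsε i) (nsO i) _ (hXc i) (hO i)
  have ne1 : ∀ {z : F}, v z = 1 → z ≠ 0 := fun h h0 => by
    rw [h0, map_zero] at h
    exact zero_ne_one h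
  have hDa : ∀ i j, j ≠ i → B.D j (a i) = 0 := fun i j hj => by
    have e := hinv i j
    rw [hDX, if_neg hj, zero_mul] at e
    exact (mul_eq_zero.1 e).resolve_right (ne1 (hψ i))
  refine ⟨a, b, fun i => sa i.val, fun i => sb i.val, nsO, fun i => sn i.val, hvW,
    fun i => hsa _, hOa, hOb, fun i => ?_, hDa, fun i j hj => ?_, fun i => ?_, fun i => ?_⟩
  · rw [← hs, ← hs, hstep, add_assoc]
  · have e := der_eq (B.D j) (V := W⁄F) (hR _ W.a₁) (hR _ W.a₂) (hR _ W.a₃) (hR _ W.a₄)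
      (hR _ W.a₆) (nsO i).1
    rw [hDa i j hj, zero_mul] at e
    exact (mul_eq_zero.1 e).resolve_right (ne1 (hvW i))
  · have e := congrArg v (hinv i i)
    rw [map_mul, map_mul, hψ, hvW, hDX, if_pos rfl, mul_one, mul_one] at e
    rw [e]
    exact hϖp
  · rw [← hO, ← hO, map_add, Point.map_baseChange, hstep, map_add, add_assoc]
    congr 1
    rw [Point.map_some, Point.some.injEq]
    exact ⟨hσX i, hσY i⟩

/-- the statement posted in the notes (with the superfluous hypothesis `Pint`) -/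
theorem punctures {p n : ℕ} [NeZero n] (hp : p ≠ 0) [IsAlgClosed C] [CharZero C]
    (B : Base p n C F) (vR : ∀ r : R, B.v (algebraMap R F r) ≤ 1) (W : Affine R) [W.IsElliptic]
    (P R₀ : (W⁄C).Point) (nP : n • P = 0)
    (_Pint : ∀ j : ℕ, ¬ n ∣ j → ∃ s t h, j • P = .some s t h ∧ B.v (algebraMap C F s) ≤ 1)
    (Rint : ∀ j : ℕ, ∃ s t h, R₀ + j • P = .some s t h ∧ B.v (algebraMap C F s) ≤ 1 ∧
      B.v (algebraMap C F (t - (W⁄C).negY s t)) = 1) :
    ∃ (a b : Fin n → F) (a' b' : Fin n → C) (nsO : ∀ i, (W⁄F).Nonsingular (a i) (b i))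
      (ns' : ∀ i, (W⁄C).Nonsingular (a' i) (b' i)),
      (∀ i, B.v (b i - (W⁄F).negY (a i) (b i)) = 1) ∧
      (∀ i, B.v (algebraMap C F (a' i)) ≤ 1) ∧
      (∀ i, B.v (a i - algebraMap C F (a' i)) < 1) ∧
      (∀ i, B.v (b i - algebraMap C F (b' i)) < 1) ∧
      (∀ i, Point.some _ _ (ns' (i + 1)) = Point.some _ _ (ns' i) + P) ∧
      (∀ i j, j ≠ i → B.D j (a i) = 0) ∧ (∀ i j, j ≠ i → B.D j (b i) = 0) ∧
      (∀ i, B.v (p : F) < B.v (B.D i (a i))) ∧
      (∀ i, Point.map (B.σ : F →ₐ[C] F) (Point.some _ _ (nsO i)) + Point.baseChange C F P =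
        Point.some _ _ (nsO (i + 1))) :=
  punctures' hp B vR W P R₀ nP Rint

end Main

end Crest.Agent.T170.W2
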