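import Crest.Agent.T170.Fr_20
import Crest.Agent.T170.W1_9
import Crest.Agent.T170.W2_60
import Crest.Agent.T170.W3_90

/-!
# Row 170, task W5 (helper7): `WorldStmt` from `BaseStmt` and `EllStmt`
-/

set_option autoImplicit false
set_option linter.style.haveILetI false

namespace Crest.Agent.T170.W5

open scoped NNReal Polynomial Classical
open WeierstrassCurve WeierstrassCurve.Affine Crest.Agent.T170.Fr

section Transport

theorem val_comap_lt_one {F F' : Type*} [Field F] [Field F'] (V : ValuationSubring F)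
    (f : F' →+* F) (z : F') : (V.comap f).valuation z < 1 ↔ V.valuation (f z) < 1 := by
  rw [← ValuationSubring.mem_nonunits_iff, ← ValuationSubring.mem_nonunits_iff,
    ValuationSubring.mem_nonunits_iff_or, ValuationSubring.mem_nonunits_iff_or,
    ValuationSubring.mem_comap, map_inv₀, map_eq_zero]

variable {C F C' F' : Type} [Field C] [Field F] [Algebra C F] [Field C'] [Field F'] [Algebra C' F']

/-- transport of an automorphism -/
noncomputable def trAut (eC : C ≃+* C') (eF : F ≃+* F')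
    (h : ∀ c, eF (algebraMap C F c) = algebraMap C' F' (eC c)) (σ : F ≃ₐ[C] F) : F' ≃ₐ[C'] F' :=
  AlgEquiv.ofRingEquiv (f := (eF.symm.trans (σ : F ≃+* F)).trans eF) fun c => by
    obtain ⟨c, rfl⟩ := eC.surjective c
    rw [← h]
    simp

theorem trAut_apply (eC : C ≃+* C') (eF : F ≃+* F')
    (h : ∀ c, eF (algebraMap C F c) = algebraMap C' F' (eC c)) (σ : F ≃ₐ[C] F) (z : F) :
    trAut eC eF h σ (eF z) = eF (σ z) := by
  simp [trAut]

theorem trAut_pow (eC : C ≃+* C') (eF : F ≃+* F')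
    (h : ∀ c, eF (algebraMap C F c) = algebraMap C' F' (eC c)) (σ : F ≃ₐ[C] F) (k : ℕ) (z : F) :
    (trAut eC eF h σ ^ k) (eF z) = eF ((σ ^ k) z) := by
  induction k with
  | zero => simp
  | succ k ih => rw [pow_succ', pow_succ', AlgEquiv.mul_apply, AlgEquiv.mul_apply, ih, trAut_apply]

/-- transport of a derivation -/
noncomputable def trDer (eC : C ≃+* C') (eF : F ≃+* F')
    (h : ∀ c, eF (algebraMap C F c) = algebraMap C' F' (eC c)) (D : Derivation C F F) :
    Derivation C' F' F' :=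
  Derivation.mk'
    { toFun := fun z => eF (D (eF.symm z))
      map_add' := fun z w => by simp
      map_smul' := fun c z => by
        obtain ⟨c, rfl⟩ := eC.surjective c
        obtain ⟨z, rfl⟩ := eF.surjective z
        rw [Algebra.smul_def, ← h, ← map_mul, RingEquiv.symm_apply_apply,
          RingEquiv.symm_apply_apply, ← Algebra.smul_def, D.map_smul, Algebra.smul_def, map_mul,
          RingHom.id_apply, Algebra.smul_def, h] }
    fun z w => by simp

theorem trDer_apply (eC : C ≃+* C') (eF : F ≃+* F')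
    (h : ∀ c, eF (algebraMap C F c) = algebraMap C' F' (eC c)) (D : Derivation C F F) (z : F) :
    trDer eC eF h D (eF z) = eF (D z) := by
  change eF (D (eF.symm (eF z))) = _
  rw [RingEquiv.symm_apply_apply]

/-- transport of the base datum -/
theorem exists_base {p n : ℕ} [NeZero n] (B : Base p n C F) (eC : C ≃+* C') (eF : F ≃+* F')
    (h : ∀ c, eF (algebraMap C F c) = algebraMap C' F' (eC c)) :
    ∃ B' : Base p n C' F', ∀ z, B'.v (eF z) = B.v z := by
  let v' : Valuation F' ℝ≥0 := B.v.comap (eF.symm : F' →+* F)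
  have hv : ∀ z, v' (eF z) = B.v z := fun z => by
    change B.v (eF.symm (eF z)) = _
    rw [RingEquiv.symm_apply_apply]
  have hV : ∀ z, eF z ∈ B.V.comap (eF.symm : F' →+* F) ↔ z ∈ B.V := fun z => by
    rw [ValuationSubring.mem_comap]
    change eF.symm (eF z) ∈ _ ↔ _
    rw [RingEquiv.symm_apply_apply]
  refine ⟨
    { v := v'
      vp := by rw [← map_natCast eF, hv]; exact B.vp
      vgrp := fun z => ?_
      cpl := fun f hf => ?_
      s := fun i => eF (B.s i)
      vs := fun i => by rw [hv]; exact B.vs i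
      vss := fun i j hij => by rw [← map_sub, hv]; exact B.vss i j hij
      σ := trAut eC eF h B.σ
      σn := AlgEquiv.ext fun z => ?_
      σs := fun i => by rw [trAut_apply, B.σs]
      vσ := fun z => ?_
      D := fun i => trDer eC eF h (B.D i)
      Ds := fun i j => by rw [trDer_apply, B.Ds]; split_ifs <;> simp
      vD := fun i z => ?_
      Dcomm := fun i j z => ?_
      σD := fun i z => ?_
      V := B.V.comap (eF.symm : F' →+* F)
      fine := ⟨fun z hz => ?_, fun c hc => ?_, fun z hz => ?_⟩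
      σV := fun z => ?_ }, hv⟩
  · obtain ⟨z, rfl⟩ := eF.surjective z
    obtain ⟨c, hc⟩ := B.vgrp z
    exact ⟨eC c, by rw [← h, hv, hv, hc]⟩
  · obtain ⟨l, hl⟩ := B.cpl (fun m => eF.symm (f m)) fun ε hε => by
      obtain ⟨N, hN⟩ := hf ε hε
      refine ⟨N, fun m hm m' hm' => ?_⟩
      rw [← map_sub]
      exact hN m hm m' hm'
    refine ⟨eF l, fun ε hε => ?_⟩
    obtain ⟨N, hN⟩ := hl ε hε
    refine ⟨N, fun m hm => ?_⟩
    have h1 := hN m hm
    rwa [← hv, map_sub, RingEquiv.apply_symm_apply] at h1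
  · obtain ⟨z, rfl⟩ := eF.surjective z
    rw [trAut_pow, B.σn, AlgEquiv.one_apply, AlgEquiv.one_apply]
  · obtain ⟨z, rfl⟩ := eF.surjective z
    rw [trAut_apply, hv, hv, B.vσ]
  · obtain ⟨z, rfl⟩ := eF.surjective z
    rw [trDer_apply, hv, hv]
    exact B.vD i z
  · obtain ⟨z, rfl⟩ := eF.surjective z
    simp only [trDer_apply]
    rw [B.Dcomm]
  · obtain ⟨z, rfl⟩ := eF.surjective z
    simp only [trDer_apply, trAut_apply]
    rw [B.σD]
  · obtain ⟨z, rfl⟩ := eF.surjective z
    rw [hv]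
    exact B.fine.le z ((hV z).1 hz)
  · obtain ⟨c, rfl⟩ := eC.surjective c
    rw [← h, hv] at hc
    rw [← h, hV]
    exact B.fine.const c hc
  · obtain ⟨z, rfl⟩ := eF.surjective z
    obtain ⟨c, hc, hc'⟩ := B.fine.res z ((hV z).1 hz)
    refine ⟨eC c, by rw [← h, hv]; exact hc, ?_⟩
    rw [val_comap_lt_one, ← h, ← map_sub]
    change B.V.valuation (eF.symm (eF _)) < 1
    rwa [RingEquiv.symm_apply_apply]
  · obtain ⟨z, rfl⟩ := eF.surjective z
    rw [trAut_apply, hV, hV, B.σV]

end Transport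

/-- `σ ^ j` moves `s 0` visibly -/
theorem faith {p n : ℕ} [NeZero n] {C F : Type} [Field C] [Field F] [Algebra C F]
    (B : Base p n C F) (j : ℕ) (hj : ¬ n ∣ j) :
    ∃ z : F, B.v z ≤ 1 ∧ B.v ((B.σ ^ j) z - z) = 1 := by
  have key : ∀ k : ℕ, (B.σ ^ k) (B.s 0) = B.s (Fin.ofNat n k) := by
    intro k
    induction k with
    | zero => rfl
    | succ k ih =>
      rw [pow_succ', AlgEquiv.mul_apply, ih, B.σs]
      congr 1
      ext
      simp [Fin.val_add]
  refine ⟨B.s 0, B.vs 0, ?_⟩
  rw [key]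
  refine B.vss _ _ fun h => hj ?_
  have h1 := congrArg Fin.val h
  simp only [Fin.val_ofNat, Fin.val_zero] at h1
  exact Nat.dvd_of_mod_eq_zero h1

theorem exists_y {U : Type*} [Field U] [IsAlgClosed U] (V : Affine U) (x : U) :
    ∃ y, V.Equation x y := by
  obtain ⟨y, hy⟩ := IsAlgClosed.exists_root
    (Polynomial.X ^ 2 + Polynomial.C (V.a₁ * x + V.a₃) * Polynomial.X -
      Polynomial.C (x ^ 3 + V.a₂ * x ^ 2 + V.a₄ * x + V.a₆)) (by
      have : (Polynomial.X ^ 2 + Polynomial.C (V.a₁ * x + V.a₃) * Polynomial.X -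
        Polynomial.C (x ^ 3 + V.a₂ * x ^ 2 + V.a₄ * x + V.a₆) : U[X]).degree = 2 := by
        compute_degree!
      rw [this]
      decide)
  refine ⟨y, (equation_iff _ _).2 ?_⟩
  simp only [Polynomial.IsRoot.def, Polynomial.eval_sub, Polynomial.eval_add, Polynomial.eval_pow,
    Polynomial.eval_X, Polynomial.eval_mul, Polynomial.eval_C] at hy
  linear_combination hy

/-- punctures, derivations and `g` over abstract fields (any `DecidableEq C`) -/
theorem mid {p n : ℕ} [NeZero n] (hp : p ≠ 0) {R C F U : Type} [CommRing R] [Field C] [Field F]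
    [Field U] [Algebra R C] [Algebra R F] [Algebra R U] [Algebra C F] [Algebra C U] [Algebra F U]
    [IsScalarTower R C F] [IsScalarTower R C U] [IsScalarTower R F U] [IsScalarTower C F U]
    [dC : DecidableEq C] [IsAlgClosed C] [CharZero C] [IsAlgClosed U] [CharZero U]
    (B : Base p n C F) (vR : ∀ r : R, B.v (algebraMap R F r) ≤ 1) (W : Affine R) [W.IsElliptic]
    (x : U) (htr : Transcendental F x)
    (halg : Algebra.IsAlgebraic (IntermediateField.adjoin F {x}) U)
    (P R₀ : (W⁄C).Point) (nP : n • P = 0)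
    (Rint : ∀ j : ℕ, ∃ s t h, R₀ + j • P = .some s t h ∧ B.v (algebraMap C F s) ≤ 1 ∧
      B.v (algebraMap C F (t - (W⁄C).negY s t)) = 1) :
    ∃ (y : U) (ns : (W⁄U).Nonsingular x y) (a b : Fin n → F) (a' b' : Fin n → C)
      (nsO : ∀ i, (W⁄U).Nonsingular (algebraMap F U (a i)) (algebraMap F U (b i)))
      (ns' : ∀ i, (W⁄C).Nonsingular (a' i) (b' i)) (D : Fin n → Derivation C U U)
      (g : U ≃ₐ[C] U),
      (∀ i, ∃ z : F, B.v z = 1 ∧ algebraMap F U (b i) -
        (W⁄U).negY (algebraMap F U (a i)) (algebraMap F U (b i)) = algebraMap F U z) ∧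
      (∀ i, B.v (algebraMap C F (a' i)) ≤ 1) ∧
      (∀ i, B.v (a i - algebraMap C F (a' i)) < 1) ∧
      (∀ i, B.v (b i - algebraMap C F (b' i)) < 1) ∧
      (∀ i, Point.some _ _ (ns' (i + 1)) = Point.some _ _ (ns' i) + P) ∧
      (∀ i j, j ≠ i → B.D j (a i) = 0) ∧ (∀ i j, j ≠ i → B.D j (b i) = 0) ∧
      (∀ i, B.v (p : F) < B.v (B.D i (a i))) ∧
      (∀ i, D i x = 0) ∧ (∀ i, D i y = 0) ∧
      (∀ i z, D i (algebraMap F U z) = algebraMap F U (B.D i z)) ∧
      (∀ i j z, D i (D j z) = D j (D i z)) ∧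
      (∀ z, g (algebraMap F U z) = algebraMap F U (B.σ z)) ∧
      Point.map (g : U →ₐ[C] U) (Point.some _ _ ns) =
        Point.some _ _ ns - Point.baseChange C U P ∧
      (∀ i, Point.map (g : U →ₐ[C] U) (Point.some _ _ (nsO i)) + Point.baseChange C U P =
        Point.some _ _ (nsO (i + 1))) ∧
      ∀ i z, g (D i z) = D (i + 1) (g z) := by
  obtain rfl : dC = fun a b => Classical.propDecidable (a = b) := Subsingleton.elim _ _
  obtain ⟨a, b, a', b', nsO, ns', vW, va', vaa', vbb', O', Da, Db, big, gO⟩ :=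
    W2.punctures' hp B vR W P R₀ nP Rint
  obtain ⟨y, hy⟩ := exists_y (W⁄U) x
  have ns : (W⁄U).Nonsingular x y := equation_iff_nonsingular.1 hy
  obtain ⟨D, g, Dx, Dy, DF, Dcomm, gσ, gξ, gD⟩ := W3.w3 (C := C) (F := F) W ns htr halg P B.D B.σ
    (fun i => i + 1) B.σD B.Dcomm
  let f : F →ₐ[C] U := IsScalarTower.toAlgHom C F U
  have nsU : ∀ i, (W⁄U).Nonsingular (algebraMap F U (a i)) (algebraMap F U (b i)) := fun i =>
    (W.baseChange_nonsingular (f := f) (algebraMap F U).injective _ _).2 (nsO i)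
  refine ⟨y, ns, a, b, a', b', nsU, ns', D, g, fun i => ⟨_, vW i, ?_⟩, va', vaa', vbb', O', Da, Db,
    big, Dx, Dy, DF, Dcomm, gσ, gξ, fun i => ?_, gD⟩
  · have h1 := W.baseChange_negY f (a i) (b i)
    change (W⁄U).negY (algebraMap F U (a i)) (algebraMap F U (b i)) =
      algebraMap F U ((W⁄F).negY (a i) (b i)) at h1
    rw [h1, ← map_sub]
  · have h2 := congrArg (Point.map f) (gO i)
    rw [map_add, Point.map_baseChange] at h2
    refine Eq.trans ?_ h2
    congr 1
    simp only [Point.map_some]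
    congr 1
    · exact gσ (a i)
    · exact gσ (b i)

/-- `EllStmt` for any `DecidableEq C`, over the subring -/
theorem ell_dec {p : ℕ} (hE : EllStmt p) (C : Type) [Field C] [dC : DecidableEq C] [IsAlgClosed C]
    [CharZero C] (v : Valuation C ℝ≥0) (hv : v (p : C) < 1) (a : ℕ) :
    ∃ (R : Subring C) (W : Affine R) (_ : W.IsElliptic) (P R₀ : (W⁄C).Point),
      (∀ r : R, v (algebraMap R C r) ≤ 1) ∧ (p ^ a) • P = 0 ∧
      (∀ j : ℕ, ¬ p ^ a ∣ j → ∃ x y h, j • P = .some x y h ∧ v x ≤ 1) ∧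
      ∀ j : ℕ, ∃ x y h, R₀ + j • P = .some x y h ∧ v x ≤ 1 ∧
        v (y - (W⁄C).negY x y) = 1 := by
  obtain rfl : dC = fun a b => Classical.propDecidable (a = b) := Subsingleton.elim _ _
  obtain ⟨W, ell, P, R₀, nP, Pint, Rint⟩ := hE C v hv a
  exact ⟨v.valuationSubring.toSubring, W, ell, P, R₀, fun r => r.2, nP, Pint, Rint⟩

/-- the world from a base datum inside `ℂ` -/
theorem world_of {p n : ℕ} [NeZero n] (hp : p ≠ 0) (U : Type) [Field U] [Algebra ℂ U]
    [IsAlgClosed U] (C F : Subfield ℂ) (R : Subring C) (CF : C ≤ F) [Cac : IsAlgClosed C]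
    [Algebra C F] (hCF : ∀ c : C, algebraMap C F c = Subfield.inclusion CF c)
    (algF : ∀ c : ℂ, IsAlgebraic F c) (B : Base p n C F) (v : Valuation U ℝ≥0)
    (hv : ∀ z : F, v (algebraMap F U z) = B.v z)
    (vR : ∀ r : R, v (algebraMap R U r) ≤ 1)
    (vgrp : ∀ c : ℂ, ∃ z : C, v (algebraMap C U z) = v (algebraMap ℂ U c))
    (x : U) (trans : Transcendental ℂ x)
    (alg : Algebra.IsAlgebraic (IntermediateField.adjoin ℂ {x}) U) (vx : v x ≤ 1)
    (gauss : ∀ c : ℂ, 1 ≤ v (x - algebraMap ℂ U c))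
    (W : Affine R) [ell : W.IsElliptic] (P R₀ : (W⁄C).Point) (nP : n • P = 0)
    (Pint : ∀ j : ℕ, ¬ n ∣ j → ∃ s t h, j • P = .some s t h ∧ v (algebraMap C U s) ≤ 1)
    (Rint : ∀ j : ℕ, ∃ s t h, R₀ + j • P = .some s t h ∧ v (algebraMap C U s) ≤ 1 ∧
      v (algebraMap C U (t - (W⁄C).negY s t)) = 1) :
    Nonempty (World p n U) := by
  haveI : CharZero U := charZero_of_injective_algebraMap (algebraMap ℂ U).injective
  have hCU : ∀ c : C, algebraMap C U c = algebraMap F U (algebraMap C F c) := fun c => by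
    rw [hCF]; rfl
  haveI : IsScalarTower C F U := IsScalarTower.of_algebraMap_eq hCU
  haveI : IsScalarTower R F U := IsScalarTower.of_algebraMap_eq fun r => hCU r
  have hvC : ∀ c : C, v (algebraMap C U c) = B.v (algebraMap C F c) := fun c => by rw [hCU, hv]
  obtain ⟨y, ns, a, b, a', b', nsO, ns', D, g, vW, va', vaa', vbb', O', Da, Db, big, Dx, Dy, DF,
      Dcomm, gσ, gξ, gO, gD⟩ :=
    mid (R := R) (U := U) hp B (fun r => by
      have h1 := vR r
      rwa [IsScalarTower.algebraMap_apply R F U, hv] at h1) W x (W3.trans_of trans)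
      (W3.alg_adjoin algF alg) P R₀ nP (fun j => by
      obtain ⟨s, t, h, e, h1, h2⟩ := Rint j
      exact ⟨s, t, h, e, by rwa [← hvC], by rwa [← hvC]⟩)
  have hpow : ∀ (k : ℕ) (z : F), ((B.σ : F ≃+* F) ^ k) z = (B.σ ^ k) z := by
    intro k z
    induction k with
    | zero => rfl
    | succ k ih => rw [pow_succ', pow_succ', AlgEquiv.mul_apply, ← ih]; rfl
  have hvp : v (p : U) = B.v (p : F) := by rw [← hv, map_natCast (algebraMap F U)]
  refine ⟨
    { C := C
      F := F
      R := R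
      CF := CF
      algF := algF
      Cac := Cac
      v := v
      vp := by rw [hvp]; exact B.vp
      vR := vR
      vgrp := vgrp
      cpl := ?_
      W := W
      ell := ell
      x := x
      y := y
      ns := ns
      trans := trans
      alg := alg
      vx := vx
      gauss := gauss
      P := P
      nP := nP
      Pint := Pint
      a := a
      b := b
      nsO := nsO
      vW := fun i => ?_
      a' := a'
      b' := b'
      va' := fun i => by rw [hvC]; exact va' i
      vaa' := fun i => by rw [hCU, ← map_sub, hv]; exact vaa' i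
      vbb' := fun i => by rw [hCU, ← map_sub, hv]; exact vbb' i
      ns' := ns'
      O' := O'
      D := D
      Dx := Dx
      Dy := Dy
      DF := fun i z => ⟨_, DF i z⟩
      vD := fun i z => by rw [DF, hv, hv]; exact B.vD i z
      Dcomm := Dcomm
      Da := fun i j hij => by rw [DF, Da i j hij, map_zero]
      Db := fun i j hij => by rw [DF, Db i j hij, map_zero]
      big := fun i => by rw [DF, hv, hvp]; exact big i
      g := g
      σ := (B.σ : F ≃+* F)
      gσ := gσ
      vσ := fun z => by rw [hv, hv]; exact B.vσ z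
      σn := RingEquiv.ext fun z => by rw [hpow, B.σn]; rfl
      faith := fun j hj => ?_
      gξ := gξ
      gO := gO
      gD := gD
      V := B.V
      Vle := fun z hz => by rw [hv]; exact B.fine.le z hz
      Vconst := fun z hz => by rw [← hCF]; exact B.fine.const z (by rwa [← hvC])
      Vres := fun z hz => ?_
      Vσ := B.σV }⟩
  · have : v.comap (algebraMap F U) = B.v := Valuation.ext hv
    rw [this]
    exact B.cpl
  · obtain ⟨z, h1, h2⟩ := vW i
    rw [h2, hv, h1]
  · obtain ⟨z, h1, h2⟩ := faith B j hj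
    exact ⟨z, by rwa [hv], by rwa [hv, hpow]⟩
  · obtain ⟨c, h1, h2⟩ := B.fine.res z hz
    exact ⟨c, by rwa [hvC], by rwa [← hCF]⟩

/-- **W5**: the world exists -/
theorem worldStmt_of {p : ℕ} (hB : BaseStmt p) (hE : EllStmt p) : WorldStmt p := by
  intro a ha _
  have hp : p ≠ 0 := by
    rintro rfl
    exact NeZero.ne (0 ^ a) (zero_pow ha.ne')
  obtain ⟨C₀, F₀, _, _, _, _, _, hF, ⟨B₀⟩⟩ := hB a ha
  haveI : CharZero F₀ := charZero_of_injective_algebraMap (algebraMap C₀ F₀).injective
  obtain ⟨ι, v, algF, hv₀, vx, gauss, -, vgrp⟩ := W1.w1 F₀ hF B₀.v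
    ⟨(p : F₀), Nat.cast_ne_zero.2 hp, B₀.vp.ne⟩
  let F : Subfield ℂ := ι.fieldRange
  let C : Subfield ℂ := (ι.comp (algebraMap C₀ F₀)).fieldRange
  have CF : C ≤ F := by
    rintro _ ⟨c, rfl⟩
    exact ⟨algebraMap C₀ F₀ c, rfl⟩
  letI : Algebra C F := (Subfield.inclusion CF).toAlgebra
  let eF : F₀ ≃+* F := RingEquiv.ofBijective ι.rangeRestrictField ι.rangeRestrictField_bijective
  let eC : C₀ ≃+* C := RingEquiv.ofBijective (ι.comp (algebraMap C₀ F₀)).rangeRestrictField
    (ι.comp (algebraMap C₀ F₀)).rangeRestrictField_bijective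
  haveI : IsAlgClosed C := IsAlgClosed.of_ringEquiv C₀ C eC
  obtain ⟨B, hB⟩ := exists_base B₀ eC eF fun c => rfl
  have hv : ∀ z : F, v (algebraMap F W1.U z) = B.v z := fun z => by
    obtain ⟨z, rfl⟩ := eF.surjective z
    rw [hB]
    exact hv₀ z
  obtain ⟨R, W, ell, P, R₀, vR, nP, Pint, Rint⟩ := ell_dec hE C (v.comap (algebraMap C W1.U)) (by
    rw [Valuation.comap_apply, map_natCast, ← map_natCast (algebraMap F W1.U), hv]
    exact B.vp) a
  refine ⟨W1.U, inferInstance, inferInstance, inferInstance, ?_⟩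
  exact world_of hp W1.U C F R CF (fun c => rfl) algF B v hv vR (fun c => by
      obtain ⟨z, hz⟩ := vgrp C₀ (algebraMap C₀ F₀) B₀.vgrp c
      exact ⟨eC z, hz⟩) W1.xU W1.xU_trans W1.xU_alg vx gauss W P R₀ nP Pint Rint

end Crest.Agent.T170.W5
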