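import Mathlib

/-!
# Row 170, wreath step (helper67), file A

* `Wr A`  : the wreath product `A ≀ C₂`;
* `ind K` : the sum of the elements of `K` in the integral group ring, `coeff_prod_ind` (tuple count);
* `Cc`    : the class of the swap; `coeff_Cc4` : `(Cc⁺)⁴ (z ⊗ 1)` at `1` counts commutators.
-/

set_option autoImplicit false
set_option linter.dupNamespace false

open Finset

noncomputable section

namespace Crest.Agent.T170.Wr

/-- the wreath product `A ≀ C₂` -/
@[ext] structure Wr (A : Type*) where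
  /-- left component -/
  l : A
  /-- right component -/
  r : A
  /-- the swap -/
  s : Bool

namespace Wr

variable {A : Type*}

/-- `Wr A` as a product -/
def equivProd (A : Type*) : Wr A ≃ A × A × Bool where
  toFun x := (x.l, x.r, x.s)
  invFun x := ⟨x.1, x.2.1, x.2.2⟩
  left_inv _ := rfl
  right_inv _ := rfl

instance [Finite A] : Finite (Wr A) := Finite.of_equiv _ (equivProd A).symm

variable [Group A]

instance : Mul (Wr A) :=
  ⟨fun x y => ⟨x.l * (bif x.s then y.r else y.l), x.r * (bif x.s then y.l else y.r), xor x.s y.s⟩⟩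
instance : One (Wr A) := ⟨⟨1, 1, false⟩⟩
instance : Inv (Wr A) :=
  ⟨fun x => ⟨bif x.s then x.r⁻¹ else x.l⁻¹, bif x.s then x.l⁻¹ else x.r⁻¹, x.s⟩⟩

lemma mul_def (x y : Wr A) : x * y =
    ⟨x.l * (bif x.s then y.r else y.l), x.r * (bif x.s then y.l else y.r), xor x.s y.s⟩ := rfl
lemma one_def : (1 : Wr A) = ⟨1, 1, false⟩ := rfl
lemma inv_def (x : Wr A) : x⁻¹ =
    ⟨bif x.s then x.r⁻¹ else x.l⁻¹, bif x.s then x.l⁻¹ else x.r⁻¹, x.s⟩ := rfl

instance : Group (Wr A) := Group.ofLeftAxioms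
  (by
    rintro ⟨a, b, s⟩ ⟨c, d, t⟩ ⟨e, f, u⟩
    cases s <;> cases t <;> cases u <;> simp [mul_def, mul_assoc])
  (by rintro ⟨a, b, s⟩; simp [mul_def, one_def])
  (by rintro ⟨a, b, s⟩; cases s <;> simp [mul_def, one_def, inv_def])

@[simp] lemma mk_mul_ff (a b : A) (y : Wr A) :
    (⟨a, b, false⟩ : Wr A) * y = ⟨a * y.l, b * y.r, y.s⟩ := by simp [mul_def]
@[simp] lemma mk_mul_tt (a b : A) (y : Wr A) :
    (⟨a, b, true⟩ : Wr A) * y = ⟨a * y.r, b * y.l, !y.s⟩ := by simp [mul_def]
@[simp] lemma inv_ff (a b : A) : (⟨a, b, false⟩ : Wr A)⁻¹ = ⟨a⁻¹, b⁻¹, false⟩ := by simp [inv_def]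
@[simp] lemma inv_tt (a b : A) : (⟨a, b, true⟩ : Wr A)⁻¹ = ⟨b⁻¹, a⁻¹, true⟩ := by simp [inv_def]
@[simp] lemma one_l : (1 : Wr A).l = 1 := rfl
@[simp] lemma one_r : (1 : Wr A).r = 1 := rfl
@[simp] lemma one_s : (1 : Wr A).s = false := rfl
lemma mul_s (x y : Wr A) : (x * y).s = xor x.s y.s := rfl
@[simp] lemma inv_s (x : Wr A) : x⁻¹.s = x.s := rfl

/-- left inclusion -/
def inl : A →* Wr A where
  toFun a := ⟨a, 1, false⟩
  map_one' := rfl
  map_mul' a b := by simp
/-- right inclusion -/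
def inr : A →* Wr A where
  toFun a := ⟨1, a, false⟩
  map_one' := rfl
  map_mul' a b := by simp

lemma inl_apply (a : A) : inl a = (⟨a, 1, false⟩ : Wr A) := rfl
lemma inr_apply (a : A) : inr a = (⟨1, a, false⟩ : Wr A) := rfl

/-- the class of the swap -/
def sw (a : A) : Wr A := ⟨a, a⁻¹, true⟩

end Wr

open MonoidAlgebra

section ind

variable {G : Type*} [Group G] [Fintype G]

open Classical in
/-- the sum of the elements of `K` -/
def ind (K : Set G) : MonoidAlgebra ℤ G := ∑ w ∈ univ.filter (· ∈ K), single w 1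

open Classical in
lemma coeff_ind_mul (K : Set G) (F : MonoidAlgebra ℤ G) (x : G) :
    (ind K * F).coeff x = ∑ w ∈ univ.filter (· ∈ K), F.coeff (w⁻¹ * x) := by
  unfold ind
  rw [Finset.sum_mul, coeff_sum, Finsupp.finsetSum_apply]
  refine Finset.sum_congr rfl fun w _ => ?_
  rw [coeff_single_mul_apply, one_mul]

open Classical in
lemma coeff_mul_ind (K : Set G) (F : MonoidAlgebra ℤ G) (x : G) :
    (F * ind K).coeff x = ∑ w ∈ univ.filter (· ∈ K), F.coeff (x * w⁻¹) := by
  unfold ind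
  rw [Finset.mul_sum, coeff_sum, Finsupp.finsetSum_apply]
  refine Finset.sum_congr rfl fun w _ => ?_
  rw [coeff_mul_single_apply, mul_one]

open Classical in
/-- the coefficients of a product of indicator sums count tuples -/
lemma coeff_prod_ind : ∀ (m : ℕ) (C : Fin m → Set G) (x : G),
    ((List.ofFn fun i => ind (C i)).prod).coeff x =
      ((univ.filter fun w : Fin m → G => (∀ i, w i ∈ C i) ∧ (List.ofFn w).prod = x).card : ℤ)
  | 0, C, x => by
    simp only [List.ofFn_zero, List.prod_nil, IsEmpty.forall_iff, true_and]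
    rw [MonoidAlgebra.one_def, coeff_single, Finsupp.single_apply]
    by_cases h : (1 : G) = x
    · simp [h]
    · simp [h]
  | m + 1, C, x => by
    rw [List.ofFn_succ, List.prod_cons, coeff_ind_mul]
    simp only [coeff_prod_ind m]
    rw [← Nat.cast_sum]
    congr 1
    rw [← Finset.card_sigma]
    refine Finset.card_bij' (fun p _ => Fin.cons p.1 p.2)
      (fun w _ => ⟨w 0, fun i => w i.succ⟩) ?_ ?_ ?_ ?_
    · rintro ⟨a, w⟩ h
      simp only [mem_sigma, mem_filter, mem_univ, true_and] at h ⊢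
      refine ⟨fun i => Fin.cases (by simpa using h.1) (fun j => by simpa using h.2.1 j) i, ?_⟩
      rw [List.ofFn_succ, List.prod_cons]
      simp only [Fin.cons_zero, Fin.cons_succ]
      rw [h.2.2]; group
    · intro w h
      simp only [mem_sigma, mem_filter, mem_univ, true_and] at h ⊢
      refine ⟨h.1 0, fun i => h.1 _, ?_⟩
      rw [← h.2, List.ofFn_succ, List.prod_cons]; group
    · rintro ⟨a, w⟩ _
      simp
    · intro w _
      exact Fin.cons_self_tail w

/-- conjugation invariant sets -/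
def Cinv (K : Set G) : Prop := ∀ g x, x ∈ K → g * x * g⁻¹ ∈ K

omit [Fintype G] in
lemma Cinv.iff {K : Set G} (h : Cinv K) (g x : G) : g * x * g⁻¹ ∈ K ↔ x ∈ K :=
  ⟨fun hx => by simpa [mul_assoc] using h g⁻¹ _ hx, h g x⟩

omit [Fintype G] in
lemma mem_center_of_single {F : MonoidAlgebra ℤ G}
    (h : ∀ g : G, single g (1 : ℤ) * F = F * single g 1) :
    F ∈ Subring.center (MonoidAlgebra ℤ G) := by
  rw [Subring.mem_center_iff]
  intro Y
  induction Y using MonoidAlgebra.induction_on with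
  | of g => exact h g
  | add a b ha hb => rw [add_mul, mul_add, ha, hb]
  | smul r a ha => rw [smul_mul_assoc, mul_smul_comm, ha]

open Classical in
lemma ind_mem_center {K : Set G} (h : Cinv K) : ind K ∈ Subring.center (MonoidAlgebra ℤ G) := by
  refine mem_center_of_single fun g => ?_
  unfold ind
  rw [Finset.mul_sum, Finset.sum_mul]
  refine Finset.sum_bij' (fun w _ => g * w * g⁻¹) (fun w _ => g⁻¹ * w * g) ?_ ?_ ?_ ?_ ?_
  · intro w hw
    simp only [mem_filter, mem_univ, true_and] at hw ⊢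
    exact h g w hw
  · intro w hw
    simp only [mem_filter, mem_univ, true_and] at hw ⊢
    simpa using h g⁻¹ w hw
  · intro w _; group
  · intro w _; group
  · intro w _
    rw [single_mul_single, single_mul_single]; congr 1; group

omit [Fintype G] in
lemma coeff_conj {F : MonoidAlgebra ℤ G} (h : F ∈ Subring.center (MonoidAlgebra ℤ G)) (g x : G) :
    F.coeff (g * x * g⁻¹) = F.coeff x := by
  have := congrArg (fun Y : MonoidAlgebra ℤ G => Y.coeff (g * x))
    (Subring.mem_center_iff.1 h (single g 1))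
  simp only [coeff_single_mul_apply, coeff_mul_single_apply, one_mul, mul_one] at this
  rw [← this]; congr 1; group

open Classical in
lemma ind_singleton_one : ind ({1} : Set G) = 1 := by
  unfold ind
  rw [Finset.sum_eq_single (1 : G), MonoidAlgebra.one_def]
  · intro b hb hb1
    simp only [mem_filter, mem_univ, true_and, Set.mem_singleton_iff] at hb
    exact absurd hb hb1
  · intro h; simp at h

end ind

section swap

open Wr

variable {A : Type*} [Group A] [Fintype A]

instance : Fintype (Wr A) := Fintype.ofFinite _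

/-- the class of the swap -/
def Cc (A : Type*) [Group A] : Set (Wr A) := {w | w.s = true ∧ w.l * w.r = 1}

omit [Fintype A] in
lemma cinv_Cc : Cinv (Cc A) := by
  rintro ⟨a, b, s⟩ ⟨c, d, t⟩ ⟨h1, h2⟩
  simp only at h1 h2
  subst h1
  have hd : d = c⁻¹ := (eq_inv_of_mul_eq_one_right h2)
  subst hd
  cases s <;> simp [Cc, mul_assoc]

omit [Fintype A] in
lemma inv_mem_Cc {w : Wr A} : w⁻¹ ∈ Cc A ↔ w ∈ Cc A := by
  obtain ⟨a, b, s⟩ := w
  cases s
  · simp [Cc]
  · simp only [Cc, inv_tt, Set.mem_ofPred_eq, true_and]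
    rw [← mul_inv_rev, inv_eq_one]

omit [Fintype A] in
lemma mem_Cc_iff {w : Wr A} (hw : w.s = true) : w ∈ Cc A ↔ (w * w).l = 1 := by
  obtain ⟨a, b, s⟩ := w
  simp only at hw
  subst hw
  simp [Cc]

open Classical in
lemma ind_Cc : ind (Cc A) = ∑ a : A, single (sw a) 1 := by
  unfold ind
  symm
  refine Finset.sum_bij' (fun a _ => sw a) (fun w _ => w.l) ?_ ?_ ?_ ?_ ?_
  · intro a _
    exact mem_filter.2 ⟨mem_univ _, rfl, mul_inv_cancel a⟩
  · intro w _; simp
  · intro a _; rfl
  · rintro ⟨a, b, s⟩ hw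
    obtain ⟨h1, h2⟩ : s = true ∧ a * b = 1 := (mem_filter.1 hw).2
    subst h1
    simp [sw, (eq_inv_of_mul_eq_one_right h2)]
  · intro a _; rfl

/-- `ℤ[A] → ℤ[Wr A]`, left -/
def iL : MonoidAlgebra ℤ A →+* MonoidAlgebra ℤ (Wr A) := mapDomainRingHom ℤ (inl : A →* Wr A)
/-- `ℤ[A] → ℤ[Wr A]`, right -/
def iR : MonoidAlgebra ℤ A →+* MonoidAlgebra ℤ (Wr A) := mapDomainRingHom ℤ (inr : A →* Wr A)

omit [Fintype A] in
lemma iL_single (a : A) (r : ℤ) : iL (single a r) = single (inl a : Wr A) r := by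
  simp [iL]
omit [Fintype A] in
lemma iR_single (a : A) (r : ℤ) : iR (single a r) = single (inr a : Wr A) r := by
  simp [iR]

omit [Fintype A] in
lemma sw_mul_iR (a : A) (z : MonoidAlgebra ℤ A) :
    single (sw a) (1 : ℤ) * iR z = iL (single a 1 * z * single a⁻¹ 1) * single (sw a) 1 := by
  induction z using MonoidAlgebra.induction_on with
  | of g =>
    simp only [of_apply, single_mul_single, iL_single, iR_single, mul_one]
    congr 1
    simp [sw, inl_apply, inr_apply]
  | add x y hx hy => simp only [map_add, mul_add, add_mul, hx, hy]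
  | smul r x hx =>
    simp only [zsmul_eq_mul, map_mul, map_intCast] at hx ⊢
    rw [← (Int.cast_commute r _).left_comm, hx, ← (Int.cast_commute r (iL (single a 1))).left_comm]
    simp only [mul_assoc]

lemma Cc_mul_iR {z : MonoidAlgebra ℤ A} (hz : z ∈ Subring.center (MonoidAlgebra ℤ A)) :
    ind (Cc A) * iR z = ind (Cc A) * iL z := by
  have hc : ind (Cc A) ∈ Subring.center (MonoidAlgebra ℤ (Wr A)) := ind_mem_center cinv_Cc
  rw [← Subring.mem_center_iff.1 hc (iL z), ind_Cc, Finset.sum_mul, Finset.mul_sum]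
  refine Finset.sum_congr rfl fun a _ => ?_
  rw [sw_mul_iR, Subring.mem_center_iff.1 hz (single a 1), mul_assoc z, single_mul_single]
  simp [← MonoidAlgebra.one_def]

/-- pairs of labels -/
def Pr (K L : Set A) : Set (Wr A) := {w | w.s = false ∧ w.l ∈ K ∧ w.r ∈ L}

open Classical in
lemma ind_Pr (K L : Set A) : ind (Pr K L) = iL (ind K) * iR (ind L) := by
  unfold ind
  rw [map_sum, map_sum, Finset.sum_mul_sum, ← Finset.sum_product']
  symm
  refine Finset.sum_bij' (fun p _ => (⟨p.1, p.2, false⟩ : Wr A)) (fun w _ => (w.l, w.r))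
    ?_ ?_ ?_ ?_ ?_
  · rintro ⟨a, b⟩ h
    simp only [mem_product, mem_filter, mem_univ, true_and] at h
    exact mem_filter.2 ⟨mem_univ _, rfl, h.1, h.2⟩
  · rintro ⟨a, b, s⟩ h
    obtain ⟨_, h2, h3⟩ : s = false ∧ a ∈ K ∧ b ∈ L := (mem_filter.1 h).2
    simp [h2, h3]
  · rintro ⟨a, b⟩ _; rfl
  · rintro ⟨a, b, s⟩ h
    obtain ⟨h1, _, _⟩ : s = false ∧ a ∈ K ∧ b ∈ L := (mem_filter.1 h).2
    simp [h1]
  · rintro ⟨a, b⟩ _
    rw [iL_single, iR_single, single_mul_single]
    simp [inl_apply, inr_apply]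

omit [Fintype A] in
open Classical in
lemma coeff_iL (z : MonoidAlgebra ℤ A) (a b : A) :
    (iL z).coeff ⟨a, b, false⟩ = if b = 1 then z.coeff a else 0 := by
  have hinj : Function.Injective (inl : A → Wr A) := fun x y h => congrArg Wr.l h
  split_ifs with h
  · subst h
    exact Finsupp.mapDomain_apply hinj z.coeff a
  · refine Finsupp.mapDomain_of_notMem_range _ _ ?_
    rintro ⟨x, hx⟩
    exact h (congrArg Wr.r hx).symm

lemma coeff_Cc_mul (F : MonoidAlgebra ℤ (Wr A)) (x : Wr A) :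
    (ind (Cc A) * F).coeff x = ∑ a : A, F.coeff ((sw a)⁻¹ * x) := by
  rw [ind_Cc, Finset.sum_mul, coeff_sum, Finsupp.finsetSum_apply]
  refine Finset.sum_congr rfl fun w _ => ?_
  rw [coeff_single_mul_apply, one_mul]

/-- `(Cc⁺)⁴ (z ⊗ 1)` at `1` counts commutators -/
lemma coeff_Cc4 {z : MonoidAlgebra ℤ A} (hz : z ∈ Subring.center (MonoidAlgebra ℤ A)) :
    (ind (Cc A) ^ 4 * iL z).coeff 1 =
      Fintype.card A * ∑ x : A, ∑ y : A, z.coeff ((x * y * x⁻¹ * y⁻¹)⁻¹) := by
  classical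
  have h4 : ind (Cc A) ^ 4 * iL z =
      ind (Cc A) * (ind (Cc A) * (ind (Cc A) * (ind (Cc A) * iL z))) := by
    simp only [pow_succ, pow_zero, one_mul, mul_assoc]
  rw [h4]
  simp only [coeff_Cc_mul, sw, inv_tt, mul_one, mk_mul_tt, inv_inv, Bool.not_true, Bool.not_false,
    coeff_iL]
  have h1 : ∀ a b c : A, (∑ d : A, if d⁻¹ * (c * (b⁻¹ * a)) = 1 then
      z.coeff (d * (c⁻¹ * (b * a⁻¹))) else 0) = z.coeff (c * b⁻¹ * a * c⁻¹ * b * a⁻¹) := by
    intro a b c
    rw [Finset.sum_eq_single (c * (b⁻¹ * a))]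
    · simp [mul_assoc]
    · intro d _ hd
      rw [if_neg]
      intro h
      exact hd (inv_mul_eq_one.1 h)
    · simp
  simp only [h1]
  rw [Finset.sum_comm, ← nsmul_eq_mul, ← Finset.card_univ, ← Finset.sum_const]
  refine Finset.sum_congr rfl fun b _ => ?_
  rw [← Equiv.sum_comp (Equiv.mulLeft b)]
  refine Finset.sum_congr rfl fun x _ => ?_
  rw [← Equiv.sum_comp (Equiv.mulLeft b)]
  refine Finset.sum_congr rfl fun y _ => ?_
  rw [← coeff_conj hz b (x * y * x⁻¹ * y⁻¹)⁻¹]
  congr 1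
  simp only [Equiv.coe_mulLeft]
  group

end swap

end Crest.Agent.T170.Wr
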