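import Crest.Agent.T170.WrA_67
import Crest.Agent.T170.Smith2_13

/-!
# Row 170, wreath step (helper67), file B: the group theoretic count

`P` of index two in `Γ`, `Hom (Γ, Wr G) = (Wr G) ^ m` through `g`.  The labelled homomorphisms
`P → H ≤ G` are as many as the tuples `[x, y] = u_1 ⋯ u_n` in `H` (`count_le`).
-/

set_option autoImplicit false
set_option linter.dupNamespace false

open Finset MonoidAlgebra

noncomputable section

namespace Crest.Agent.T170.Wr

open Wr

variable {Γ : Type} [Group Γ] {P : Subgroup Γ} {A : Type} [Group A]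

open Classical in
/-- extension of `ρ` by the junk value `1` -/
def ex (ρ : P →* A) (x : Γ) : A := if h : x ∈ P then ρ ⟨x, h⟩ else 1

lemma ex_of_mem (ρ : P →* A) {x : Γ} (h : x ∈ P) : ex ρ x = ρ ⟨x, h⟩ := dif_pos h

lemma ex_coe (ρ : P →* A) (x : P) : ex ρ x = ρ x := ex_of_mem ρ x.2

lemma ex_one (ρ : P →* A) : ex ρ 1 = 1 := by
  rw [ex_of_mem ρ P.one_mem]; exact map_one ρ

lemma ex_mul (ρ : P →* A) {x y z : Γ} (hx : x ∈ P) (hy : y ∈ P) (h : z = x * y) :
    ex ρ z = ex ρ x * ex ρ y := by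
  subst h
  rw [ex_of_mem ρ hx, ex_of_mem ρ hy, ex_of_mem ρ (P.mul_mem hx hy), ← map_mul]; rfl

lemma ex_comp {A' : Type} [Group A'] (f : A →* A') (ρ : P →* A) (x : Γ) :
    ex (f.comp ρ) x = f (ex ρ x) := by
  unfold ex
  split_ifs <;> simp

section ind

variable (hP : P.index = 2) {ω : Γ} (hω : ω ∉ P)
include hP hω

lemma mem_a {x : Γ} (hx : x ∈ P) : ω * x * ω⁻¹ ∈ P := by
  simp [Subgroup.mul_mem_iff_of_index_two hP, hω, hx]
lemma mem_b {x : Γ} (hx : x ∉ P) : x * ω⁻¹ ∈ P := by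
  simp [Subgroup.mul_mem_iff_of_index_two hP, hω, hx]
lemma mem_c {x : Γ} (hx : x ∉ P) : ω * x ∈ P := by
  simp [Subgroup.mul_mem_iff_of_index_two hP, hω, hx]

open Classical in
/-- the induced homomorphism -/
def indHom (ρ : P →* A) (u : A) : Γ →* Wr A where
  toFun x := if x ∈ P then ⟨ex ρ x, u⁻¹ * ex ρ (ω * x * ω⁻¹) * u, false⟩
    else ⟨ex ρ (x * ω⁻¹) * u, u⁻¹ * ex ρ (ω * x), true⟩
  map_one' := by simp [ex_one, Wr.one_def]
  map_mul' x y := by
    by_cases hx : x ∈ P <;> by_cases hy : y ∈ P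
    · rw [if_pos (P.mul_mem hx hy), if_pos hx, if_pos hy, mk_mul_ff,
        ex_mul ρ hx hy rfl, ex_mul ρ (z := ω * (x * y) * ω⁻¹) (mem_a hP hω hx) (mem_a hP hω hy)
          (by group)]
      simp [mul_assoc]
    · have hxy : x * y ∉ P := by simp [Subgroup.mul_mem_iff_of_index_two hP, hx, hy]
      rw [if_neg hxy, if_pos hx, if_neg hy, mk_mul_ff,
        ex_mul ρ (z := x * y * ω⁻¹) hx (mem_b hP hω hy) (by group),
        ex_mul ρ (z := ω * (x * y)) (mem_a hP hω hx) (mem_c hP hω hy) (by group)]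
      simp [mul_assoc]
    · have hxy : x * y ∉ P := by simp [Subgroup.mul_mem_iff_of_index_two hP, hx, hy]
      rw [if_neg hxy, if_neg hx, if_pos hy, mk_mul_tt,
        ex_mul ρ (z := x * y * ω⁻¹) (mem_b hP hω hx) (mem_a hP hω hy) (by group),
        ex_mul ρ (z := ω * (x * y)) (mem_c hP hω hx) hy (by group)]
      simp [mul_assoc]
    · have hxy : x * y ∈ P := by simp [Subgroup.mul_mem_iff_of_index_two hP, hx, hy]
      rw [if_pos hxy, if_neg hx, if_neg hy, mk_mul_tt,
        ex_mul ρ (z := x * y) (mem_b hP hω hx) (mem_c hP hω hy) (by group),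
        ex_mul ρ (z := ω * (x * y) * ω⁻¹) (mem_c hP hω hx) (mem_b hP hω hy) (by group)]
      simp [mul_assoc]

lemma indHom_mem (ρ : P →* A) (u : A) {x : Γ} (hx : x ∈ P) :
    indHom hP hω ρ u x = ⟨ex ρ x, u⁻¹ * ex ρ (ω * x * ω⁻¹) * u, false⟩ := by
  classical
  exact if_pos hx

lemma indHom_not (ρ : P →* A) (u : A) {x : Γ} (hx : x ∉ P) :
    indHom hP hω ρ u x = ⟨ex ρ (x * ω⁻¹) * u, u⁻¹ * ex ρ (ω * x), true⟩ := by
  classical
  exact if_neg hx

lemma indHom_inj {ρ ρ' : P →* A} {u u' : A} (h : indHom hP hω ρ u = indHom hP hω ρ' u') :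
    ρ = ρ' ∧ u = u' := by
  constructor
  · ext x
    have := congrArg (fun φ : Γ →* Wr A => (φ x).l) h
    simpa only [indHom_mem hP hω _ _ x.2, ex_coe] using this
  · have := congrArg (fun φ : Γ →* Wr A => (φ ω).l) h
    simpa only [indHom_not hP hω _ _ hω, mul_inv_cancel, ex_one, one_mul] using this

lemma exists_indHom (φ : Γ →* Wr A) (hs : ∀ x, (φ x).s = true ↔ x ∉ P) :
    ∃ (ρ : P →* A) (u : A), φ = indHom hP hω ρ u := by
  have hf : ∀ x, x ∈ P → (φ x).s = false := fun x hx => by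
    rw [← Bool.not_eq_true, hs]; simpa using hx
  have e1 : ∀ x, x ∈ P → φ x = ⟨(φ x).l, (φ x).r, false⟩ := fun x hx => by
    ext <;> simp [hf x hx]
  have e2 : ∀ x, x ∉ P → φ x = ⟨(φ x).l, (φ x).r, true⟩ := fun x hx => by
    ext <;> simp [(hs x).2 hx]
  let ρ : P →* A :=
    { toFun := fun x => (φ x).l
      map_one' := by simp
      map_mul' := fun x y => by
        rw [Subgroup.coe_mul, map_mul, e1 x x.2, mk_mul_ff] }
  have hρ : ∀ x, x ∈ P → ex ρ x = (φ x).l := fun x hx => ex_of_mem ρ hx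
  refine ⟨ρ, (φ ω).l, ?_⟩
  ext1 x
  by_cases hx : x ∈ P
  · rw [indHom_mem hP hω _ _ hx, hρ _ hx, hρ _ (mem_a hP hω hx), map_mul, map_mul, map_inv,
      e2 ω hω, e1 x hx]
    simp [mul_assoc]
  · rw [indHom_not hP hω _ _ hx, hρ _ (mem_b hP hω hx), hρ _ (mem_c hP hω hx), map_mul, map_mul,
      map_inv, e2 ω hω, e2 x hx]
    simp [mul_assoc]

lemma indHom_mem_Cc (ρ : P →* A) (u : A) {x : Γ} (hx : x ∉ P) :
    indHom hP hω ρ u x ∈ Cc A ↔ ex ρ (x * x) = 1 := by
  have hxx : x * x ∈ P := by simp [Subgroup.mul_mem_iff_of_index_two hP]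
  rw [mem_Cc_iff (by rw [indHom_not hP hω _ _ hx]), ← map_mul, indHom_mem hP hω _ _ hxx]

lemma indHom_mem_Pr (ρ : P →* A) (u : A) {x : Γ} (hx : x ∈ P) {K L : Set A} (hL : Cinv L) :
    indHom hP hω ρ u x ∈ Pr K L ↔ ex ρ x ∈ K ∧ ex ρ (ω * x * ω⁻¹) ∈ L := by
  rw [indHom_mem hP hω _ _ hx]
  have := hL.iff u⁻¹ (ex ρ (ω * x * ω⁻¹))
  rw [inv_inv] at this
  simp [Pr, this]

end ind

/-- the labelled homomorphisms -/
def LabP {m : ℕ} (g : Fin m → Γ) (ω : Γ) (B : Finset (Fin m)) (K : Fin m × Bool → Set A)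
    (ρ : P →* A) : Prop :=
  (∀ i, i ∉ B → ex ρ (g i) ∈ K (i, false) ∧ ex ρ (ω * g i * ω⁻¹) ∈ K (i, true)) ∧
    (∀ i ∈ B, ex ρ (g i * g i) = 1) ∧
    ex ρ ((List.ofFn g).prod⁻¹ * (List.ofFn g).prod⁻¹) = 1

/-- the product of the generators is outside `P` -/
lemma prod_not_mem (hP : P.index = 2) {m : ℕ} {g : Fin m → Γ} {B : Finset (Fin m)}
    (hB : B.card = 3) (hBm : ∀ i, g i ∉ P ↔ i ∈ B) : (List.ofFn g).prod ∉ P := by
  classical
  let χ : Γ →* ℤˣ :=
    { toFun := fun x => if x ∈ P then 1 else -1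
      map_one' := by simp
      map_mul' := fun x y => by
        by_cases hx : x ∈ P <;> by_cases hy : y ∈ P <;>
          simp [Subgroup.mul_mem_iff_of_index_two hP, hx, hy] }
  have h1 : χ (List.ofFn g).prod = -1 := by
    rw [map_list_prod, List.map_ofFn, List.prod_ofFn]
    have : ∀ i, (χ ∘ g) i = if i ∈ B then -1 else 1 := fun i => by
      by_cases hi : i ∈ B
      · simp [χ, hi, (hBm i).2 hi]
      · have : g i ∈ P := by
          by_contra h
          exact hi ((hBm i).1 h)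
        simp [χ, hi, this]
    simp only [this]
    rw [Finset.prod_ite_mem, Finset.univ_inter, Finset.prod_const, hB]
    rfl
  intro h
  simp [χ, h] at h1

/-- the sign of a homomorphism is determined on the generators -/
lemma sgn_of_gen (hP : P.index = 2) {m : ℕ} {g : Fin m → Γ}
    (hg : Subgroup.closure (Set.range g) = ⊤) (φ : Γ →* Wr A)
    (h : ∀ i, (φ (g i)).s = true ↔ g i ∉ P) (x : Γ) : (φ x).s = true ↔ x ∉ P := by
  have hx : x ∈ Subgroup.closure (Set.range g) := hg ▸ Subgroup.mem_top x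
  induction hx using Subgroup.closure_induction with
  | mem y hy => obtain ⟨i, rfl⟩ := hy; exact h i
  | one => simp
  | mul y z _ _ hy hz =>
    rw [map_mul, mul_s, Subgroup.mul_mem_iff_of_index_two hP]
    by_cases h1 : y ∈ P <;> by_cases h2 : z ∈ P <;> simp_all
  | inv y _ hy => rw [map_inv, inv_s, inv_mem_iff]; exact hy

section count

variable [Fintype A]

open Classical in
/-- the label sets in the wreath product -/
def CW {m : ℕ} (B : Finset (Fin m)) (K : Fin m × Bool → Set A) (i : Fin m) : Set (Wr A) :=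
  if i ∈ B then Cc A else Pr (K (i, false)) (K (i, true))

omit [Fintype A] in
lemma card_lab_mul (hP : P.index = 2) {ω : Γ} (hω : ω ∉ P) {m : ℕ} {g : Fin m → Γ}
    (hg : Subgroup.closure (Set.range g) = ⊤)
    (hs : Function.Surjective fun (φ : Γ →* Wr A) (i : Fin m) => φ (g i))
    {B : Finset (Fin m)} (hB : B.card = 3) (hBm : ∀ i, g i ∉ P ↔ i ∈ B)
    {K : Fin m × Bool → Set A} (hK : ∀ q, Cinv (K q)) :
    Nat.card {ρ : P →* A // LabP g ω B K ρ} * Nat.card A =
      Nat.card {w : Fin m → Wr A // (∀ i, w i ∈ CW B K i) ∧ (List.ofFn w).prod ∈ Cc A} := by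
  have hn := prod_not_mem hP hB hBm
  have hmem : ∀ i, i ∉ B → g i ∈ P := fun i hi => by
    by_contra h
    exact hi ((hBm i).1 h)
  have hpr : ∀ φ : Γ →* Wr A, (List.ofFn fun i => φ (g i)).prod = φ (List.ofFn g).prod := by
    intro φ
    rw [map_list_prod, List.map_ofFn]; rfl
  have key : ∀ (ρ : P →* A) (u : A), ((∀ i, indHom hP hω ρ u (g i) ∈ CW B K i) ∧
      (List.ofFn fun i => indHom hP hω ρ u (g i)).prod ∈ Cc A) ↔ LabP g ω B K ρ := by
    intro ρ u
    rw [hpr, ← inv_mem_Cc, ← map_inv, indHom_mem_Cc hP hω ρ u (by rwa [inv_mem_iff]), LabP,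
      ← and_assoc]
    refine and_congr_left fun _ => ⟨fun h => ⟨fun i hi => ?_, fun i hi => ?_⟩, fun h i => ?_⟩
    · have := h i
      rwa [CW, if_neg hi, indHom_mem_Pr hP hω ρ u (hmem i hi) (hK _)] at this
    · have := h i
      rwa [CW, if_pos hi, indHom_mem_Cc hP hω ρ u ((hBm i).2 hi)] at this
    · by_cases hi : i ∈ B
      · rw [CW, if_pos hi, indHom_mem_Cc hP hω ρ u ((hBm i).2 hi)]; exact h.2 i hi
      · rw [CW, if_neg hi, indHom_mem_Pr hP hω ρ u (hmem i hi) (hK _)]; exact h.1 i hi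
  rw [← Nat.card_prod]
  refine Nat.card_eq_of_bijective
    (fun q => ⟨fun i => indHom hP hω q.1.1 q.2 (g i), (key _ _).2 q.1.2⟩) ⟨?_, ?_⟩
  · rintro ⟨⟨ρ, h⟩, u⟩ ⟨⟨ρ', h'⟩, u'⟩ he
    have h1 : indHom hP hω ρ u = indHom hP hω ρ' u' := by
      refine MonoidHom.eq_of_eqOn_dense hg ?_
      rintro _ ⟨i, rfl⟩
      exact congrFun (congrArg Subtype.val he) i
    obtain ⟨rfl, rfl⟩ := indHom_inj hP hω h1
    rfl
  · rintro ⟨w, hw⟩
    obtain ⟨φ, rfl⟩ := hs w
    obtain ⟨ρ, u, rfl⟩ := exists_indHom hP hω φ (sgn_of_gen hP hg φ fun i => by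
      have h := hw.1 i
      by_cases hi : i ∈ B
      · rw [CW, if_pos hi] at h
        exact ⟨fun _ => (hBm i).2 hi, fun _ => h.1⟩
      · rw [CW, if_neg hi] at h
        have h1 : (φ (g i)).s = false := h.1
        simp [h1, hmem i hi])
    exact ⟨⟨⟨ρ, (key ρ u).1 hw⟩, u⟩, rfl⟩

open Classical in
lemma card_tuples_eq {m : ℕ} (C : Fin m → Set (Wr A)) :
    (Nat.card {w : Fin m → Wr A // (∀ i, w i ∈ C i) ∧ (List.ofFn w).prod ∈ Cc A} : ℤ) =
      (ind (Cc A) * (List.ofFn fun i => ind (C i)).prod).coeff 1 := by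
  rw [coeff_ind_mul, Nat.card_eq_fintype_card, Fintype.card_subtype]
  simp only [coeff_prod_ind, mul_one]
  rw [← Nat.cast_sum, Finset.card_eq_sum_card_fiberwise
    (f := fun w : Fin m → Wr A => (List.ofFn w).prod⁻¹) (t := univ.filter (· ∈ Cc A))]
  · congr 1
    refine Finset.sum_congr rfl fun c hc => ?_
    congr 1
    ext w
    simp only [mem_filter, mem_univ, true_and] at hc ⊢
    constructor
    · rintro ⟨⟨h1, _⟩, h3⟩
      exact ⟨h1, by rw [← h3, inv_inv]⟩
    · rintro ⟨h1, h2⟩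
      exact ⟨⟨h1, by rw [h2]; exact inv_mem_Cc.2 hc⟩, by rw [h2, inv_inv]⟩
  · intro w hw
    simp only [coe_filter, mem_univ, true_and, Set.mem_ofPred_eq] at hw ⊢
    exact inv_mem_Cc.2 hw.2

open Classical in
lemma Cc_mul_prod : ∀ (m : ℕ) (b : Fin m → Prop)
    (k l : Fin m → Subring.center (MonoidAlgebra ℤ A)),
    ind (Cc A) * (List.ofFn fun i => if b i then ind (Cc A) else iL (k i) * iR (l i)).prod =
      ind (Cc A) ^ (1 + ∑ i, if b i then 1 else 0) *
        iL ((∏ i, if b i then 1 else k i * l i : Subring.center (MonoidAlgebra ℤ A)) :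
          MonoidAlgebra ℤ A)
  | 0, _, _, _ => by simp
  | m + 1, b, k, l => by
    have hc : ind (Cc A) ∈ Subring.center (MonoidAlgebra ℤ (Wr A)) := ind_mem_center cinv_Cc
    have ih := Cc_mul_prod m (fun i => b i.succ) (fun i => k i.succ) (fun i => l i.succ)
    rw [List.ofFn_succ, List.prod_cons, Fin.sum_univ_succ, Fin.prod_univ_succ]
    by_cases h : b 0
    · rw [if_pos h, if_pos h, if_pos h, ih, one_mul, ← mul_assoc, ← pow_succ']
      congr 2; omega
    · rw [if_neg h, if_neg h, if_neg h, zero_add]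
      have e1 : ind (Cc A) * (iL (k 0 : MonoidAlgebra ℤ A) * iR (l 0 : MonoidAlgebra ℤ A)) =
          iL ((k 0 * l 0 : Subring.center (MonoidAlgebra ℤ A)) : MonoidAlgebra ℤ A) *
            ind (Cc A) := by
        rw [← mul_assoc, ← Subring.mem_center_iff.1 hc, mul_assoc, Cc_mul_iR (l 0).2,
          ← Subring.mem_center_iff.1 hc, ← mul_assoc, ← map_mul]
        rfl
      rw [← mul_assoc, e1, mul_assoc, ih, ← mul_assoc,
        Subring.mem_center_iff.1 (pow_mem hc _), mul_assoc, ← map_mul]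
      rfl

open Classical in
lemma card_tup {n : ℕ} (K : Fin n → Set A) :
    (Nat.card (Smith13.Tup A fun j a => a ∈ K j) : ℤ) =
      ∑ x : A, ∑ y : A, ((List.ofFn fun j => ind (K j)).prod).coeff ((x * y * x⁻¹ * y⁻¹)⁻¹) := by
  rw [Finset.sum_comm]
  simp only [coeff_prod_ind, mul_inv_rev, inv_inv, ← mul_assoc]
  unfold Smith13.Tup
  rw [Nat.card_eq_fintype_card, Fintype.card_subtype, ← Finset.sum_product', ← Nat.cast_sum,
    Finset.card_eq_sum_card_fiberwise
      (f := fun w : A × A × (Fin n → A) => (w.1, w.2.1)) (t := univ ×ˢ univ)]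
  · congr 1
    refine Finset.sum_congr rfl fun c _ => ?_
    refine Finset.card_bij' (fun w _ => w.2.2) (fun u _ => (c.1, c.2, u)) ?_ ?_ ?_ ?_
    · rintro ⟨x, y, u⟩ h
      simp only [mem_filter, mem_univ, true_and] at h ⊢
      obtain ⟨⟨h1, h2⟩, rfl⟩ := h
      exact ⟨h2, h1.symm⟩
    · intro u h
      simp only [mem_filter, mem_univ, true_and] at h ⊢
      exact ⟨⟨h.2.symm, h.1⟩, trivial⟩
    · rintro ⟨x, y, u⟩ h
      simp only [mem_filter, mem_univ, true_and] at h
      obtain ⟨_, rfl⟩ := h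
      rfl
    · intro u _; rfl
  · intro w _; simp

/-- **the count for one group** -/
theorem count_one (hP : P.index = 2) {ω : Γ} (hω : ω ∉ P) {m : ℕ} {g : Fin m → Γ}
    (hg : Subgroup.closure (Set.range g) = ⊤)
    (hs : Function.Surjective fun (φ : Γ →* Wr A) (i : Fin m) => φ (g i))
    {B : Finset (Fin m)} (hB : B.card = 3) (hBm : ∀ i, g i ∉ P ↔ i ∈ B)
    {K : Fin m × Bool → Set A} (hK : ∀ q, Cinv (K q))
    {n : ℕ} (e : Fin n → Fin m × Bool) (he : Function.Injective e) (heB : ∀ j, (e j).1 ∉ B)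
    (h1 : ∀ q, q ∉ Set.range e → K q = {1}) :
    Nat.card {ρ : P →* A // LabP g ω B K ρ} =
      Nat.card (Smith13.Tup A fun j a => a ∈ K (e j)) := by
  classical
  let k : Fin m × Bool → Subring.center (MonoidAlgebra ℤ A) :=
    fun q => ⟨ind (K q), ind_mem_center (hK q)⟩
  have hk1 : ∀ q, q ∉ Set.range e → k q = 1 := fun q hq => by
    apply Subtype.ext
    change ind (K q) = 1
    rw [h1 q hq, ind_singleton_one]
  have hz : (∏ i, if i ∈ B then 1 else k (i, false) * k (i, true)) = ∏ j, k (e j) := by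
    have h2 : ∀ i, (if i ∈ B then 1 else k (i, false) * k (i, true)) = ∏ s : Bool, k (i, s) := by
      intro i
      rw [Fintype.prod_bool, mul_comm]
      split_ifs with hi
      · have hr : ∀ s, (i, s) ∉ Set.range e := by
          rintro s ⟨j, hj⟩
          exact heB j (by rw [hj]; exact hi)
        rw [hk1 _ (hr _), hk1 _ (hr _), mul_one]
      · rfl
    simp only [h2]
    rw [← Fintype.prod_prod_type']
    exact (Fintype.prod_of_injective e he _ _ hk1 fun _ => rfl).symm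
  have h3 := card_lab_mul hP hω hg hs hB hBm hK
  have h4 := card_tuples_eq (CW B K)
  have h5 : (fun i => ind (CW B K i)) = fun i => if i ∈ B then ind (Cc A) else
      iL (k (i, false) : MonoidAlgebra ℤ A) * iR (k (i, true) : MonoidAlgebra ℤ A) := by
    funext i
    unfold CW
    split_ifs
    · rfl
    · exact ind_Pr _ _
  have h6 := Cc_mul_prod m (· ∈ B) (fun i => k (i, false)) (fun i => k (i, true))
  have h7 : (∑ i : Fin m, if i ∈ B then 1 else 0) = 3 := by
    rw [Finset.sum_ite_mem, Finset.univ_inter, Finset.sum_const, hB]; rfl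
  have h8 : ((∏ j, k (e j) : Subring.center (MonoidAlgebra ℤ A)) : MonoidAlgebra ℤ A) =
      (List.ofFn fun j => ind (K (e j))).prod := by
    rw [← List.prod_ofFn]
    exact (map_list_prod (Subring.center (MonoidAlgebra ℤ A)).subtype _).trans
      (by rw [List.map_ofFn]; rfl)
  rw [h5] at h4
  have h9 : (Nat.card {ρ : P →* A // LabP g ω B K ρ} : ℤ) * Nat.card A =
      Nat.card A * Nat.card (Smith13.Tup A fun j a => a ∈ K (e j)) := by
    rw [← Nat.cast_mul, h3, h4]
    convert congrArg (fun F : MonoidAlgebra ℤ (Wr A) => F.coeff 1) h6 using 1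
    · congr!
    · have h10 := coeff_Cc4 (∏ j, k (e j)).2
      rw [card_tup, ← h8, Nat.card_eq_fintype_card, ← h10, ← hz]
      congr!
      exact (by convert (congrArg (1 + ·) h7).symm)
  have hA : (Nat.card A : ℤ) ≠ 0 := by exact_mod_cast (Nat.card_pos (α := A)).ne'
  rw [mul_comm] at h9
  exact_mod_cast mul_left_cancel₀ hA h9

end count

/-- functoriality of the wreath product -/
def Wr.map {A' : Type} [Group A'] (f : A →* A') : Wr A →* Wr A' where
  toFun w := ⟨f w.l, f w.r, w.s⟩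
  map_one' := by simp [Wr.one_def]
  map_mul' := by
    rintro ⟨a, b, s⟩ ⟨c, d, t⟩
    cases s <;> simp

/-- **the count for the subgroups** -/
theorem count_le {G : Type} [Group G] [Finite G] (hP : P.index = 2) {ω : Γ} (hω : ω ∉ P)
    {m : ℕ} {g : Fin m → Γ} (hg : Subgroup.closure (Set.range g) = ⊤)
    (hs : Function.Surjective fun (φ : Γ →* Wr G) (i : Fin m) => φ (g i))
    {B : Finset (Fin m)} (hB : B.card = 3) (hBm : ∀ i, g i ∉ P ↔ i ∈ B)
    {K : Fin m × Bool → Set G} (hK : ∀ q, Cinv (K q))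
    {n : ℕ} (e : Fin n → Fin m × Bool) (he : Function.Injective e) (heB : ∀ j, (e j).1 ∉ B)
    (h1 : ∀ q, q ∉ Set.range e → K q = {1}) (H : Subgroup G) :
    Nat.card {ρ : P →* G // LabP g ω B K ρ ∧ ρ.range ≤ H} =
      Nat.card (Smith13.Tup H fun j (a : H) => (a : G) ∈ K (e j)) := by
  have := Fintype.ofFinite H
  have hinj : Function.Injective (Wr.map H.subtype) := by
    rintro ⟨a, b, s⟩ ⟨c, d, t⟩ h
    simp only [Wr.map, MonoidHom.coe_mk, OneHom.coe_mk, Subgroup.subtype_apply, Wr.mk.injEq,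
      SetLike.coe_eq_coe] at h
    obtain ⟨rfl, rfl, rfl⟩ := h
    rfl
  have hs' : Function.Surjective fun (φ : Γ →* Wr H) (i : Fin m) => φ (g i) := by
    intro w
    obtain ⟨φ, hφ⟩ := hs fun i => Wr.map H.subtype (w i)
    have hr : ∀ x, φ x ∈ (Wr.map H.subtype).range := by
      intro x
      have : Subgroup.closure (Set.range g) ≤ (Wr.map H.subtype).range.comap φ := by
        rw [Subgroup.closure_le]
        rintro _ ⟨i, rfl⟩
        exact ⟨w i, (congrFun hφ i).symm⟩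
      exact this (hg ▸ Subgroup.mem_top x)
    refine ⟨(MonoidHom.ofInjective hinj).symm.toMonoidHom.comp (φ.codRestrict _ hr), ?_⟩
    funext i
    apply hinj
    have := congrFun hφ i
    simp only at this
    rw [← this]
    exact MonoidHom.apply_ofInjective_symm hinj _
  have hc := count_one (A := H) hP hω hg hs' hB hBm (K := fun q => {a : H | (a : G) ∈ K q})
    (fun q a x hx => hK q a x hx) e he heB (fun q hq => by
      ext a
      simp [h1 q hq])
  refine Eq.trans ?_ hc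
  symm
  have hl : ∀ ρ : P →* H, LabP g ω B (fun q => {a : H | (a : G) ∈ K q}) ρ ↔
      LabP g ω B K (H.subtype.comp ρ) := fun ρ => by
    simp only [LabP, ex_comp, Subgroup.subtype_apply, Set.mem_ofPred_eq, OneMemClass.coe_eq_one]
  refine Nat.card_eq_of_bijective (fun ρ => ⟨H.subtype.comp ρ.1, (hl _).1 ρ.2, ?_⟩) ⟨?_, ?_⟩
  · rintro _ ⟨x, rfl⟩
    exact (ρ.1 x).2
  · rintro ⟨ρ, h⟩ ⟨ρ', h'⟩ he'
    have h2 : H.subtype.comp ρ = H.subtype.comp ρ' := congrArg Subtype.val he'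
    apply Subtype.ext
    ext x
    exact DFunLike.congr_fun h2 x
  · rintro ⟨ρ, h, hr⟩
    have h2 : H.subtype.comp (ρ.codRestrict H fun x => hr ⟨x, rfl⟩) = ρ := by
      ext x; rfl
    exact ⟨⟨ρ.codRestrict H fun x => hr ⟨x, rfl⟩, (hl _).2 (by rw [h2]; exact h)⟩,
      Subtype.ext h2⟩

end Crest.Agent.T170.Wr
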