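import Crest.Agent.T170.RetApi_81

/-!
# Row 170, wreath step (helper67), file C: places

* `Tr u`, `Pl u` : `u` is trivial on `ℂ`; a normalised place;
* `eq_one_of_ext`, `ext_of_one` : unramified iff the canonical generator is trivial;
* `Pl.conj` : normalised places over the same point of the line are conjugate;
* `Pl.centre` : every place has a centre on the line;
* the values of `z`, `z ^ 2 = (X - e₀) (X - e₁) (X - e₂)`.
-/

set_option autoImplicit false
set_option linter.dupNamespace false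
set_option linter.unusedSectionVars false

noncomputable section

namespace Crest.Agent.T170.Wr

open Crest.Agent.T170.Ret Crest.Agent.T170.RetU

section place

variable {B N : Type*} [Field B] [Field N] [Algebra ℂ B] [Algebra B N]

/-- trivial on the constants -/
def Tr (u : AV B) : Prop := ∀ c : ℂ, c ≠ 0 → u (algebraMap ℂ B c) = 0

/-- a normalised place -/
def Pl (u : AV B) : Prop := Tr u ∧ ∃ t : B, u t = 1

lemma Tr.nat {u : AV B} (h : Tr u) (r : ℕ) (hr : r ≠ 0) : u (r : B) = 0 := by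
  rw [← map_natCast (algebraMap ℂ B)]
  exact h _ (Nat.cast_ne_zero.2 hr)

lemma Tr.nonneg {u : AV B} (h : Tr u) (c : ℂ) : 0 ≤ u (algebraMap ℂ B c) := by
  by_cases hc : c = 0
  · simp [hc]
  · rw [h c hc]

lemma Tr.mul {u : AV B} (h : Tr u) (n : ℕ) (hn : 0 < n) : Tr (u.mul n hn) := fun c hc => by
  rw [AV.mul_apply, ← map_pow]
  exact h _ (pow_ne_zero _ hc)

omit [Algebra ℂ B] in
lemma mul_pos_iff (u : AV B) (n : ℕ) (hn : 0 < n) (f : B) : 0 < u.mul n hn f ↔ 0 < u f := by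
  by_cases hf : f = 0
  · simp [hf]
  obtain ⟨k, hk⟩ := exists_int u hf
  rw [AV.mul_of_eq n hn hk, hk, ← WithTop.coe_zero, WithTop.coe_lt_coe, WithTop.coe_lt_coe]
  have : (0 : ℤ) < n := by exact_mod_cast hn
  exact mul_pos_iff_of_pos_left this

omit [Algebra ℂ B] in
lemma mul_inj {u u' : AV B} (n : ℕ) (hn : 0 < n) (h : u.mul n hn = u'.mul n hn) : u = u' := by
  refine AddValuation.ext fun f => ?_
  by_cases hf : f = 0
  · simp [hf]
  obtain ⟨k, hk⟩ := exists_int u hf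
  obtain ⟨l, hl⟩ := exists_int u' hf
  have h1 := AV.mul_of_eq n hn hk
  rw [h, AV.mul_of_eq n hn hl, WithTop.coe_inj] at h1
  have : (n : ℤ) ≠ 0 := by exact_mod_cast hn.ne'
  rw [hk, hl, mul_left_cancel₀ this h1]

lemma Pl.exists_pos {u : AV B} (h : Pl u) (n : ℕ) (hn : 0 < n) :
    ∃ t : B, t ≠ 0 ∧ 0 < u.mul n hn t := by
  obtain ⟨t, ht⟩ := h.2
  refine ⟨t, ?_, (mul_pos_iff u n hn t).2 (by rw [ht]; exact zero_lt_one)⟩
  rintro rfl
  simp at ht

/-- canonical generators over the same place are conjugate -/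
lemma Pl.isConj [FiniteDimensional B N] [IsGalois B N] {u : AV B} (hu : Pl u) {n : ℕ} (hn : 0 < n)
    {ζ : ℂ} (hζ : ζ ≠ 0) {g g' : N ≃ₐ[B] N} (hg : GenOver (u.mul n hn) (algebraMap ℂ B ζ) g)
    (hg' : GenOver (u.mul n hn) (algebraMap ℂ B ζ) g') : IsConj g g' :=
  uniq' (hu.1.mul n hn).nat (hu.1.mul n hn ζ hζ) (hu.exists_pos n hn) hg hg'

lemma genOver_one_of_ext {u : AV B} {v : AV N} (hv : ∀ f : B, v (algebraMap B N f) = u f) {n : ℕ}
    (hn : 0 < n) {ζ : ℂ} (hζ : ζ ^ n = 1) :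
    GenOver (u.mul n hn) (algebraMap ℂ B ζ) (1 : N ≃ₐ[B] N) := by
  refine ⟨v.mul n hn, fun f => ?_, rot_mul_one v hn ?_⟩
  · rw [AV.mul_apply, AV.mul_apply, ← map_pow, hv]
  · rw [← map_pow, ← map_pow, hζ, map_one, map_one]

/-- unramified: the generator is trivial -/
lemma eq_one_of_ext [FiniteDimensional B N] [IsGalois B N] {u : AV B} (hu : Pl u) {v : AV N}
    (hv : ∀ f : B, v (algebraMap B N f) = u f) {n : ℕ} (hn : 0 < n) {ζ : ℂ} (hζ : ζ ^ n = 1)
    {g : N ≃ₐ[B] N} (hg : GenOver (u.mul n hn) (algebraMap ℂ B ζ) g) : g = 1 := by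
  have hζ0 : ζ ≠ 0 := by
    rintro rfl
    rw [zero_pow hn.ne'] at hζ
    exact zero_ne_one hζ
  exact isConj_one_left.1 (hu.isConj hn hζ0 hg (genOver_one_of_ext hv hn hζ))

/-- values of fixed elements -/
lemma dvd_of_rot {v : AV N} (hv : Tr (v.comap (algebraMap B N))) {ζ : ℂ} {n : ℕ}
    (hζ : IsPrimitiveRoot ζ n) {g : N → N} (h : Rot v (algebraMap B N (algebraMap ℂ B ζ)) g)
    {f : N} (hf : g f = f) {k : ℤ} (hk : v f = k) : (n : ℤ) ∣ k := by
  let _ : Algebra ℂ N := ((algebraMap B N).comp (algebraMap ℂ B)).toAlgebra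
  exact Rot.dvd (C := ℂ) (v := v) hv hζ h hf hk

/-- trivial generator: unramified -/
lemma ext_of_one {u : AV B} (hu : Tr u) {n : ℕ} (hn : 0 < n) {ζ : ℂ} (hζ : IsPrimitiveRoot ζ n)
    (hg : GenOver (u.mul n hn) (algebraMap ℂ B ζ) (1 : N ≃ₐ[B] N)) :
    ∃ v : AV N, ∀ f : B, v (algebraMap B N f) = u f := by
  obtain ⟨v, hv, hr⟩ := hg
  have hd : ∀ y (k : ℤ), v y = k → (n : ℤ) ∣ k := fun y k hk =>
    dvd_of_rot (B := B) (fun c hc => (hv _).trans (hu.mul n hn c hc)) hζ hr rfl hk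
  refine ⟨v.div n hn hd, fun f => ?_⟩
  have h1 : AV.mul ((v.div n hn hd).comap (algebraMap B N)) n hn = u.mul n hn := by
    refine AddValuation.ext fun f => ?_
    rw [← hv, AV.mul_apply]
    change v.div n hn hd (algebraMap B N (f ^ n)) = _
    rw [map_pow, ← AV.mul_apply _ n hn, AV.mul_div]
  exact congrArg (fun w : AV B => w f) (mul_inj n hn h1)

/-- a generator fixing `B` is a generator over a normalised place of `B` -/
lemma exists_pl {v : AV N} (hv : Tr (v.comap (algebraMap B N))) {ζ : ℂ} {n : ℕ} (hn : 0 < n)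
    (hζ : IsPrimitiveRoot ζ n) {g : N ≃ₐ[B] N} (h : Rot v (algebraMap B N (algebraMap ℂ B ζ)) g)
    {s : B} (hs : v (algebraMap B N s) = ((n : ℤ) : WithTop ℤ)) :
    ∃ u : AV B, Pl u ∧ ∀ f, v (algebraMap B N f) = u.mul n hn f := by
  have hd : ∀ y (k : ℤ), (v.comap (algebraMap B N)) y = k → (n : ℤ) ∣ k := fun y k hk =>
    dvd_of_rot hv hζ h (g.commutes y) hk
  refine ⟨AV.div _ n hn hd, ⟨fun c hc => ?_, s, ?_⟩, fun f => ?_⟩
  · have h1 := AV.div_of_eq hn hd (k := 0) (hv c hc)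
    rw [Int.zero_ediv] at h1
    exact h1
  · rw [AV.div_of_eq hn hd hs, Int.ediv_self (by exact_mod_cast hn.ne')]
    rfl
  · rw [AV.mul_div]
    rfl

/-- the square of a generator -/
lemma rot_sq {v : AV N} {ξ : N} (hξ : v ξ = 0) {g : N →+* N} (h : Rot v ξ g) :
    Rot (v.mul 2 two_pos) ξ (fun y => g (g y)) := by
  intro f k hk
  have hf : f ≠ 0 := by
    rintro rfl
    simp at hk
  obtain ⟨l, hl⟩ := exists_int v hf
  rw [AV.mul_of_eq 2 two_pos hl, WithTop.coe_inj] at hk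
  have h1 := h f l hl
  have h2 := h (g f) l ((h.val_map hξ g.map_zero f).trans hl)
  have h3 : g (g f) - ξ ^ k * f = (g (g f) - ξ ^ l * g f) + ξ ^ l * (g f - ξ ^ l * f) := by
    have hξ0 : ξ ≠ 0 := by
      rintro rfl
      simp at hξ
    rw [← hk, Nat.cast_ofNat, two_mul, zpow_add₀ hξ0]
    ring
  have h4 : v (ξ ^ l) = 0 := by
    rw [val_zpow v (k := 0) hξ, mul_zero]
    rfl
  have h5 : (l : WithTop ℤ) < v (g (g f) - ξ ^ k * f) := by
    rw [h3]
    refine v.map_lt_add h2 ?_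
    rw [v.map_mul, h4, zero_add]
    exact h1
  by_cases h6 : g (g f) - ξ ^ k * f = 0
  · rw [h6, AddValuation.map_zero]
    exact WithTop.coe_lt_top _
  obtain ⟨j, hj⟩ := exists_int v h6
  rw [hj, WithTop.coe_lt_coe] at h5
  rw [AV.mul_of_eq 2 two_pos hj, WithTop.coe_lt_coe, ← hk]
  push_cast
  omega

/-- the sign of a generator on `Z` -/
lemma rot_fix {v : AV N} (h2 : v 2 = 0) {ξ Z : N} {g : N → N} (h : Rot v ξ g) {k : ℤ}
    (hk : v Z = k) (hg : g Z = Z ∨ g Z = -Z) (hξ : ξ ^ k = 1) : g Z = Z := by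
  refine hg.resolve_right fun h1 => ?_
  have h3 := h Z k hk
  have h4 : g Z - ξ ^ k * Z = -(2 * Z) := by rw [h1, hξ]; ring
  rw [h4, v.map_neg, v.map_mul, h2, zero_add, hk] at h3
  exact lt_irrefl _ h3

lemma rot_neg {v : AV N} (h2 : v 2 = 0) {ξ Z : N} {g : N → N} (h : Rot v ξ g) {k : ℤ}
    (hk : v Z = k) (hg : g Z = Z ∨ g Z = -Z) (hξ : ξ ^ k = -1) : g Z = -Z := by
  refine hg.resolve_left fun h1 => ?_
  have h3 := h Z k hk
  have h4 : g Z - ξ ^ k * Z = 2 * Z := by rw [h1, hξ]; ring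
  rw [h4, v.map_mul, h2, zero_add, hk] at h3
  exact lt_irrefl _ h3

end place

section line

variable {K B : Type*} [Field K] [Field B] [Algebra ℂ K] [Algebra K B] [Algebra ℂ B]
  [IsScalarTower ℂ K B]

lemma Tr.ctr {u : AV B} (h : Tr u) {t : K} {k : ℕ}
    (hk : u (algebraMap K B t) = ((k : ℤ) : WithTop ℤ)) : Ctr ℂ (u.comap (algebraMap K B)) t k :=
  ⟨fun c hc => by
    change u (algebraMap K B _) = 0
    rw [← IsScalarTower.algebraMap_apply]
    exact h c hc, hk⟩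

omit [Algebra ℂ B] in
lemma exists_nat_of_pos (u : AV B) {f : B} (hf : f ≠ 0) (h : 0 < u f) :
    ∃ k : ℕ, 0 < k ∧ u f = ((k : ℤ) : WithTop ℤ) := by
  obtain ⟨k, hk⟩ := exists_int u hf
  rw [hk, ← WithTop.coe_zero, WithTop.coe_lt_coe] at h
  obtain ⟨k, rfl⟩ := Int.eq_ofNat_of_zero_le h.le
  exact ⟨k, by exact_mod_cast h, hk⟩

/-- normalised places over the same point of the line are conjugate -/
lemma Pl.conj [FiniteDimensional K B] [IsGalois K B] {u w : AV B} (hu : Pl u) (hw : Pl w) {t : K}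
    (ht : IsRat ℂ K t) (h1 : 0 < u (algebraMap K B t)) (h2 : 0 < w (algebraMap K B t)) :
    ∃ τ : B ≃ₐ[K] B, ∀ f, u f = w (τ f) := by
  have ht0 : algebraMap K B t ≠ 0 := (map_ne_zero _).2 ht.ne_zero
  obtain ⟨k, hk0, hk⟩ := exists_nat_of_pos u ht0 h1
  obtain ⟨l, hl0, hl⟩ := exists_nat_of_pos w ht0 h2
  have e1 : (u.mul l hl0) (algebraMap K B t) = (((l * k : ℕ) : ℤ) : WithTop ℤ) := by
    rw [AV.mul_of_eq l hl0 hk]; push_cast; rfl
  have e2 : (w.mul k hk0) (algebraMap K B t) = (((l * k : ℕ) : ℤ) : WithTop ℤ) := by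
    rw [AV.mul_of_eq k hk0 hl, mul_comm]; push_cast; rfl
  have e3 := ((hw.1.mul k hk0).ctr e2).unique ht (Nat.mul_pos hl0 hk0) ((hu.1.mul l hl0).ctr e1)
  obtain ⟨τ, hτ⟩ := exists_conj_val' (K := K) (w.mul k hk0) (u.mul l hl0) (hw.1.mul k hk0).nat
    (fun f => congrArg (fun a : AV K => a f) e3) (Nat.mul_pos hl0 hk0) e2
  have key : ∀ f (a b : ℤ), u f = a → w (τ f) = b → l * a = k * b := fun f a b ha hb => by
    have := hτ f
    rwa [AV.mul_of_eq l hl0 ha, AV.mul_of_eq k hk0 hb, WithTop.coe_inj] at this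
  obtain ⟨s, hs⟩ := hu.2
  obtain ⟨s', hs'⟩ := hw.2
  have hs0 : s ≠ 0 := by
    rintro rfl
    simp at hs
  have hs0' : s' ≠ 0 := by
    rintro rfl
    simp at hs'
  obtain ⟨b, hb⟩ := exists_int w ((map_ne_zero τ).2 hs0)
  obtain ⟨a, ha⟩ := exists_int u ((map_ne_zero τ.symm).2 hs0')
  have e4 := key s 1 b hs hb
  have e5 := key _ a 1 ha (by rw [τ.apply_symm_apply]; exact hs')
  have e6 : (k : ℤ) = l :=
    Int.dvd_antisymm (by positivity) (by positivity) ⟨b, by rw [← e4, mul_one]⟩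
      ⟨a, by rw [e5, mul_one]⟩
  refine ⟨τ, fun f => ?_⟩
  by_cases hf : f = 0
  · simp [hf]
  obtain ⟨a', ha'⟩ := exists_int u hf
  obtain ⟨b', hb'⟩ := exists_int w ((map_ne_zero τ).2 hf)
  have e7 := key f a' b' ha' hb'
  rw [e6] at e7
  rw [ha', hb', mul_left_cancel₀ (by exact_mod_cast hl0.ne') e7]

/-- every place has a centre on the line -/
lemma Pl.centre [Algebra.IsAlgebraic K B] {u : AV B} (hu : Pl u) {x : K} (hx : IsRat ℂ K x) :
    (∃ b : ℂ, 0 < u (algebraMap K B x - algebraMap ℂ B b)) ∨ 0 < u (algebraMap K B x)⁻¹ := by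
  by_contra hne
  push Not at hne
  obtain ⟨h1, h2⟩ := hne
  have hX0 : algebraMap K B x ≠ 0 := (map_ne_zero _).2 hx.ne_zero
  have hX : 0 ≤ u (algebraMap K B x) := by
    obtain ⟨k, hk⟩ := exists_int u hX0
    rw [val_inv u hk, ← WithTop.coe_zero, WithTop.coe_le_coe] at h2
    rw [hk, ← WithTop.coe_zero, WithTop.coe_le_coe]
    omega
  have h3 : ∀ b : ℂ, u (algebraMap K B x - algebraMap ℂ B b) = 0 := fun b =>
    le_antisymm (h1 b) (u.map_le_sub hX (hu.1.nonneg b))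
  have h4 : ∀ p : Polynomial ℂ, p ≠ 0 → u (Polynomial.aeval (algebraMap K B x) p) = 0 := by
    intro p hp
    induction hd : p.natDegree generalizing p with
    | zero =>
      rw [Polynomial.eq_C_of_natDegree_eq_zero hd] at hp ⊢
      rw [Polynomial.aeval_C]
      exact hu.1 _ (fun h => hp (by rw [h, map_zero]))
    | succ d ih =>
      obtain ⟨b, hb⟩ := IsAlgClosed.exists_root p (by
        rw [Polynomial.degree_eq_natDegree hp, hd]
        exact_mod_cast Nat.succ_ne_zero d)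
      obtain ⟨q, rfl⟩ := Polynomial.dvd_iff_isRoot.2 hb
      have hq : q ≠ 0 := right_ne_zero_of_mul hp
      rw [Polynomial.natDegree_mul (Polynomial.X_sub_C_ne_zero b) hq,
        Polynomial.natDegree_X_sub_C] at hd
      rw [map_mul, u.map_mul, ih q hq (by omega), map_sub, Polynomial.aeval_X, Polynomial.aeval_C,
        h3, add_zero]
  have h5 : ∀ f : K, 0 ≤ u (algebraMap K B f) := by
    intro f
    have hf : f ∈ IntermediateField.adjoin ℂ {x} := by rw [hx.2]; trivial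
    obtain ⟨r, s, rfl⟩ := (IntermediateField.mem_adjoin_simple_iff ℂ f).1 hf
    by_cases hr : r = 0
    · simp [hr]
    by_cases hs : s = 0
    · simp [hs]
    rw [map_div₀, ← Polynomial.aeval_algebraMap_apply, ← Polynomial.aeval_algebraMap_apply,
      u.map_div, h4 r hr, h4 s hs]
    simp
  have h6 : ∀ f : B, 0 ≤ u f := fun f =>
    nonneg_of_monic u (P := (minpoly K f).map (algebraMap K B))
      ((minpoly.monic (Algebra.IsIntegral.isIntegral f)).map _)
      (fun i => by rw [Polynomial.coeff_map]; exact h5 _)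
      (by rw [Polynomial.eval_map_algebraMap, minpoly.aeval])
  obtain ⟨s, hs⟩ := hu.2
  have h7 := h6 s⁻¹
  rw [val_inv u (k := 1) hs, ← WithTop.coe_zero, WithTop.coe_le_coe] at h7
  omega

end line

section curve

variable {B : Type*} [Field B] [Algebra ℂ B] {u : AV B} {X z : B} {e : Fin 3 → ℂ}

lemma Tr.centre_eq (hu : Tr u) {f : B} {b b' : ℂ} (h : 0 < u (f - algebraMap ℂ B b))
    (h' : 0 < u (f - algebraMap ℂ B b')) : b = b' := by
  by_contra hne
  have h1 : 0 < u ((f - algebraMap ℂ B b') - (f - algebraMap ℂ B b)) := by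
    rw [sub_eq_add_neg]
    exact u.map_lt_add h' (by rw [u.map_neg]; exact h)
  rw [sub_sub_sub_cancel_left, ← map_sub, hu _ (sub_ne_zero.2 hne)] at h1
  exact lt_irrefl _ h1

lemma Tr.sub_eq_zero (hu : Tr u) {f : B} {b b' : ℂ} (h : 0 < u (f - algebraMap ℂ B b))
    (hne : b ≠ b') : u (f - algebraMap ℂ B b') = 0 := by
  have h1 : f - algebraMap ℂ B b' = (f - algebraMap ℂ B b) + algebraMap ℂ B (b - b') := by
    rw [map_sub]; ring
  have h2 := hu _ (sub_ne_zero.2 hne)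
  rw [h1, u.map_add_eq_of_lt_right (by rw [h2]; exact h), h2]

lemma Tr.not_inf (hu : Tr u) {f : B} {b : ℂ} (h : 0 < u (f - algebraMap ℂ B b))
    (hf : f ≠ 0) : ¬ 0 < u f⁻¹ := by
  intro h1
  have h2 : 0 ≤ u f := by
    have := u.map_le_add h.le (hu.nonneg b)
    rwa [sub_add_cancel] at this
  obtain ⟨k, hk⟩ := exists_int u hf
  rw [val_inv u hk, ← WithTop.coe_zero, WithTop.coe_lt_coe] at h1
  rw [hk, ← WithTop.coe_zero, WithTop.coe_le_coe] at h2
  omega

omit [Algebra ℂ B] in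
lemma val_of_sq {k : ℤ} (h : u (z ^ 2) = ((2 * k : ℤ) : WithTop ℤ)) : u z = k := by
  have hz : z ≠ 0 := by
    rintro rfl
    rw [zero_pow two_ne_zero, u.map_zero] at h
    exact WithTop.top_ne_coe h
  obtain ⟨l, hl⟩ := exists_int u hz
  rw [val_pow u hl, WithTop.coe_inj] at h
  rw [hl]
  congr 1
  push_cast at h
  omega

variable (hz : z ^ 2 = ∏ j, (X - algebraMap ℂ B (e j)))
include hz

lemma val_z_ord (hu : Tr u) {b : ℂ} (hb : b ∉ Set.range e) (h : 0 < u (X - algebraMap ℂ B b)) :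
    u z = ((0 : ℤ) : WithTop ℤ) := by
  refine val_of_sq ?_
  have h1 : ∀ j, u (X - algebraMap ℂ B (e j)) = 0 := fun j =>
    hu.sub_eq_zero h fun h2 => hb ⟨j, h2.symm⟩
  rw [hz, Fin.prod_univ_three, u.map_mul, u.map_mul, h1, h1, h1]
  rfl

lemma val_z_br (he : Function.Injective e) (hu : Tr u) {j : Fin 3} {n : ℕ} (hn : 0 < n)
    (h : u (X - algebraMap ℂ B (e j)) = (((2 * n : ℕ) : ℤ) : WithTop ℤ)) :
    u z = ((n : ℤ) : WithTop ℤ) := by
  refine val_of_sq ?_
  have h0 : 0 < u (X - algebraMap ℂ B (e j)) := by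
    rw [h]
    exact_mod_cast Nat.mul_pos two_pos hn
  have h1 : ∀ i, i ≠ j → u (X - algebraMap ℂ B (e i)) = 0 := fun i hi =>
    hu.sub_eq_zero h0 fun h2 => hi (he h2).symm
  rw [hz, Fin.prod_univ_three, u.map_mul, u.map_mul]
  fin_cases j
  · rw [h1 1 (by decide), h1 2 (by decide)]
    simpa using h
  · rw [h1 0 (by decide), h1 2 (by decide)]
    simpa using h
  · rw [h1 0 (by decide), h1 1 (by decide)]
    simpa using h

lemma val_z_inf (hu : Tr u) {n : ℕ} (hn : 0 < n) (h : u X⁻¹ = (((2 * n : ℕ) : ℤ) : WithTop ℤ)) :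
    u z = ((-(3 * n) : ℤ) : WithTop ℤ) ∧ u (X / z) = ((n : ℤ) : WithTop ℤ) := by
  have h0 := val_inv u h
  rw [inv_inv] at h0
  have h1 : ∀ j, u (X - algebraMap ℂ B (e j)) = ((-((2 * n : ℕ) : ℤ) : ℤ) : WithTop ℤ) := by
    intro j
    rw [sub_eq_add_neg, u.map_add_eq_of_lt_left, h0]
    rw [u.map_neg, h0]
    refine lt_of_lt_of_le ?_ (hu.nonneg _)
    rw [← WithTop.coe_zero, WithTop.coe_lt_coe]
    omega
  have h2 : u z = ((-(3 * n) : ℤ) : WithTop ℤ) := by
    refine val_of_sq ?_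
    rw [hz, Fin.prod_univ_three, u.map_mul, u.map_mul, h1, h1, h1, ← WithTop.coe_add,
      ← WithTop.coe_add]
    congr 1
    push_cast
    ring
  refine ⟨h2, ?_⟩
  rw [div_eq_mul_inv, u.map_mul, h0, val_inv u h2, ← WithTop.coe_add]
  congr 1
  push_cast
  ring

lemma sign_z (hu : Tr u) {b c : ℂ} (hc : c ^ 2 = ∏ j, (b - e j))
    (h : 0 < u (X - algebraMap ℂ B b)) :
    0 < u (z - algebraMap ℂ B c) ∨ 0 < u (-z - algebraMap ℂ B c) := by
  set t := X - algebraMap ℂ B b with ht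
  have h1 : (z - algebraMap ℂ B c) * (-z - algebraMap ℂ B c) =
      -(t * (t * t + algebraMap ℂ B ((b - e 0) + (b - e 1) + (b - e 2)) * t +
        algebraMap ℂ B ((b - e 0) * (b - e 1) + (b - e 0) * (b - e 2) + (b - e 1) * (b - e 2)))) := by
    have h2 := congrArg (algebraMap ℂ B) hc
    rw [Fin.prod_univ_three] at h2 hz
    simp only [map_pow, map_mul, map_sub, map_add, ht] at h2 ⊢
    linear_combination h2 - hz
  have h3 : 0 < u ((z - algebraMap ℂ B c) * (-z - algebraMap ℂ B c)) := by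
    rw [h1, u.map_neg, u.map_mul]
    refine h.trans_le (le_add_of_nonneg_right ?_)
    refine u.map_le_add (u.map_le_add ?_ ?_) (hu.nonneg _)
    · rw [u.map_mul]; exact add_nonneg h.le h.le
    · rw [u.map_mul]; exact add_nonneg (hu.nonneg _) h.le
  by_contra hne
  push Not at hne
  rw [u.map_mul] at h3
  exact absurd (add_nonpos hne.1 hne.2) (not_le.2 h3)

omit hz in
lemma not_both (hu : Tr u) {c : ℂ} (hc : c ≠ 0) (h : 0 < u (z - algebraMap ℂ B c)) :
    ¬ 0 < u (-z - algebraMap ℂ B c) := by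
  intro h'
  have h1 := u.map_lt_add h h'
  have h2 : z - algebraMap ℂ B c + (-z - algebraMap ℂ B c) = algebraMap ℂ B (-(2 * c)) := by
    rw [map_neg, map_mul, map_ofNat]; ring
  rw [h2, hu _ (by simpa using hc)] at h1
  exact lt_irrefl _ h1

end curve

end Crest.Agent.T170.Wr
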