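import Crest.Agent.T170.WrB_67
import Crest.Agent.T170.WrC_67

/-!
# Row 170, wreath step (helper67), file D: the double cover `B = K(z)` of the line

* `Cv x z e` : `K = ℂ(x)`, `B = K(z)`, `z ^ 2 = (x - e₀) (x - e₁) (x - e₂)`;
* `PP z`, `Cv.eP` : the subgroup `Gal(M/B)` of `Gal(M/K)`;
* `Cv.loc_ord`, `Cv.loc_br`, `Cv.loc_inf` : generators on the line give generators on the curve;
* `Cv.resW_nc`, `Cv.unr_nc` : the normal closure over `K` of an extension of `B`.
-/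

set_option autoImplicit false
set_option linter.dupNamespace false
set_option linter.unusedSectionVars false

noncomputable section

namespace Crest.Agent.T170.Wr

open Crest.Agent.T170.Ret Crest.Agent.T170.RetU Polynomial

variable {K B M : Type} [Field K] [Field B] [Field M] [Algebra ℂ K] [Algebra K B] [Algebra ℂ B]
  [IsScalarTower ℂ K B] [Algebra K M] [Algebra B M] [IsScalarTower K B M]

/-- the double cover -/
structure Cv (x : K) (z : B) (e : Fin 3 → ℂ) : Prop where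
  rat : IsRat ℂ K x
  inj : Function.Injective e
  sq : z ^ 2 = ∏ j, (algebraMap K B x - algebraMap ℂ B (e j))
  gen : IntermediateField.adjoin K {z} = ⊤

variable (K M) in
/-- the automorphisms fixing `z` -/
def PP (z : B) : Subgroup (M ≃ₐ[K] M) := MulAction.stabilizer _ (algebraMap B M z)

lemma mem_PP {z : B} {g : M ≃ₐ[K] M} : g ∈ PP K M z ↔ g (algebraMap B M z) = algebraMap B M z :=
  Iff.rfl

variable (M) in
/-- `g` is a generator over the place `N • u` of `B` -/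
def Gn (u : AV B) (ζ : ℂ) (N : ℕ) (hN : 0 < N) (g : M → M) : Prop :=
  ∃ v : AV M, (∀ f : B, v (algebraMap B M f) = u.mul N hN f) ∧
    Rot v (algebraMap B M (algebraMap ℂ B ζ)) g

/-- the place lies over one of the points `(a i, c i)` -/
def OnD (X z : B) {n : ℕ} (a c : Fin n → ℂ) (u : AV B) : Prop :=
  ∃ i, 0 < u (X - algebraMap ℂ B (a i)) ∧ 0 < u (z - algebraMap ℂ B (c i))

variable (M) in
/-- unramified outside the points `(a i, c i)` -/
def UnrZ (X z : B) {n : ℕ} (a c : Fin n → ℂ) : Prop :=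
  ∀ u : AV B, Pl u → ¬ OnD X z a c u → ∃ v : AV M, ∀ f : B, v (algebraMap B M f) = u f

lemma comap_app {F F' : Type} [Field F] [Field F'] (φ : F →+* F') (v : AV F') (y : F) :
    v.comap φ y = v (φ y) := rfl

lemma algKB (c : ℂ) : algebraMap K B (algebraMap ℂ K c) = algebraMap ℂ B c :=
  (IsScalarTower.algebraMap_apply ℂ K B c).symm

lemma algBM (f : K) : algebraMap B M (algebraMap K B f) = algebraMap K M f :=
  (IsScalarTower.algebraMap_apply K B M f).symm

lemma Pl.comap {u : AV B} (hu : Pl u) (τ : B ≃ₐ[K] B) : Pl (u.comap (τ : B →+* B)) := by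
  obtain ⟨t, ht⟩ := hu.2
  refine ⟨fun c hc => ?_, τ.symm t, ?_⟩
  · change u (τ _) = 0
    rw [← algKB (K := K), τ.commutes, algKB]
    exact hu.1 c hc
  · change u (τ _) = _
    rw [τ.apply_symm_apply, ht]

lemma Gn.conj [Normal K B] {u : AV B} {ζ : ℂ} {N : ℕ} {hN : 0 < N} {g : M ≃ₐ[K] M}
    (h : Gn M u ζ N hN g) (ω : M ≃ₐ[K] M) :
    Gn M (u.comap ((ω⁻¹.restrictNormal B : B ≃ₐ[K] B) : B →+* B)) ζ N hN ⇑(ω * g * ω⁻¹) := by
  obtain ⟨v, hv, hg⟩ := h
  refine ⟨v.comap (ω⁻¹ : M ≃ₐ[K] M), fun f => ?_, fun f j hj => ?_⟩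
  · change v (ω⁻¹ (algebraMap B M f)) = u (ω⁻¹.restrictNormal B (f ^ N))
    rw [← AlgEquiv.restrictNormal_commutes, hv, map_pow]
    rfl
  · change _ < v (ω⁻¹ ((ω * g * ω⁻¹) f - algebraMap B M (algebraMap ℂ B ζ) ^ j * f))
    rw [map_sub, map_mul, map_zpow₀, ← algKB (K := K), algBM, AlgEquiv.commutes,
      ← AlgEquiv.mul_apply, ← mul_assoc, ← mul_assoc, inv_mul_cancel, one_mul, AlgEquiv.mul_apply,
      ← algBM (B := B), algKB]
    exact hg _ j hj

/-- unpacking a generator on the line -/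
lemma unpack {t : K} {ζ : ℂ} {N : ℕ} {g : M ≃ₐ[K] M} (h : IsGen ℂ t ζ N g) :
    ∃ v : AV M, Tr (v.comap (algebraMap B M)) ∧
      v (algebraMap B M (algebraMap K B t)) = ((N : ℤ) : WithTop ℤ) ∧
      Rot v (algebraMap B M (algebraMap ℂ B ζ)) g := by
  obtain ⟨u, hu, v, hv, hg⟩ := h
  refine ⟨v, fun c hc => ?_, ?_, ?_⟩
  · change v (algebraMap B M _) = 0
    rw [← algKB (K := K), algBM, hv, hu.1 c hc]
  · rw [algBM, hv, hu.2]
  · rw [← algKB (K := K), algBM]
    exact hg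

lemma two_val {v : AV M} (hv : Tr (v.comap (algebraMap B M))) : v 2 = 0 := by
  have := hv.nat 2 two_ne_zero
  rwa [comap_app, map_natCast, Nat.cast_ofNat] at this

lemma prim_half {ζ : ℂ} {n : ℕ} (hn : 0 < n) (hζ : IsPrimitiveRoot ζ (2 * n)) : ζ ^ n = -1 :=
  (hζ.pow (Nat.mul_pos two_pos hn) (mul_comm _ _)).eq_neg_one_of_two_right

namespace Cv

variable {x : K} {z : B} {e : Fin 3 → ℂ} (h : Cv x z e)
include h

lemma sqK : z ^ 2 = algebraMap K B (∏ j, (x - algebraMap ℂ K (e j))) := by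
  rw [h.sq, map_prod]
  simp only [map_sub, algKB]

lemma z_ne : z ≠ 0 := by
  intro hz
  have h1 := h.sqK
  rw [hz, zero_pow two_ne_zero, eq_comm, map_eq_zero, Finset.prod_eq_zero_iff] at h1
  obtain ⟨j, -, hj⟩ := h1
  exact (h.rat.sub (e j)).ne_zero hj

lemma isIntegral : IsIntegral K z :=
  ⟨X ^ 2 - C (∏ j, (x - algebraMap ℂ K (e j))), monic_X_pow_sub_C _ two_ne_zero, by
    rw [eval₂_sub, eval₂_X_pow, eval₂_C, h.sqK, sub_self]⟩

lemma fin : FiniteDimensional K B := by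
  have h1 := IntermediateField.adjoin.finiteDimensional h.isIntegral
  rw [h.gen] at h1
  exact IntermediateField.topEquiv.toLinearEquiv.finiteDimensional

lemma gal : IsGalois K B := by
  have := h.fin
  have : CharZero K := charZero_of_injective_algebraMap (algebraMap ℂ K).injective
  have h1 : IsSplittingField K B (X ^ 2 - C (∏ j, (x - algebraMap ℂ K (e j)))) := by
    rw [isSplittingField_iff_intermediateField]
    constructor
    · have h2 : (X ^ 2 - C (∏ j, (x - algebraMap ℂ K (e j)))).map (algebraMap K B) =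
          (X - C z) * (X - C (-z)) := by
        rw [Polynomial.map_sub, Polynomial.map_pow, map_X, map_C, ← h.sqK, map_pow, map_neg]
        ring
      rw [h2]
      exact (Splits.X_sub_C _).mul (Splits.X_sub_C _)
    · rw [eq_top_iff, ← h.gen]
      refine IntermediateField.adjoin.mono _ _ _ (Set.singleton_subset_iff.2 ?_)
      rw [mem_rootSet]
      exact ⟨(monic_X_pow_sub_C _ two_ne_zero).ne_zero, by simp [h.sqK]⟩
  have := Normal.of_isSplittingField (hFEp := h1)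
  exact ⟨⟩

lemma ext' {f g : B →ₐ[K] M} (hz : f z = g z) : f = g := by
  have h1 : f.comp (⊤ : IntermediateField K B).val = g.comp (⊤ : IntermediateField K B).val :=
    IntermediateField.algHom_ext_of_eq_adjoin K h.gen.symm fun y hy => by
      rw [Set.mem_singleton_iff] at hy
      subst hy
      exact hz
  ext y
  exact congrArg (fun φ : (⊤ : IntermediateField K B) →ₐ[K] M => φ ⟨y, trivial⟩) h1

lemma pm (g : M ≃ₐ[K] M) :
    g (algebraMap B M z) = algebraMap B M z ∨ g (algebraMap B M z) = -algebraMap B M z := by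
  refine sq_eq_sq_iff_eq_or_eq_neg.1 ?_
  rw [← map_pow, ← map_pow, h.sqK, algBM, g.commutes]

lemma Z_ne_neg : algebraMap B M z ≠ -algebraMap B M z := by
  have : CharZero B := charZero_of_injective_algebraMap (algebraMap ℂ B).injective
  rw [← map_neg, Ne, (algebraMap B M).injective.eq_iff, self_eq_neg]
  exact h.z_ne

lemma fix {g : M ≃ₐ[K] M} (hg : g ∈ PP K M z) (f : B) : g (algebraMap B M f) = algebraMap B M f :=
  congrArg (fun φ : B →ₐ[K] M => φ f)
    (h.ext' (f := (g : M →ₐ[K] M).comp (IsScalarTower.toAlgHom K B M))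
      (g := IsScalarTower.toAlgHom K B M) hg)

/-- `PP z = Gal(M/B)` -/
def eP : PP K M z ≃* (M ≃ₐ[B] M) where
  toFun g := AlgEquiv.ofRingEquiv (f := g.1.toRingEquiv) (h.fix g.2)
  invFun g := ⟨g.restrictScalars K, g.commutes z⟩
  left_inv _ := rfl
  right_inv _ := rfl
  map_mul' _ _ := rfl

lemma eP_apply (g : PP K M z) (y : M) : h.eP g y = g.1 y := rfl

lemma not_mem_iff {g : M ≃ₐ[K] M} :
    g ∉ PP K M z ↔ g (algebraMap B M z) = -algebraMap B M z :=
  ⟨fun h1 => (h.pm g).resolve_left h1, fun h1 h2 => h.Z_ne_neg ((mem_PP.1 h2).symm.trans h1)⟩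

lemma index {ω : M ≃ₐ[K] M} (hω : ω ∉ PP K M z) : (PP K M z).index = 2 := by
  refine Subgroup.index_eq_two_iff.2 ⟨ω, fun b => ?_⟩
  have h1 : (b * ω) (algebraMap B M z) = -b (algebraMap B M z) := by
    rw [AlgEquiv.mul_apply, h.not_mem_iff.1 hω, map_neg]
  by_cases hb : b ∈ PP K M z
  · exact Or.inr ⟨hb, h.not_mem_iff.2 (by rw [h1, mem_PP.1 hb])⟩
  · exact Or.inl ⟨mem_PP.2 (by rw [h1, h.not_mem_iff.1 hb, neg_neg]), hb⟩

lemma iota_z [Normal K B] {ω : M ≃ₐ[K] M} (hω : ω ∉ PP K M z) : ω.restrictNormal B z = -z :=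
  (algebraMap B M).injective (by
    rw [AlgEquiv.restrictNormal_commutes, h.not_mem_iff.1 hω, map_neg])

/-- the two places over a point of the line -/
lemma cls {u w : AV B} (hu : Pl u) (hw : Pl w) {t : K} (ht : IsRat ℂ K t)
    (h1 : 0 < u (algebraMap K B t)) (h2 : 0 < w (algebraMap K B t)) {ι : B ≃ₐ[K] B}
    (hι : ι z = -z) : u = w ∨ u = w.comap (ι : B →+* B) := by
  have := h.fin
  have := h.gal
  obtain ⟨τ, hτ⟩ := hu.conj hw ht h1 h2
  rcases h.pm (M := B) τ with h3 | h3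
  · have h4 := h.ext' (M := B) (f := (τ : B →ₐ[K] B)) (g := AlgHom.id K B) h3
    exact Or.inl (AddValuation.ext fun f =>
      (hτ f).trans (congrArg (fun φ : B →ₐ[K] B => w (φ f)) h4))
  · have h4 := h.ext' (M := B) (f := (τ : B →ₐ[K] B)) (g := (ι : B →ₐ[K] B)) (h3.trans hι.symm)
    exact Or.inr (AddValuation.ext fun f =>
      (hτ f).trans (congrArg (fun φ : B →ₐ[K] B => w (φ f)) h4))

/-- an ordinary point of the line -/
lemma loc_ord {b ζ : ℂ} (hb : b ∉ Set.range e) {N : ℕ} (hN : 0 < N) (hζ : IsPrimitiveRoot ζ N)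
    {g : M ≃ₐ[K] M} (hg : IsGen ℂ (x - algebraMap ℂ K b) ζ N g) :
    g ∈ PP K M z ∧ ∃ w : AV B, Pl w ∧
      w.mul N hN (algebraMap K B x - algebraMap ℂ B b) = ((N : ℤ) : WithTop ℤ) ∧
      Gn M w ζ N hN g := by
  obtain ⟨v, hv, ht, hr⟩ := unpack (B := B) hg
  rw [map_sub, algKB] at ht
  have h1 := val_z_ord h.sq hv hb (by
    rw [comap_app, ht]
    exact_mod_cast hN)
  have h2 : g ∈ PP K M z := rot_fix (two_val hv) hr h1 (h.pm g) (zpow_zero _)
  obtain ⟨w, hw, hvw⟩ := exists_pl hv hN hζ (g := h.eP ⟨g, h2⟩) hr ht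
  exact ⟨h2, w, hw, (hvw _).symm.trans ht, v, hvw, hr⟩

lemma loc_sq {ζ : ℂ} {n : ℕ} (hn : 0 < n) (hζ : IsPrimitiveRoot ζ (2 * n)) {g : M ≃ₐ[K] M}
    {v : AV M} (hv : Tr (v.comap (algebraMap B M)))
    (hr : Rot v (algebraMap B M (algebraMap ℂ B ζ)) g) (hg : g ∉ PP K M z) {s t : B}
    (hs : v (algebraMap B M s) = ((n : ℤ) : WithTop ℤ)) (ht : 0 < v (algebraMap B M t)) :
    ∃ w : AV B, Pl w ∧ 0 < w t ∧ Gn M w ζ (2 * n) (Nat.mul_pos two_pos hn) ⇑(g * g) ∧
      ∀ ι : B ≃ₐ[K] B, ι z = -z → w.comap (ι : B →+* B) = w := by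
  have hN := Nat.mul_pos two_pos hn
  have hζ0 : v (algebraMap B M (algebraMap ℂ B ζ)) = 0 := hv ζ (hζ.ne_zero hN.ne')
  have h1 : g * g ∈ PP K M z := by simp [Subgroup.mul_mem_iff_of_index_two (h.index hg)]
  have h2 : Rot (v.mul 2 two_pos) (algebraMap B M (algebraMap ℂ B ζ)) ⇑(g * g) :=
    rot_sq (g := (g : M →+* M)) hζ0 hr
  have h3 : Tr (AddValuation.comap (algebraMap B M) (v.mul 2 two_pos)) := fun c hc => by
    rw [comap_app, AV.mul_apply, ← map_pow, ← map_pow]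
    exact hv _ (pow_ne_zero _ hc)
  obtain ⟨w, hw, hvw⟩ := exists_pl h3 hN hζ (g := h.eP ⟨g * g, h1⟩) h2 (s := s) (by
    rw [AV.mul_of_eq 2 two_pos hs]
    push_cast
    rfl)
  refine ⟨w, hw, ?_, ⟨v.mul 2 two_pos, hvw, h2⟩, fun ι hι => mul_inj _ hN (AddValuation.ext fun f => ?_)⟩
  · rw [← mul_pos_iff w _ hN, ← hvw, mul_pos_iff]
    exact ht
  · have h4 := h.ext' (f := (IsScalarTower.toAlgHom K B M).comp (ι : B →ₐ[K] B))
      (g := (g : M →ₐ[K] M).comp (IsScalarTower.toAlgHom K B M)) (by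
        change algebraMap B M (ι z) = g (algebraMap B M z)
        rw [hι, map_neg, h.not_mem_iff.1 hg])
    have h5 : ∀ y, algebraMap B M (ι y) = g (algebraMap B M y) := fun y =>
      congrArg (fun φ : B →ₐ[K] M => φ y) h4
    rw [← hvw, AV.mul_apply]
    change w (ι (f ^ (2 * n))) = _
    rw [map_pow, ← AV.mul_apply _ _ hN, ← hvw, h5, AV.mul_apply, AV.mul_apply, ← map_pow,
      hr.val_map hζ0 (map_zero g)]

/-- a branch point -/
lemma loc_br {ζ : ℂ} {n : ℕ} (hn : 0 < n) (hζ : IsPrimitiveRoot ζ (2 * n)) {g : M ≃ₐ[K] M}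
    {j : Fin 3} (hg : IsGen ℂ (x - algebraMap ℂ K (e j)) ζ (2 * n) g) :
    g ∉ PP K M z ∧ ∃ w : AV B, Pl w ∧ 0 < w (algebraMap K B x - algebraMap ℂ B (e j)) ∧
      Gn M w ζ (2 * n) (Nat.mul_pos two_pos hn) ⇑(g * g) ∧
      ∀ ι : B ≃ₐ[K] B, ι z = -z → w.comap (ι : B →+* B) = w := by
  obtain ⟨v, hv, ht, hr⟩ := unpack (B := B) hg
  rw [map_sub, algKB] at ht
  have h1 := val_z_br h.sq h.inj hv hn ht
  have h2 : g ∉ PP K M z := h.not_mem_iff.2 (rot_neg (two_val hv) hr h1 (h.pm g) (by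
    rw [zpow_natCast, ← map_pow, ← map_pow, prim_half hn hζ, map_neg, map_neg, map_one, map_one]))
  refine ⟨h2, h.loc_sq hn hζ hv hr h2 h1 ?_⟩
  rw [ht]
  exact_mod_cast Nat.mul_pos two_pos hn

/-- the point at infinity -/
lemma loc_inf {ζ : ℂ} {n : ℕ} (hn : 0 < n) (hζ : IsPrimitiveRoot ζ (2 * n)) {g : M ≃ₐ[K] M}
    (hg : IsGen ℂ x⁻¹ ζ (2 * n) g) (h2 : g ∉ PP K M z) :
    ∃ w : AV B, Pl w ∧ 0 < w (algebraMap K B x)⁻¹ ∧
      Gn M w ζ (2 * n) (Nat.mul_pos two_pos hn) ⇑(g * g) ∧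
      ∀ ι : B ≃ₐ[K] B, ι z = -z → w.comap (ι : B →+* B) = w := by
  obtain ⟨v, hv, ht, hr⟩ := unpack (B := B) hg
  rw [map_inv₀] at ht
  refine h.loc_sq hn hζ hv hr h2 (val_z_inf h.sq hv hn ht).2 ?_
  rw [ht]
  exact_mod_cast Nat.mul_pos two_pos hn

lemma exists_not_mem (hG : GStmt) [FiniteDimensional K M] [IsGalois K M] :
    ∃ ω : M ≃ₐ[K] M, ω ∉ PP K M z := by
  have hn : 0 < Nat.card (M ≃ₐ[K] M) := Nat.card_pos
  obtain ⟨m, a, g, -, h2, h3, -⟩ := hG K M x h.rat _ (Nat.mul_pos two_pos hn)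
    (fun g => by rw [mul_comm, pow_mul, pow_card_eq_one', one_pow]) {e 0}
  obtain ⟨i, hi⟩ := h2 (e 0) (Finset.mem_singleton_self _)
  have h4 := h3 i
  rw [hi] at h4
  exact ⟨g i, (h.loc_br hn (Complex.isPrimitiveRoot_exp _ (Nat.mul_pos two_pos hn).ne') h4).1⟩

section nc

variable {N : Type} [Field N] [Algebra B N] [Algebra N M] [IsScalarTower B N M]
  [FiniteDimensional B N] [IsGalois B N] [FiniteDimensional K M] [IsGalois K M]
  (hgen : ∀ γ : M ≃ₐ[K] M,
    (∀ (k : M ≃ₐ[K] M) (y : N), (k * γ * k⁻¹) (algebraMap N M y) = algebraMap N M y) → γ = 1)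
include hgen

lemma resW_nc (hG : GStmt) {G : Type} [Group G] (hN : ResW (N ≃ₐ[B] N) G) :
    ResW (M ≃ₐ[K] M) (Wr G) := by
  obtain ⟨ω, hω⟩ := h.exists_not_mem (M := M) hG
  have hP := h.index hω
  intro γ hγ
  refine hgen γ fun k y => ?_
  have h1 : ∀ φ : (M ≃ₐ[K] M) →* Wr G, φ (k * γ * k⁻¹) = 1 := fun φ => by simp [hγ φ]
  have h2 : k * γ * k⁻¹ ∈ PP K M z := by
    by_contra h2
    have h3 := h1 (indHom hP hω 1 1)
    rw [indHom_not hP hω _ _ h2] at h3
    exact absurd (congrArg Wr.s h3) (by simp [Wr.one_def])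
  have h3 : AlgEquiv.restrictNormalHom N (h.eP ⟨_, h2⟩) = 1 := by
    refine hN _ fun ρ => ?_
    have h4 := h1 (indHom hP hω (ρ.comp ((AlgEquiv.restrictNormalHom N).comp h.eP.toMonoidHom)) 1)
    rw [indHom_mem hP hω _ _ h2, ex_of_mem _ h2] at h4
    exact congrArg Wr.l h4
  have h4 := AlgEquiv.restrictNormal_commutes (h.eP ⟨_, h2⟩) N y
  change algebraMap N M (AlgEquiv.restrictNormalHom N (h.eP ⟨_, h2⟩) y) = _ at h4
  rw [h3] at h4
  exact h4.symm

lemma unr_nc (hG : GStmt) {n : ℕ} {a c : Fin n → ℂ} (hN : UnrZ N (algebraMap K B x) z a c)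
    {b : ℂ} (hb : b ∉ Set.range e) (hb' : b ∉ Set.range a) : Unr ℂ M (x - algebraMap ℂ K b) := by
  have hn : 0 < Nat.card (M ≃ₐ[K] M) := Nat.card_pos
  obtain ⟨m, α, g, -, h2, h3, -⟩ := hG K M x h.rat _ hn (fun g => pow_card_eq_one') {b}
  obtain ⟨i, hi⟩ := h2 b (Finset.mem_singleton_self _)
  have h4 := h3 i
  rw [hi] at h4
  have hζ : IsPrimitiveRoot (zt (Nat.card (M ≃ₐ[K] M))) (Nat.card (M ≃ₐ[K] M)) :=
    Complex.isPrimitiveRoot_exp _ hn.ne'
  have h5 : g i = 1 := by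
    refine hgen _ fun k y => ?_
    obtain ⟨h6, w, hw, h7, h8⟩ := h.loc_ord hb hn hζ (h4.conj k)
    have h9 : 0 < w (algebraMap K B x - algebraMap ℂ B b) := by
      rw [← mul_pos_iff w _ hn, h7]
      exact_mod_cast hn
    obtain ⟨v, hv⟩ := hN w hw fun ⟨j, hj, _⟩ => hb' ⟨j, hw.1.centre_eq hj h9⟩
    have h10 : GenOver (w.mul _ hn) (algebraMap ℂ B _) (h.eP ⟨_, h6⟩) := h8
    have h11 := eq_one_of_ext hw hv hn hζ.pow_eq_one (h10.restrictNormal N)
    have h12 := AlgEquiv.restrictNormal_commutes (h.eP ⟨_, h6⟩) N y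
    rw [h11] at h12
    exact h12.symm
  rw [h5] at h4
  exact h4.unr hn hζ

end nc

end Cv

/-- the conjugates of `N` generate the normal closure -/
lemma hgen_nc {N U : Type} [Field N] [Field U] [Algebra K N] [Algebra K U] [Algebra N U]
    [IsScalarTower K N U] [Normal K U]
    (γ : IntermediateField.normalClosure K N U ≃ₐ[K] IntermediateField.normalClosure K N U)
    (hγ : ∀ (k : IntermediateField.normalClosure K N U ≃ₐ[K] IntermediateField.normalClosure K N U)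
      (y : N), (k * γ * k⁻¹) (algebraMap N _ y) = algebraMap N _ y) : γ = 1 := by
  have h1 : IntermediateField.normalClosure K N U ≤
      IntermediateField.lift (IntermediateField.fixedField (Subgroup.zpowers γ)) := by
    refine normalClosure_le_iff.2 fun f => ?_
    rintro _ ⟨y, rfl⟩
    let φ := (normalClosure.algHomEquiv K N U).symm f
    let k := AlgEquiv.ofBijective (φ.liftNormal (IntermediateField.normalClosure K N U))
      (AlgHom.normal_bijective K _ _ _)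
    have h2 : k (algebraMap N _ y) = φ y := φ.liftNormal_commutes _ y
    have h3 : γ (φ y) = φ y := by
      have h4 := congrArg k (hγ k⁻¹ y)
      rw [inv_inv, ← AlgEquiv.mul_apply, ← mul_assoc, ← mul_assoc, mul_inv_cancel, one_mul,
        AlgEquiv.mul_apply, h2] at h4
      exact h4
    refine (IntermediateField.mem_lift (φ y)).2 ((IntermediateField.mem_fixedField_iff _ _).2 ?_)
    intro g hg
    exact (Subgroup.zpowers_le (H := MulAction.stabilizer _ (φ y))).2 h3 hg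
  ext1 y
  exact (IntermediateField.mem_fixedField_iff _ _).1 ((IntermediateField.mem_lift y).1 (h1 y.2)) γ
    (Subgroup.mem_zpowers γ)

end Crest.Agent.T170.Wr
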