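import Crest.Agent.T170.WrD_67

/-!
# Row 170, wreath step (helper67), file E: the field over the curve inside the field over the line

* `Spec` : the inertia generators of `Gal(M/B)` outside the punctures;
* `Cv.exists_data` : the local data on the curve;
* `Cv.core` : the fixed field `E₀`, with maximality, local generators and the count.
-/

set_option autoImplicit false
set_option linter.dupNamespace false
set_option linter.unusedSectionVars false

noncomputable section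

namespace Crest.Agent.T170.Wr

open Crest.Agent.T170.Ret Crest.Agent.T170.RetU

section group

variable {Γ : Type} [Group Γ] {P : Subgroup Γ} {G : Type} [Group G] {m n : ℕ}

/-- the generator at the point `q` of the curve -/
def gq (g : Fin m → Γ) (ω : Γ) (q : Fin m × Bool) : Γ := cond q.2 (ω * g q.1 * ω⁻¹) (g q.1)

/-- the generators outside the punctures -/
def Spec (g : Fin m → Γ) (ω : Γ) (Bs : Finset (Fin m)) (lab : Fin n → Fin m × Bool) : Set Γ :=
  {s | (∃ q : Fin m × Bool, q.1 ∉ Bs ∧ q ∉ Set.range lab ∧ s = gq g ω q) ∨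
    (∃ i ∈ Bs, s = g i * g i) ∨ s = (List.ofFn g).prod⁻¹ * (List.ofFn g).prod⁻¹}

open Classical in
/-- the labels -/
def Kc (lab : Fin n → Fin m × Bool) (c : G) (q : Fin m × Bool) : Set G :=
  if q ∈ Set.range lab then {a | IsConj a c} else {1}

lemma Kc_lab (lab : Fin n → Fin m × Bool) (c : G) (j : Fin n) :
    Kc lab c (lab j) = {a | IsConj a c} := if_pos ⟨j, rfl⟩

lemma Kc_not {lab : Fin n → Fin m × Bool} (c : G) {q : Fin m × Bool} (hq : q ∉ Set.range lab) :
    Kc lab c q = {1} := if_neg hq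

lemma Kc_cinv (lab : Fin n → Fin m × Bool) (c : G) (q : Fin m × Bool) : Cinv (Kc lab c q) := by
  intro g x hx
  by_cases hq : q ∈ Set.range lab
  · obtain ⟨j, rfl⟩ := hq
    rw [Kc_lab] at hx ⊢
    exact (isConj_iff.2 ⟨g, rfl⟩).symm.trans hx
  · rw [Kc_not c hq] at hx ⊢
    rw [Set.mem_singleton_iff.1 hx]
    simp

lemma labP_iff {g : Fin m → Γ} {ω : Γ} {Bs : Finset (Fin m)} {lab : Fin n → Fin m × Bool}
    (hl : ∀ j, (lab j).1 ∉ Bs) (c : G) (ρ : P →* G) :
    LabP g ω Bs (Kc lab c) ρ ↔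
      (∀ s ∈ Spec g ω Bs lab, ex ρ s = 1) ∧ ∀ j, IsConj (ex ρ (gq g ω (lab j))) c := by
  constructor
  · rintro ⟨h1, h2, h3⟩
    have h4 : ∀ q : Fin m × Bool, q.1 ∉ Bs → ex ρ (gq g ω q) ∈ Kc lab c q := by
      rintro ⟨i, _ | _⟩ hi
      · exact (h1 i hi).1
      · exact (h1 i hi).2
    refine ⟨?_, fun j => ?_⟩
    · rintro s (⟨q, hq, hq', rfl⟩ | ⟨i, hi, rfl⟩ | rfl)
      · have := h4 q hq
        rwa [Kc_not c hq'] at this
      · exact h2 i hi
      · exact h3
    · have := h4 _ (hl j)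
      rwa [Kc_lab] at this
  · rintro ⟨h1, h2⟩
    have h4 : ∀ q : Fin m × Bool, q.1 ∉ Bs → ex ρ (gq g ω q) ∈ Kc lab c q := by
      intro q hq
      by_cases hq' : q ∈ Set.range lab
      · obtain ⟨j, rfl⟩ := hq'
        rw [Kc_lab]
        exact h2 j
      · rw [Kc_not c hq']
        exact h1 _ (Or.inl ⟨q, hq, hq', rfl⟩)
    exact ⟨fun i hi => ⟨h4 (i, false) hi, h4 (i, true) hi⟩,
      fun i hi => h1 _ (Or.inr (Or.inl ⟨i, hi, rfl⟩)), h1 _ (Or.inr (Or.inr rfl))⟩

lemma exists_lift {Q R : Type} [Group Q] [Group R] {π : R →* Q} (hπ : Function.Surjective π)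
    {ρ : R →* G} (h : ∀ p, π p = 1 → ρ p = 1) : ∃ ρ' : Q →* G, ρ'.comp π = ρ :=
  ⟨π.liftOfSurjective hπ ⟨ρ, h⟩, π.liftOfRightInverse_comp _ _ _⟩

lemma card_quot {Q R : Type} [Group Q] [Group R] {π : R →* Q} (hπ : Function.Surjective π)
    (p : (Q →* G) → Prop) (p' : (R →* G) → Prop) (h1 : ∀ ρ, p ρ ↔ p' (ρ.comp π))
    (h2 : ∀ ρ, p' ρ → ∀ y, π y = 1 → ρ y = 1) (A : Subgroup G) :
    Nat.card {ρ : Q →* G // p ρ ∧ ρ.range ≤ A} = Nat.card {ρ : R →* G // p' ρ ∧ ρ.range ≤ A} := by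
  have h3 : ∀ ρ : Q →* G, (ρ.comp π).range = ρ.range := fun ρ => by
    rw [← MonoidHom.map_range, MonoidHom.range_eq_top.2 hπ, ← MonoidHom.range_eq_map]
  refine Nat.card_congr (Equiv.ofBijective
    (fun ρ => ⟨ρ.1.comp π, (h1 _).1 ρ.2.1, (h3 _).trans_le ρ.2.2⟩) ⟨fun ρ ρ' h => ?_, ?_⟩)
  · refine Subtype.ext (MonoidHom.ext fun y => ?_)
    obtain ⟨y, rfl⟩ := hπ y
    exact congrArg (fun φ : {ρ : R →* G // p' ρ ∧ ρ.range ≤ A} => φ.1 y) h
  · rintro ⟨ρ, h4, h5⟩
    obtain ⟨ρ', rfl⟩ := exists_lift hπ (h2 ρ h4)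
    exact ⟨⟨ρ', (h1 _).2 h4, (h3 _).symm.trans_le h5⟩, rfl⟩

end group

variable {K B M : Type} [Field K] [Field B] [Field M] [Algebra ℂ K] [Algebra K B] [Algebra ℂ B]
  [IsScalarTower ℂ K B] [Algebra K M] [Algebra B M] [IsScalarTower K B M]
  [FiniteDimensional K M] [IsGalois K M]

namespace Cv

variable {x : K} {z : B} {e : Fin 3 → ℂ} (h : Cv x z e) {r : ℕ} (hr : 0 < r) {ζ : ℂ}
  (hζ : IsPrimitiveRoot ζ (2 * r)) {m : ℕ} {α : Fin m → ℂ} (hα : Function.Injective α)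
  (heα : ∀ j, e j ∈ Set.range α) {n : ℕ} {a c : Fin n → ℂ} (ha : Function.Injective a)
  (haα : ∀ j, a j ∈ Set.range α) (hc0 : ∀ j, c j ≠ 0) (hc : ∀ j, c j ^ 2 = ∏ i, (a j - e i))
  {g : Fin m → (M ≃ₐ[K] M)} (hg : ∀ i, IsGen ℂ (x - algebraMap ℂ K (α i)) ζ (2 * r) (g i))
  (hinf : IsGen ℂ x⁻¹ ζ (2 * r) (List.ofFn g).prod⁻¹)
  (hun : ∀ b : ℂ, b ∉ Set.range α → Unr ℂ M (x - algebraMap ℂ K b))
include h hr hζ hα heα ha haα hc0 hc hg hinf hun

/-- the local data on the curve -/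
theorem exists_data :
    ∃ (ω : M ≃ₐ[K] M) (Bs : Finset (Fin m)) (lab : Fin n → Fin m × Bool), ω ∉ PP K M z ∧
      Bs.card = 3 ∧ (∀ i, g i ∉ PP K M z ↔ i ∈ Bs) ∧ Function.Injective lab ∧
      (∀ j, (lab j).1 ∉ Bs) ∧
      (∀ j, gq g ω (lab j) ∈ PP K M z ∧ ∃ u : AV B, Pl u ∧
        u.mul _ (Nat.mul_pos two_pos hr) (algebraMap K B x - algebraMap ℂ B (a j)) =
          (((2 * r : ℕ) : ℤ) : WithTop ℤ) ∧ 0 < u (z - algebraMap ℂ B (c j)) ∧
        Gn M u ζ _ (Nat.mul_pos two_pos hr) ⇑(gq g ω (lab j))) ∧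
      (∀ s ∈ Spec g ω Bs lab, s ∈ PP K M z ∧ ∃ u : AV B, Pl u ∧
        ¬ OnD (algebraMap K B x) z a c u ∧ Gn M u ζ _ (Nat.mul_pos two_pos hr) ⇑s) ∧
      (∀ u : AV B, Pl u → ¬ OnD (algebraMap K B x) z a c u →
        ∃ s : M ≃ₐ[K] M, (s ∈ Spec g ω Bs lab ∨ s = 1) ∧
          Gn M u ζ _ (Nat.mul_pos two_pos hr) ⇑s) := by
  classical
  have hN := Nat.mul_pos two_pos hr
  have := h.fin
  have := h.gal
  have hNpos : (0 : WithTop ℤ) < (((2 * r : ℕ) : ℤ) : WithTop ℤ) := by exact_mod_cast hN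
  choose ie hie using heα
  choose ia hia using haα
  have hbr := fun j => h.loc_br hr hζ (j := j) (g := g (ie j)) (by rw [← hie j]; exact hg _)
  set ω := g (ie 0) with hωdef
  have hω : ω ∉ PP K M z := (hbr 0).1
  have hP := h.index hω
  set Bs : Finset (Fin m) := Finset.univ.image ie with hBs
  have hmem : ∀ i, i ∈ Bs ↔ α i ∈ Set.range e := fun i => by
    simp only [hBs, Finset.mem_image, Finset.mem_univ, true_and]
    exact ⟨fun ⟨j, hj⟩ => ⟨j, by rw [← hj, hie]⟩, fun ⟨j, hj⟩ => ⟨j, hα (by rw [hie, hj])⟩⟩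
  have hcard : Bs.card = 3 := by
    rw [hBs, Finset.card_image_of_injective _ fun j j' hj => h.inj (by rw [← hie, ← hie, hj])]
    rfl
  have hord := fun i (hi : i ∉ Bs) => h.loc_ord (fun h1 => hi ((hmem i).2 h1)) hN hζ (hg i)
  have hBm : ∀ i, g i ∉ PP K M z ↔ i ∈ Bs := fun i => by
    refine ⟨fun h1 => by_contra fun hi => h1 (hord i hi).1, fun hi => ?_⟩
    obtain ⟨j, -, rfl⟩ := Finset.mem_image.1 hi
    exact (hbr j).1
  have hae : ∀ j, a j ∉ Set.range e := by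
    rintro j ⟨i, hi⟩
    refine pow_ne_zero 2 (hc0 j) ?_
    rw [hc]
    exact Finset.prod_eq_zero (Finset.mem_univ i) (by rw [hi, sub_self])
  have hiaB : ∀ j, ia j ∉ Bs := fun j h1 => hae j (by rw [← hia]; exact (hmem _).1 h1)
  set ι : B ≃ₐ[K] B := ω⁻¹.restrictNormal B with hιdef
  have hι : ι z = -z := h.iota_z (by simpa using hω)
  have hιX : ∀ b, ι (algebraMap K B x - algebraMap ℂ B b) = algebraMap K B x - algebraMap ℂ B b := by
    intro b
    rw [← algKB (K := K), ← map_sub, ι.commutes]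
  have hιz : ∀ b, ι (z - algebraMap ℂ B b) = -z - algebraMap ℂ B b := by
    intro b
    rw [map_sub, hι, ← algKB (K := K), ι.commutes]
  choose w hw1 hw2 hw3 using fun i hi => (hord i hi).2
  -- the two places over an ordinary point
  let pl : ∀ q : Fin m × Bool, q.1 ∉ Bs → AV B := fun q hq =>
    cond q.2 ((w q.1 hq).comap (ι : B →+* B)) (w q.1 hq)
  have hpl : ∀ q hq, gq g ω q ∈ PP K M z ∧ Pl (pl q hq) ∧
      (pl q hq).mul _ hN (algebraMap K B x - algebraMap ℂ B (α q.1)) =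
        (((2 * r : ℕ) : ℤ) : WithTop ℤ) ∧ Gn M (pl q hq) ζ _ hN ⇑(gq g ω q) := by
    rintro ⟨i, _ | _⟩ hi
    · exact ⟨(hord i hi).1, hw1 i hi, hw2 i hi, hw3 i hi⟩
    · refine ⟨mem_a hP hω (hord i hi).1, (hw1 i hi).comap ι, ?_, (hw3 i hi).conj ω⟩
      change w i hi (ι (_ ^ (2 * r))) = _
      rw [map_pow, hιX]
      exact hw2 i hi
  have hplpos : ∀ q hq, 0 < pl q hq (algebraMap K B x - algebraMap ℂ B (α q.1)) := fun q hq => by
    rw [← mul_pos_iff _ _ hN, (hpl q hq).2.2.1]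
    exact hNpos
  let lab : Fin n → Fin m × Bool := fun j =>
    (ia j, decide (¬ 0 < w (ia j) (hiaB j) (z - algebraMap ℂ B (c j))))
  have hlab : ∀ j, 0 < pl (lab j) (hiaB j) (z - algebraMap ℂ B (c j)) := by
    intro j
    by_cases h1 : 0 < w (ia j) (hiaB j) (z - algebraMap ℂ B (c j))
    · have h3 : pl (lab j) (hiaB j) = w (ia j) (hiaB j) := by
        simp only [pl, lab, decide_eq_false (not_not.2 h1), cond_false]
      rw [h3]
      exact h1
    · have h2 := sign_z h.sq (hw1 _ (hiaB j)).1 (hc j)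
        (by rw [← hia]; exact hplpos (ia j, false) (hiaB j))
      have h3 : pl (lab j) (hiaB j) = (w (ia j) (hiaB j)).comap (ι : B →+* B) := by
        simp only [pl, lab, decide_eq_true h1, cond_true]
      rw [h3]
      change 0 < w (ia j) (hiaB j) (ι _)
      rw [hιz]
      exact h2.resolve_left h1
  have hOn : ∀ q hq, OnD (algebraMap K B x) z a c (pl q hq) ↔ q ∈ Set.range lab := by
    intro q hq
    constructor
    · rintro ⟨j, h1, h2⟩
      obtain ⟨i, s⟩ := q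
      obtain rfl : i = ia j := hα (by rw [hia]; exact (hpl _ hq).2.1.1.centre_eq (hplpos _ hq) h1)
      refine ⟨j, Prod.ext rfl ?_⟩
      cases s
      · exact decide_eq_false (not_not.2 h2)
      · refine decide_eq_true fun h3 => not_both (hw1 _ hq).1 (hc0 j) h3 ?_
        rw [← hιz]
        exact h2
    · rintro ⟨j, rfl⟩
      exact ⟨j, by rw [← hia]; exact hplpos _ _, hlab j⟩
  have hprod : (List.ofFn g).prod⁻¹ ∉ PP K M z := by simpa using prod_not_mem hP hcard hBm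
  obtain ⟨wi, hwi1, hwi2, hwi3, hwi4⟩ := h.loc_inf hr hζ hinf hprod
  have hX0 : algebraMap K B x ≠ 0 := (map_ne_zero _).2 h.rat.ne_zero
  refine ⟨ω, Bs, lab, hω, hcard, hBm, fun j j' hj => ha ?_, hiaB, fun j => ?_, ?_, ?_⟩
  · rw [← hia, ← hia]
    exact congrArg (fun q => α q.1) hj
  · obtain ⟨h1, h2, h3, h4⟩ := hpl (lab j) (hiaB j)
    exact ⟨h1, _, h2, by rw [← hia]; exact h3, hlab j, h4⟩
  · rintro s (⟨q, hq, hq', rfl⟩ | ⟨i, hi, rfl⟩ | rfl)
    · obtain ⟨h1, h2, -, h4⟩ := hpl q hq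
      exact ⟨h1, _, h2, fun h5 => hq' ((hOn q hq).1 h5), h4⟩
    · obtain ⟨j, -, rfl⟩ := Finset.mem_image.1 hi
      obtain ⟨u, h1, h2, h3, -⟩ := (hbr j).2
      refine ⟨by simp [Subgroup.mul_mem_iff_of_index_two hP], u, h1, ?_, h3⟩
      rintro ⟨j', h4, -⟩
      exact hae j' ⟨j, h1.1.centre_eq h2 h4⟩
    · refine ⟨by simp [Subgroup.mul_mem_iff_of_index_two hP], wi, hwi1, ?_, hwi3⟩
      rintro ⟨j', h4, -⟩
      exact hwi1.1.not_inf h4 hX0 hwi2
  · intro u hu hOff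
    have hcl : ∀ (b : ℂ) (w' : AV B), Pl w' → 0 < u (algebraMap K B x - algebraMap ℂ B b) →
        0 < w' (algebraMap K B x - algebraMap ℂ B b) → u = w' ∨ u = w'.comap (ι : B →+* B) :=
      fun b w' h1 h2 h3 => h.cls hu h1 (h.rat.sub b) (by rwa [map_sub, algKB])
        (by rwa [map_sub, algKB]) hι
    rcases hu.centre h.rat with ⟨b, hb⟩ | hb
    · by_cases hbα : b ∈ Set.range α
      · obtain ⟨i, rfl⟩ := hbα
        by_cases hi : i ∈ Bs
        · obtain ⟨j, -, rfl⟩ := Finset.mem_image.1 hi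
          obtain ⟨w', h1, h2, h3, h4⟩ := (hbr j).2
          rw [hie] at hb
          have h5 : u = w' := by simpa only [h4 ι hι, or_self] using hcl _ w' h1 hb h2
          exact ⟨_, Or.inl (Or.inr (Or.inl ⟨_, hi, rfl⟩)), h5 ▸ h3⟩
        · have h5 : ∃ s, u = pl (i, s) hi :=
            (hcl _ _ (hw1 i hi) hb (hplpos (i, false) hi)).elim (fun h6 => ⟨false, h6⟩)
              fun h6 => ⟨true, h6⟩
          obtain ⟨s, rfl⟩ := h5
          exact ⟨_, Or.inl (Or.inl ⟨(i, s), hi, fun h6 => hOff ((hOn _ hi).2 h6), rfl⟩),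
            (hpl _ hi).2.2.2⟩
      · obtain ⟨-, w', h1, h2, h3⟩ := h.loc_ord (fun ⟨j, hj⟩ => hbα ⟨ie j, (hie j).trans hj⟩) hN hζ
          ((hun b hbα).isGen_one hN hζ.pow_eq_one)
        refine ⟨1, Or.inr rfl, ?_⟩
        rcases hcl b w' h1 hb (by rw [← mul_pos_iff _ _ hN, h2]; exact hNpos) with rfl | rfl
        · exact h3
        · have h4 := h3.conj ω
          rwa [mul_one, mul_inv_cancel] at h4
    · have h5 : u = wi := by
        simpa only [hwi4 ι hι, or_self] using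
          h.cls hu hwi1 h.rat.inv (by rwa [map_inv₀]) (by rwa [map_inv₀]) hι
      exact ⟨_, Or.inl (Or.inr (Or.inr rfl)), h5 ▸ hwi3⟩

/-- **the field over the curve** -/
theorem core {G : Type} [Group G] [Finite G] (hcl : Subgroup.closure (Set.range g) = ⊤)
    (hs : Function.Surjective fun (φ : (M ≃ₐ[K] M) →* Wr G) (i : Fin m) => φ (g i)) :
    ∃ E₀ : IntermediateField B M,
      (∀ (N : Type) [Field N] [Algebra B N] [FiniteDimensional B N] [IsGalois B N]
        (j : N →ₐ[B] M), ResW (N ≃ₐ[B] N) G → UnrZ N (algebraMap K B x) z a c → ∀ y, j y ∈ E₀) ∧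
      ∀ (E : Type) [Field E] [Algebra B E] (_ : E ≃ₐ[B] E₀),
        FiniteDimensional B E ∧ IsGalois B E ∧ ResW (E ≃ₐ[B] E) G ∧
        UnrZ E (algebraMap K B x) z a c ∧ ∃ γ : Fin n → (E ≃ₐ[B] E),
          (∀ i, ∃ u : AV B, Ctr ℂ u (algebraMap K B x - algebraMap ℂ B (a i)) (2 * r) ∧
            0 < u (z - algebraMap ℂ B (c i)) ∧ GenOver u (algebraMap ℂ B ζ) (γ i)) ∧
          ∀ (A : Subgroup G) (c₀ : G),
            Nat.card {ρ : (E ≃ₐ[B] E) →* G // (∀ i, IsConj (ρ (γ i)) c₀) ∧ ρ.range ≤ A} =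
              Nat.card (Smith13.Tup A fun (_ : Fin n) (y : A) => IsConj (y : G) c₀) := by
  have hN := Nat.mul_pos two_pos hr
  obtain ⟨ω, Bs, lab, hω, hcard, hBm, hlab, hlB, h1, h2, h3⟩ :=
    h.exists_data hr hζ hα heα ha haα hc0 hc hg hinf hun
  have hP := h.index hω
  have : FiniteDimensional B M := FiniteDimensional.right K B M
  have : IsGalois B M := IsGalois.tower_top_of_isGalois K B M
  let V : Subgroup (M ≃ₐ[B] M) :=
    { carrier := {k | ∀ ρ : PP K M z →* G, (∀ s ∈ Spec g ω Bs lab, ex ρ s = 1) →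
        ρ (h.eP.symm k) = 1}
      mul_mem' := fun {k k'} hk hk' ρ hρ => by rw [map_mul, map_mul, hk ρ hρ, hk' ρ hρ, mul_one]
      one_mem' := fun ρ _ => by rw [map_one, map_one]
      inv_mem' := fun {k} hk ρ hρ => by rw [map_inv, map_inv, hk ρ hρ, inv_one] }
  have hVn : V.Normal := ⟨fun k hk k' ρ hρ => by
    rw [map_mul, map_mul, map_mul, map_mul, hk ρ hρ, mul_one, ← map_mul, ← map_mul, mul_inv_cancel,
      map_one, map_one]⟩
  have hSV : ∀ s (hs : s ∈ Spec g ω Bs lab), h.eP ⟨s, (h2 s hs).1⟩ ∈ V := fun s hs ρ hρ => by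
    rw [MulEquiv.symm_apply_apply, ← ex_of_mem ρ]
    exact hρ s hs
  refine ⟨IntermediateField.fixedField V, fun N _ _ _ _ j hres hun y => ?_, fun E _ _ φ => ?_⟩
  · let _ : Algebra N M := (j : N →+* M).toAlgebra
    have : IsScalarTower B N M := IsScalarTower.of_algebraMap_eq fun b => (j.commutes b).symm
    refine (IntermediateField.mem_fixedField_iff _ _).2 fun k hk => ?_
    have h4 : AlgEquiv.restrictNormalHom N k = 1 := by
      refine hres _ fun ρ => ?_
      have h5 := hk (ρ.comp ((AlgEquiv.restrictNormalHom N).comp h.eP.toMonoidHom)) fun s hs => by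
        obtain ⟨hs', u, hu, hOff, hGn⟩ := h2 s hs
        obtain ⟨v, hv⟩ := hun u hu hOff
        have h6 : GenOver (u.mul _ hN) (algebraMap ℂ B ζ) (h.eP ⟨s, hs'⟩) := hGn
        have h7 := eq_one_of_ext hu hv hN hζ.pow_eq_one (h6.restrictNormal N)
        rw [ex_of_mem _ hs']
        exact (congrArg ρ h7).trans (map_one ρ)
      exact h5
    have h5 := AlgEquiv.restrictNormal_commutes k N y
    change algebraMap N M (AlgEquiv.restrictNormalHom N k y) = _ at h5
    rw [h4] at h5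
    exact h5.symm
  · let j : E →ₐ[B] M := (IntermediateField.fixedField V).val.comp φ.toAlgHom
    let _ : Algebra E M := (j : E →+* M).toAlgebra
    have : IsScalarTower B E M := IsScalarTower.of_algebraMap_eq fun b => (j.commutes b).symm
    have hfin : FiniteDimensional B E := φ.symm.toLinearEquiv.finiteDimensional
    have hgal : IsGalois B E := IsGalois.of_algEquiv φ.symm
    have hker : ∀ k : M ≃ₐ[B] M, AlgEquiv.restrictNormalHom E k = 1 ↔ k ∈ V := by
      intro k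
      have h4 : ∀ y, algebraMap E M (AlgEquiv.restrictNormalHom E k y) = k (φ y) :=
        AlgEquiv.restrictNormal_commutes k E
      constructor
      · intro h5
        rw [← IntermediateField.fixingSubgroup_fixedField V, IntermediateField.mem_fixingSubgroup_iff]
        intro y hy
        have h6 := h4 (φ.symm ⟨y, hy⟩)
        rw [h5] at h6
        change ((φ (φ.symm ⟨y, hy⟩) : IntermediateField.fixedField V) : M) = _ at h6
        rw [φ.apply_symm_apply] at h6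
        exact h6.symm
      · intro h5
        ext y
        refine (algebraMap E M).injective ((h4 y).trans ?_)
        exact (IntermediateField.mem_fixedField_iff _ _).1 (φ y).2 k h5
    let π : PP K M z →* (E ≃ₐ[B] E) := (AlgEquiv.restrictNormalHom E).comp h.eP.toMonoidHom
    have hπ : Function.Surjective π :=
      (AlgEquiv.restrictNormalHom_surjective M).comp h.eP.surjective
    have hπ1 : ∀ ρ : PP K M z →* G, (∀ s ∈ Spec g ω Bs lab, ex ρ s = 1) →
        ∀ p, π p = 1 → ρ p = 1 := fun ρ hρ p hp => (hker _).1 hp ρ hρ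
    refine ⟨hfin, hgal, fun γ hγ => ?_, fun u hu hOff => ?_, fun i => π ⟨_, (h1 i).1⟩,
      fun i => ?_, fun A c₀ => ?_⟩
    · obtain ⟨p, rfl⟩ := hπ γ
      refine (hker _).2 fun ρ hρ => ?_
      obtain ⟨ρ', rfl⟩ := exists_lift hπ (hπ1 ρ hρ)
      exact hγ ρ'
    · obtain ⟨s, hs, hGn⟩ := h3 u hu hOff
      have h4 : ∃ k ∈ V, GenOver (u.mul _ hN) (algebraMap ℂ B ζ) k := by
        rcases hs with hs | rfl
        · exact ⟨_, hSV s hs, hGn⟩
        · exact ⟨1, V.one_mem, hGn⟩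
      obtain ⟨k, hk, h5⟩ := h4
      have h6 : GenOver (u.mul _ hN) (algebraMap ℂ B ζ) (AlgEquiv.restrictNormalHom E k) :=
        h5.restrictNormal E
      rw [(hker k).2 hk] at h6
      exact ext_of_one hu.1 hN hζ h6
    · obtain ⟨h4, u, hu, h5, h6, h7⟩ := h1 i
      have h8 : GenOver (u.mul _ hN) (algebraMap ℂ B ζ) (h.eP ⟨_, h4⟩) := h7
      exact ⟨u.mul _ hN, ⟨hu.1.mul _ hN, h5⟩, (mul_pos_iff u _ hN _).2 h6, h8.restrictNormal E⟩
    · have h4 := count_le hP hω hcl hs hcard hBm (Kc_cinv lab c₀) lab hlab hlB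
        (fun q hq => Kc_not c₀ hq) A
      simp only [Kc_lab, Set.mem_ofPred_eq] at h4
      rw [← h4]
      refine card_quot hπ _ _ (fun ρ => ?_) (fun ρ hρ => hπ1 ρ ((labP_iff hlB c₀ ρ).1 hρ).1) A
      rw [labP_iff hlB]
      refine ⟨fun h5 => ⟨fun s hs => ?_, fun j => ?_⟩, fun h5 j => ?_⟩
      · rw [ex_of_mem _ (h2 s hs).1]
        exact (congrArg ρ ((hker _).2 (hSV s hs))).trans (map_one ρ)
      · rw [ex_of_mem _ (h1 j).1]
        exact h5 j
      · have h6 := h5.2 j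
        rw [ex_of_mem _ (h1 j).1] at h6
        exact h6

end Cv

end Crest.Agent.T170.Wr
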